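import Mathlib

/-!
Characters of a finite-dimensional complex representation of a commutative group:
the trace and determinant are the sum and the product of r characters.
-/

namespace Vale.Agent.Lib.P002

open Module

/-- A commuting family of endomorphisms of a nonzero finite-dimensional complex vector space
has a common eigenvector. -/
theorem exists_common_eigenvector {Γ : Type*} [CommMonoid Γ] {V : Type*} [AddCommGroup V]
    [Module ℂ V] [FiniteDimensional ℂ V] [Nontrivial V] (ρ : Γ →* Module.End ℂ V) :
    ∃ v : V, v ≠ 0 ∧ ∀ g, ∃ c : ℂ, ρ g v = c • v := by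
  classical
  let S : Set (Submodule ℂ V) := {W | W ≠ ⊥ ∧ ∀ g, W ≤ W.comap (ρ g)}
  have hS : S.Nonempty := ⟨⊤, top_ne_bot, fun g => le_top⟩
  obtain ⟨W, hW, hmin⟩ :=
    (InvImage.wf (fun W : Submodule ℂ V => finrank ℂ W) Nat.lt_wfRel.wf).has_min S hS
  have key : ∀ g, ∃ c : ℂ, ∀ w ∈ W, ρ g w = c • w := by
    intro g
    have hnt : Nontrivial W := Submodule.nontrivial_iff_ne_bot.mpr hW.1
    obtain ⟨μ, hμ⟩ := Module.End.exists_eigenvalue ((ρ g).restrict (hW.2 g))
    obtain ⟨w, hw⟩ := hμ.exists_hasEigenvector
    let E : Submodule ℂ V := W ⊓ (ρ g).eigenspace μ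
    have hwE : (w : V) ∈ E := by
      refine ⟨w.2, ?_⟩
      rw [SetLike.mem_coe, Module.End.mem_eigenspace_iff]
      have := hw.apply_eq_smul
      simpa using congrArg Subtype.val this
    have hE : E ∈ S := by
      refine ⟨fun h => hw.2 ?_, fun h x hx => ?_⟩
      · have : (w : V) ∈ (⊥ : Submodule ℂ V) := h ▸ hwE
        exact Subtype.ext ((Submodule.mem_bot ℂ).mp this)
      · refine ⟨hW.2 h hx.1, ?_⟩
        have hx2 : ρ g x = μ • x := Module.End.mem_eigenspace_iff.mp hx.2
        rw [SetLike.mem_coe, Module.End.mem_eigenspace_iff]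
        have hcomm : ρ g (ρ h x) = ρ h (ρ g x) := by
          have : ρ g * ρ h = ρ h * ρ g := by rw [← map_mul, ← map_mul, mul_comm]
          exact congrArg (fun f : Module.End ℂ V => f x) this
        rw [hcomm, hx2, map_smul]
    have hEW : E = W := by
      refine Submodule.eq_of_le_of_finrank_le inf_le_left ?_
      exact not_lt.mp (hmin E hE)
    refine ⟨μ, fun x hx => ?_⟩
    have : x ∈ E := hEW ▸ hx
    exact Module.End.mem_eigenspace_iff.mp this.2
  obtain ⟨v, hvW, hv0⟩ := Submodule.exists_mem_ne_zero_of_ne_bot hW.1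
  exact ⟨v, hv0, fun g => (key g).imp fun c hc => hc v hvW⟩

theorem trace_eq_trace_restrict_add_trace_mapQ {R V : Type*} [CommRing R] [AddCommGroup V]
    [Module R V] [Module.Finite R V] (W : Submodule R V) [Module.Free R W] [Module.Finite R W]
    [Module.Free R (V ⧸ W)] (e : V →ₗ[R] V) (he : W ≤ W.comap e) :
    LinearMap.trace R V e =
      LinearMap.trace R W (e.restrict he) + LinearMap.trace R (V ⧸ W) (W.mapQ W e he) := by
  classical
  let m := Module.Free.ChooseBasisIndex R W
  let bW : Basis m R W := Module.Free.chooseBasis R W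
  let n := Module.Free.ChooseBasisIndex R (V ⧸ W)
  let bQ : Basis n R (V ⧸ W) := Module.Free.chooseBasis R (V ⧸ W)
  let b := Basis.sumQuot bW bQ
  rw [LinearMap.trace_eq_matrix_trace R b, LinearMap.trace_eq_matrix_trace R bW,
    LinearMap.trace_eq_matrix_trace R bQ]
  simp only [Matrix.trace, Matrix.diag, Fintype.sum_sum_type]
  congr 1
  · refine Finset.sum_congr rfl fun i _ => ?_
    simp only [LinearMap.toMatrix_apply, b, Basis.sumQuot_inl]
    apply Basis.sumQuot_repr_inl_of_mem
  · refine Finset.sum_congr rfl fun j _ => ?_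
    simp only [LinearMap.toMatrix_apply, Basis.sumQuot_repr_inr, b]
    rw [← Basis.sumQuot_inr bW bQ j, W.mapQ_apply]
    simp

/-- The trace and determinant of a finite-dimensional complex representation of a commutative
group are the sum and the product of finrank many characters. -/
theorem exists_characters_end {Γ : Type*} [CommGroup Γ] (r : ℕ) :
    ∀ (V : Type) [AddCommGroup V] [Module ℂ V] [FiniteDimensional ℂ V],
      finrank ℂ V = r → ∀ ρ : Γ →* Module.End ℂ V,
        ∃ χ : Fin r → (Γ →* ℂ), ∀ g,
          LinearMap.trace ℂ V (ρ g) = ∑ i, χ i g ∧ LinearMap.det (ρ g) = ∏ i, χ i g := by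
  induction r with
  | zero =>
    intro V _ _ _ hV ρ
    refine ⟨fun i => i.elim0, fun g => ?_⟩
    have : Subsingleton V := Module.finrank_zero_iff.mp hV
    constructor
    · simp [Subsingleton.elim (ρ g) 0]
    · simp [LinearMap.det_eq_one_of_finrank_eq_zero hV]
  | succ r ih =>
    intro V _ _ _ hV ρ
    have hnt : Nontrivial V := Module.nontrivial_of_finrank_pos (R := ℂ) (by omega)
    obtain ⟨v, hv, hc⟩ := exists_common_eigenvector ρ
    choose c hc using hc
    let χ0 : Γ →* ℂ :=
      { toFun := c
        map_one' := by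
          have h1 := hc 1
          rw [map_one, Module.End.one_apply] at h1
          have : (1 : ℂ) • v = c 1 • v := by rw [one_smul]; exact h1
          exact (smul_left_injective ℂ hv this).symm
        map_mul' := fun g h => by
          have h1 := hc (g * h)
          rw [map_mul, Module.End.mul_apply, hc h, map_smul, hc g, smul_smul] at h1
          have := smul_left_injective ℂ hv h1
          rw [← this]; ring }
    let W : Submodule ℂ V := Submodule.span ℂ {v}
    have he : ∀ g, W ≤ W.comap (ρ g) := fun g => by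
      rw [Submodule.span_singleton_le_iff_mem, Submodule.mem_comap, hc g]
      exact Submodule.smul_mem _ _ (Submodule.mem_span_singleton_self v)
    have hW1 : finrank ℂ W = 1 := finrank_span_singleton hv
    have hQ : finrank ℂ (V ⧸ W) = r := by
      have := Submodule.finrank_quotient_add_finrank W
      omega
    let ρ' : Γ →* Module.End ℂ (V ⧸ W) :=
      { toFun := fun g => W.mapQ W (ρ g) (he g)
        map_one' := by
          apply LinearMap.ext
          intro x
          induction x using Submodule.Quotient.induction_on with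
          | _ x => simp
        map_mul' := fun g h => by
          apply LinearMap.ext
          intro x
          induction x using Submodule.Quotient.induction_on with
          | _ x => simp }
    obtain ⟨χ', hχ'⟩ := ih (V ⧸ W) hQ ρ'
    refine ⟨Fin.cons χ0 χ', fun g => ?_⟩
    have hres : ((ρ g).restrict (he g) : W →ₗ[ℂ] W) = c g • LinearMap.id := by
      apply LinearMap.ext
      rintro ⟨x, hx⟩
      obtain ⟨a, rfl⟩ := Submodule.mem_span_singleton.mp hx
      apply Subtype.ext
      simp [hc g, smul_comm a (c g) v]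
    constructor
    · rw [trace_eq_trace_restrict_add_trace_mapQ W (ρ g) (he g), hres, Fin.sum_univ_succ]
      simp only [map_smul, LinearMap.trace_id, hW1, Fin.cons_zero, Fin.cons_succ]
      rw [← (hχ' g).1]
      simp [χ0, ρ']
    · rw [LinearMap.det_eq_det_mul_det W (ρ g) (he g), hres, Fin.prod_univ_succ]
      simp only [LinearMap.det_smul, LinearMap.det_id, hW1, Fin.cons_zero, Fin.cons_succ]
      rw [← (hχ' g).2]
      simp [χ0, ρ']

/-- A representation of a commutative group in SL_r(ℂ) has r characters with product one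
whose sum is the trace. -/
theorem exists_characters_SL {Γ : Type*} [CommGroup Γ] (r : ℕ)
    (ρ : Γ →* Matrix.SpecialLinearGroup (Fin r) ℂ) :
    ∃ χ : Fin r → (Γ →* ℂˣ), (∀ g, ∏ i, χ i g = 1) ∧
      ∀ g, Matrix.trace (ρ g : Matrix (Fin r) (Fin r) ℂ) = ∑ i, (χ i g : ℂ) := by
  let ρL : Γ →* Module.End ℂ (Fin r → ℂ) :=
    { toFun := fun g => Matrix.toLin' (ρ g : Matrix (Fin r) (Fin r) ℂ)
      map_one' := by simp; rfl
      map_mul' := fun g h => by simp [Matrix.toLin'_mul]; rfl }
  obtain ⟨χ, hχ⟩ := exists_characters_end r (Fin r → ℂ) (by simp) ρL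
  refine ⟨fun i => (χ i).toHomUnits, fun g => ?_, fun g => ?_⟩
  · apply Units.ext
    have h := (hχ g).2
    simp only [ρL, MonoidHom.coe_mk, OneHom.coe_mk, LinearMap.det_toLin'] at h
    rw [Units.coe_prod]
    simp only [MonoidHom.coe_toHomUnits, Units.val_one]
    rw [← h]
    exact (ρ g).2
  · have h := (hχ g).1
    simp only [ρL, MonoidHom.coe_mk, OneHom.coe_mk, Matrix.trace_toLin'_eq] at h
    simp only [MonoidHom.coe_toHomUnits]
    exact h

end Vale.Agent.Lib.P002
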