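import Mathlib

/-!
A number field fieldL N ⊆ ℂ containing the N-th roots of unity and a unit of infinite order,
and the group of units of its ring of integers, as a subgroup of ℂˣ.
-/

namespace Vale.Agent.Lib.P002

/-- The square root of two, as a complex number. -/
noncomputable def sqrtTwo : ℂ := ((Real.sqrt 2 : ℝ) : ℂ)

/-- The standard primitive N-th root of unity. -/
noncomputable def zetaN (N : ℕ) : ℂ := Complex.exp (2 * Real.pi * Complex.I / N)

/-- The number field generated by the square root of two and the N-th roots of unity. -/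
noncomputable def fieldL (N : ℕ) : IntermediateField ℚ ℂ :=
  IntermediateField.adjoin ℚ {sqrtTwo, zetaN N}

theorem sqrtTwo_mul_self : sqrtTwo * sqrtTwo = 2 := by
  unfold sqrtTwo
  rw [← Complex.ofReal_mul, Real.mul_self_sqrt (by norm_num)]
  norm_num

theorem isIntegral_sqrtTwo : IsIntegral ℤ sqrtTwo := by
  refine IsIntegral.of_pow (n := 2) (by norm_num) ?_
  rw [pow_two, sqrtTwo_mul_self]
  exact isIntegral_algebraMap (R := ℤ) (A := ℂ) (x := 2)

theorem zetaN_pow (N : ℕ) (hN : N ≠ 0) : zetaN N ^ N = 1 :=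
  (Complex.isPrimitiveRoot_exp N hN).pow_eq_one

theorem isIntegral_of_pow_eq_one {z : ℂ} {N : ℕ} (hN : N ≠ 0) (hz : z ^ N = 1) :
    IsIntegral ℤ z := by
  refine IsIntegral.of_pow (n := N) (Nat.pos_of_ne_zero hN) ?_
  rw [hz]
  exact isIntegral_one

theorem fieldL_finiteDimensional (N : ℕ) (hN : N ≠ 0) : FiniteDimensional ℚ (fieldL N) := by
  unfold fieldL
  refine IntermediateField.finiteDimensional_adjoin (S := {sqrtTwo, zetaN N}) ?_
  intro x hx
  rcases hx with rfl | rfl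
  · exact isIntegral_sqrtTwo.tower_top
  · exact (isIntegral_of_pow_eq_one hN (zetaN_pow N hN)).tower_top

theorem sqrtTwo_mem (N : ℕ) : sqrtTwo ∈ fieldL N :=
  IntermediateField.subset_adjoin ℚ _ (by simp)

theorem zetaN_mem (N : ℕ) : zetaN N ∈ fieldL N :=
  IntermediateField.subset_adjoin ℚ _ (by simp)

/-- The units of the ring of integers of L, as a subgroup of ℂˣ. -/
def unitsO (L : IntermediateField ℚ ℂ) : Subgroup ℂˣ where
  carrier := {z | (z : ℂ) ∈ L ∧ IsIntegral ℤ (z : ℂ) ∧ IsIntegral ℤ ((z⁻¹ : ℂˣ) : ℂ)}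
  mul_mem' := by
    rintro a b ⟨ha1, ha2, ha3⟩ ⟨hb1, hb2, hb3⟩
    refine ⟨?_, ?_, ?_⟩
    · simpa using L.mul_mem ha1 hb1
    · simpa using ha2.mul hb2
    · rw [mul_inv_rev]
      simpa using hb3.mul ha3
  one_mem' := by
    refine ⟨?_, ?_, ?_⟩
    · simpa using L.one_mem
    · simpa using (isIntegral_one : IsIntegral ℤ (1 : ℂ))
    · simpa using (isIntegral_one : IsIntegral ℤ (1 : ℂ))
  inv_mem' := by
    rintro a ⟨ha1, ha2, ha3⟩
    refine ⟨?_, ha3, ?_⟩
    · simpa using L.inv_mem ha1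
    · simpa using ha2

theorem mem_unitsO_iff (L : IntermediateField ℚ ℂ) (z : ℂˣ) :
    z ∈ unitsO L ↔ (z : ℂ) ∈ L ∧ IsIntegral ℤ (z : ℂ) ∧ IsIntegral ℤ ((z⁻¹ : ℂˣ) : ℂ) :=
  Iff.rfl

/-- N-th roots of unity are units of the ring of integers of fieldL N. -/
theorem rootOfUnity_mem_unitsO (N : ℕ) (hN : N ≠ 0) (z : ℂˣ) (hz : z ^ N = 1) :
    z ∈ unitsO (fieldL N) := by
  have hz' : (z : ℂ) ^ N = 1 := by
    rw [← Units.val_pow_eq_pow_val, hz, Units.val_one]
  have hzi : ((z⁻¹ : ℂˣ) : ℂ) ^ N = 1 := by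
    rw [← Units.val_pow_eq_pow_val, inv_pow, hz, inv_one, Units.val_one]
  refine ⟨?_, isIntegral_of_pow_eq_one hN hz', isIntegral_of_pow_eq_one hN hzi⟩
  haveI : NeZero N := ⟨hN⟩
  obtain ⟨i, -, hi⟩ := (Complex.isPrimitiveRoot_exp N hN).eq_pow_of_pow_eq_one hz'
  rw [← hi]
  exact (fieldL N).pow_mem (zetaN_mem N) i

/-- The unit 1 + √2. -/
noncomputable def fundUnit : ℂˣ :=
  ⟨1 + sqrtTwo, sqrtTwo - 1, by linear_combination sqrtTwo_mul_self,
    by linear_combination sqrtTwo_mul_self⟩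

theorem fundUnit_mem_unitsO (N : ℕ) : fundUnit ∈ unitsO (fieldL N) := by
  refine ⟨?_, ?_, ?_⟩
  · exact (fieldL N).add_mem (fieldL N).one_mem (sqrtTwo_mem N)
  · exact isIntegral_one.add isIntegral_sqrtTwo
  · exact isIntegral_sqrtTwo.sub isIntegral_one

theorem norm_fundUnit : 1 < ‖(fundUnit : ℂ)‖ := by
  have h : (fundUnit : ℂ) = ((1 + Real.sqrt 2 : ℝ) : ℂ) := by
    simp [fundUnit, sqrtTwo]
  rw [h, Complex.norm_real, Real.norm_eq_abs]
  have : 0 < Real.sqrt 2 := Real.sqrt_pos.mpr (by norm_num)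
  rw [abs_of_pos (by linarith)]
  linarith

/-- The powers of the fundamental unit form an infinite set. -/
theorem infinite_powers_fundUnit : (Set.range fun n : ℕ => fundUnit ^ n).Infinite := by
  apply Set.infinite_range_of_injective
  intro m n hmn
  have h1 : ‖(fundUnit : ℂ)‖ ^ m = ‖(fundUnit : ℂ)‖ ^ n := by
    have := congrArg (fun z : ℂˣ => ‖(z : ℂ)‖) hmn
    simpa [Units.val_pow_eq_pow_val, norm_pow] using this
  exact pow_right_injective₀ (lt_trans zero_lt_one norm_fundUnit) norm_fundUnit.ne' h1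

theorem powers_fundUnit_subset (N : ℕ) :
    ∀ z ∈ Set.range (fun n : ℕ => fundUnit ^ n), z ∈ unitsO (fieldL N) := by
  rintro z ⟨n, rfl⟩
  exact (unitsO (fieldL N)).pow_mem (fundUnit_mem_unitsO N) n

/-- A matrix of determinant one, as an element of the special linear group. -/
def mkSL {n : Type} [DecidableEq n] [Fintype n] (A : Matrix n n ℂ) (h : A.det = 1) :
    Matrix.SpecialLinearGroup n ℂ := ⟨A, h⟩

theorem coe_mkSL {n : Type} [DecidableEq n] [Fintype n] (A : Matrix n n ℂ) (h : A.det = 1) :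
    (mkSL A h : Matrix n n ℂ) = A := rfl

end Vale.Agent.Lib.P002
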