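import Vale.Agent.Lib.P002.Laurent
import Vale.Agent.Lib.P002.Triang
import Vale.Agent.Lib.P002.Units

/-!
Zariski density of integral representations in the SL_r character variety of a finitely
generated commutative group.
-/

namespace Vale.Agent.Lib.P002

open MvPolynomial

section Tau

variable {J : Type} [Fintype J]

/-- The character of ℤ^J taking the value t k on the k-th standard generator. -/
def tauHom (t : J → ℂˣ) : (J → Multiplicative ℤ) →* ℂˣ where
  toFun v := ∏ k, t k ^ (Multiplicative.toAdd (v k))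
  map_one' := by simp
  map_mul' v w := by simp [zpow_add, Finset.prod_mul_distrib]

theorem tauHom_apply (t : J → ℂˣ) (v : J → Multiplicative ℤ) :
    tauHom t v = ∏ k, t k ^ (Multiplicative.toAdd (v k)) := rfl

theorem eq_tauHom [DecidableEq J] (α : (J → Multiplicative ℤ) →* ℂˣ) :
    α = tauHom (fun k => α (Pi.mulSingle k (Multiplicative.ofAdd 1))) := by
  apply MonoidHom.functions_ext'
  intro k
  apply MonoidHom.ext_mint
  simp only [MonoidHom.coe_comp, Function.comp_apply, MonoidHom.mulSingle_apply, tauHom_apply]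
  rw [Finset.prod_eq_single k]
  · simp
  · intro b _ hb
    simp [Pi.mulSingle_eq_of_ne hb]
  · intro h
    exact absurd (Finset.mem_univ k) h

end Tau

/-- The diagonal representation attached to r characters with product one. -/
def diagRep {Γ : Type*} [Group Γ] {r : ℕ} (χ : Fin r → (Γ →* ℂˣ)) (h : ∀ g, ∏ i, χ i g = 1) :
    Γ →* Matrix.SpecialLinearGroup (Fin r) ℂ :=
  MonoidHom.mk'
    (fun g => mkSL (Matrix.diagonal (fun i => (χ i g : ℂ))) (by
      rw [Matrix.det_diagonal, ← Units.coe_prod, h g, Units.val_one]))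
    (by
      intro g h
      ext i j
      simp only [Matrix.SpecialLinearGroup.coe_mul, coe_mkSL, Matrix.diagonal_mul_diagonal]
      simp)

theorem diagRep_apply {Γ : Type*} [Group Γ] {r : ℕ} (χ : Fin r → (Γ →* ℂˣ))
    (h : ∀ g, ∏ i, χ i g = 1) (g : Γ) :
    (diagRep χ h g : Matrix (Fin r) (Fin r) ℂ) = Matrix.diagonal (fun i => (χ i g : ℂ)) := rfl

/-- Density for the group ℤ^J × F, F a finite commutative group. -/
theorem density_prod (J : Type) [Fintype J] (F : Type) [CommGroup F] [Finite F] (r k : ℕ)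
    (w : Fin k → (J → Multiplicative ℤ) × F) (P : MvPolynomial (Fin k) ℂ)
    (hP : ∀ ρ : (J → Multiplicative ℤ) × F →* Matrix.SpecialLinearGroup (Fin r) ℂ,
      (∀ g i j, (ρ g : Matrix (Fin r) (Fin r) ℂ) i j ∈ fieldL (Nat.card F) ∧
        IsIntegral ℤ ((ρ g : Matrix (Fin r) (Fin r) ℂ) i j)) →
      eval (fun a => Matrix.trace (ρ (w a) : Matrix (Fin r) (Fin r) ℂ)) P = 0)
    (ρ : (J → Multiplicative ℤ) × F →* Matrix.SpecialLinearGroup (Fin r) ℂ) :
    eval (fun a => Matrix.trace (ρ (w a) : Matrix (Fin r) (Fin r) ℂ)) P = 0 := by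
  classical
  have hN : Nat.card F ≠ 0 := Nat.card_pos.ne'
  obtain ⟨χ, hχ1, hχtr⟩ := exists_characters_SL r ρ
  let α : Fin r → ((J → Multiplicative ℤ) →* ℂˣ) := fun i =>
    (χ i).comp (MonoidHom.inl (J → Multiplicative ℤ) F)
  let φ : Fin r → (F →* ℂˣ) := fun i => (χ i).comp (MonoidHom.inr (J → Multiplicative ℤ) F)
  have hχ : ∀ i (g : (J → Multiplicative ℤ) × F), χ i g = α i g.1 * φ i g.2 := by
    intro i g
    simp only [α, φ, MonoidHom.coe_comp, Function.comp_apply, MonoidHom.inl_apply,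
      MonoidHom.inr_apply, ← map_mul]
    congr 1
    ext <;> simp
  let tstar : J → Fin r → ℂˣ := fun k i => α i (Pi.mulSingle k (Multiplicative.ofAdd 1))
  have hα : ∀ i, α i = tauHom (fun k => tstar k i) := fun i => eq_tauHom (α i)
  have htprod : ∀ k, ∏ i, tstar k i = 1 := fun k =>
    hχ1 (Pi.mulSingle k (Multiplicative.ofAdd 1), 1)
  have hφprod : ∀ f, ∏ i, φ i f = 1 := fun f => hχ1 (1, f)
  choose sstar hs using fun k => exists_roots r (tstar k) (htprod k)
  let σ : (J × Fin r → ℂˣ) → J → Fin r → ℂˣ := fun s k i => s (k, i) ^ r / ∏ j, s (k, j)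
  have hσprod : ∀ s k, ∏ i, σ s k i = 1 := by
    intro s k
    simp only [σ]
    rw [Finset.prod_div_distrib, Finset.prod_pow, Finset.prod_const, Finset.card_univ,
      Fintype.card_fin, div_self']
  let χs : (J × Fin r → ℂˣ) → Fin r → ((J → Multiplicative ℤ) × F →* ℂˣ) := fun s i =>
    ((tauHom (fun k => σ s k i)).comp (MonoidHom.fst (J → Multiplicative ℤ) F)) *
      ((φ i).comp (MonoidHom.snd (J → Multiplicative ℤ) F))
  have hχsapp : ∀ s i (g : (J → Multiplicative ℤ) × F),
      χs s i g = (∏ k, σ s k i ^ (Multiplicative.toAdd (g.1 k))) * φ i g.2 := fun s i g => rfl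
  have hχs1 : ∀ s g, ∏ i, χs s i g = 1 := by
    intro s g
    simp only [hχsapp]
    rw [Finset.prod_mul_distrib, hφprod, mul_one, Finset.prod_comm]
    refine Finset.prod_eq_one fun k _ => ?_
    rw [Finset.prod_zpow, hσprod, one_zpow]
  let G : (J × Fin r → ℂˣ) → ℂ := fun s => eval (fun a => ∑ i, (χs s i (w a) : ℂ)) P
  have hG : IsLaurent G := by
    refine IsLaurent.eval_comp P fun a => IsLaurent.sum _ fun i _ => ?_
    have h1 : IsLaurentUnit (fun s : J × Fin r → ℂˣ =>
        ∏ k, σ s k i ^ (Multiplicative.toAdd ((w a).1 k))) := by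
      refine IsLaurentUnit.prod _ fun k _ => IsLaurentUnit.zpow ?_ _
      exact ((IsLaurentUnit.coord (k, i)).pow r).div
        (IsLaurentUnit.prod _ fun j _ => IsLaurentUnit.coord (k, j))
    have h2 := h1.1.mul (IsLaurent.const (ι := J × Fin r) ((φ i (w a).2 : ℂˣ) : ℂ))
    simpa [hχsapp] using h2
  have hzero : ∀ s : J × Fin r → ℂˣ,
      (∀ x, s x ∈ Set.range (fun n : ℕ => fundUnit ^ n)) → G s = 0 := by
    intro s hsr
    have hsU : ∀ x, s x ∈ unitsO (fieldL (Nat.card F)) := fun x =>
      powers_fundUnit_subset _ _ (hsr x)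
    have hmem : ∀ i g, χs s i g ∈ unitsO (fieldL (Nat.card F)) := by
      intro i g
      rw [hχsapp]
      refine Subgroup.mul_mem _ (Subgroup.prod_mem _ fun k _ => Subgroup.zpow_mem _ ?_ _) ?_
      · exact Subgroup.div_mem _ (Subgroup.pow_mem _ (hsU _) _)
          (Subgroup.prod_mem _ fun j _ => hsU _)
      · refine rootOfUnity_mem_unitsO _ hN _ ?_
        rw [← map_pow, pow_card_eq_one', map_one]
    have h := hP (diagRep (χs s) (hχs1 s)) (by
      intro g i j
      rw [diagRep_apply, Matrix.diagonal_apply]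
      split_ifs with hij
      · exact ⟨(hmem i g).1, (hmem i g).2.1⟩
      · exact ⟨(fieldL (Nat.card F)).zero_mem, isIntegral_zero⟩)
    simpa [G, diagRep_apply, Matrix.trace_diagonal] using h
  have hGstar := hG.eq_zero_of_infinite _ infinite_powers_fundUnit hzero
    (fun x => sstar x.1 x.2)
  have hfin : ∀ i g, χs (fun x => sstar x.1 x.2) i g = χ i g := by
    intro i g
    rw [hχsapp (fun x => sstar x.1 x.2) i g, hχ, hα, tauHom_apply]
    simp only [σ, hs]
  simpa [G, hfin, ← hχtr] using hGstar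

/-- Density of integral representations in the SL_r character variety of a finitely generated
commutative group, for all ranks r, over a single number field. -/
theorem density_fg_comm (Γ : Type) [CommGroup Γ] [Group.FG Γ] :
    ∃ L : IntermediateField ℚ ℂ, FiniteDimensional ℚ L ∧
      ∀ (r k : ℕ) (w : Fin k → Γ) (P : MvPolynomial (Fin k) ℂ),
        (∀ ρ : Γ →* Matrix.SpecialLinearGroup (Fin r) ℂ,
          (∀ g i j, (ρ g : Matrix (Fin r) (Fin r) ℂ) i j ∈ L ∧
            IsIntegral ℤ ((ρ g : Matrix (Fin r) (Fin r) ℂ) i j)) →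
          eval (fun a => Matrix.trace (ρ (w a) : Matrix (Fin r) (Fin r) ℂ)) P = 0) →
        ∀ ρ : Γ →* Matrix.SpecialLinearGroup (Fin r) ℂ,
          eval (fun a => Matrix.trace (ρ (w a) : Matrix (Fin r) (Fin r) ℂ)) P = 0 := by
  obtain ⟨ι, J, _, _, p, hp, e, ⟨E⟩⟩ := CommGroup.equiv_free_prod_prod_multiplicative_zmod Γ
  have : ∀ i, NeZero (p i ^ e i) := fun i => ⟨pow_ne_zero _ (hp i).ne_zero⟩
  refine ⟨fieldL (Nat.card ((i : ι) → Multiplicative (ZMod (p i ^ e i)))),
    fieldL_finiteDimensional _ Nat.card_pos.ne', ?_⟩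
  intro r k w P hP ρ
  have h := density_prod J ((i : ι) → Multiplicative (ZMod (p i ^ e i))) r k
    (fun a => E (w a)) P ?_ (ρ.comp E.symm.toMonoidHom)
  · simpa using h
  · intro ρ0 hρ0
    have h0 := hP (ρ0.comp E.toMonoidHom) (fun g i j => by simpa using hρ0 (E g) i j)
    simpa using h0

end Vale.Agent.Lib.P002
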