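import Vale.Agent.Lib.P002.Param

/-!
Finite order complex matrices are diagonalizable, and integral points are Zariski dense in the
variety of matrices of determinant one whose p-th power is one.
-/

namespace Vale.Agent.Lib.P002

open MvPolynomial Module

/-- A complex matrix with A ^ p = 1, p nonzero, is diagonalizable, with p-th roots of unity on the
diagonal. -/
theorem exists_diagonalization {r p : ℕ} (hp : p ≠ 0) (A : Matrix (Fin r) (Fin r) ℂ)
    (hA : A ^ p = 1) :
    ∃ (g g' : Matrix (Fin r) (Fin r) ℂ) (D : Fin r → ℂ),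
      g * g' = 1 ∧ (∀ a, D a ^ p = 1) ∧ A * g = g * Matrix.diagonal D := by
  classical
  let f : Module.End ℂ (Fin r → ℂ) := Matrix.toLin' A
  have hfp : f ^ p = 1 := by
    have h := congrArg (fun B : Matrix (Fin r) (Fin r) ℂ => Matrix.toLin' B) hA
    simp only [Matrix.toLin'_pow, Matrix.toLin'_one] at h
    exact h
  have hss : f.IsSemisimple := by
    refine Module.End.isSemisimple_of_squarefree_aeval_eq_zero
      (p := (Polynomial.X ^ p - Polynomial.C 1 : Polynomial ℂ)) ?_ ?_
    · exact (Polynomial.separable_X_pow_sub_C (1 : ℂ) (by exact_mod_cast hp) one_ne_zero).squarefree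
    · simp [hfp]
  have htop := hss.iSup_eigenspace_eq_top
  let S : Set (Fin r → ℂ) := {v | v ≠ 0 ∧ ∃ μ : ℂ, f v = μ • v}
  have hspan : Submodule.span ℂ S = ⊤ := by
    rw [eq_top_iff, ← htop]
    refine iSup_le fun μ v hv => ?_
    by_cases hv0 : v = 0
    · rw [hv0]; exact Submodule.zero_mem _
    · exact Submodule.subset_span ⟨hv0, μ, Module.End.mem_eigenspace_iff.mp hv⟩
  obtain ⟨b, hbS, hbspan, hbli⟩ := exists_linearIndependent ℂ S
  have hbtop : ⊤ ≤ Submodule.span ℂ (Set.range ((↑) : b → Fin r → ℂ)) := by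
    rw [Subtype.range_coe, hbspan, hspan]
  let bs : Basis b ℂ (Fin r → ℂ) := Basis.mk hbli hbtop
  have hfin : Finite b := Module.Finite.finite_basis bs
  have hfint : Fintype b := Fintype.ofFinite b
  have hcard : Fintype.card b = r := by
    rw [← Module.finrank_eq_card_basis bs]
    simp
  let e : Fin r ≃ b := (Fintype.equivFinOfCardEq hcard).symm
  let bs' : Basis (Fin r) ℂ (Fin r → ℂ) := bs.reindex e.symm
  have hbs' : ∀ i, bs' i = (e i : Fin r → ℂ) := by
    intro i
    simp [bs', bs]
  have heig : ∀ i, ∃ μ : ℂ, f (bs' i) = μ • bs' i := by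
    intro i
    rw [hbs']
    exact (hbS (e i).2).2
  choose D hD using heig
  have hne : ∀ i, bs' i ≠ 0 := fun i => bs'.ne_zero i
  refine ⟨(Pi.basisFun ℂ (Fin r)).toMatrix bs', bs'.toMatrix (Pi.basisFun ℂ (Fin r)), D,
    Basis.toMatrix_mul_toMatrix_flip _ _, fun a => ?_, ?_⟩
  · have h1 : (f ^ p) (bs' a) = D a ^ p • bs' a := by
      have : ∀ n : ℕ, (f ^ n) (bs' a) = D a ^ n • bs' a := by
        intro n
        induction n with
        | zero => simp
        | succ n ih =>
          rw [pow_succ, Module.End.mul_apply, hD, map_smul, ih, smul_smul, pow_succ, mul_comm]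
      exact this p
    rw [hfp, Module.End.one_apply] at h1
    have h2 : (D a ^ p - 1) • bs' a = 0 := by rw [sub_smul, ← h1, one_smul, sub_self]
    rcases smul_eq_zero.mp h2 with h | h
    · exact sub_eq_zero.mp h
    · exact absurd h (hne a)
  · ext a i
    rw [Matrix.mul_diagonal]
    have h3 := congrFun (hD i) a
    simp only [f, Matrix.toLin'_apply, Pi.smul_apply, smul_eq_mul] at h3
    simp only [Matrix.mul_apply, Basis.toMatrix_apply, Pi.basisFun_repr]
    rw [mul_comm]
    rw [← h3]
    rfl

theorem pow_eq_one_mem_ringO {N : ℕ} (hN : N ≠ 0) {z : ℂ} (hz : z ^ N = 1) :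
    z ∈ ringO (fieldL N) := by
  have hz0 : z ≠ 0 := by
    rintro rfl
    rw [zero_pow hN] at hz
    exact zero_ne_one hz
  have h := rootOfUnity_mem_unitsO N hN (Units.mk0 z hz0) (by
    apply Units.ext
    simpa using hz)
  exact coe_mem_ringO h

/-- A matrix of determinant one with A ^ p = 1 lies in a Laurent family of such matrices, with
integral specializations. -/
theorem exists_family_cyclic (N : ℕ) (hN : N ≠ 0) {r p : ℕ} (hp : p = 0 ∨ p ∣ N)
    (A : Matrix (Fin r) (Fin r) ℂ) (hdet : A.det = 1) (hAp : A ^ p = 1) :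
    ∃ (ι : Type) (_ : Fintype ι) (M M' : (ι → ℂˣ) → Matrix (Fin r) (Fin r) ℂ),
      (∀ a b, IsLaurent (fun s => M s a b)) ∧ (∀ a b, IsLaurent (fun s => M' s a b)) ∧
      (∀ s, (M s).det = 1 ∧ M s * M' s = 1 ∧ M s ^ p = 1) ∧
      (∀ s, (∀ k, s k ∈ unitsO (fieldL N)) →
        ∀ a b, M s a b ∈ ringO (fieldL N) ∧ M' s a b ∈ ringO (fieldL N)) ∧
      ∃ s, M s = A := by
  by_cases hp0 : p = 0
  · subst hp0
    obtain ⟨ι, _, M, M', hM, hM', hinv, hint, hsl, s₀, hs₀⟩ :=
      Param.of_det_eq_one (fieldL N) A hdet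
    exact ⟨ι, inferInstance, M, M', hM, hM',
      fun s => ⟨hsl trivial s, hinv s, pow_zero _⟩, hint, s₀, hs₀⟩
  · have hpN : p ∣ N := hp.resolve_left hp0
    obtain ⟨g, g', D, hgg', hD, hAg⟩ := exists_diagonalization hp0 A hAp
    have hgdet : g.det ≠ 0 := by
      intro h0
      have := congrArg Matrix.det hgg'
      rw [Matrix.det_mul, h0, zero_mul, Matrix.det_one] at this
      exact zero_ne_one this
    have hDdet : (Matrix.diagonal D).det = 1 := by
      have := congrArg Matrix.det hAg
      rw [Matrix.det_mul, Matrix.det_mul, hdet, one_mul] at this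
      have h2 : g.det * 1 = g.det * (Matrix.diagonal D).det := by rw [mul_one]; exact this
      exact (mul_left_cancel₀ hgdet h2).symm
    have hDN : ∀ a, D a ^ N = 1 := by
      intro a
      obtain ⟨c, rfl⟩ := hpN
      rw [pow_mul, hD, one_pow]
    have hD0 : ∀ a, D a ≠ 0 := by
      intro a h0
      have := hD a
      rw [h0, zero_pow hp0] at this
      exact zero_ne_one this
    have hDpow : Matrix.diagonal D ^ p = 1 := by
      rw [Matrix.diagonal_pow]
      have : (D ^ p) = fun _ => (1 : ℂ) := by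
        funext a
        exact hD a
      rw [this, Matrix.diagonal_one]
    have hDinv : Matrix.diagonal D * Matrix.diagonal (fun a => (D a)⁻¹) = 1 := by
      rw [Matrix.diagonal_mul_diagonal]
      have : (fun a => D a * (D a)⁻¹) = fun _ => (1 : ℂ) := by
        funext a
        exact mul_inv_cancel₀ (hD0 a)
      rw [this, Matrix.diagonal_one]
    obtain ⟨ι, _, M, M', hM, hM', hinv, hint, -, s₀, hs₀⟩ :=
      Param.of_det_ne_zero (fieldL N) g hgdet
    have hinv' : ∀ s, M' s * M s = 1 := fun s => mul_eq_one_comm.mp (hinv s)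
    have hconst : ∀ (E : Fin r → ℂ) (a b : Fin r),
        IsLaurent (fun _ : ι → ℂˣ => Matrix.diagonal E a b) := fun E a b => IsLaurent.const _
    refine ⟨ι, inferInstance, fun s => M s * Matrix.diagonal D * M' s,
      fun s => M s * Matrix.diagonal (fun a => (D a)⁻¹) * M' s, ?_, ?_, ?_, ?_, ?_⟩
    · exact isLaurent_mul_apply (isLaurent_mul_apply hM (hconst D)) hM'
    · exact isLaurent_mul_apply (isLaurent_mul_apply hM (hconst _)) hM'
    · intro s
      refine ⟨?_, ?_, ?_⟩
      · rw [Matrix.det_mul, Matrix.det_mul, hDdet, mul_one, ← Matrix.det_mul, hinv, Matrix.det_one]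
      · calc M s * Matrix.diagonal D * M' s * (M s * Matrix.diagonal (fun a => (D a)⁻¹) * M' s)
            = M s * (Matrix.diagonal D * (M' s * M s) * Matrix.diagonal (fun a => (D a)⁻¹)) *
                M' s := by simp only [Matrix.mul_assoc]
          _ = 1 := by rw [hinv', Matrix.mul_one, hDinv, Matrix.mul_one, hinv]
      · have hpow : ∀ n : ℕ, (M s * Matrix.diagonal D * M' s) ^ n =
            M s * Matrix.diagonal D ^ n * M' s := by
          intro n
          induction n with
          | zero => simp [hinv]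
          | succ n ih =>
            rw [pow_succ, ih, pow_succ]
            calc M s * Matrix.diagonal D ^ n * M' s * (M s * Matrix.diagonal D * M' s)
                = M s * (Matrix.diagonal D ^ n * (M' s * M s) * Matrix.diagonal D) * M' s := by
                  simp only [Matrix.mul_assoc]
              _ = M s * (Matrix.diagonal D ^ n * Matrix.diagonal D) * M' s := by
                  rw [hinv', Matrix.mul_one]
        rw [hpow, hDpow, Matrix.mul_one, hinv]
    · intro s hs a b
      have h1 := hint s hs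
      have hDO : ∀ a b, Matrix.diagonal D a b ∈ ringO (fieldL N) := by
        intro a b
        rw [Matrix.diagonal_apply]
        split_ifs
        · exact pow_eq_one_mem_ringO hN (hDN a)
        · exact Subring.zero_mem _
      have hDO' : ∀ a b, Matrix.diagonal (fun a => (D a)⁻¹) a b ∈ ringO (fieldL N) := by
        intro a b
        rw [Matrix.diagonal_apply]
        split_ifs
        · exact pow_eq_one_mem_ringO hN (by rw [inv_pow, hDN a, inv_one])
        · exact Subring.zero_mem _
      have hmul : ∀ (X Y : Matrix (Fin r) (Fin r) ℂ), (∀ a b, X a b ∈ ringO (fieldL N)) →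
          (∀ a b, Y a b ∈ ringO (fieldL N)) → ∀ a b, (X * Y) a b ∈ ringO (fieldL N) := by
        intro X Y hX hY a b
        rw [Matrix.mul_apply]
        exact Subring.sum_mem _ fun c _ => Subring.mul_mem _ (hX a c) (hY c b)
      exact ⟨hmul _ _ (hmul _ _ (fun a b => (h1 a b).1) hDO) (fun a b => (h1 a b).2) a b,
        hmul _ _ (hmul _ _ (fun a b => (h1 a b).1) hDO') (fun a b => (h1 a b).2) a b⟩
    · refine ⟨s₀, ?_⟩
      have hg' : M' s₀ = g' := by
        have h1 := hinv s₀
        rw [hs₀] at h1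
        calc M' s₀ = (g' * g) * M' s₀ := by rw [mul_eq_one_comm.mp hgg', Matrix.one_mul]
          _ = g' * (g * M' s₀) := Matrix.mul_assoc _ _ _
          _ = g' := by rw [h1, Matrix.mul_one]
      change M s₀ * Matrix.diagonal D * M' s₀ = A
      rw [hs₀, hg', ← hAg, Matrix.mul_assoc, hgg', Matrix.mul_one]

/-- The coordinates of a pair of matrices. -/
def enc {r : ℕ} (A A' : Matrix (Fin r) (Fin r) ℂ) : (Fin r × Fin r) ⊕ (Fin r × Fin r) → ℂ :=
  Sum.elim (fun x => A x.1 x.2) (fun x => A' x.1 x.2)

/-- Integral points are Zariski dense in the variety of pairs (A, inverse of A) with A of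
determinant one and A ^ p = 1. -/
theorem density_cyclic (N : ℕ) (hN : N ≠ 0) {r p : ℕ} (hp : p = 0 ∨ p ∣ N)
    (Q : MvPolynomial ((Fin r × Fin r) ⊕ (Fin r × Fin r)) ℂ)
    (hQ : ∀ A A' : Matrix (Fin r) (Fin r) ℂ, A.det = 1 → A * A' = 1 → A ^ p = 1 →
      (∀ a b, A a b ∈ ringO (fieldL N) ∧ A' a b ∈ ringO (fieldL N)) → eval (enc A A') Q = 0)
    (A A' : Matrix (Fin r) (Fin r) ℂ) (hdet : A.det = 1) (hAA' : A * A' = 1) (hAp : A ^ p = 1) :
    eval (enc A A') Q = 0 := by
  obtain ⟨ι, _, M, M', hM, hM', hprop, hint, s₀, hs₀⟩ := exists_family_cyclic N hN hp A hdet hAp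
  have hG : IsLaurent (fun s => eval (enc (M s) (M' s)) Q) := by
    refine IsLaurent.eval_comp Q fun x => ?_
    rcases x with x | x
    · exact hM x.1 x.2
    · exact hM' x.1 x.2
  have hzero : ∀ s : ι → ℂˣ, (∀ k, s k ∈ Set.range (fun n : ℕ => fundUnit ^ n)) →
      eval (enc (M s) (M' s)) Q = 0 := by
    intro s hs
    have hsU : ∀ k, s k ∈ unitsO (fieldL N) := fun k => powers_fundUnit_subset _ _ (hs k)
    exact hQ (M s) (M' s) (hprop s).1 (hprop s).2.1 (hprop s).2.2 (hint s hsU)
  have h0 := hG.eq_zero_of_infinite _ infinite_powers_fundUnit hzero s₀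
  have hA' : M' s₀ = A' := by
    have h1 := (hprop s₀).2.1
    rw [hs₀] at h1
    calc M' s₀ = (A' * A) * M' s₀ := by rw [mul_eq_one_comm.mp hAA', Matrix.one_mul]
      _ = A' * (A * M' s₀) := Matrix.mul_assoc _ _ _
      _ = A' := by rw [h1, Matrix.mul_one]
  rw [hs₀, hA'] at h0
  exact h0

end Vale.Agent.Lib.P002
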