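import Vale.Agent.Lib.P002.Cyclic

/-!
Zariski density of integral representations in the representation variety of a free product of
cyclic groups.
-/

namespace Vale.Agent.Lib.P002

open MvPolynomial

section Pi

/-- Density in a product: if S i is Zariski dense in V i for each i, then the product of the
S i is Zariski dense in the product of the V i. -/
theorem density_pi {m : ℕ} {κ : Type} (V S : Fin m → Set (κ → ℂ))
    (hdense : ∀ i (Q : MvPolynomial κ ℂ), (∀ x ∈ S i, eval x Q = 0) → ∀ x ∈ V i, eval x Q = 0)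
    (Q : MvPolynomial (Fin m × κ) ℂ)
    (hQ : ∀ x : Fin m → κ → ℂ, (∀ i, x i ∈ S i) → eval (fun y => x y.1 y.2) Q = 0)
    (x : Fin m → κ → ℂ) (hx : ∀ i, x i ∈ V i) : eval (fun y => x y.1 y.2) Q = 0 := by
  classical
  have key : ∀ T : Finset (Fin m), ∀ x : Fin m → κ → ℂ, (∀ i ∈ T, x i ∈ V i) →
      (∀ i, i ∉ T → x i ∈ S i) → eval (fun y => x y.1 y.2) Q = 0 := by
    intro T
    induction T using Finset.induction_on with
    | empty =>
      intro x _ hxS
      exact hQ x fun i => hxS i (Finset.notMem_empty i)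
    | insert j T hj ih =>
      intro x hxV hxS
      let Qj : MvPolynomial κ ℂ :=
        bind₁ (fun y : Fin m × κ => if y.1 = j then X y.2 else C (x y.1 y.2)) Q
      have hQj : ∀ z : κ → ℂ, eval z Qj = eval (fun y => Function.update x j z y.1 y.2) Q := by
        intro z
        have h := aeval_bind₁ (R := ℂ) (S := ℂ) z
          (fun y : Fin m × κ => if y.1 = j then X y.2 else C (x y.1 y.2)) Q
        rw [aeval_eq_eval, aeval_eq_eval] at h
        change eval z (bind₁ _ Q) = _
        rw [h]
        congr 2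
        funext y
        by_cases hy : y.1 = j
        · rw [if_pos hy]
          obtain ⟨y1, y2⟩ := y
          simp only at hy
          subst hy
          simp
        · rw [if_neg hy, Function.update_of_ne hy]
          simp
      have h1 : ∀ z ∈ S j, eval z Qj = 0 := by
        intro z hz
        rw [hQj]
        refine ih _ (fun i hi => ?_) (fun i hi => ?_)
        · have hij : i ≠ j := fun h => hj (h ▸ hi)
          rw [Function.update_of_ne hij]
          exact hxV i (Finset.mem_insert_of_mem hi)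
        · by_cases hij : i = j
          · subst hij
            rw [Function.update_self]
            exact hz
          · rw [Function.update_of_ne hij]
            exact hxS i (fun h => (Finset.mem_insert.mp h).elim hij hi)
      have h2 := hdense j Qj h1 (x j) (hxV j (Finset.mem_insert_self j T))
      rw [hQj, Function.update_eq_self] at h2
      exact h2
  exact key Finset.univ x (fun i _ => hx i) (fun i hi => absurd (Finset.mem_univ i) hi)

end Pi

section Cyclic

/-- The homomorphism from the cyclic group of order n (infinite cyclic if n = 0) sending the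
standard generator to an element B with B ^ n = 1. -/
def cyclicHom (n : ℕ) {G : Type*} [Group G] (B : G) (hB : B ^ n = 1) :
    Multiplicative (ZMod n) →* G :=
  AddMonoidHom.toMultiplicativeLeft
    (ZMod.lift n ⟨zmultiplesHom (Additive G) (Additive.ofMul B), by
      change ((n : ℤ) • Additive.ofMul B) = 0
      rw [natCast_zsmul, ← ofMul_pow, hB]
      rfl⟩)

theorem cyclicHom_intCast (n : ℕ) {G : Type*} [Group G] (B : G) (hB : B ^ n = 1) (k : ℤ) :
    cyclicHom n B hB (Multiplicative.ofAdd (k : ZMod n)) = B ^ k := by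
  change Additive.toMul (ZMod.lift n _ (k : ZMod n)) = B ^ k
  rw [ZMod.lift_coe]
  change Additive.toMul (k • Additive.ofMul B) = B ^ k
  rw [← ofMul_zpow]
  rfl

theorem cyclicHom_gen (n : ℕ) {G : Type*} [Group G] (B : G) (hB : B ^ n = 1) :
    cyclicHom n B hB (Multiplicative.ofAdd (1 : ZMod n)) = B := by
  have h := cyclicHom_intCast n B hB 1
  simpa using h

theorem exists_zpow_eq (n : ℕ) (z : Multiplicative (ZMod n)) :
    ∃ k : ℤ, z = Multiplicative.ofAdd (1 : ZMod n) ^ k := by
  obtain ⟨k, hk⟩ := ZMod.intCast_surjective (Multiplicative.toAdd z)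
  refine ⟨k, ?_⟩
  rw [← ofAdd_zsmul, zsmul_one, hk]
  rfl

end Cyclic

/-- The subgroup of matrices in SL_r(ℂ) which, together with their inverses, have entries in the
ring of integers of L. -/
def intSubgroup (L : IntermediateField ℚ ℂ) (r : ℕ) :
    Subgroup (Matrix.SpecialLinearGroup (Fin r) ℂ) where
  carrier := {B | ∀ a b, (B : Matrix (Fin r) (Fin r) ℂ) a b ∈ ringO L ∧
    ((B⁻¹ : Matrix.SpecialLinearGroup (Fin r) ℂ) : Matrix (Fin r) (Fin r) ℂ) a b ∈ ringO L}
  mul_mem' := by
    intro A B hA hB a b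
    rw [mul_inv_rev]
    simp only [Matrix.SpecialLinearGroup.coe_mul, Matrix.mul_apply]
    exact ⟨Subring.sum_mem _ fun c _ => Subring.mul_mem _ (hA a c).1 (hB c b).1,
      Subring.sum_mem _ fun c _ => Subring.mul_mem _ (hB a c).2 (hA c b).2⟩
  one_mem' := by
    intro a b
    rw [inv_one]
    have : ((1 : Matrix.SpecialLinearGroup (Fin r) ℂ) : Matrix (Fin r) (Fin r) ℂ) a b ∈
        ringO L := by
      rw [Matrix.SpecialLinearGroup.coe_one, Matrix.one_apply]
      split_ifs
      · exact Subring.one_mem _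
      · exact Subring.zero_mem _
    exact ⟨this, this⟩
  inv_mem' := by
    intro A hA a b
    rw [inv_inv]
    exact ⟨(hA a b).2, (hA a b).1⟩

section Free

variable {m : ℕ} (p : Fin m → ℕ) (r : ℕ)

/-- The standard generator of the i-th factor of the free product of cyclic groups. -/
def gen (i : Fin m) : Monoid.CoprodI (fun i : Fin m => Multiplicative (ZMod (p i))) :=
  Monoid.CoprodI.of (Multiplicative.ofAdd (1 : ZMod (p i)))

/-- The coordinates of a representation: the entries of the images of the generators and of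
their inverses. -/
def coords (ρ : Monoid.CoprodI (fun i : Fin m => Multiplicative (ZMod (p i))) →*
    Matrix.SpecialLinearGroup (Fin r) ℂ) :
    Fin m → (Fin r × Fin r) ⊕ (Fin r × Fin r) → ℂ :=
  fun i => enc (ρ (gen p i) : Matrix (Fin r) (Fin r) ℂ)
    ((ρ (gen p i))⁻¹ : Matrix.SpecialLinearGroup (Fin r) ℂ)

/-- A function of the representation which is a polynomial in its coordinates. -/
def PolyOn (F : (Monoid.CoprodI (fun i : Fin m => Multiplicative (ZMod (p i))) →*
    Matrix.SpecialLinearGroup (Fin r) ℂ) → ℂ) : Prop :=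
  ∃ Q : MvPolynomial (Fin m × ((Fin r × Fin r) ⊕ (Fin r × Fin r))) ℂ,
    ∀ ρ, F ρ = eval (fun y => coords p r ρ y.1 y.2) Q

variable {p r}

theorem PolyOn.const (c : ℂ) : PolyOn p r (fun _ => c) := ⟨C c, fun ρ => by simp⟩

theorem PolyOn.add {F G} (hF : PolyOn p r F) (hG : PolyOn p r G) :
    PolyOn p r (fun ρ => F ρ + G ρ) := by
  obtain ⟨Q, hQ⟩ := hF
  obtain ⟨R, hR⟩ := hG
  exact ⟨Q + R, fun ρ => by rw [map_add, ← hQ, ← hR]⟩

theorem PolyOn.mul {F G} (hF : PolyOn p r F) (hG : PolyOn p r G) :
    PolyOn p r (fun ρ => F ρ * G ρ) := by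
  obtain ⟨Q, hQ⟩ := hF
  obtain ⟨R, hR⟩ := hG
  exact ⟨Q * R, fun ρ => by rw [map_mul, ← hQ, ← hR]⟩

theorem PolyOn.sum {κ : Type} (T : Finset κ) {F : κ → _ → ℂ}
    (hF : ∀ c ∈ T, PolyOn p r (F c)) : PolyOn p r (fun ρ => ∑ c ∈ T, F c ρ) := by
  classical
  induction T using Finset.induction_on with
  | empty => simpa using PolyOn.const (p := p) (r := r) 0
  | insert c T hc ih =>
    simp only [Finset.sum_insert hc]
    exact (hF c (Finset.mem_insert_self c T)).add
      (ih fun d hd => hF d (Finset.mem_insert_of_mem hd))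

theorem polyOn_mul_apply {M N : _ → Matrix (Fin r) (Fin r) ℂ}
    (hM : ∀ a b, PolyOn p r (fun ρ => M ρ a b)) (hN : ∀ a b, PolyOn p r (fun ρ => N ρ a b))
    (a b : Fin r) : PolyOn p r (fun ρ => (M ρ * N ρ) a b) := by
  simp only [Matrix.mul_apply]
  exact PolyOn.sum _ fun c _ => (hM a c).mul (hN c b)

theorem polyOn_pow_apply {M : _ → Matrix (Fin r) (Fin r) ℂ}
    (hM : ∀ a b, PolyOn p r (fun ρ => M ρ a b)) (n : ℕ) (a b : Fin r) :
    PolyOn p r (fun ρ => (M ρ ^ n) a b) := by
  induction n generalizing a b with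
  | zero =>
    simp only [pow_zero]
    exact PolyOn.const _
  | succ n ih =>
    simp only [pow_succ]
    exact polyOn_mul_apply ih hM a b

/-- The entries of the image of any group element are polynomials in the coordinates. -/
theorem polyOn_word (w : Monoid.CoprodI (fun i : Fin m => Multiplicative (ZMod (p i))))
    (a b : Fin r) : PolyOn p r (fun ρ => (ρ w : Matrix (Fin r) (Fin r) ℂ) a b) := by
  induction w using Monoid.CoprodI.induction_on generalizing a b with
  | one =>
    simp only [map_one, Matrix.SpecialLinearGroup.coe_one]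
    exact PolyOn.const _
  | of i z =>
    obtain ⟨k, rfl⟩ := exists_zpow_eq (p i) z
    have hgen : ∀ a b, PolyOn p r (fun ρ => (ρ (gen p i) : Matrix (Fin r) (Fin r) ℂ) a b) :=
      fun a b => ⟨X (i, Sum.inl (a, b)), fun ρ => by simp [coords, enc]⟩
    have hgen' : ∀ a b, PolyOn p r (fun ρ =>
        (((ρ (gen p i))⁻¹ : Matrix.SpecialLinearGroup (Fin r) ℂ) : Matrix (Fin r) (Fin r) ℂ) a b) :=
      fun a b => ⟨X (i, Sum.inr (a, b)), fun ρ => by simp [coords, enc]⟩
    cases k with
    | ofNat n =>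
      have h1 := polyOn_pow_apply hgen n a b
      refine cast ?_ h1
      congr 1
      funext ρ
      simp [gen, map_pow]
    | negSucc n =>
      have h1 := polyOn_pow_apply hgen' (n + 1) a b
      refine cast ?_ h1
      congr 1
      funext ρ
      rw [zpow_negSucc, map_inv, map_inv, map_pow, map_pow, ← inv_pow,
        Matrix.SpecialLinearGroup.coe_pow]
      rfl
  | mul x y hx hy =>
    simp only [map_mul, Matrix.SpecialLinearGroup.coe_mul]
    exact polyOn_mul_apply hx hy a b

end Free

section Main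

/-- A common multiple of the nonzero orders. -/
def modulus {m : ℕ} (p : Fin m → ℕ) : ℕ := ∏ i, (if p i = 0 then 1 else p i)

theorem modulus_ne_zero {m : ℕ} (p : Fin m → ℕ) : modulus p ≠ 0 := by
  unfold modulus
  refine Finset.prod_ne_zero_iff.mpr fun i _ => ?_
  split_ifs with h
  · exact one_ne_zero
  · exact h

theorem dvd_modulus {m : ℕ} (p : Fin m → ℕ) (i : Fin m) : p i = 0 ∨ p i ∣ modulus p := by
  by_cases h : p i = 0
  · exact Or.inl h
  · right
    have := Finset.dvd_prod_of_mem (fun i => if p i = 0 then 1 else p i) (Finset.mem_univ i)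
    simpa [modulus, h] using this

theorem gen_pow {m : ℕ} (p : Fin m → ℕ) (i : Fin m) : gen p i ^ p i = 1 := by
  unfold gen
  rw [← map_pow, ← ofAdd_nsmul, nsmul_one, ZMod.natCast_self]
  simp

/-- Integral representations are Zariski dense in the representation variety of a free product
of finitely many cyclic groups, in every rank and over a single number field. -/
theorem density_freeProd (m : ℕ) (p : Fin m → ℕ) :
    ∃ L : IntermediateField ℚ ℂ, FiniteDimensional ℚ L ∧
      ∀ (r k : ℕ) (w : Fin k → Monoid.CoprodI (fun i : Fin m => Multiplicative (ZMod (p i))))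
        (P : MvPolynomial (Fin k × Fin r × Fin r) ℂ),
        (∀ ρ : Monoid.CoprodI (fun i : Fin m => Multiplicative (ZMod (p i))) →*
            Matrix.SpecialLinearGroup (Fin r) ℂ,
          (∀ g a b, (ρ g : Matrix (Fin r) (Fin r) ℂ) a b ∈ L ∧
            IsIntegral ℤ ((ρ g : Matrix (Fin r) (Fin r) ℂ) a b)) →
          eval (fun x => (ρ (w x.1) : Matrix (Fin r) (Fin r) ℂ) x.2.1 x.2.2) P = 0) →
        ∀ ρ : Monoid.CoprodI (fun i : Fin m => Multiplicative (ZMod (p i))) →*
            Matrix.SpecialLinearGroup (Fin r) ℂ,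
          eval (fun x => (ρ (w x.1) : Matrix (Fin r) (Fin r) ℂ) x.2.1 x.2.2) P = 0 := by
  have hN := modulus_ne_zero p
  refine ⟨fieldL (modulus p), fieldL_finiteDimensional _ hN, ?_⟩
  intro r k w P hP ρ
  choose Qw hQw using fun x : Fin k × Fin r × Fin r =>
    polyOn_word (p := p) (r := r) (w x.1) x.2.1 x.2.2
  have hQt : ∀ ρ' : Monoid.CoprodI (fun i : Fin m => Multiplicative (ZMod (p i))) →*
      Matrix.SpecialLinearGroup (Fin r) ℂ,
      eval (fun x => (ρ' (w x.1) : Matrix (Fin r) (Fin r) ℂ) x.2.1 x.2.2) P =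
        eval (fun y => coords p r ρ' y.1 y.2) (bind₁ Qw P) := by
    intro ρ'
    have h := aeval_bind₁ (R := ℂ) (S := ℂ) (fun y => coords p r ρ' y.1 y.2) Qw P
    rw [aeval_eq_eval, aeval_eq_eval] at h
    rw [h]
    congr 2
    funext x
    exact hQw x ρ'
  let V : Fin m → Set ((Fin r × Fin r) ⊕ (Fin r × Fin r) → ℂ) := fun i =>
    {x | ∃ A A' : Matrix (Fin r) (Fin r) ℂ, A.det = 1 ∧ A * A' = 1 ∧ A ^ p i = 1 ∧ x = enc A A'}
  let S : Fin m → Set ((Fin r × Fin r) ⊕ (Fin r × Fin r) → ℂ) := fun i =>
    {x | ∃ A A' : Matrix (Fin r) (Fin r) ℂ, A.det = 1 ∧ A * A' = 1 ∧ A ^ p i = 1 ∧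
      (∀ a b, A a b ∈ ringO (fieldL (modulus p)) ∧ A' a b ∈ ringO (fieldL (modulus p))) ∧
      x = enc A A'}
  have hdense : ∀ i (Q : MvPolynomial ((Fin r × Fin r) ⊕ (Fin r × Fin r)) ℂ),
      (∀ x ∈ S i, eval x Q = 0) → ∀ x ∈ V i, eval x Q = 0 := by
    rintro i Q hQ x ⟨A, A', h1, h2, h3, rfl⟩
    exact density_cyclic (modulus p) hN (dvd_modulus p i) Q
      (fun B B' hB1 hB2 hB3 hB4 => hQ _ ⟨B, B', hB1, hB2, hB3, hB4, rfl⟩) A A' h1 h2 h3
  have hS : ∀ x : Fin m → (Fin r × Fin r) ⊕ (Fin r × Fin r) → ℂ, (∀ i, x i ∈ S i) →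
      eval (fun y => x y.1 y.2) (bind₁ Qw P) = 0 := by
    intro x hx
    choose A A' hdet hinv hpow hint hxe using hx
    let B : Fin m → Matrix.SpecialLinearGroup (Fin r) ℂ := fun i => mkSL (A i) (hdet i)
    have hBpow : ∀ i, B i ^ p i = 1 := by
      intro i
      ext a b
      rw [Matrix.SpecialLinearGroup.coe_pow, Matrix.SpecialLinearGroup.coe_one]
      change (A i ^ p i) a b = _
      rw [hpow]
    let ρx : Monoid.CoprodI (fun i : Fin m => Multiplicative (ZMod (p i))) →*
        Matrix.SpecialLinearGroup (Fin r) ℂ :=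
      Monoid.CoprodI.lift fun i => cyclicHom (p i) (B i) (hBpow i)
    have hρgen : ∀ i, ρx (gen p i) = B i := by
      intro i
      simp only [ρx, gen, Monoid.CoprodI.lift_of, cyclicHom_gen]
    have hBinv : ∀ i, (((B i)⁻¹ : Matrix.SpecialLinearGroup (Fin r) ℂ) :
        Matrix (Fin r) (Fin r) ℂ) = A' i := by
      intro i
      have h1 : (A i) * (((B i)⁻¹ : Matrix.SpecialLinearGroup (Fin r) ℂ) :
          Matrix (Fin r) (Fin r) ℂ) = 1 := by
        have h2 : ((B i * (B i)⁻¹ : Matrix.SpecialLinearGroup (Fin r) ℂ) :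
            Matrix (Fin r) (Fin r) ℂ) = 1 := by
          rw [mul_inv_cancel, Matrix.SpecialLinearGroup.coe_one]
        rw [Matrix.SpecialLinearGroup.coe_mul] at h2
        exact h2
      calc (((B i)⁻¹ : Matrix.SpecialLinearGroup (Fin r) ℂ) : Matrix (Fin r) (Fin r) ℂ)
          = (A' i * A i) * (((B i)⁻¹ : Matrix.SpecialLinearGroup (Fin r) ℂ) :
              Matrix (Fin r) (Fin r) ℂ) := by
            rw [mul_eq_one_comm.mp (hinv i), Matrix.one_mul]
        _ = A' i * (A i * (((B i)⁻¹ : Matrix.SpecialLinearGroup (Fin r) ℂ) :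
              Matrix (Fin r) (Fin r) ℂ)) := Matrix.mul_assoc _ _ _
        _ = A' i := by rw [h1, Matrix.mul_one]
    have hcoords : coords p r ρx = x := by
      funext i
      rw [hxe i]
      unfold coords
      rw [hρgen, hBinv]
      rfl
    have hrange : ρx.range ≤ intSubgroup (fieldL (modulus p)) r := by
      apply Monoid.CoprodI.lift_range_le
      rintro i _ ⟨z, rfl⟩
      obtain ⟨j, rfl⟩ := exists_zpow_eq (p i) z
      rw [map_zpow, cyclicHom_gen]
      refine Subgroup.zpow_mem _ ?_ j
      intro a b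
      rw [hBinv]
      exact hint i a b
    have h0 := hP ρx (fun g a b => (hrange ⟨g, rfl⟩ a b).1)
    rw [hQt, hcoords] at h0
    exact h0
  have hV : ∀ i, coords p r ρ i ∈ V i := by
    intro i
    refine ⟨ρ (gen p i), ((ρ (gen p i))⁻¹ : Matrix.SpecialLinearGroup (Fin r) ℂ),
      (ρ (gen p i)).2, ?_, ?_, rfl⟩
    · rw [← Matrix.SpecialLinearGroup.coe_mul, mul_inv_cancel, Matrix.SpecialLinearGroup.coe_one]
    · rw [← Matrix.SpecialLinearGroup.coe_pow, ← map_pow, gen_pow, map_one,
        Matrix.SpecialLinearGroup.coe_one]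
  rw [hQt]
  exact density_pi V S hdense (bind₁ Qw P) hS (coords p r ρ) hV

end Main

end Vale.Agent.Lib.P002
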