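import Vale.Agent.Lib.P002.MxDense

/-!
Pairs of matrices with prescribed characteristic polynomial of the commutator (one-holed
torus): the reversal matrix, leading minors, the genericity polynomial and the polynomial
frame.
-/

namespace Vale.Agent.Lib.P002

open Matrix

section G1Defs

variable {S : Type*} [CommRing S]

/-- The reversal permutation matrix. -/
def revM (S : Type*) [CommRing S] (n : ℕ) : Matrix (Fin n) (Fin n) S :=
  Matrix.of fun i j => if j = Fin.rev i then (1 : S) else 0

/-- The determinant of the leading block of size t (the determinant itself if t is at least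
the size). -/
def lead (t : ℕ) : (k : ℕ) → Matrix (Fin k) (Fin k) S → S
  | 0, _ => 1
  | k + 1, M => if k + 1 ≤ t then M.det else lead t k (M.submatrix Fin.castSucc Fin.castSucc)

/-- The genericity polynomial of a square matrix: the product of the leading minors of all
trailing blocks and of the differences attached to consecutive trailing blocks. -/
def g1Gen : (k : ℕ) → Matrix (Fin k) (Fin k) S → S
  | 0, _ => 1
  | k + 1, M => (∏ t ∈ Finset.range (k + 1), lead (t + 1) (k + 1) M) *
      (∏ i ∈ Finset.range k, (lead (i + 1) (k + 1) M *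
          lead (i + 1) k (M.submatrix Fin.succ Fin.succ) -
        lead (i + 2) (k + 1) M * lead i k (M.submatrix Fin.succ Fin.succ))) *
      g1Gen k (M.submatrix Fin.succ Fin.succ)

/-- The commutator of two matrices of determinant one, written with adjugates. -/
def cmm {n : ℕ} (A B : Matrix (Fin n) (Fin n) S) : Matrix (Fin n) (Fin n) S :=
  A * B * A.adjugate * B.adjugate

/-- The auxiliary matrix whose adjugate gives column m of the polynomial frame. -/
def ulT {n : ℕ} (N : Matrix (Fin n) (Fin n) S) (m : Fin n) : Matrix (Fin n) (Fin n) S :=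
  Matrix.of fun i j => if i.val + m.val + 1 < n then (if j.val = i.val + m.val + 1 then 1 else 0)
    else if i.val + m.val + 1 = n then (if j = m then 1 else 0) else N i j

/-- The polynomial frame: an upper triangular matrix u such that N u, with columns reversed,
is upper triangular. -/
def ulF {n : ℕ} (N : Matrix (Fin n) (Fin n) S) : Matrix (Fin n) (Fin n) S :=
  Matrix.of fun k m => (ulT N m).adjugate k (Fin.rev m)

/-- The frame attached to a pair, eigenvalues and a vector. -/
noncomputable def g1Frame {k : ℕ} (δ v : Fin (k + 1) → S)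
    (A B : Matrix (Fin (k + 1)) (Fin (k + 1)) S) : Matrix (Fin (k + 1)) (Fin (k + 1)) S :=
  jorU δ (cmm A B) v *
    ulF ((jorU δ (cmm A B) v).adjugate * (B * A) * jorU δ (cmm A B) v)

/-- The matrix of B in the frame, with columns reversed, up to a scalar. -/
noncomputable def g1Mat {k : ℕ} (δ v : Fin (k + 1) → S)
    (A B : Matrix (Fin (k + 1)) (Fin (k + 1)) S) : Matrix (Fin (k + 1)) (Fin (k + 1)) S :=
  (g1Frame δ v A B).adjugate * B * g1Frame δ v A B * revM S (k + 1)

/-- The value of the genericity function at a pair. -/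
noncomputable def g1Val {k : ℕ} (δ v : Fin (k + 1) → S)
    (A B : Matrix (Fin (k + 1)) (Fin (k + 1)) S) : S :=
  (g1Frame δ v A B).det * trailDet (k + 1) (g1Mat δ v A B) * g1Gen (k + 1) (g1Mat δ v A B)

theorem revM_apply (n : ℕ) (i j : Fin n) :
    revM S n i j = if j = Fin.rev i then (1 : S) else 0 := rfl

theorem mul_revM {n : ℕ} (X : Matrix (Fin n) (Fin n) S) (i j : Fin n) :
    (X * revM S n) i j = X i (Fin.rev j) := by
  rw [Matrix.mul_apply, Finset.sum_eq_single (Fin.rev j)]
  · rw [revM_apply, Fin.rev_rev, if_pos rfl, mul_one]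
  · intro b _ hb
    rw [revM_apply, if_neg, mul_zero]
    intro h
    exact hb (by rw [h, Fin.rev_rev])
  · intro h
    exact absurd (Finset.mem_univ _) h

theorem revM_mul {n : ℕ} (X : Matrix (Fin n) (Fin n) S) (i j : Fin n) :
    (revM S n * X) i j = X (Fin.rev i) j := by
  rw [Matrix.mul_apply, Finset.sum_eq_single (Fin.rev i)]
  · rw [revM_apply, if_pos rfl, one_mul]
  · intro b _ hb
    rw [revM_apply, if_neg hb, zero_mul]
  · intro h
    exact absurd (Finset.mem_univ _) h

theorem revM_mul_revM (n : ℕ) : revM S n * revM S n = 1 := by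
  ext i j
  rw [revM_mul, revM_apply, Fin.rev_rev, Matrix.one_apply]
  by_cases h : i = j
  · subst h
    simp
  · rw [if_neg h, if_neg (fun h' => h h'.symm)]

theorem revM_conj {n : ℕ} (X : Matrix (Fin n) (Fin n) S) (i j : Fin n) :
    (revM S n * X * revM S n) i j = X (Fin.rev i) (Fin.rev j) := by
  rw [mul_revM, revM_mul]

theorem revM_map {T : Type*} [CommRing T] (f : S →+* T) (n : ℕ) :
    (revM S n).map f = revM T n := by
  ext i j
  simp only [Matrix.map_apply, revM_apply]
  split_ifs <;> simp

theorem det_revM_mul_self (n : ℕ) : (revM S n).det * (revM S n).det = 1 := by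
  rw [← Matrix.det_mul, revM_mul_revM, Matrix.det_one]

theorem lead_zero_size (t : ℕ) (M : Matrix (Fin 0) (Fin 0) S) : lead t 0 M = 1 := rfl

theorem lead_succ (t k : ℕ) (M : Matrix (Fin (k + 1)) (Fin (k + 1)) S) :
    lead t (k + 1) M =
      if k + 1 ≤ t then M.det else lead t k (M.submatrix Fin.castSucc Fin.castSucc) := rfl

theorem lead_of_le : ∀ (k t : ℕ) (M : Matrix (Fin k) (Fin k) S), k ≤ t → lead t k M = M.det := by
  intro k
  cases k with
  | zero =>
    intro t M _
    rw [lead_zero_size, Matrix.det_fin_zero]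
  | succ k =>
    intro t M h
    rw [lead_succ, if_pos h]

theorem lead_zero : ∀ (k : ℕ) (M : Matrix (Fin k) (Fin k) S), lead 0 k M = 1 := by
  intro k
  induction k with
  | zero => intro M; rfl
  | succ k ih =>
    intro M
    rw [lead_succ, if_neg (Nat.succ_ne_zero k ∘ Nat.le_zero.mp), ih]

theorem map_lead {T : Type*} [CommRing T] (f : S →+* T) (t : ℕ) :
    ∀ (k : ℕ) (M : Matrix (Fin k) (Fin k) S), f (lead t k M) = lead t k (M.map f) := by
  intro k
  induction k with
  | zero =>
    intro M
    rw [lead_zero_size, lead_zero_size, map_one]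
  | succ k ih =>
    intro M
    rw [lead_succ, lead_succ]
    split_ifs with h
    · rw [RingHom.map_det]
      rfl
    · rw [ih]
      rfl

theorem g1Gen_zero (M : Matrix (Fin 0) (Fin 0) S) : g1Gen 0 M = 1 := rfl

theorem g1Gen_succ (k : ℕ) (M : Matrix (Fin (k + 1)) (Fin (k + 1)) S) :
    g1Gen (k + 1) M = (∏ t ∈ Finset.range (k + 1), lead (t + 1) (k + 1) M) *
      (∏ i ∈ Finset.range k, (lead (i + 1) (k + 1) M *
          lead (i + 1) k (M.submatrix Fin.succ Fin.succ) -
        lead (i + 2) (k + 1) M * lead i k (M.submatrix Fin.succ Fin.succ))) *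
      g1Gen k (M.submatrix Fin.succ Fin.succ) := rfl

theorem map_g1Gen' {T : Type*} [CommRing T] (f : S →+* T) :
    ∀ (k : ℕ) (M : Matrix (Fin k) (Fin k) S), f (g1Gen k M) = g1Gen k (M.map f) := by
  intro k
  induction k with
  | zero =>
    intro M
    rw [g1Gen_zero, g1Gen_zero, map_one]
  | succ k ih =>
    intro M
    rw [g1Gen_succ, g1Gen_succ, map_mul, map_mul, map_prod, map_prod, ih]
    simp only [map_sub, map_mul, map_lead]
    rfl

theorem map_adj {T : Type*} [CommRing T] (f : S →+* T) {n : ℕ} (M : Matrix (Fin n) (Fin n) S) :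
    M.adjugate.map f = (M.map f).adjugate := by
  have h := RingHom.map_adjugate f M
  simpa [RingHom.mapMatrix_apply] using h

theorem map_cmm {T : Type*} [CommRing T] (f : S →+* T) {n : ℕ} (A B : Matrix (Fin n) (Fin n) S) :
    (cmm A B).map f = cmm (A.map f) (B.map f) := by
  unfold cmm
  rw [Matrix.map_mul, Matrix.map_mul, Matrix.map_mul, map_adj, map_adj]

theorem map_ulT {T : Type*} [CommRing T] (f : S →+* T) {n : ℕ} (N : Matrix (Fin n) (Fin n) S)
    (m : Fin n) : (ulT N m).map f = ulT (N.map f) m := by
  ext i j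
  simp only [ulT, Matrix.map_apply, Matrix.of_apply]
  split_ifs <;> simp

theorem map_ulF {T : Type*} [CommRing T] (f : S →+* T) {n : ℕ} (N : Matrix (Fin n) (Fin n) S) :
    (ulF N).map f = ulF (N.map f) := by
  ext i j
  simp only [ulF, Matrix.map_apply, Matrix.of_apply]
  rw [← map_ulT, ← map_adj]
  rfl

theorem map_g1Frame {T : Type*} [CommRing T] (f : S →+* T) {k : ℕ} (δ v : Fin (k + 1) → S)
    (A B : Matrix (Fin (k + 1)) (Fin (k + 1)) S) :
    (g1Frame δ v A B).map f = g1Frame (fun i => f (δ i)) (fun i => f (v i)) (A.map f) (B.map f) := by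
  unfold g1Frame
  rw [Matrix.map_mul, map_ulF, Matrix.map_mul, Matrix.map_mul, Matrix.map_mul, map_adj, jorU_map,
    map_cmm]

theorem map_g1Mat {T : Type*} [CommRing T] (f : S →+* T) {k : ℕ} (δ v : Fin (k + 1) → S)
    (A B : Matrix (Fin (k + 1)) (Fin (k + 1)) S) :
    (g1Mat δ v A B).map f = g1Mat (fun i => f (δ i)) (fun i => f (v i)) (A.map f) (B.map f) := by
  unfold g1Mat
  rw [Matrix.map_mul, Matrix.map_mul, Matrix.map_mul, revM_map, map_adj, map_g1Frame]

theorem map_g1Val {T : Type*} [CommRing T] (f : S →+* T) {k : ℕ} (δ v : Fin (k + 1) → S)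
    (A B : Matrix (Fin (k + 1)) (Fin (k + 1)) S) :
    f (g1Val δ v A B) = g1Val (fun i => f (δ i)) (fun i => f (v i)) (A.map f) (B.map f) := by
  unfold g1Val
  rw [map_mul, map_mul, map_trailDet, map_g1Gen', map_g1Mat, RingHom.map_det,
    RingHom.mapMatrix_apply, map_g1Frame]

end G1Defs

end Vale.Agent.Lib.P002
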