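import Vale.Agent.Lib.P002.G1Lemmas2

/-!
Pairs of matrices of determinant one with prescribed characteristic polynomial of the
commutator: density of the integral points among the conjugates of the pairs attached to
generic chart data.
-/

namespace Vale.Agent.Lib.P002

open Matrix

/-- Uniqueness of the lower unitriangular factor of an LU decomposition. -/
theorem g1_lu_unique {n : ℕ} (l₁ l₂ b₁ b₂ : Matrix (Fin n) (Fin n) ℂ)
    (hl₁ : ∀ i j, i < j → l₁ i j = 0) (hl₁1 : ∀ i, l₁ i i = 1)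
    (hl₂ : ∀ i j, i < j → l₂ i j = 0) (hl₂1 : ∀ i, l₂ i i = 1)
    (hb₁ : ∀ i j, j < i → b₁ i j = 0) (hb₂ : ∀ i j, j < i → b₂ i j = 0)
    (hb₂d : ∀ i, b₂ i i ≠ 0) (h : l₁ * b₁ = l₂ * b₂) : l₁ = l₂ := by
  have hd₁ : l₁.det = 1 := by
    rw [det_lt hl₁]
    exact Finset.prod_eq_one fun i _ => hl₁1 i
  have hd₂ : l₂.det = 1 := by
    rw [det_lt hl₂]
    exact Finset.prod_eq_one fun i _ => hl₂1 i
  have hdb : b₁.det = b₂.det := by
    have h1 := congrArg Matrix.det h
    rwa [Matrix.det_mul, Matrix.det_mul, hd₁, hd₂, one_mul, one_mul] at h1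
  have hb₂det : b₂.det ≠ 0 := by
    rw [det_ut hb₂]
    exact Finset.prod_ne_zero_iff.mpr fun i _ => hb₂d i
  have hb₁det : b₁.det ≠ 0 := by
    rw [hdb]
    exact hb₂det
  have hX : l₂.adjugate * l₁ = b₂ * b₁⁻¹ := by
    have h1 : l₂.adjugate * l₁ * b₁ = b₂ := by
      rw [Matrix.mul_assoc, h, ← Matrix.mul_assoc, adjugate_mul_of_det hd₂, Matrix.one_mul]
    rw [← h1, Matrix.mul_assoc, Matrix.mul_nonsing_inv _ (isUnit_iff_ne_zero.mpr hb₁det),
      Matrix.mul_one]
  have hXl : ∀ i j, i < j → (l₂.adjugate * l₁) i j = 0 := lt_mul (lt_adjugate hl₂ hd₂) hl₁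
  have hXu : ∀ i j, j < i → (l₂.adjugate * l₁) i j = 0 := by
    rw [hX]
    exact ut_mul hb₂ (ut_inv hb₁ hb₁det)
  have hXd : ∀ i, (l₂.adjugate * l₁) i i = 1 := by
    intro i
    rw [lt_mul_diag (lt_adjugate hl₂ hd₂) hl₁, hl₁1, mul_one]
    have h1 := lt_adjugate_diag hl₂ hd₂ i
    rwa [hl₂1, mul_one] at h1
  have hX1 : l₂.adjugate * l₁ = 1 := by
    ext i j
    rcases lt_trichotomy i j with h | h | h
    · rw [hXl i j h, Matrix.one_apply_ne (ne_of_lt h)]
    · subst h
      rw [hXd, Matrix.one_apply_eq]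
    · rw [hXu i j h, Matrix.one_apply_ne (ne_of_gt h)]
  calc l₁ = l₂ * (l₂.adjugate * l₁) := by
        rw [← Matrix.mul_assoc, mul_adjugate_of_det hd₂, Matrix.one_mul]
    _ = l₂ := by rw [hX1, Matrix.mul_one]

/-- The adjugate of a conjugate. -/
theorem adjugate_conj {S : Type*} [CommRing S] {n : ℕ} (G G' A : Matrix (Fin n) (Fin n) S)
    (h1 : G * G' = 1) (h2 : G' * G = 1) : (G * A * G').adjugate = G * A.adjugate * G' := by
  have hG : G.adjugate = G.det • G' := by
    calc G.adjugate = G.adjugate * (G * G') := by rw [h1, Matrix.mul_one]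
      _ = G.det • G' := by
        rw [← Matrix.mul_assoc, Matrix.adjugate_mul, Matrix.smul_mul, Matrix.one_mul]
  have hG' : G'.adjugate = G'.det • G := by
    calc G'.adjugate = G'.adjugate * (G' * G) := by rw [h2, Matrix.mul_one]
      _ = G'.det • G := by
        rw [← Matrix.mul_assoc, Matrix.adjugate_mul, Matrix.smul_mul, Matrix.one_mul]
  have hdet : G'.det * G.det = 1 := by rw [← Matrix.det_mul, h2, Matrix.det_one]
  rw [Matrix.adjugate_mul_distrib, Matrix.adjugate_mul_distrib, hG, hG', Matrix.smul_mul,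
    Matrix.mul_smul, Matrix.mul_smul, smul_smul, hdet, one_smul, Matrix.mul_assoc]

/-- The commutator of a conjugate pair. -/
theorem cmm_conj {S : Type*} [CommRing S] {n : ℕ} (G G' A B : Matrix (Fin n) (Fin n) S)
    (h1 : G * G' = 1) (h2 : G' * G = 1) :
    cmm (G * A * G') (G * B * G') = G * cmm A B * G' := by
  unfold cmm
  rw [adjugate_conj G G' A h1 h2, adjugate_conj G G' B h1 h2]
  calc G * A * G' * (G * B * G') * (G * A.adjugate * G') * (G * B.adjugate * G') =
      G * A * (G' * G) * B * (G' * G) * A.adjugate * (G' * G) * B.adjugate * G' := by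
        simp only [Matrix.mul_assoc]
    _ = G * (A * B * A.adjugate * B.adjugate) * G' := by
        rw [h2]
        simp only [Matrix.mul_one, Matrix.mul_assoc]

/-- The determinant of a conjugate. -/
theorem det_conj_one {S : Type*} [CommRing S] {n : ℕ} (G G' A : Matrix (Fin n) (Fin n) S)
    (h2 : G' * G = 1) (hA : A.det = 1) : (G * A * G').det = 1 := by
  rw [Matrix.det_mul, Matrix.det_mul, hA, mul_one, mul_comm, ← Matrix.det_mul, h2, Matrix.det_one]

/-- A polynomial vanishing at the integral pairs of determinant one with the prescribed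
characteristic polynomial of the commutator vanishes at the conjugates of the pairs attached to
generic chart data. -/
theorem g1_density {L : IntermediateField ℚ ℂ} (hL : sqrtTwo ∈ L) (k : ℕ)
    (δ : Fin (k + 1) → ℂ) (hδ : ∀ i, δ i ∈ ringO L) (hδ1 : ∏ i, δ i = 1)
    (P : MvPolynomial (Fin 2 × Fin (k + 1) × Fin (k + 1)) ℂ)
    (hP : ∀ A B : Matrix (Fin (k + 1)) (Fin (k + 1)) ℂ, (∀ i j, A i j ∈ ringO L) →
      (∀ i j, B i j ∈ ringO L) → A.det = 1 → B.det = 1 →
      (cmm A B).charpoly = ∏ i, (Polynomial.X - Polynomial.C (δ i)) →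
      MvPolynomial.eval (fun x => ![A, B] x.1 x.2.1 x.2.2) P = 0)
    (g g' U Lo l b : Matrix (Fin (k + 1)) (Fin (k + 1)) ℂ) (hg : g * g' = 1)
    (hU : ∀ i j, j < i → U i j = 0) (hLo : ∀ i j, i < j → Lo i j = 0)
    (hl : ∀ i j, i < j → l i j = 0) (hl1 : ∀ i, l i i = 1)
    (hb : ∀ i j, j < i → b i j = 0)
    (hbd : ∀ i, b i i = δ i * U i i * Lo (Fin.rev i) (Fin.rev i))
    (hq : U * Lo = l * b) (hdLo : Lo.det = 1) (hdU : U.det = (revM ℂ (k + 1)).det)
    (hgen : g1Gen (k + 1) (U * Lo) ≠ 0) :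
    MvPolynomial.eval (fun x =>
      ![g * (revM ℂ (k + 1) * Lo.adjugate * revM ℂ (k + 1) * l.adjugate) * g',
        g * (U * Lo * revM ℂ (k + 1)) * g'] x.1 x.2.1 x.2.2) P = 0 := by
  have hsurj := evAt_taut_surjective L
  have hunit := evAt_taut_unit L
  have hδ0 : ∀ i, δ i ≠ 0 := ne_zero_of_prod_eq_one δ hδ1
  -- the diagonal of Lo
  have hLoprod : ∏ i, Lo i i = 1 := by
    rw [← det_lt hLo]
    exact hdLo
  have hLod : ∀ i, Lo i i ≠ 0 := ne_zero_of_prod_eq_one (fun i => Lo i i) hLoprod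
  obtain ⟨lt, hlt, hlt1⟩ := exists_unit_lifts (evAt L taut) hunit k (fun i => Lo i i) hLoprod
  -- the sign
  have hsC : (revM ℂ (k + 1)).det * (revM ℂ (k + 1)).det = 1 := det_revM_mul_self (k + 1)
  have hsR : (revM (ringR L) (k + 1)).det * (revM (ringR L) (k + 1)).det = 1 :=
    det_revM_mul_self (k + 1)
  obtain ⟨sU, hsU⟩ : ∃ sU : (ringR L)ˣ, (sU : ringR L) = (revM (ringR L) (k + 1)).det :=
    ⟨Units.mkOfMulEqOne _ _ hsR, rfl⟩
  have hsev : evAt L taut (sU : ringR L) = (revM ℂ (k + 1)).det := by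
    rw [hsU, RingHom.map_det, RingHom.mapMatrix_apply, revM_map]
  -- the diagonal of U
  have hUprod : ∏ i, U i i = (revM ℂ (k + 1)).det := by
    rw [← det_ut hU]
    exact hdU
  have hUd : ∀ i, U i i ≠ 0 := by
    intro i h
    have h1 : (revM ℂ (k + 1)).det = 0 := by
      rw [← hUprod]
      exact Finset.prod_eq_zero (Finset.mem_univ i) h
    rw [h1, zero_mul] at hsC
    exact zero_ne_one hsC
  have hUprod' : ∏ i : Fin (k + 1), U i i * (if i = 0 then (revM ℂ (k + 1)).det else 1) = 1 := by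
    rw [Finset.prod_mul_distrib, Finset.prod_ite_eq' Finset.univ (0 : Fin (k + 1)), hUprod,
      if_pos (Finset.mem_univ _)]
    exact hsC
  obtain ⟨ut0, hut0, hut01⟩ := exists_unit_lifts (evAt L taut) hunit k
    (fun i => U i i * (if i = 0 then (revM ℂ (k + 1)).det else 1)) hUprod'
  obtain ⟨ut, hutdef⟩ : ∃ ut : Fin (k + 1) → (ringR L)ˣ,
    ut = fun i => ut0 i * (if i = 0 then sU else 1) := ⟨_, rfl⟩
  have hut : ∀ i, evAt L taut (ut i : ringR L) = U i i := by
    intro i
    rw [hutdef]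
    simp only [Units.val_mul, map_mul, hut0]
    by_cases h0 : i = 0
    · rw [if_pos h0, if_pos h0, hsev, mul_assoc, hsC, mul_one]
    · rw [if_neg h0, if_neg h0, Units.val_one, map_one, mul_one, mul_one]
  have hutprod : ∏ i, (ut i : ringR L) = (revM (ringR L) (k + 1)).det := by
    rw [hutdef]
    simp only [Units.val_mul]
    rw [Finset.prod_mul_distrib, hut01, one_mul, ← Units.coe_prod,
      Finset.prod_ite_eq' Finset.univ (0 : Fin (k + 1)), if_pos (Finset.mem_univ _), hsU]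
  -- the leading minors
  obtain ⟨Pt, hPt⟩ : ∃ Pt : ℕ → (ringR L)ˣ, Pt = fun t => ∏ i : Fin (k + 1),
    if i.val < t then famUnit L δ hδ1 hδ i * ut i * lt (Fin.rev i) else 1 := ⟨_, rfl⟩
  have hP0 : Pt 0 = 1 := by
    rw [hPt]
    exact Finset.prod_eq_one fun i _ => if_neg (Nat.not_lt_zero _)
  have hPev : ∀ t, t ≤ k + 1 → evAt L taut (Pt t : ringR L) = lead t (k + 1) (U * Lo) := by
    intro t _
    rw [hq, lead_mul_lt_ut (k + 1) t l b hl hb, hPt]
    simp only [Units.coe_prod, map_prod]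
    refine Finset.prod_congr rfl fun i _ => ?_
    by_cases hit : i.val < t
    · rw [if_pos hit, if_pos hit, Units.val_mul, Units.val_mul, map_mul, map_mul, evAt_famUnit,
        hut, hlt, hl1, one_mul, hbd]
    · rw [if_neg hit, if_neg hit, Units.val_one, map_one]
  have hPk : (Pt (k + 1) : ringR L) = (∏ i, (ut i : ringR L)) * ∏ i, (lt i : ringR L) := by
    rw [hPt]
    simp only [Units.coe_prod]
    have h1 : ∀ i : Fin (k + 1), (((if i.val < k + 1 then
        famUnit L δ hδ1 hδ i * ut i * lt (Fin.rev i) else 1 : (ringR L)ˣ)) : ringR L) =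
        (famUnit L δ hδ1 hδ i : ringR L) * (ut i : ringR L) * (lt (Fin.rev i) : ringR L) := by
      intro i
      rw [if_pos i.isLt, Units.val_mul, Units.val_mul]
    rw [Finset.prod_congr rfl fun i _ => h1 i, Finset.prod_mul_distrib, Finset.prod_mul_distrib,
      prod_famUnit, one_mul]
    congr 1
    exact Equiv.prod_comp Fin.revPerm fun i => (lt i : ringR L)
  obtain ⟨Ut, Lt, lR, bt, hUm, hLm, hUt, hUtd, hLt, hLtd, hlR, hlR1, hbt, hbtd, hqR⟩ :=
    g1_lift (evAt L taut) hunit (k + 1) U Lo ut lt Pt hU (fun i => (hut i).symm) hLo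
      (fun i => (hlt i).symm) hgen hP0 hPev hPk
  have hbtd' : ∀ i, bt i i = (famUnit L δ hδ1 hδ i : ringR L) * Ut i i *
      Lt (Fin.rev i) (Fin.rev i) := by
    intro i
    have h1 : Pt (i.val + 1) = Pt i.val * (famUnit L δ hδ1 hδ i * ut i * lt (Fin.rev i)) := by
      rw [hPt]
      exact prod_lt_succ _ i
    rw [hbtd, h1, mul_comm (Pt i.val), mul_assoc, mul_inv_cancel, mul_one, Units.val_mul,
      Units.val_mul, hUtd, hLtd]
  have hdLt : Lt.det = 1 := by
    rw [det_lt hLt]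
    simp only [hLtd]
    exact hlt1
  have hdUt : Ut.det = (revM (ringR L) (k + 1)).det := by
    rw [det_ut hUt]
    simp only [hUtd]
    exact hutprod
  obtain ⟨hAdet, hBdet, hKu, hKd, -, -⟩ := g1_chart_ring
    (fun i => (famUnit L δ hδ1 hδ i : ringR L)) Ut Lt lR bt hUt hLt hlR hlR1 hbt hbtd' hqR hdLt hdUt
  obtain ⟨AR, hAR⟩ : ∃ AR, AR = revM (ringR L) (k + 1) * Lt.adjugate * revM (ringR L) (k + 1) *
    lR.adjugate := ⟨_, rfl⟩
  obtain ⟨BR, hBR⟩ : ∃ BR, BR = Ut * Lt * revM (ringR L) (k + 1) := ⟨_, rfl⟩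
  rw [← hAR] at hAdet
  rw [← hBR] at hBdet
  rw [← hAR, ← hBR] at hKu hKd
  have hcK : (cmm AR BR).charpoly =
      ∏ i, (Polynomial.X - Polynomial.C (famUnit L δ hδ1 hδ i : ringR L)) := by
    rw [charpoly_ut hKu]
    exact Finset.prod_congr rfl fun i _ => by rw [hKd]
  obtain ⟨G, G', hGG', hG'G, hGmap, hG'map⟩ := lift_gl_inv (evAt L taut) hsurj hunit g g' hg
  obtain ⟨FA, hFA⟩ : ∃ FA, FA = G * AR * G' := ⟨_, rfl⟩
  obtain ⟨FB, hFB⟩ : ∃ FB, FB = G * BR * G' := ⟨_, rfl⟩
  have hFAdet : FA.det = 1 := by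
    rw [hFA]
    exact det_conj_one G G' AR hG'G hAdet
  have hFBdet : FB.det = 1 := by
    rw [hFB]
    exact det_conj_one G G' BR hG'G hBdet
  have hcF : (cmm FA FB).charpoly =
      ∏ i, (Polynomial.X - Polynomial.C (famUnit L δ hδ1 hδ i : ringR L)) := by
    rw [hFA, hFB, cmm_conj G G' AR BR hGG' hG'G, charpoly_conj' _ _ _ hG'G, hcK]
  have hLau : FLau (fun s => MvPolynomial.eval
      (fun x => ![FA.map (evAt L s), FB.map (evAt L s)] x.1 x.2.1 x.2.2) P) := by
    refine FLau.eval_comp P fun x => ?_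
    obtain ⟨e, i, j⟩ := x
    fin_cases e
    · exact flau_evAt L (FA i j)
    · exact flau_evAt L (FB i j)
  have hzero : ∀ s : ℂˣ → ℂˣ, (∀ t, s t ∈ Set.range (fun n : ℕ => fundUnit ^ n)) →
      MvPolynomial.eval
        (fun x => ![FA.map (evAt L s), FB.map (evAt L s)] x.1 x.2.1 x.2.2) P = 0 := by
    intro s hs
    have hsO : ∀ t, s t ∈ unitsO L := by
      intro t
      obtain ⟨n, hn⟩ := hs t
      rw [← hn]
      exact (unitsO L).pow_mem (fundUnit_mem_unitsO_of_mem hL) n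
    refine hP (FA.map (evAt L s)) (FB.map (evAt L s))
      (fun i j => evAt_mem_ringO L s hsO (FA i j)) (fun i j => evAt_mem_ringO L s hsO (FB i j))
      ?_ ?_ ?_
    · have h1 := RingHom.map_det (evAt L s) FA
      rw [RingHom.mapMatrix_apply, hFAdet, map_one] at h1
      exact h1.symm
    · have h1 := RingHom.map_det (evAt L s) FB
      rw [RingHom.mapMatrix_apply, hFBdet, map_one] at h1
      exact h1.symm
    · rw [← map_cmm, Matrix.charpoly_map, hcF, map_prod_famUnit]
  have h0 := hLau.eq_zero_of_infinite _ infinite_powers_fundUnit hzero taut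
  -- the lifted lower unitriangular factor
  have hlm : lR.map (evAt L taut) = l := by
    refine g1_lu_unique (lR.map (evAt L taut)) l (bt.map (evAt L taut)) b ?_ ?_ hl hl1 ?_ hb ?_ ?_
    · intro i j hij
      rw [Matrix.map_apply, hlR i j hij, map_zero]
    · intro i
      rw [Matrix.map_apply, hlR1, map_one]
    · intro i j hij
      rw [Matrix.map_apply, hbt i j hij, map_zero]
    · intro i
      rw [hbd]
      exact mul_ne_zero (mul_ne_zero (hδ0 i) (hUd i)) (hLod _)
    · rw [← Matrix.map_mul, ← hqR, Matrix.map_mul, hUm, hLm, hq]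
  have e1 : FA.map (evAt L taut) =
      g * (revM ℂ (k + 1) * Lo.adjugate * revM ℂ (k + 1) * l.adjugate) * g' := by
    rw [hFA, hAR]
    simp only [Matrix.map_mul, map_adj, revM_map, hGmap, hG'map, hLm, hlm]
  have e2 : FB.map (evAt L taut) = g * (U * Lo * revM ℂ (k + 1)) * g' := by
    rw [hFB, hBR]
    simp only [Matrix.map_mul, revM_map, hGmap, hG'map, hUm, hLm]
  rw [e1, e2] at h0
  exact h0

end Vale.Agent.Lib.P002
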