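import Vale.Agent.Lib.P002.SrField

/-!
Irreducibility of the representations in the open set of the density theorem when the first
eigenvalue family is constant: a nonzero subspace invariant under a matrix with a single
eigenvalue and an invertible chain frame contains the first column of the frame, which is a
cyclic vector of the product of all matrices of the tuple.
-/

namespace Vale.Agent.Lib.P002

open Matrix Polynomial

/-- A subspace invariant under every member of a list is invariant under the product. -/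
theorem invariant_list_prod {n : ℕ} (W : Submodule ℂ (Fin n → ℂ))
    (l : List (Matrix (Fin n) (Fin n) ℂ)) (h : ∀ M ∈ l, ∀ x ∈ W, M *ᵥ x ∈ W) :
    ∀ x ∈ W, l.prod *ᵥ x ∈ W := by
  induction l with
  | nil =>
    intro x hx
    rw [List.prod_nil, Matrix.one_mulVec]
    exact hx
  | cons M l ih =>
    intro x hx
    rw [List.prod_cons, ← Matrix.mulVec_mulVec]
    exact h M List.mem_cons_self _
      (ih (fun M' hM' => h M' (List.mem_cons_of_mem _ hM')) x hx)

theorem invariant_pow {n : ℕ} (W : Submodule ℂ (Fin n → ℂ)) (M : Matrix (Fin n) (Fin n) ℂ)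
    (h : ∀ x ∈ W, M *ᵥ x ∈ W) (j : ℕ) : ∀ x ∈ W, (M ^ j) *ᵥ x ∈ W := by
  induction j with
  | zero =>
    intro x hx
    rw [pow_zero, Matrix.one_mulVec]
    exact hx
  | succ j ih =>
    intro x hx
    rw [pow_succ', ← Matrix.mulVec_mulVec]
    exact h _ (ih x hx)

theorem invariant_aeval {n : ℕ} (W : Submodule ℂ (Fin n → ℂ)) (M : Matrix (Fin n) (Fin n) ℂ)
    (h : ∀ x ∈ W, M *ᵥ x ∈ W) (p : ℂ[X]) : ∀ x ∈ W, (aeval M p) *ᵥ x ∈ W := by
  induction p using Polynomial.induction_on' with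
  | add p q hp hq =>
    intro x hx
    rw [map_add, Matrix.add_mulVec]
    exact W.add_mem (hp x hx) (hq x hx)
  | monomial j c =>
    intro x hx
    rw [aeval_monomial, Algebra.algebraMap_eq_smul_one, smul_mul_assoc, one_mul,
      Matrix.smul_mulVec]
    exact W.smul_mem c (invariant_pow W M h j x hx)

/-- If all α_i are equal and the upper chain frame of A is invertible, every nonzero subspace
invariant under A contains the first column of the frame. -/
theorem frame_zero_mem {k : ℕ} (α : Fin (k + 1) → ℂ) (hα : ∀ i, α i = α 0)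
    (A : Matrix (Fin (k + 1)) (Fin (k + 1)) ℂ) (hA : A.charpoly = ∏ i, (X - C (α i)))
    (v : Fin (k + 1) → ℂ) (hdet : (jorU α A v).det ≠ 0)
    (W : Submodule ℂ (Fin (k + 1) → ℂ)) (hW : ∀ x ∈ W, A *ᵥ x ∈ W) (hne : W ≠ ⊥) :
    (fun r => jorU α A v r 0) ∈ W := by
  obtain ⟨a, hadef⟩ : ∃ a, a = jorU α A v := ⟨_, rfl⟩
  rw [← hadef] at hdet ⊢
  have hd : Matrix.diagonal α = (α 0) • (1 : Matrix (Fin (k + 1)) (Fin (k + 1)) ℂ) := by
    ext i j
    by_cases hij : i = j
    · subst hij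
      simp [hα i]
    · simp [Matrix.diagonal_apply_ne _ hij, Matrix.one_apply_ne hij]
  obtain ⟨N, hNdef⟩ : ∃ N, N = A - (α 0) • (1 : Matrix (Fin (k + 1)) (Fin (k + 1)) ℂ) :=
    ⟨_, rfl⟩
  have hNa : N * a = a * shU ℂ (k + 1) := by
    rw [hNdef, Matrix.sub_mul, hadef, mul_jorU α A hA v, Matrix.mul_add, hd]
    simp
  have hWN : ∀ x ∈ W, N *ᵥ x ∈ W := by
    intro x hx
    rw [hNdef, Matrix.sub_mulVec, Matrix.smul_mulVec, Matrix.one_mulVec]
    exact W.sub_mem (hW x hx) (W.smul_mem _ hx)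
  have hnil : N ^ (k + 1) = 0 := by
    have h0 := Matrix.aeval_self_charpoly A
    have hp : ∏ i, (X - C (α i)) = (X - C (α 0)) ^ (k + 1) := by
      rw [Finset.prod_congr rfl fun i _ => by rw [hα i], Finset.prod_const, Finset.card_univ,
        Fintype.card_fin]
    rw [hA, hp, map_pow, map_sub, aeval_X, aeval_C, Algebra.algebraMap_eq_smul_one] at h0
    rw [hNdef]
    exact h0
  obtain ⟨w, hwW, hw0⟩ := (Submodule.ne_bot_iff W).mp hne
  have hfind : ∀ j, (N ^ j) *ᵥ w = 0 →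
      ∃ i, (N ^ i) *ᵥ w ≠ 0 ∧ (N ^ (i + 1)) *ᵥ w = 0 := by
    intro j
    induction j with
    | zero =>
      intro h
      rw [pow_zero, Matrix.one_mulVec] at h
      exact absurd h hw0
    | succ j ih =>
      intro h
      by_cases h' : (N ^ j) *ᵥ w = 0
      · exact ih h'
      · exact ⟨j, h', h⟩
  obtain ⟨i, hi0, hi1⟩ := hfind (k + 1) (by rw [hnil, Matrix.zero_mulVec])
  obtain ⟨z, hzdef⟩ : ∃ z, z = (N ^ i) *ᵥ w := ⟨_, rfl⟩
  have hzW : z ∈ W := by
    rw [hzdef]
    exact invariant_pow W N hWN i w hwW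
  have hz0 : z ≠ 0 := by
    rw [hzdef]
    exact hi0
  have hNz : N *ᵥ z = 0 := by
    rw [hzdef, Matrix.mulVec_mulVec, ← pow_succ']
    exact hi1
  have hau : IsUnit a.det := isUnit_iff_ne_zero.mpr hdet
  have haa : a * a⁻¹ = 1 := Matrix.mul_nonsing_inv a hau
  have haa' : a⁻¹ * a = 1 := Matrix.nonsing_inv_mul a hau
  obtain ⟨c, hcdef⟩ : ∃ c, c = a⁻¹ *ᵥ z := ⟨_, rfl⟩
  have hzc : z = a *ᵥ c := by
    rw [hcdef, Matrix.mulVec_mulVec, haa, Matrix.one_mulVec]
  have hsc : shU ℂ (k + 1) *ᵥ c = 0 := by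
    have h1 : a *ᵥ (shU ℂ (k + 1) *ᵥ c) = 0 := by
      rw [Matrix.mulVec_mulVec, ← hNa, ← Matrix.mulVec_mulVec, ← hzc]
      exact hNz
    have h2 := congrArg (fun y => a⁻¹ *ᵥ y) h1
    simp only [Matrix.mulVec_mulVec, Matrix.mulVec_zero] at h2
    rw [← Matrix.mul_assoc, haa', Matrix.one_mul] at h2
    exact h2
  have hc0 : ∀ j : Fin k, c j.succ = 0 := by
    intro j
    have h := congrFun hsc j.castSucc
    have e : (shU ℂ (k + 1) *ᵥ c) j.castSucc = c j.succ := by
      simp only [Matrix.mulVec, dotProduct]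
      rw [Finset.sum_eq_single j.succ]
      · simp [shU]
      · intro l _ hl
        have hne' : ¬ ((j : ℕ) + 1 = (l : ℕ)) := by
          intro h'
          apply hl
          ext
          simpa using h'.symm
        simp [shU, hne']
      · intro h'
        exact absurd (Finset.mem_univ _) h'
    rw [e] at h
    exact h
  obtain ⟨t, htdef⟩ : ∃ t, t = c 0 := ⟨_, rfl⟩
  have hcc : c = t • Pi.single 0 1 := by
    funext r
    refine Fin.cases ?_ (fun j => ?_) r
    · simp [htdef]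
    · simp [hc0 j, Fin.succ_ne_zero]
  have hz' : z = t • (fun r => a r 0) := by
    rw [hzc, hcc, Matrix.mulVec_smul, Matrix.mulVec_single_one]
    rfl
  have ht0 : t ≠ 0 := by
    rintro rfl
    apply hz0
    rw [hz', zero_smul]
  have hfin : (fun r => a r 0) = t⁻¹ • z := by
    rw [hz', smul_smul, inv_mul_cancel₀ ht0, one_smul]
  rw [hfin]
  exact W.smul_mem _ hzW

/-- The density theorem over every field, given a chart tuple with invertible chain frames,
with the irreducibility of the points of the open set when the first eigenvalue family is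
constant. -/
theorem spheres_regular_core_irred (n m : ℕ) (α β δ : Fin (n + 2) → ℂ)
    (γ : Fin m → Fin (n + 2) → ℂ)
    (hα : ∀ i, IsIntegral ℤ (α i)) (hβ : ∀ i, IsIntegral ℤ (β i)) (hδ : ∀ i, IsIntegral ℤ (δ i))
    (hγ : ∀ l i, IsIntegral ℤ (γ l i))
    (hα1 : ∏ i, α i = 1) (hβ1 : ∏ i, β i = 1) (hδ1 : ∏ i, δ i = 1)
    (hγ1 : ∀ l, ∏ i, γ l i = 1)
    (hex : ∃ (A B : Matrix (Fin (n + 2)) (Fin (n + 2)) ℂ)
      (Z : Fin m → Matrix (Fin (n + 2)) (Fin (n + 2)) ℂ) (v w : Fin (n + 2) → ℂ),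
      ChartY (n + 1) m α β δ γ A B Z ∧ (jorU α A v).det ≠ 0 ∧ (jorL β B w).det ≠ 0) :
    ∃ F : MvPolynomial ((Fin 2 ⊕ Fin m) × Fin (n + 2) × Fin (n + 2)) ℂ,
      (∃ (A B : Matrix (Fin (n + 2)) (Fin (n + 2)) ℂ)
        (Z : Fin m → Matrix (Fin (n + 2)) (Fin (n + 2)) ℂ),
        A.charpoly = ∏ i, (Polynomial.X - Polynomial.C (α i)) ∧
        B.charpoly = ∏ i, (Polynomial.X - Polynomial.C (β i)) ∧
        (∀ l, (Z l).charpoly = ∏ i, (Polynomial.X - Polynomial.C (γ l i))) ∧
        (A * (List.ofFn Z).prod * B).charpoly = ∏ i, (Polynomial.X - Polynomial.C (δ i)) ∧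
        MvPolynomial.eval (fun x => Sum.elim ![A, B] Z x.1 x.2.1 x.2.2) F ≠ 0) ∧
      (∀ (A B : Matrix (Fin (n + 2)) (Fin (n + 2)) ℂ)
        (Z : Fin m → Matrix (Fin (n + 2)) (Fin (n + 2)) ℂ),
        A.charpoly = ∏ i, (Polynomial.X - Polynomial.C (α i)) →
        B.charpoly = ∏ i, (Polynomial.X - Polynomial.C (β i)) →
        (∀ l, (Z l).charpoly = ∏ i, (Polynomial.X - Polynomial.C (γ l i))) →
        (A * (List.ofFn Z).prod * B).charpoly = ∏ i, (Polynomial.X - Polynomial.C (δ i)) →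
        MvPolynomial.eval (fun x => Sum.elim ![A, B] Z x.1 x.2.1 x.2.2) F ≠ 0 →
        (∃ v : Fin (n + 2) → ℂ, ∀ u : Fin (n + 2) → ℂ, ∃ p : Polynomial ℂ,
          Matrix.mulVec (Polynomial.aeval A p) v = u) ∧
        (∃ v : Fin (n + 2) → ℂ, ∀ u : Fin (n + 2) → ℂ, ∃ p : Polynomial ℂ,
          Matrix.mulVec (Polynomial.aeval B p) v = u) ∧
        (∀ l, ∃ v : Fin (n + 2) → ℂ, ∀ u : Fin (n + 2) → ℂ, ∃ p : Polynomial ℂ,
          Matrix.mulVec (Polynomial.aeval (Z l) p) v = u) ∧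
        ∃ v : Fin (n + 2) → ℂ, ∀ u : Fin (n + 2) → ℂ, ∃ p : Polynomial ℂ,
          Matrix.mulVec (Polynomial.aeval (A * (List.ofFn Z).prod * B) p) v = u) ∧
      ((∀ i, α i = α 0) →
        ∀ (A B : Matrix (Fin (n + 2)) (Fin (n + 2)) ℂ)
          (Z : Fin m → Matrix (Fin (n + 2)) (Fin (n + 2)) ℂ),
          A.charpoly = ∏ i, (Polynomial.X - Polynomial.C (α i)) →
          B.charpoly = ∏ i, (Polynomial.X - Polynomial.C (β i)) →
          (∀ l, (Z l).charpoly = ∏ i, (Polynomial.X - Polynomial.C (γ l i))) →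
          (A * (List.ofFn Z).prod * B).charpoly = ∏ i, (Polynomial.X - Polynomial.C (δ i)) →
          MvPolynomial.eval (fun x => Sum.elim ![A, B] Z x.1 x.2.1 x.2.2) F ≠ 0 →
          ∀ W : Submodule ℂ (Fin (n + 2) → ℂ), (∀ x ∈ W, Matrix.mulVec A x ∈ W) →
            (∀ x ∈ W, Matrix.mulVec B x ∈ W) → (∀ l, ∀ x ∈ W, Matrix.mulVec (Z l) x ∈ W) →
            W = ⊥ ∨ W = ⊤) ∧
      ∀ L : IntermediateField ℚ ℂ, (∃ s ∈ L, s ^ 2 = 2) → (∀ i, α i ∈ L) → (∀ i, β i ∈ L) →
        (∀ i, δ i ∈ L) → (∀ l i, γ l i ∈ L) →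
        ∀ P : MvPolynomial ((Fin 2 ⊕ Fin m) × Fin (n + 2) × Fin (n + 2)) ℂ,
          (∀ (A B : Matrix (Fin (n + 2)) (Fin (n + 2)) ℂ)
            (Z : Fin m → Matrix (Fin (n + 2)) (Fin (n + 2)) ℂ),
            (∀ i j, A i j ∈ L ∧ IsIntegral ℤ (A i j)) →
            (∀ i j, B i j ∈ L ∧ IsIntegral ℤ (B i j)) →
            (∀ l i j, Z l i j ∈ L ∧ IsIntegral ℤ (Z l i j)) →
            A.charpoly = ∏ i, (Polynomial.X - Polynomial.C (α i)) →
            B.charpoly = ∏ i, (Polynomial.X - Polynomial.C (β i)) →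
            (∀ l, (Z l).charpoly = ∏ i, (Polynomial.X - Polynomial.C (γ l i))) →
            (A * (List.ofFn Z).prod * B).charpoly = ∏ i, (Polynomial.X - Polynomial.C (δ i)) →
            MvPolynomial.eval (fun x => Sum.elim ![A, B] Z x.1 x.2.1 x.2.2) F ≠ 0 →
            MvPolynomial.eval (fun x => Sum.elim ![A, B] Z x.1 x.2.1 x.2.2) P = 0) →
          ∀ (A B : Matrix (Fin (n + 2)) (Fin (n + 2)) ℂ)
            (Z : Fin m → Matrix (Fin (n + 2)) (Fin (n + 2)) ℂ),
            A.charpoly = ∏ i, (Polynomial.X - Polynomial.C (α i)) →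
            B.charpoly = ∏ i, (Polynomial.X - Polynomial.C (β i)) →
            (∀ l, (Z l).charpoly = ∏ i, (Polynomial.X - Polynomial.C (γ l i))) →
            (A * (List.ofFn Z).prod * B).charpoly = ∏ i, (Polynomial.X - Polynomial.C (δ i)) →
            MvPolynomial.eval (fun x => Sum.elim ![A, B] Z x.1 x.2.1 x.2.2) F ≠ 0 →
            MvPolynomial.eval (fun x => Sum.elim ![A, B] Z x.1 x.2.1 x.2.2) P = 0 := by
  obtain ⟨A0, B0, Z0, v, w, hch, hdA, hdB⟩ := hex
  refine ⟨polyJ (n + 1) m α β v w, ?_, ?_, ?_, ?_⟩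
  · have hch' := hch
    obtain ⟨c1, c2, c3, c4, c5, c6, -, -, -⟩ := hch'
    have hau : ∀ i j, j < i → jorU α A0 v i j = 0 := fun i j hij => jorU_ut α c1 c2 v j i hij
    have hbl : ∀ i j, i < j → jorL β B0 w i j = 0 := fun i j hij => jorL_lt β c3 c4 w j i hij
    have had : ∀ i, jorU α A0 v i i ≠ 0 := by
      rw [det_ut hau] at hdA
      exact fun i => Finset.prod_ne_zero_iff.mp hdA i (Finset.mem_univ i)
    have hbd : ∀ i, jorL β B0 w i i ≠ 0 := by
      rw [det_lt hbl] at hdB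
      exact fun i => Finset.prod_ne_zero_iff.mp hdB i (Finset.mem_univ i)
    have hne := genG_chart_ne_zero (n + 1) m α β δ γ hβ1 hγ1 A0 B0 Z0 hch _ _ hau had
      hbl hbd
    refine ⟨A0, B0, Z0, ?_, ?_, c5, c6, ?_⟩
    · rw [charpoly_ut c1]
      simp only [c2]
    · rw [charpoly_lt c3]
      simp only [c4]
    · rw [eval_polyJ]
      exact hne
  · intro A B Z hA hB hZ hN hF
    rw [eval_polyJ] at hF
    unfold genJ genG at hF
    have g5 := right_ne_zero_of_mul hF
    have hF4 := left_ne_zero_of_mul hF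
    have g4 := right_ne_zero_of_mul hF4
    have hF3 := left_ne_zero_of_mul hF4
    have hF2 := left_ne_zero_of_mul hF3
    have g2 := right_ne_zero_of_mul hF2
    have g1 := left_ne_zero_of_mul hF2
    have hb : (jorL β B w).det ≠ 0 := by
      have h := trailDet_ne_zero_det (n + 1 + 1) _ g2
      rw [Matrix.det_mul] at h
      exact right_ne_zero_of_mul h
    exact ⟨⟨v, cyc_of_det_jorU α A v g1⟩, ⟨w, cyc_of_det_jorL β B w hb⟩,
      fun l => ⟨_, cyc_of_isUnit_det_kry (isUnit_iff_ne_zero.mpr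
        (Finset.prod_ne_zero_iff.mp g4 l (Finset.mem_univ l)))⟩,
      ⟨_, cyc_of_isUnit_det_kry (isUnit_iff_ne_zero.mpr g5)⟩⟩
  · intro hαc A B Z hA hB hZ hN hF W hWA hWB hWZ
    rw [eval_polyJ] at hF
    unfold genJ genG at hF
    have g5 := right_ne_zero_of_mul hF
    have hF4 := left_ne_zero_of_mul hF
    have hF3 := left_ne_zero_of_mul hF4
    have hF2 := left_ne_zero_of_mul hF3
    have g1 := left_ne_zero_of_mul hF2
    by_cases hW : W = ⊥
    · exact Or.inl hW
    · refine Or.inr ?_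
      have hx0 := frame_zero_mem α hαc A hA v g1 W hWA hW
      have hWM : ∀ x ∈ W, (A * (List.ofFn Z).prod * B) *ᵥ x ∈ W := by
        intro x hx
        rw [← Matrix.mulVec_mulVec, ← Matrix.mulVec_mulVec]
        refine hWA _ (invariant_list_prod W _ (fun M' hM' => ?_) _ (hWB x hx))
        obtain ⟨l, rfl⟩ := (List.mem_ofFn' Z M').mp hM'
        exact hWZ l
      have hcyc : Cyc (A * (List.ofFn Z).prod * B) (fun i => jorU α A v i 0) :=
        cyc_of_isUnit_det_kry (isUnit_iff_ne_zero.mpr g5)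
      rw [Submodule.eq_top_iff']
      intro u
      obtain ⟨p, hp⟩ := hcyc u
      rw [← hp]
      exact invariant_aeval W _ hWM p _ hx0
  · intro L hs hαL hβL hδL hγL P hP A B Z hA hB hZ hN hF
    obtain ⟨s, hsL, hs2⟩ := hs
    have hsq : sqrtTwo ∈ L := by
      have h0 : (s - sqrtTwo) * (s + sqrtTwo) = 0 := by
        linear_combination hs2 - sqrtTwo_mul_self
      rcases mul_eq_zero.mp h0 with h | h
      · have e : s = sqrtTwo := sub_eq_zero.mp h
        rw [← e]
        exact hsL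
      · have e : sqrtTwo = -s := by linear_combination h
        rw [e]
        exact L.neg_mem hsL
    have hPF : ∀ (A B : Matrix (Fin (n + 2)) (Fin (n + 2)) ℂ)
        (Z : Fin m → Matrix (Fin (n + 2)) (Fin (n + 2)) ℂ),
        (∀ i j, A i j ∈ L ∧ IsIntegral ℤ (A i j)) →
        (∀ i j, B i j ∈ L ∧ IsIntegral ℤ (B i j)) →
        (∀ l i j, Z l i j ∈ L ∧ IsIntegral ℤ (Z l i j)) →
        A.charpoly = ∏ i, (Polynomial.X - Polynomial.C (α i)) →
        B.charpoly = ∏ i, (Polynomial.X - Polynomial.C (β i)) →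
        (∀ l, (Z l).charpoly = ∏ i, (Polynomial.X - Polynomial.C (γ l i))) →
        (A * (List.ofFn Z).prod * B).charpoly = ∏ i, (Polynomial.X - Polynomial.C (δ i)) →
        MvPolynomial.eval (fun x => Sum.elim ![A, B] Z x.1 x.2.1 x.2.2)
          (P * polyJ (n + 1) m α β v w) = 0 := by
      intro A' B' Z' hA' hB' hZ' c1 c2 c3 c4
      rw [map_mul]
      by_cases hF' : MvPolynomial.eval (fun x => Sum.elim ![A', B'] Z' x.1 x.2.1 x.2.2)
          (polyJ (n + 1) m α β v w) = 0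
      · rw [hF', mul_zero]
      · rw [hP A' B' Z' hA' hB' hZ' c1 c2 c3 c4 hF', zero_mul]
    have hF0 := hF
    rw [eval_polyJ] at hF
    unfold genJ genG at hF
    have g5 := right_ne_zero_of_mul hF
    have hF4 := left_ne_zero_of_mul hF
    have g4 := right_ne_zero_of_mul hF4
    have hF3 := left_ne_zero_of_mul hF4
    have g3 := right_ne_zero_of_mul hF3
    have hF2 := left_ne_zero_of_mul hF3
    have g2 := right_ne_zero_of_mul hF2
    have g1 := left_ne_zero_of_mul hF2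
    obtain ⟨g, g', A', B', Z', hgg, hch', eA, eB, eZ⟩ :=
      chart_of_regular (n + 1) m α β δ γ A B Z v w (jorU α A v) (jorL β B w) rfl rfl
        hA hB hZ hN g1 g2
        (fun l => Finset.prod_ne_zero_iff.mp g3 l (Finset.mem_univ l))
        (fun l => Finset.prod_ne_zero_iff.mp g4 l (Finset.mem_univ l)) g5
    have key := spheres_dense_field L hsq (n + 1) m α β δ γ hα hβ hδ hγ hαL hβL hδL hγL
      hα1 hβ1 hδ1 hγ1 (P * polyJ (n + 1) m α β v w) hPF g g' A' B' Z' hgg hch'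
    have eZ' : (fun l => g * Z' l * g') = Z := by
      funext l
      exact (eZ l).symm
    rw [← eA, ← eB, eZ', map_mul] at key
    exact (mul_eq_zero.mp key).resolve_right hF0

/-- Let n and m be natural numbers, not both zero.  Let α, β, δ and γ_l (l < m) be families of
n + 2 algebraic integers, all of product one, with no further condition.  Let V be the set of
tuples (A, B, Z_0, ..., Z_{m-1}) of complex matrices of size n + 2 such that A, B, Z_l and
A Z_0 ... Z_{m-1} B have characteristic polynomials with roots α, β, γ_l and δ.  There is a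
polynomial F in the entries of the tuple such that F does not vanish identically on V, every
matrix A, B, Z_l and A Z_0 ... Z_{m-1} B of a point of V at which F does not vanish has a
cyclic vector, if all α_i are equal then the matrices of a point of V at which F does not
vanish have no common invariant subspace besides zero and the whole space, and for every
subfield L of the complex numbers which contains a square root of two and all the numbers
α_i, β_i, δ_i, γ_l i, every polynomial P which vanishes at all points of V with entries in the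
ring of integers of L at which F does not vanish vanishes at every point of V at which F does
not vanish.  Such a field L of finite degree exists. -/
theorem spheres_regular_irred (n m : ℕ) (hnm : 1 ≤ n ∨ 1 ≤ m) (α β δ : Fin (n + 2) → ℂ)
    (γ : Fin m → Fin (n + 2) → ℂ)
    (hα : ∀ i, IsIntegral ℤ (α i)) (hβ : ∀ i, IsIntegral ℤ (β i)) (hδ : ∀ i, IsIntegral ℤ (δ i))
    (hγ : ∀ l i, IsIntegral ℤ (γ l i))
    (hα1 : ∏ i, α i = 1) (hβ1 : ∏ i, β i = 1) (hδ1 : ∏ i, δ i = 1)
    (hγ1 : ∀ l, ∏ i, γ l i = 1) :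
    (∃ F : MvPolynomial ((Fin 2 ⊕ Fin m) × Fin (n + 2) × Fin (n + 2)) ℂ,
      (∃ (A B : Matrix (Fin (n + 2)) (Fin (n + 2)) ℂ)
        (Z : Fin m → Matrix (Fin (n + 2)) (Fin (n + 2)) ℂ),
        A.charpoly = ∏ i, (Polynomial.X - Polynomial.C (α i)) ∧
        B.charpoly = ∏ i, (Polynomial.X - Polynomial.C (β i)) ∧
        (∀ l, (Z l).charpoly = ∏ i, (Polynomial.X - Polynomial.C (γ l i))) ∧
        (A * (List.ofFn Z).prod * B).charpoly = ∏ i, (Polynomial.X - Polynomial.C (δ i)) ∧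
        MvPolynomial.eval (fun x => Sum.elim ![A, B] Z x.1 x.2.1 x.2.2) F ≠ 0) ∧
      (∀ (A B : Matrix (Fin (n + 2)) (Fin (n + 2)) ℂ)
        (Z : Fin m → Matrix (Fin (n + 2)) (Fin (n + 2)) ℂ),
        A.charpoly = ∏ i, (Polynomial.X - Polynomial.C (α i)) →
        B.charpoly = ∏ i, (Polynomial.X - Polynomial.C (β i)) →
        (∀ l, (Z l).charpoly = ∏ i, (Polynomial.X - Polynomial.C (γ l i))) →
        (A * (List.ofFn Z).prod * B).charpoly = ∏ i, (Polynomial.X - Polynomial.C (δ i)) →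
        MvPolynomial.eval (fun x => Sum.elim ![A, B] Z x.1 x.2.1 x.2.2) F ≠ 0 →
        (∃ v : Fin (n + 2) → ℂ, ∀ u : Fin (n + 2) → ℂ, ∃ p : Polynomial ℂ,
          Matrix.mulVec (Polynomial.aeval A p) v = u) ∧
        (∃ v : Fin (n + 2) → ℂ, ∀ u : Fin (n + 2) → ℂ, ∃ p : Polynomial ℂ,
          Matrix.mulVec (Polynomial.aeval B p) v = u) ∧
        (∀ l, ∃ v : Fin (n + 2) → ℂ, ∀ u : Fin (n + 2) → ℂ, ∃ p : Polynomial ℂ,
          Matrix.mulVec (Polynomial.aeval (Z l) p) v = u) ∧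
        ∃ v : Fin (n + 2) → ℂ, ∀ u : Fin (n + 2) → ℂ, ∃ p : Polynomial ℂ,
          Matrix.mulVec (Polynomial.aeval (A * (List.ofFn Z).prod * B) p) v = u) ∧
      ((∀ i, α i = α 0) →
        ∀ (A B : Matrix (Fin (n + 2)) (Fin (n + 2)) ℂ)
          (Z : Fin m → Matrix (Fin (n + 2)) (Fin (n + 2)) ℂ),
          A.charpoly = ∏ i, (Polynomial.X - Polynomial.C (α i)) →
          B.charpoly = ∏ i, (Polynomial.X - Polynomial.C (β i)) →
          (∀ l, (Z l).charpoly = ∏ i, (Polynomial.X - Polynomial.C (γ l i))) →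
          (A * (List.ofFn Z).prod * B).charpoly = ∏ i, (Polynomial.X - Polynomial.C (δ i)) →
          MvPolynomial.eval (fun x => Sum.elim ![A, B] Z x.1 x.2.1 x.2.2) F ≠ 0 →
          ∀ W : Submodule ℂ (Fin (n + 2) → ℂ), (∀ x ∈ W, Matrix.mulVec A x ∈ W) →
            (∀ x ∈ W, Matrix.mulVec B x ∈ W) → (∀ l, ∀ x ∈ W, Matrix.mulVec (Z l) x ∈ W) →
            W = ⊥ ∨ W = ⊤) ∧
      ∀ L : IntermediateField ℚ ℂ, (∃ s ∈ L, s ^ 2 = 2) → (∀ i, α i ∈ L) → (∀ i, β i ∈ L) →
        (∀ i, δ i ∈ L) → (∀ l i, γ l i ∈ L) →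
        ∀ P : MvPolynomial ((Fin 2 ⊕ Fin m) × Fin (n + 2) × Fin (n + 2)) ℂ,
          (∀ (A B : Matrix (Fin (n + 2)) (Fin (n + 2)) ℂ)
            (Z : Fin m → Matrix (Fin (n + 2)) (Fin (n + 2)) ℂ),
            (∀ i j, A i j ∈ L ∧ IsIntegral ℤ (A i j)) →
            (∀ i j, B i j ∈ L ∧ IsIntegral ℤ (B i j)) →
            (∀ l i j, Z l i j ∈ L ∧ IsIntegral ℤ (Z l i j)) →
            A.charpoly = ∏ i, (Polynomial.X - Polynomial.C (α i)) →
            B.charpoly = ∏ i, (Polynomial.X - Polynomial.C (β i)) →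
            (∀ l, (Z l).charpoly = ∏ i, (Polynomial.X - Polynomial.C (γ l i))) →
            (A * (List.ofFn Z).prod * B).charpoly = ∏ i, (Polynomial.X - Polynomial.C (δ i)) →
            MvPolynomial.eval (fun x => Sum.elim ![A, B] Z x.1 x.2.1 x.2.2) F ≠ 0 →
            MvPolynomial.eval (fun x => Sum.elim ![A, B] Z x.1 x.2.1 x.2.2) P = 0) →
          ∀ (A B : Matrix (Fin (n + 2)) (Fin (n + 2)) ℂ)
            (Z : Fin m → Matrix (Fin (n + 2)) (Fin (n + 2)) ℂ),
            A.charpoly = ∏ i, (Polynomial.X - Polynomial.C (α i)) →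
            B.charpoly = ∏ i, (Polynomial.X - Polynomial.C (β i)) →
            (∀ l, (Z l).charpoly = ∏ i, (Polynomial.X - Polynomial.C (γ l i))) →
            (A * (List.ofFn Z).prod * B).charpoly = ∏ i, (Polynomial.X - Polynomial.C (δ i)) →
            MvPolynomial.eval (fun x => Sum.elim ![A, B] Z x.1 x.2.1 x.2.2) F ≠ 0 →
            MvPolynomial.eval (fun x => Sum.elim ![A, B] Z x.1 x.2.1 x.2.2) P = 0) ∧
      ∃ L : IntermediateField ℚ ℂ, FiniteDimensional ℚ L ∧ (∃ s ∈ L, s ^ 2 = 2) ∧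
        (∀ i, α i ∈ L) ∧ (∀ i, β i ∈ L) ∧ (∀ i, δ i ∈ L) ∧ ∀ l i, γ l i ∈ L := by
  constructor
  · obtain ⟨π, hπ⟩ := exists_grouped_perm α
    have hp : ∏ i, (Polynomial.X - Polynomial.C (α (π i))) =
        ∏ i, (Polynomial.X - Polynomial.C (α i)) :=
      Equiv.prod_comp π (fun i => Polynomial.X - Polynomial.C (α i))
    have hα1' : ∏ i, α (π i) = 1 := by
      rw [Equiv.prod_comp π α]
      exact hα1
    have h := spheres_regular_core_irred n m (fun i => α (π i)) β δ γ (fun i => hα (π i)) hβ hδ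
      hγ hα1' hβ1 hδ1 hγ1
      (exists_regular_chart_all n m hnm (fun i => α (π i)) β δ γ hα1' hβ1 hδ1 hγ1 hπ)
    simp only [hp] at h
    obtain ⟨F, h1, h2, h3, h4⟩ := h
    exact ⟨F, h1, h2, fun hαc => h3 (fun i => by rw [hαc (π i), hαc (π 0)]),
      fun L hs hαL hβL hδL hγL => h4 L hs (fun i => hαL (π i)) hβL hδL hγL⟩
  · refine ⟨fieldQ α β δ γ, fieldQ_finiteDimensional α β δ γ hα hβ hδ hγ,
      ⟨sqrtTwo, sqrtTwo_mem_fieldQ α β δ γ, by rw [pow_two, sqrtTwo_mul_self]⟩,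
      fun i => IntermediateField.subset_adjoin ℚ _ (by simp),
      fun i => IntermediateField.subset_adjoin ℚ _ (by simp),
      fun i => IntermediateField.subset_adjoin ℚ _ (by simp),
      fun l i => gamma_mem_fieldQ α β δ γ l i⟩

/-- Let n and m be natural numbers, not both zero.  Let α, β, δ and γ_l (l < m) be families of
n + 2 algebraic integers, all of product one, with no further condition.  Let V be the set of
tuples (A, B, Z_0, ..., Z_{m-1}) of complex matrices of size n + 2 such that A, B, Z_l and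
A Z_0 ... Z_{m-1} B have characteristic polynomials with roots α, β, γ_l and δ.  There is a
polynomial F in the entries of the tuple which does not vanish identically on V, such that
at every point (A, B, Z) of V at which F does not vanish: the matrices A, B, Z_l and
A Z_0 ... Z_{m-1} B have cyclic vectors; if all α_i are equal, the matrices A, B, Z_l have no
common invariant subspace besides zero and the whole space; and for every subfield L of the
complex numbers which contains a square root of two and all the numbers α_i, β_i, δ_i, γ_l i,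
every polynomial P which vanishes at all points of V with entries in the ring of integers of L
at which F does not vanish, vanishes at (A, B, Z).  Such a field L of finite degree exists. -/
theorem spheres_regular_irred_pointwise (n m : ℕ) (hnm : 1 ≤ n ∨ 1 ≤ m)
    (α β δ : Fin (n + 2) → ℂ) (γ : Fin m → Fin (n + 2) → ℂ)
    (hα : ∀ i, IsIntegral ℤ (α i)) (hβ : ∀ i, IsIntegral ℤ (β i)) (hδ : ∀ i, IsIntegral ℤ (δ i))
    (hγ : ∀ l i, IsIntegral ℤ (γ l i))
    (hα1 : ∏ i, α i = 1) (hβ1 : ∏ i, β i = 1) (hδ1 : ∏ i, δ i = 1)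
    (hγ1 : ∀ l, ∏ i, γ l i = 1) :
    (∃ F : MvPolynomial ((Fin 2 ⊕ Fin m) × Fin (n + 2) × Fin (n + 2)) ℂ,
      (∃ (A B : Matrix (Fin (n + 2)) (Fin (n + 2)) ℂ)
        (Z : Fin m → Matrix (Fin (n + 2)) (Fin (n + 2)) ℂ),
        A.charpoly = ∏ i, (Polynomial.X - Polynomial.C (α i)) ∧
        B.charpoly = ∏ i, (Polynomial.X - Polynomial.C (β i)) ∧
        (∀ l, (Z l).charpoly = ∏ i, (Polynomial.X - Polynomial.C (γ l i))) ∧
        (A * (List.ofFn Z).prod * B).charpoly = ∏ i, (Polynomial.X - Polynomial.C (δ i)) ∧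
        MvPolynomial.eval (fun x => Sum.elim ![A, B] Z x.1 x.2.1 x.2.2) F ≠ 0) ∧
      ∀ (A B : Matrix (Fin (n + 2)) (Fin (n + 2)) ℂ)
        (Z : Fin m → Matrix (Fin (n + 2)) (Fin (n + 2)) ℂ),
        A.charpoly = ∏ i, (Polynomial.X - Polynomial.C (α i)) →
        B.charpoly = ∏ i, (Polynomial.X - Polynomial.C (β i)) →
        (∀ l, (Z l).charpoly = ∏ i, (Polynomial.X - Polynomial.C (γ l i))) →
        (A * (List.ofFn Z).prod * B).charpoly = ∏ i, (Polynomial.X - Polynomial.C (δ i)) →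
        MvPolynomial.eval (fun x => Sum.elim ![A, B] Z x.1 x.2.1 x.2.2) F ≠ 0 →
        ((∃ v : Fin (n + 2) → ℂ, ∀ u : Fin (n + 2) → ℂ, ∃ p : Polynomial ℂ,
            Matrix.mulVec (Polynomial.aeval A p) v = u) ∧
          (∃ v : Fin (n + 2) → ℂ, ∀ u : Fin (n + 2) → ℂ, ∃ p : Polynomial ℂ,
            Matrix.mulVec (Polynomial.aeval B p) v = u) ∧
          (∀ l, ∃ v : Fin (n + 2) → ℂ, ∀ u : Fin (n + 2) → ℂ, ∃ p : Polynomial ℂ,
            Matrix.mulVec (Polynomial.aeval (Z l) p) v = u) ∧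
          ∃ v : Fin (n + 2) → ℂ, ∀ u : Fin (n + 2) → ℂ, ∃ p : Polynomial ℂ,
            Matrix.mulVec (Polynomial.aeval (A * (List.ofFn Z).prod * B) p) v = u) ∧
        ((∀ i, α i = α 0) →
          ∀ W : Submodule ℂ (Fin (n + 2) → ℂ), (∀ x ∈ W, Matrix.mulVec A x ∈ W) →
            (∀ x ∈ W, Matrix.mulVec B x ∈ W) → (∀ l, ∀ x ∈ W, Matrix.mulVec (Z l) x ∈ W) →
            W = ⊥ ∨ W = ⊤) ∧
        ∀ L : IntermediateField ℚ ℂ, (∃ s ∈ L, s ^ 2 = 2) → (∀ i, α i ∈ L) → (∀ i, β i ∈ L) →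
          (∀ i, δ i ∈ L) → (∀ l i, γ l i ∈ L) →
          ∀ P : MvPolynomial ((Fin 2 ⊕ Fin m) × Fin (n + 2) × Fin (n + 2)) ℂ,
            (∀ (A' B' : Matrix (Fin (n + 2)) (Fin (n + 2)) ℂ)
              (Z' : Fin m → Matrix (Fin (n + 2)) (Fin (n + 2)) ℂ),
              (∀ i j, A' i j ∈ L ∧ IsIntegral ℤ (A' i j)) →
              (∀ i j, B' i j ∈ L ∧ IsIntegral ℤ (B' i j)) →
              (∀ l i j, Z' l i j ∈ L ∧ IsIntegral ℤ (Z' l i j)) →
              A'.charpoly = ∏ i, (Polynomial.X - Polynomial.C (α i)) →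
              B'.charpoly = ∏ i, (Polynomial.X - Polynomial.C (β i)) →
              (∀ l, (Z' l).charpoly = ∏ i, (Polynomial.X - Polynomial.C (γ l i))) →
              (A' * (List.ofFn Z').prod * B').charpoly =
                ∏ i, (Polynomial.X - Polynomial.C (δ i)) →
              MvPolynomial.eval (fun x => Sum.elim ![A', B'] Z' x.1 x.2.1 x.2.2) F ≠ 0 →
              MvPolynomial.eval (fun x => Sum.elim ![A', B'] Z' x.1 x.2.1 x.2.2) P = 0) →
            MvPolynomial.eval (fun x => Sum.elim ![A, B] Z x.1 x.2.1 x.2.2) P = 0) ∧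
      ∃ L : IntermediateField ℚ ℂ, FiniteDimensional ℚ L ∧ (∃ s ∈ L, s ^ 2 = 2) ∧
        (∀ i, α i ∈ L) ∧ (∀ i, β i ∈ L) ∧ (∀ i, δ i ∈ L) ∧ ∀ l i, γ l i ∈ L := by
  obtain ⟨⟨F, h1, h2, h3, h4⟩, hL⟩ :=
    spheres_regular_irred n m hnm α β δ γ hα hβ hδ hγ hα1 hβ1 hδ1 hγ1
  exact ⟨⟨F, h1, fun A B Z c1 c2 c3 c4 hF =>
    ⟨h2 A B Z c1 c2 c3 c4 hF, fun hαc W => h3 hαc A B Z c1 c2 c3 c4 hF W,
      fun L hs a b c d P hP => h4 L hs a b c d P hP A B Z c1 c2 c3 c4 hF⟩⟩, hL⟩

end Vale.Agent.Lib.P002
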