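import Vale.Agent.Lib.P002.G1Main
import Vale.Agent.Lib.P002.SrIrred

/-!
Irreducibility of the representations of the fundamental group of a one-holed torus whose
boundary monodromy has generic eigenvalues: if the commutator of two matrices of determinant
one has pairwise distinct eigenvalues no proper nonempty subfamily of which has product one,
the two matrices have no common invariant subspace besides zero and the whole space.
-/

namespace Vale.Agent.Lib.P002

open Matrix Polynomial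

/-- A matrix whose characteristic polynomial has pairwise distinct roots has a basis of
eigenvectors. -/
theorem g1_eigenbasis {n : ℕ} (δ : Fin n → ℂ) (hδ : Function.Injective δ)
    (K : Matrix (Fin n) (Fin n) ℂ) (hK : K.charpoly = ∏ i, (X - C (δ i))) :
    ∃ P : Matrix (Fin n) (Fin n) ℂ, P.det ≠ 0 ∧ K * P = P * Matrix.diagonal δ := by
  have hex : ∀ i, ∃ v : Fin n → ℂ, v ≠ 0 ∧ K *ᵥ v = δ i • v := by
    intro i
    have hdet : (Matrix.scalar (Fin n) (δ i) - K).det = 0 := by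
      rw [← Matrix.eval_charpoly, hK, Polynomial.eval_prod]
      refine Finset.prod_eq_zero (Finset.mem_univ i) ?_
      simp
    obtain ⟨v, hv0, hv⟩ := Matrix.exists_mulVec_eq_zero_iff.mpr hdet
    refine ⟨v, hv0, ?_⟩
    rw [Matrix.sub_mulVec, sub_eq_zero] at hv
    rw [← hv]
    funext r
    simp [Matrix.mulVec, dotProduct, Matrix.scalar_apply, Matrix.diagonal_apply]
  choose v hv0 hv using hex
  refine ⟨Matrix.of fun r i => v i r, ?_, ?_⟩
  · intro hdet
    obtain ⟨c, hc0, hc⟩ := Matrix.exists_mulVec_eq_zero_iff.mpr hdet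
    have hli : LinearIndependent ℂ v := by
      refine Module.End.eigenvectors_linearIndependent' (Matrix.toLin' K) δ hδ v fun i => ?_
      refine ⟨?_, hv0 i⟩
      rw [Module.End.mem_eigenspace_iff, Matrix.toLin'_apply]
      exact hv i
    have hsum : ∑ i, c i • v i = 0 := by
      funext r
      have h1 := congrFun hc r
      simp only [Matrix.mulVec, dotProduct, Matrix.of_apply, Pi.zero_apply] at h1
      rw [Finset.sum_apply, Pi.zero_apply, ← h1]
      exact Finset.sum_congr rfl fun i _ => by rw [Pi.smul_apply, smul_eq_mul, mul_comm]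
    exact hc0 (funext fun i => Fintype.linearIndependent_iff.mp hli c hsum i)
  · ext r i
    rw [Matrix.mul_diagonal, Matrix.of_apply]
    have h1 := congrFun (hv i) r
    rw [Pi.smul_apply, smul_eq_mul] at h1
    rw [mul_comm, ← h1]
    rfl

/-- A subspace invariant under a diagonal matrix with pairwise distinct diagonal entries
contains the basis vectors at which its members have nonzero coordinates. -/
theorem g1_diag_invariant {n : ℕ} (δ : Fin n → ℂ) (hδ : Function.Injective δ)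
    (W : Submodule ℂ (Fin n → ℂ)) (hW : ∀ x ∈ W, Matrix.diagonal δ *ᵥ x ∈ W)
    (x : Fin n → ℂ) (hx : x ∈ W) (i : Fin n) (hi : x i ≠ 0) : Pi.single i (1 : ℂ) ∈ W := by
  have h1 := invariant_aeval W (Matrix.diagonal δ) hW
    (∏ l ∈ Finset.univ.erase i, (X - C (δ l))) x hx
  have hut : ∀ a b : Fin n, b < a → Matrix.diagonal δ a b = 0 := fun a b hab =>
    Matrix.diagonal_apply_ne _ (ne_of_gt hab)
  have hlt : ∀ a b : Fin n, a < b → Matrix.diagonal δ a b = 0 := fun a b hab =>
    Matrix.diagonal_apply_ne _ (ne_of_lt hab)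
  obtain ⟨u1, u2⟩ := ut_aeval hut (∏ l ∈ Finset.univ.erase i, (X - C (δ l)))
  obtain ⟨l1, -⟩ := lt_aeval hlt (∏ l ∈ Finset.univ.erase i, (X - C (δ l)))
  have hval : ∀ j, (aeval (Matrix.diagonal δ) (∏ l ∈ Finset.univ.erase i, (X - C (δ l)))) j j =
      if j = i then ∏ l ∈ Finset.univ.erase i, (δ i - δ l) else 0 := by
    intro j
    rw [u2 j, Matrix.diagonal_apply_eq, Polynomial.eval_prod]
    by_cases hji : j = i
    · rw [if_pos hji, hji]
      exact Finset.prod_congr rfl fun l _ => by simp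
    · rw [if_neg hji]
      refine Finset.prod_eq_zero (Finset.mem_erase.mpr ⟨hji, Finset.mem_univ j⟩) ?_
      simp
  have hvec : (aeval (Matrix.diagonal δ) (∏ l ∈ Finset.univ.erase i, (X - C (δ l)))) *ᵥ x =
      ((∏ l ∈ Finset.univ.erase i, (δ i - δ l)) * x i) • Pi.single i (1 : ℂ) := by
    funext j
    rw [Matrix.mulVec, dotProduct, Finset.sum_eq_single j]
    · rw [hval j, Pi.smul_apply, smul_eq_mul]
      by_cases hji : j = i
      · rw [if_pos hji, hji, Pi.single_eq_same, mul_one]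
      · rw [if_neg hji, Pi.single_eq_of_ne hji, zero_mul, mul_zero]
    · intro b _ hb
      rcases lt_or_gt_of_ne hb with h | h
      · rw [u1 j b h, zero_mul]
      · rw [l1 j b h, zero_mul]
    · intro h
      exact absurd (Finset.mem_univ j) h
  rw [hvec] at h1
  have hc : (∏ l ∈ Finset.univ.erase i, (δ i - δ l)) * x i ≠ 0 :=
    mul_ne_zero (prod_erase_sub_ne_zero δ hδ i) hi
  have h2 := W.smul_mem ((∏ l ∈ Finset.univ.erase i, (δ i - δ l)) * x i)⁻¹ h1
  rwa [smul_smul, inv_mul_cancel₀ hc, one_smul] at h2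

/-- If two invertible matrices leave the span of the basis vectors with index satisfying p
invariant and their commutator relation is twisted by a diagonal matrix, the diagonal entries
with index satisfying p have product one. -/
theorem g1_block_det_aux {n : ℕ} (δ : Fin n → ℂ) (p : Fin n → Prop) [DecidablePred p]
    (A' B' : Matrix (Fin n) (Fin n) ℂ) (hA : A'.det ≠ 0) (hB : B'.det ≠ 0)
    (hAz : ∀ i, ¬p i → ∀ j, p j → A' i j = 0) (hBz : ∀ i, ¬p i → ∀ j, p j → B' i j = 0)
    (h : Matrix.diagonal δ * (B' * A') = A' * B') : ∏ i : {i // p i}, δ i = 1 := by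
  have hdA := Matrix.twoBlockTriangular_det A' p hAz
  have hdB := Matrix.twoBlockTriangular_det B' p hBz
  have ha : (Matrix.toSquareBlockProp A' p).det ≠ 0 := by
    intro h0
    rw [hdA, h0, zero_mul] at hA
    exact hA rfl
  have hb : (Matrix.toSquareBlockProp B' p).det ≠ 0 := by
    intro h0
    rw [hdB, h0, zero_mul] at hB
    exact hB rfl
  have hsum : ∀ (M N : Matrix (Fin n) (Fin n) ℂ), (∀ i, ¬p i → ∀ j, p j → N i j = 0) →
      Matrix.toSquareBlockProp (M * N) p =
        Matrix.toSquareBlockProp M p * Matrix.toSquareBlockProp N p := by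
    intro M N hN
    ext i j
    simp only [Matrix.toSquareBlockProp_def, Matrix.of_apply, Matrix.mul_apply]
    rw [← Finset.sum_subtype (Finset.univ.filter p) (fun x => by simp)
      (fun k => M i k * N k j)]
    refine (Finset.sum_subset (Finset.filter_subset p Finset.univ) fun k _ hk => ?_).symm
    have hk' : ¬p k := fun hp => hk (Finset.mem_filter.mpr ⟨Finset.mem_univ k, hp⟩)
    rw [hN k hk' j j.2, mul_zero]
  have hblock : Matrix.diagonal (fun i : {i // p i} => δ i) *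
      (Matrix.toSquareBlockProp B' p * Matrix.toSquareBlockProp A' p) =
      Matrix.toSquareBlockProp A' p * Matrix.toSquareBlockProp B' p := by
    rw [← hsum B' A' hAz, ← hsum A' B' hBz, ← h]
    ext i j
    rw [Matrix.diagonal_mul]
    simp only [Matrix.toSquareBlockProp_def, Matrix.of_apply]
    rw [Matrix.diagonal_mul]
  have hdet := congrArg Matrix.det hblock
  rw [Matrix.det_mul, Matrix.det_mul, Matrix.det_mul, Matrix.det_diagonal] at hdet
  have h3 : (∏ i : {i // p i}, δ i) * ((Matrix.toSquareBlockProp B' p).det *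
      (Matrix.toSquareBlockProp A' p).det) =
      1 * ((Matrix.toSquareBlockProp B' p).det * (Matrix.toSquareBlockProp A' p).det) := by
    rw [hdet, one_mul, mul_comm]
  exact mul_right_cancel₀ (mul_ne_zero hb ha) h3

theorem g1_block_det {n : ℕ} (δ : Fin n → ℂ) (S : Finset (Fin n))
    (A' B' : Matrix (Fin n) (Fin n) ℂ) (hA : A'.det ≠ 0) (hB : B'.det ≠ 0)
    (hAz : ∀ i, i ∉ S → ∀ j, j ∈ S → A' i j = 0) (hBz : ∀ i, i ∉ S → ∀ j, j ∈ S → B' i j = 0)
    (h : Matrix.diagonal δ * (B' * A') = A' * B') : ∏ i ∈ S, δ i = 1 := by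
  rw [Finset.prod_subtype S (fun x => Iff.rfl) δ]
  exact g1_block_det_aux δ (fun i => i ∈ S) A' B' hA hB hAz hBz h

/-- If the commutator of two matrices of determinant one has pairwise distinct eigenvalues no
proper nonempty subfamily of which has product one, the two matrices have no common invariant
subspace besides zero and the whole space. -/
theorem torus_irreducible {n : ℕ} (δ : Fin n → ℂ) (hδ : Function.Injective δ)
    (hgen : ∀ S : Finset (Fin n), S.Nonempty → S ≠ Finset.univ → ∏ i ∈ S, δ i ≠ 1)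
    (A B : Matrix (Fin n) (Fin n) ℂ) (hA : A.det = 1) (hB : B.det = 1)
    (hK : (A * B * A⁻¹ * B⁻¹).charpoly = ∏ i, (X - C (δ i)))
    (W : Submodule ℂ (Fin n → ℂ)) (hWA : ∀ x ∈ W, A *ᵥ x ∈ W) (hWB : ∀ x ∈ W, B *ᵥ x ∈ W) :
    W = ⊥ ∨ W = ⊤ := by
  have hA0 : A.det ≠ 0 := by rw [hA]; exact one_ne_zero
  have hB0 : B.det ≠ 0 := by rw [hB]; exact one_ne_zero
  have hAu : IsUnit A.det := isUnit_iff_ne_zero.mpr hA0
  have hBu : IsUnit B.det := isUnit_iff_ne_zero.mpr hB0
  -- invariance under the inverses and the commutator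
  have hWAi : ∀ x ∈ W, A⁻¹ *ᵥ x ∈ W := by
    obtain ⟨q, hq⟩ := inv_eq_aeval A hA0
    rw [hq]
    exact invariant_aeval W A hWA q
  have hWBi : ∀ x ∈ W, B⁻¹ *ᵥ x ∈ W := by
    obtain ⟨q, hq⟩ := inv_eq_aeval B hB0
    rw [hq]
    exact invariant_aeval W B hWB q
  have hWK : ∀ x ∈ W, (A * B * A⁻¹ * B⁻¹) *ᵥ x ∈ W := by
    intro x hx
    rw [← Matrix.mulVec_mulVec, ← Matrix.mulVec_mulVec, ← Matrix.mulVec_mulVec]
    exact hWA _ (hWB _ (hWAi _ (hWBi x hx)))
  obtain ⟨P, hP, hKP⟩ := g1_eigenbasis δ hδ (A * B * A⁻¹ * B⁻¹) hK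
  have hPu : IsUnit P.det := isUnit_iff_ne_zero.mpr hP
  have e1 : P⁻¹ * P = 1 := Matrix.nonsing_inv_mul P hPu
  have e2 : P * P⁻¹ = 1 := Matrix.mul_nonsing_inv P hPu
  -- the subspace in the coordinates of the eigenbasis
  obtain ⟨W', hW'⟩ : ∃ W' : Submodule ℂ (Fin n → ℂ), ∀ c, c ∈ W' ↔ P *ᵥ c ∈ W :=
    ⟨W.comap (Matrix.mulVecLin P), fun c => by
      rw [Submodule.mem_comap, Matrix.mulVecLin_apply]⟩
  have hconj : ∀ (M : Matrix (Fin n) (Fin n) ℂ), (∀ x ∈ W, M *ᵥ x ∈ W) →
      ∀ c ∈ W', (P⁻¹ * M * P) *ᵥ c ∈ W' := by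
    intro M hM c hc
    rw [hW'] at hc ⊢
    have e : P *ᵥ ((P⁻¹ * M * P) *ᵥ c) = M *ᵥ (P *ᵥ c) := by
      rw [Matrix.mulVec_mulVec, Matrix.mulVec_mulVec, ← Matrix.mul_assoc, ← Matrix.mul_assoc, e2,
        Matrix.one_mul]
    rw [e]
    exact hM _ hc
  have hdiag : P⁻¹ * (A * B * A⁻¹ * B⁻¹) * P = Matrix.diagonal δ := by
    rw [Matrix.mul_assoc, hKP, ← Matrix.mul_assoc, e1, Matrix.one_mul]
  have hW'D : ∀ c ∈ W', Matrix.diagonal δ *ᵥ c ∈ W' := by
    rw [← hdiag]
    exact hconj _ hWK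
  have hW'A := hconj A hWA
  have hW'B := hconj B hWB
  have hrel : Matrix.diagonal δ * ((P⁻¹ * B * P) * (P⁻¹ * A * P)) =
      (P⁻¹ * A * P) * (P⁻¹ * B * P) := by
    rw [← hdiag]
    calc P⁻¹ * (A * B * A⁻¹ * B⁻¹) * P * ((P⁻¹ * B * P) * (P⁻¹ * A * P)) =
        P⁻¹ * (A * B * A⁻¹ * (B⁻¹ * ((P * P⁻¹) * B)) * ((P * P⁻¹) * A)) * P := by
          simp only [Matrix.mul_assoc]
      _ = P⁻¹ * (A * B * (A⁻¹ * A)) * P := by
          rw [e2, Matrix.one_mul, Matrix.one_mul, Matrix.nonsing_inv_mul B hBu]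
          simp only [Matrix.mul_one, Matrix.mul_assoc]
      _ = (P⁻¹ * A * P) * (P⁻¹ * B * P) := by
          rw [Matrix.nonsing_inv_mul A hAu, Matrix.mul_one]
          calc P⁻¹ * (A * B) * P = P⁻¹ * A * 1 * B * P := by
                simp only [Matrix.mul_assoc, Matrix.one_mul]
            _ = P⁻¹ * A * P * (P⁻¹ * B * P) := by
                rw [← e2]
                simp only [Matrix.mul_assoc]
  classical
  obtain ⟨S, hS⟩ : ∃ S : Finset (Fin n), ∀ i, i ∈ S ↔ Pi.single i (1 : ℂ) ∈ W' :=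
    ⟨Finset.univ.filter fun i => Pi.single i (1 : ℂ) ∈ W', fun i => by simp⟩
  have hcoord : ∀ c ∈ W', ∀ i, i ∉ S → c i = 0 := by
    intro c hc i hi
    by_contra h0
    exact hi ((hS i).mpr (g1_diag_invariant δ hδ W' hW'D c hc i h0))
  have hzero : ∀ (M : Matrix (Fin n) (Fin n) ℂ), (∀ c ∈ W', M *ᵥ c ∈ W') →
      ∀ i, i ∉ S → ∀ j, j ∈ S → M i j = 0 := by
    intro M hM i hi j hj
    have h1 := hcoord _ (hM _ ((hS j).mp hj)) i hi
    rw [Matrix.mulVec_single_one] at h1
    exact h1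
  have hdA : (P⁻¹ * A * P).det ≠ 0 := by
    rw [det_conj_one P⁻¹ P A e2 hA]
    exact one_ne_zero
  have hdB : (P⁻¹ * B * P).det ≠ 0 := by
    rw [det_conj_one P⁻¹ P B e2 hB]
    exact one_ne_zero
  have hprod := g1_block_det δ S (P⁻¹ * A * P) (P⁻¹ * B * P) hdA hdB (hzero _ hW'A)
    (hzero _ hW'B) hrel
  have hback : ∀ x ∈ W, P⁻¹ *ᵥ x ∈ W' := by
    intro x hx
    rw [hW', Matrix.mulVec_mulVec, e2, Matrix.one_mulVec]
    exact hx
  by_cases hne : S.Nonempty
  · by_cases huniv : S = Finset.univ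
    · right
      rw [Submodule.eq_top_iff']
      intro x
      have hall : ∀ c : Fin n → ℂ, c ∈ W' := by
        intro c
        have hc : c = ∑ i, c i • Pi.single i (1 : ℂ) := by
          funext j
          rw [Finset.sum_apply, Finset.sum_eq_single j]
          · rw [Pi.smul_apply, Pi.single_eq_same, smul_eq_mul, mul_one]
          · intro b _ hb
            rw [Pi.smul_apply, Pi.single_eq_of_ne (Ne.symm hb), smul_zero]
          · intro h
            exact absurd (Finset.mem_univ j) h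
        rw [hc]
        refine W'.sum_mem fun i _ => W'.smul_mem _ ((hS i).mp ?_)
        rw [huniv]
        exact Finset.mem_univ i
      have h1 := (hW' (P⁻¹ *ᵥ x)).mp (hall _)
      rwa [Matrix.mulVec_mulVec, e2, Matrix.one_mulVec] at h1
    · exact absurd hprod (hgen S hne huniv)
  · left
    rw [Submodule.eq_bot_iff]
    intro x hx
    have h0 : P⁻¹ *ᵥ x = 0 := by
      funext i
      exact hcoord _ (hback x hx) i (fun hi => hne ⟨i, hi⟩)
    have h1 : P *ᵥ (P⁻¹ *ᵥ x) = x := by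
      rw [Matrix.mulVec_mulVec, e2, Matrix.one_mulVec]
    rw [← h1, h0, Matrix.mulVec_zero]

/-- The one-holed torus with regular semisimple boundary monodromy: the density theorem
together with the irreducibility of all representations for generic eigenvalues. -/
theorem torus_regular_irred (k : ℕ) (δ : Fin (k + 1) → ℂ) (hδ : ∀ i, IsIntegral ℤ (δ i))
    (hδinj : Function.Injective δ) (hδ1 : ∏ i, δ i = 1) :
    (∃ F : MvPolynomial (Fin 2 × Fin (k + 1) × Fin (k + 1)) ℂ,
      (∃ A B : Matrix (Fin (k + 1)) (Fin (k + 1)) ℂ, A.det = 1 ∧ B.det = 1 ∧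
        (A * B * A⁻¹ * B⁻¹).charpoly = ∏ i, (Polynomial.X - Polynomial.C (δ i)) ∧
        MvPolynomial.eval (fun x => ![A, B] x.1 x.2.1 x.2.2) F ≠ 0) ∧
      ∀ A B : Matrix (Fin (k + 1)) (Fin (k + 1)) ℂ, A.det = 1 → B.det = 1 →
        (A * B * A⁻¹ * B⁻¹).charpoly = ∏ i, (Polynomial.X - Polynomial.C (δ i)) →
        MvPolynomial.eval (fun x => ![A, B] x.1 x.2.1 x.2.2) F ≠ 0 →
        ∀ L : IntermediateField ℚ ℂ, (∃ s ∈ L, s ^ 2 = 2) → (∀ i, δ i ∈ L) →
          ∀ P : MvPolynomial (Fin 2 × Fin (k + 1) × Fin (k + 1)) ℂ,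
            (∀ A' B' : Matrix (Fin (k + 1)) (Fin (k + 1)) ℂ,
              (∀ i j, A' i j ∈ L ∧ IsIntegral ℤ (A' i j)) →
              (∀ i j, B' i j ∈ L ∧ IsIntegral ℤ (B' i j)) →
              A'.det = 1 → B'.det = 1 →
              (A' * B' * A'⁻¹ * B'⁻¹).charpoly = ∏ i, (Polynomial.X - Polynomial.C (δ i)) →
              MvPolynomial.eval (fun x => ![A', B'] x.1 x.2.1 x.2.2) F ≠ 0 →
              MvPolynomial.eval (fun x => ![A', B'] x.1 x.2.1 x.2.2) P = 0) →
            MvPolynomial.eval (fun x => ![A, B] x.1 x.2.1 x.2.2) P = 0) ∧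
    ((∀ S : Finset (Fin (k + 1)), S.Nonempty → S ≠ Finset.univ → ∏ i ∈ S, δ i ≠ 1) →
      ∀ A B : Matrix (Fin (k + 1)) (Fin (k + 1)) ℂ, A.det = 1 → B.det = 1 →
        (A * B * A⁻¹ * B⁻¹).charpoly = ∏ i, (Polynomial.X - Polynomial.C (δ i)) →
        ∀ W : Submodule ℂ (Fin (k + 1) → ℂ), (∀ x ∈ W, Matrix.mulVec A x ∈ W) →
          (∀ x ∈ W, Matrix.mulVec B x ∈ W) → W = ⊥ ∨ W = ⊤) ∧
    ∃ L : IntermediateField ℚ ℂ, FiniteDimensional ℚ L ∧ (∃ s ∈ L, s ^ 2 = 2) ∧
      ∀ i, δ i ∈ L := by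
  obtain ⟨h1, h2⟩ := torus_regular k δ hδ hδinj hδ1
  exact ⟨h1, fun hgen A B hA hB hK W hWA hWB =>
    torus_irreducible δ hδinj hgen A B hA hB hK W hWA hWB, h2⟩

end Vale.Agent.Lib.P002
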