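import Vale.Agent.Lib.P002.helper17.StepLU
import Vale.Agent.Lib.P002.helper71.LeadLU
import Vale.Agent.Lib.P002.helper11.UlFrame
import Vale.Agent.Lib.P002.helper33.Numbers
import Vale.Agent.Lib.P002.helper72.JorUt
import Vale.Agent.Lib.P002.helper22.LeadDiag
import Vale.Agent.Lib.P002.helper25.ChartComm

/-!
The lemmas of the one-holed torus chart proved in the pool, under their plain names.
-/

namespace Vale.Agent.Lib.P002

alias g1_rank_one_lu := H17.g1_rank_one_lu
alias g1_step := H17.g1_step
alias lead_mul_lt_ut := H71.lead_mul_lt_ut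
alias lead_bmat := H71.lead_bmat
alias ulF_ut := H11.ulF_ut
alias ulF_mul := H11.ulF_mul
alias ulF_diag := H11.ulF_diag
alias g1_numbers := H33.g1_numbers
alias exists_jorU_ut := H72.exists_jorU_ut
alias ut_mulVec_tail := H72.ut_mulVec_tail
alias lead_diag_mul := H22.lead_diag_mul
alias g1Gen_diag_ne_zero := H22.g1Gen_diag_ne_zero
alias g1_chart_comm := H25.g1_chart_comm

end Vale.Agent.Lib.P002
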