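import Vale.Agent.Lib.P002.G1Lift
import Vale.Agent.Lib.P002.helper71.FrameProps
import Vale.Agent.Lib.P002.helper25.ChartRing
import Vale.Agent.Lib.P002.helper72.Witness
import Vale.Agent.Lib.P002.helper68.ChartNormal
import Vale.Agent.Lib.P002.helper25.ValTri

/-!
The lemmas of the second stage of the one-holed torus chart proved in the pool, under their
plain names.
-/

namespace Vale.Agent.Lib.P002

alias g1_frame_props := H71.g1_frame_props
alias g1_chart_ring := H25.g1_chart_ring
alias g1_wit := H72.g1_wit
alias g1_wit_diag := H72.g1_wit_diag
alias g1_chart_normal := H68.g1_chart_normal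
alias g1_val_tri := H25.g1_val_tri

end Vale.Agent.Lib.P002
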