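import Vale.Agent.Lib.P002.G1Lemmas

/-!
The lifting theorem for quadruples: an upper triangular matrix U and a lower triangular matrix
Lo over a field whose product has a generic pattern of leading minors lift, along a surjective
ring homomorphism through which units lift, to triangular matrices with prescribed unit
diagonals whose product has an LU decomposition with prescribed unit leading minors.
-/

namespace Vale.Agent.Lib.P002

open Matrix

theorem g1Gen_lead_ne_zero {K : Type*} [Field K] :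
    ∀ (k : ℕ) (M : Matrix (Fin k) (Fin k) K), g1Gen k M ≠ 0 → ∀ t, lead t k M ≠ 0 := by
  intro k
  cases k with
  | zero =>
    intro M _ t
    rw [lead_zero_size]
    exact one_ne_zero
  | succ k =>
    intro M h t
    rw [g1Gen_succ] at h
    have h1 := left_ne_zero_of_mul (left_ne_zero_of_mul h)
    rw [Finset.prod_ne_zero_iff] at h1
    rcases Nat.eq_zero_or_pos t with h0 | h0
    · subst h0
      rw [lead_zero]
      exact one_ne_zero
    · by_cases h2 : t ≤ k + 1
      · have h3 := h1 (t - 1) (Finset.mem_range.mpr (by omega))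
        rwa [Nat.sub_add_cancel h0] at h3
      · have h3 := h1 k (Finset.mem_range.mpr (Nat.lt_succ_self k))
        rw [lead_of_le (k + 1) (k + 1) M le_rfl] at h3
        rw [lead_of_le (k + 1) t M (by omega)]
        exact h3

theorem sum_lt_succ {K : Type*} [AddCommMonoid K] {k : ℕ} (f : Fin k → K) (i : Fin k) :
    (∑ j : Fin k, if j.val < i.val + 1 then f j else 0) =
      (∑ j : Fin k, if j.val < i.val then f j else 0) + f i := by
  have h : ∀ j : Fin k, (if j.val < i.val + 1 then f j else 0) =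
      (if j.val < i.val then f j else 0) + (if j = i then f j else 0) := by
    intro j
    by_cases h1 : j.val < i.val
    · have h2 : j ≠ i := fun h => by
        rw [h] at h1
        exact lt_irrefl _ h1
      rw [if_pos h1, if_pos (Nat.lt_succ_of_lt h1), if_neg h2, add_zero]
    · by_cases h2 : j = i
      · subst h2
        rw [if_neg h1, if_pos (Nat.lt_succ_self _), if_pos rfl, zero_add]
      · have h3 : ¬ j.val < i.val + 1 := by
          intro h3
          exact h2 (Fin.ext (by omega))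
        rw [if_neg h1, if_neg h3, if_neg h2, add_zero]
  rw [Finset.sum_congr rfl fun j _ => h j, Finset.sum_add_distrib, Finset.sum_ite_eq']
  simp

theorem prod_lt_succ {K : Type*} [CommMonoid K] {k : ℕ} (f : Fin k → K) (i : Fin k) :
    (∏ j : Fin k, if j.val < i.val + 1 then f j else 1) =
      (∏ j : Fin k, if j.val < i.val then f j else 1) * f i := by
  have h : ∀ j : Fin k, (if j.val < i.val + 1 then f j else 1) =
      (if j.val < i.val then f j else 1) * (if j = i then f j else 1) := by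
    intro j
    by_cases h1 : j.val < i.val
    · have h2 : j ≠ i := fun h => by
        rw [h] at h1
        exact lt_irrefl _ h1
      rw [if_pos h1, if_pos (Nat.lt_succ_of_lt h1), if_neg h2, mul_one]
    · by_cases h2 : j = i
      · subst h2
        rw [if_neg h1, if_pos (Nat.lt_succ_self _), if_pos rfl, one_mul]
      · have h3 : ¬ j.val < i.val + 1 := by
          intro h3
          exact h2 (Fin.ext (by omega))
        rw [if_neg h1, if_neg h3, if_neg h2, mul_one]
  rw [Finset.prod_congr rfl fun j _ => h j, Finset.prod_mul_distrib, Finset.prod_ite_eq']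
  simp

section Lift

variable {R K : Type*} [CommRing R] [Field K] (ev : R →+* K)

/-- The lifting theorem for quadruples. -/
theorem g1_lift (hunit : ∀ z : K, z ≠ 0 → ∃ u : Rˣ, ev u = z) :
    ∀ (k : ℕ) (U Lo : Matrix (Fin k) (Fin k) K) (ut lt : Fin k → Rˣ) (Pt : ℕ → Rˣ),
      (∀ i j, j < i → U i j = 0) → (∀ i, U i i = ev (ut i)) →
      (∀ i j, i < j → Lo i j = 0) → (∀ i, Lo i i = ev (lt i)) →
      g1Gen k (U * Lo) ≠ 0 → Pt 0 = 1 → (∀ t, t ≤ k → ev (Pt t) = lead t k (U * Lo)) →
      (Pt k : R) = (∏ i, (ut i : R)) * ∏ i, (lt i : R) →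
      ∃ Ut Lt l bt : Matrix (Fin k) (Fin k) R, Ut.map ev = U ∧ Lt.map ev = Lo ∧
        (∀ i j, j < i → Ut i j = 0) ∧ (∀ i, Ut i i = ut i) ∧
        (∀ i j, i < j → Lt i j = 0) ∧ (∀ i, Lt i i = lt i) ∧
        (∀ i j, i < j → l i j = 0) ∧ (∀ i, l i i = 1) ∧
        (∀ i j, j < i → bt i j = 0) ∧
        (∀ i, bt i i = ((Pt (i.val + 1) * (Pt i.val)⁻¹ : Rˣ) : R)) ∧
        Ut * Lt = l * bt := by
  intro k
  induction k with
  | zero =>
    intro U Lo ut lt Pt _ _ _ _ _ _ _ _
    exact ⟨0, 0, 0, 0, Subsingleton.elim _ _, Subsingleton.elim _ _, fun i => i.elim0,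
      fun i => i.elim0, fun i => i.elim0, fun i => i.elim0, fun i => i.elim0, fun i => i.elim0,
      fun i => i.elim0, fun i => i.elim0, Subsingleton.elim _ _⟩
  | succ k ih =>
    intro U Lo ut lt Pt hU hUd hLo hLod hgen hP0 hPev hPk
    obtain ⟨ρ, hρ⟩ : ∃ ρ : Fin k → K, ρ = fun j => U 0 j.succ := ⟨_, rfl⟩
    obtain ⟨c, hc⟩ : ∃ c : Fin k → K, c = fun i => Lo i.succ 0 := ⟨_, rfl⟩
    obtain ⟨U', hU'⟩ : ∃ U', U' = U.submatrix Fin.succ Fin.succ := ⟨_, rfl⟩
    obtain ⟨L', hL'⟩ : ∃ L', L' = Lo.submatrix Fin.succ Fin.succ := ⟨_, rfl⟩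
    have hUeq : U = bmat (ev (ut 0)) ρ 0 U' := by
      conv_lhs => rw [eq_bmat U]
      rw [hUd 0, hρ, hU']
      congr 1
      funext i
      exact hU i.succ 0 (Fin.succ_pos i)
    have hLeq : Lo = bmat (ev (lt 0)) 0 c L' := by
      conv_lhs => rw [eq_bmat Lo]
      rw [hLod 0, hc, hL']
      congr 1
      funext j
      exact hLo 0 j.succ (Fin.succ_pos j)
    have hU't : ∀ i j, j < i → U' i j = 0 := fun i j h => by
      rw [hU']
      exact hU _ _ (Fin.succ_lt_succ_iff.mpr h)
    have hU'd : ∀ i, U' i i = ev (ut i.succ) := fun i => by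
      rw [hU']
      exact hUd i.succ
    have hL't : ∀ i j, i < j → L' i j = 0 := fun i j h => by
      rw [hL']
      exact hLo _ _ (Fin.succ_lt_succ_iff.mpr h)
    have hL'd : ∀ i, L' i i = ev (lt i.succ) := fun i => by
      rw [hL']
      exact hLod i.succ
    obtain ⟨ε, hε⟩ : ∃ ε : K, ε = ev (ut 0) * ev (lt 0) + ρ ⬝ᵥ c := ⟨_, rfl⟩
    have hM : U * Lo = bmat ε (ρ ᵥ* L') (U' *ᵥ c) (U' * L') := by
      rw [hUeq, hLeq, bmat_mul, hε]
      congr 1 <;> simp
    rw [hM, g1Gen_succ, bmat_submatrix] at hgen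
    have hg3 := right_ne_zero_of_mul hgen
    have hg2 := right_ne_zero_of_mul (left_ne_zero_of_mul hgen)
    rw [Finset.prod_ne_zero_iff] at hg2
    have hl' : ∀ t, lead t k (U' * L') ≠ 0 := g1Gen_lead_ne_zero k _ hg3
    -- unit lifts of the leading minors of the trailing block
    choose q hq using fun t => hunit (lead t k (U' * L')) (hl' t)
    obtain ⟨P', hP'⟩ : ∃ P' : ℕ → Rˣ, P' = fun t =>
        if t = k then (∏ i : Fin k, ut i.succ) * (∏ i : Fin k, lt i.succ)
        else if t = 0 then 1 else q t := ⟨_, rfl⟩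
    have hdetU' : U'.det = ∏ i : Fin k, ev (ut i.succ) := by
      rw [det_ut hU't]
      exact Finset.prod_congr rfl fun i _ => hU'd i
    have hdetL' : L'.det = ∏ i : Fin k, ev (lt i.succ) := by
      rw [det_lt hL't]
      exact Finset.prod_congr rfl fun i _ => hL'd i
    have hP'k : (P' k : R) = (∏ i : Fin k, (ut i.succ : R)) * ∏ i : Fin k, (lt i.succ : R) := by
      rw [hP']
      simp only [if_true, Units.val_mul, Units.coe_prod]
    have hP'0 : P' 0 = 1 := by
      rw [hP']
      by_cases h0 : 0 = k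
      · subst h0
        simp
      · simp only [if_neg h0, if_true]
    have hP'ev : ∀ t, t ≤ k → ev (P' t) = lead t k (U' * L') := by
      intro t _
      by_cases h1 : t = k
      · subst h1
        rw [hP'k, lead_of_le t t _ le_rfl, Matrix.det_mul, hdetU', hdetL', map_mul, map_prod,
          map_prod]
      · by_cases h2 : t = 0
        · subst h2
          rw [hP'0, lead_zero, Units.val_one, map_one]
        · rw [hP']
          simp only [if_neg h1, if_neg h2]
          exact hq t
    obtain ⟨Ut', Lt', l'', bt'', e1, e2, f1, f2, f3, f4, f5, f6, f7, f8, f9⟩ :=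
      ih U' L' (fun i => ut i.succ) (fun i => lt i.succ) P' hU't hU'd hL't hL'd hg3 hP'0 hP'ev
        hP'k
    -- the LU decomposition of the trailing block over the field
    obtain ⟨lc, hlc⟩ : ∃ lc, lc = l''.map ev := ⟨_, rfl⟩
    obtain ⟨bc, hbc⟩ : ∃ bc, bc = bt''.map ev := ⟨_, rfl⟩
    have hlb : lc * bc = U' * L' := by
      rw [hlc, hbc, ← Matrix.map_mul, ← f9, Matrix.map_mul, e1, e2]
    have hlct : ∀ i j, i < j → lc i j = 0 := fun i j h => by
      rw [hlc, Matrix.map_apply, f5 i j h, map_zero]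
    have hlcd : ∀ i, lc i i = 1 := fun i => by
      rw [hlc, Matrix.map_apply, f6 i, map_one]
    have hbct : ∀ i j, j < i → bc i j = 0 := fun i j h => by
      rw [hbc, Matrix.map_apply, f7 i j h, map_zero]
    have hbcd : ∀ i, bc i i ≠ 0 := fun i => by
      rw [hbc, Matrix.map_apply, f8 i]
      exact ((Units.isUnit _).map ev).ne_zero
    have hlcdet : IsUnit lc.det := by
      rw [det_lt hlct]
      simp [hlcd]
    have hbcdet : IsUnit bc.det := by
      rw [det_ut hbct]
      exact isUnit_iff_ne_zero.mpr (Finset.prod_ne_zero_iff.mpr fun i _ => hbcd i)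
    obtain ⟨ξ', hξ'⟩ : ∃ ξ' : Fin k → K, ξ' = (ρ ᵥ* L') ᵥ* bc⁻¹ := ⟨_, rfl⟩
    obtain ⟨η', hη'⟩ : ∃ η' : Fin k → K, η' = lc⁻¹ *ᵥ (U' *ᵥ c) := ⟨_, rfl⟩
    have hx : ξ' ᵥ* bc = ρ ᵥ* L' := by
      rw [hξ', Matrix.vecMul_vecMul, Matrix.nonsing_inv_mul _ hbcdet, Matrix.vecMul_one]
    have hy : lc *ᵥ η' = U' *ᵥ c := by
      rw [hη', Matrix.mulVec_mulVec, Matrix.mul_nonsing_inv _ hlcdet, Matrix.one_mulVec]
    obtain ⟨sc, hsc⟩ : ∃ sc : ℕ → K, sc = fun t =>
        ε - ∑ j : Fin k, if j.val < t then ξ' j * η' j else 0 := ⟨_, rfl⟩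
    have hlead : ∀ t, lead (t + 1) (k + 1) (U * Lo) = lead t k (U' * L') * sc t := by
      intro t
      rw [hM, ← hx, ← hy, ← hlb, hsc]
      exact lead_bmat k t lc bc ξ' η' ε hlct hbct
    obtain ⟨st, hst⟩ : ∃ st : ℕ → Rˣ, st = fun t => Pt (t + 1) * (P' t)⁻¹ := ⟨_, rfl⟩
    have hstev : ∀ t, t ≤ k → ev (st t) = sc t := by
      intro t ht
      rw [hst]
      simp only [Units.val_mul]
      rw [map_mul, map_units_inv, hPev (t + 1) (by omega), hP'ev t ht, hlead t]
      field_simp [hl' t]
    have hrel : ∀ i : Fin k, ξ' i * η' i = sc i.val - sc (i.val + 1) := by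
      intro i
      rw [hsc]
      simp only
      rw [sum_lt_succ (fun j => ξ' j * η' j) i]
      ring
    have hne : ∀ i : Fin k, sc i.val ≠ sc (i.val + 1) := by
      intro i h
      have h1 := hg2 i.val (Finset.mem_range.mpr i.isLt)
      rw [← hM, hlead i.val, hlead (i.val + 1), h] at h1
      exact h1 (by ring)
    have hξ0 : ∀ i, ξ' i ≠ 0 := by
      intro i h
      have h1 := hrel i
      rw [h, zero_mul] at h1
      exact hne i (sub_eq_zero.mp h1.symm)
    choose ξt hξt using fun i => hunit (ξ' i) (hξ0 i)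
    obtain ⟨ηt, hηt⟩ : ∃ ηt : Fin k → R, ηt = fun i =>
        ((st i.val : R) - (st (i.val + 1) : R)) * ((ξt i)⁻¹ : Rˣ) := ⟨_, rfl⟩
    have hs : ∀ i : Fin k, (ξt i : R) * ηt i = (st i.val : R) - (st (i.val + 1) : R) := by
      intro i
      rw [hηt]
      simp only
      rw [mul_comm, mul_assoc, Units.inv_mul, mul_one]
    have hηev : ∀ i, ev (ηt i) = η' i := by
      intro i
      rw [hηt]
      simp only
      rw [map_mul, map_sub, map_units_inv, hstev i.val i.isLt.le, hstev (i.val + 1) i.isLt,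
        hξt i, ← hrel i]
      field_simp [hξ0 i]
    have hsk : (st k : R) = (ut 0 : R) * (lt 0 : R) := by
      have h1 : (Pt (k + 1) : R) = (ut 0 : R) * (lt 0 : R) * (P' k : R) := by
        rw [hPk, hP'k, Fin.prod_univ_succ, Fin.prod_univ_succ]
        ring
      rw [hst]
      simp only [Units.val_mul]
      rw [h1, mul_assoc, Units.mul_inv, mul_one]
    have hUtdet : IsUnit Ut'.det := by
      rw [det_ut f1]
      simp only [f2]
      rw [← Units.coe_prod]
      exact Units.isUnit _
    have hLtdet : IsUnit Lt'.det := by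
      rw [det_lt f3]
      simp only [f4]
      rw [← Units.coe_prod]
      exact Units.isUnit _
    obtain ⟨ρt, ct, l, bt, g1, g2, g3, g4, g5, g6, g7, g8⟩ :=
      g1_step k Ut' Lt' Ut'⁻¹ Lt'⁻¹ l'' bt'' (Matrix.mul_nonsing_inv _ hUtdet)
        (Matrix.mul_nonsing_inv _ hLtdet) f5 f6 f7 f9 (ut 0) (lt 0) st (fun i => (ξt i : R)) ηt hs
        hsk
    have hU'det : IsUnit U'.det := by
      rw [hdetU']
      exact isUnit_iff_ne_zero.mpr
        (Finset.prod_ne_zero_iff.mpr fun i _ => ((Units.isUnit _).map ev).ne_zero)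
    have hL'det : IsUnit L'.det := by
      rw [hdetL']
      exact isUnit_iff_ne_zero.mpr
        (Finset.prod_ne_zero_iff.mpr fun i _ => ((Units.isUnit _).map ev).ne_zero)
    have hρt : (fun j => ev (ρt j)) = ρ := by
      have h1 : (fun j => ev (ρt j)) ᵥ* L' = ρ ᵥ* L' := by
        rw [← hx, ← e2]
        funext j
        have h2 := congrArg ev (congrFun g1 j)
        rw [RingHom.map_vecMul, RingHom.map_vecMul] at h2
        have hξe : (⇑ev ∘ fun i => (ξt i : R)) = ξ' := funext fun i => hξt i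
        rw [hξe] at h2
        rw [hbc]
        exact h2
      have h3 := congrArg (fun v => v ᵥ* L'⁻¹) h1
      simp only [Matrix.vecMul_vecMul, Matrix.mul_nonsing_inv _ hL'det, Matrix.vecMul_one] at h3
      exact h3
    have hct : (fun i => ev (ct i)) = c := by
      have h1 : U' *ᵥ (fun i => ev (ct i)) = U' *ᵥ c := by
        rw [← hy, ← e1]
        funext j
        have h2 := congrArg ev (congrFun g2 j)
        rw [RingHom.map_mulVec, RingHom.map_mulVec] at h2
        have hηe : (⇑ev ∘ ηt) = η' := funext fun i => hηev i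
        rw [hηe] at h2
        rw [hlc]
        exact h2
      have h3 := congrArg (fun v => U'⁻¹ *ᵥ v) h1
      simp only [Matrix.mulVec_mulVec, Matrix.nonsing_inv_mul _ hU'det, Matrix.one_mulVec] at h3
      exact h3
    obtain ⟨hs1, hs2⟩ := bmat_ut ρt Ut' (fun i => (ut i : R)) f1 f2
    obtain ⟨hs3, hs4⟩ := bmat_lt ct Lt' (fun i => (lt i : R)) f3 f4
    refine ⟨bmat (ut 0) ρt 0 Ut', bmat (lt 0) 0 ct Lt', l, bt, ?_, ?_, hs1, hs2, hs3, hs4, g3, g4,
      g5, ?_, g8⟩
    · rw [bmat_map, hUeq, e1, hρt]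
      congr 1
      funext i
      simp
    · rw [bmat_map, hLeq, e2, hct]
      congr 1
      funext i
      simp
    · intro i
      induction i using Fin.cases with
      | zero =>
        rw [g6, hst]
        simp only [Fin.val_zero, hP0, hP'0]
      | succ i =>
        rw [g7 i, f8 i, hst]
        simp only [Fin.val_succ, _root_.mul_inv_rev, inv_inv, Units.val_mul]
        have h1 := Units.mul_inv (P' (i.val + 1))
        have h2 := Units.mul_inv (P' i.val)
        linear_combination ((Pt (i.val + 1 + 1) : R) * ((Pt (i.val + 1))⁻¹ : Rˣ) *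
          (P' (i.val + 1) : R) * ((P' (i.val + 1))⁻¹ : Rˣ)) * h2 +
          ((Pt (i.val + 1 + 1) : R) * ((Pt (i.val + 1))⁻¹ : Rˣ)) * h1

end Lift

end Vale.Agent.Lib.P002
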