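import Vale.Agent.Lib.P002.G1Dense

/-!
Pairs of matrices of determinant one whose commutator has prescribed distinct eigenvalues (the
one-holed torus with regular semisimple boundary monodromy): a nonempty Zariski open subset of
the variety of such pairs in which the integral points are Zariski dense.
-/

namespace Vale.Agent.Lib.P002

open Matrix

/-- The universal pair of matrices. -/
noncomputable def g1X (k : ℕ) (e : Fin 2) :
    Matrix (Fin (k + 1)) (Fin (k + 1)) (MvPolynomial (Fin 2 × Fin (k + 1) × Fin (k + 1)) ℂ) :=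
  Matrix.of fun i j => MvPolynomial.X (e, i, j)

/-- The genericity polynomial attached to the eigenvalues and a vector. -/
noncomputable def g1Poly (k : ℕ) (δ v : Fin (k + 1) → ℂ) :
    MvPolynomial (Fin 2 × Fin (k + 1) × Fin (k + 1)) ℂ :=
  g1Val (fun i => MvPolynomial.C (δ i)) (fun i => MvPolynomial.C (v i)) (g1X k 0) (g1X k 1)

/-- The value of the genericity polynomial at a pair is the genericity function. -/
theorem eval_g1Poly (k : ℕ) (δ v : Fin (k + 1) → ℂ)
    (A B : Matrix (Fin (k + 1)) (Fin (k + 1)) ℂ) :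
    MvPolynomial.eval (fun x => ![A, B] x.1 x.2.1 x.2.2) (g1Poly k δ v) = g1Val δ v A B := by
  rw [g1Poly, map_g1Val]
  have h3 : (g1X k 0).map (MvPolynomial.eval
      (fun x : Fin 2 × Fin (k + 1) × Fin (k + 1) => ![A, B] x.1 x.2.1 x.2.2)) = A := by
    ext i j
    simp [g1X]
  have h4 : (g1X k 1).map (MvPolynomial.eval
      (fun x : Fin 2 × Fin (k + 1) × Fin (k + 1) => ![A, B] x.1 x.2.1 x.2.2)) = B := by
    ext i j
    simp [g1X]
  rw [h3, h4]
  simp only [MvPolynomial.eval_C]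

/-- The commutator of two matrices of determinant one. -/
theorem cmm_eq_inv {n : ℕ} (A B : Matrix (Fin n) (Fin n) ℂ) (hA : A.det = 1) (hB : B.det = 1) :
    cmm A B = A * B * A⁻¹ * B⁻¹ := by
  unfold cmm
  rw [adjugate_eq_inv hA, adjugate_eq_inv hB]

/-- The chart at a pair at which the genericity function does not vanish. -/
theorem g1_chart_of_val {k : ℕ} (δ v : Fin (k + 1) → ℂ)
    (A B : Matrix (Fin (k + 1)) (Fin (k + 1)) ℂ) (hA : A.det = 1) (hB : B.det = 1)
    (hK : (cmm A B).charpoly = ∏ i, (Polynomial.X - Polynomial.C (δ i)))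
    (hF : g1Val δ v A B ≠ 0) :
    ∃ g g' U Lo l b : Matrix (Fin (k + 1)) (Fin (k + 1)) ℂ, g * g' = 1 ∧
      (∀ i j, j < i → U i j = 0) ∧ (∀ i j, i < j → Lo i j = 0) ∧
      (∀ i j, i < j → l i j = 0) ∧ (∀ i, l i i = 1) ∧ (∀ i j, j < i → b i j = 0) ∧
      (∀ i, b i i = δ i * U i i * Lo (Fin.rev i) (Fin.rev i)) ∧
      U * Lo = l * b ∧ Lo.det = 1 ∧ U.det = (revM ℂ (k + 1)).det ∧
      g1Gen (k + 1) (U * Lo) ≠ 0 ∧
      A = g * (revM ℂ (k + 1) * Lo.adjugate * revM ℂ (k + 1) * l.adjugate) * g' ∧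
      B = g * (U * Lo * revM ℂ (k + 1)) * g' := by
  unfold g1Val at hF
  have h3 := right_ne_zero_of_mul hF
  have h2 := right_ne_zero_of_mul (left_ne_zero_of_mul hF)
  have h1 := left_ne_zero_of_mul (left_ne_zero_of_mul hF)
  obtain ⟨p1, p2, p3, p4, -⟩ := g1_frame_props δ v A B hK h1
  obtain ⟨f, hf⟩ : ∃ f, f = g1Frame δ v A B := ⟨_, rfl⟩
  rw [← hf] at p1 p2 p3 p4 h1
  have hu : IsUnit f.det := isUnit_iff_ne_zero.mpr h1
  have e1 : f⁻¹ * f = 1 := Matrix.nonsing_inv_mul f hu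
  have e2 : f * f⁻¹ = 1 := Matrix.mul_nonsing_inv f hu
  have hA1 : (f⁻¹ * A * f).det = 1 := det_conj_one f⁻¹ f A e2 hA
  have hB1 : (f⁻¹ * B * f).det = 1 := det_conj_one f⁻¹ f B e2 hB
  have hc : cmm (f⁻¹ * A * f) (f⁻¹ * B * f) = f⁻¹ * cmm A B * f := cmm_conj f⁻¹ f A B e1 e2
  have hBA : f⁻¹ * B * f * (f⁻¹ * A * f) * revM ℂ (k + 1) =
      f⁻¹ * (B * A) * f * revM ℂ (k + 1) := by
    calc f⁻¹ * B * f * (f⁻¹ * A * f) * revM ℂ (k + 1) =
        f⁻¹ * B * (f * f⁻¹) * A * f * revM ℂ (k + 1) := by simp only [Matrix.mul_assoc]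
      _ = f⁻¹ * (B * A) * f * revM ℂ (k + 1) := by
        rw [e2]
        simp only [Matrix.mul_one, Matrix.mul_assoc]
  have hsm : (f.det)⁻¹ • g1Mat δ v A B = f⁻¹ * B * f * revM ℂ (k + 1) := by
    rw [p4, smul_smul, inv_mul_cancel₀ h1, one_smul]
  have htr : trailDet (k + 1) (f⁻¹ * B * f * revM ℂ (k + 1)) ≠ 0 := by
    rw [← hsm]
    exact trailDet_smul_ne_zero (k + 1) _ (inv_ne_zero h1) _ h2
  have hgen : g1Gen (k + 1) (f⁻¹ * B * f * revM ℂ (k + 1)) ≠ 0 := by
    have h := g1Gen_diag_ne_zero (k + 1) (fun _ => (f.det)⁻¹) (fun _ => 1) (g1Mat δ v A B)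
      (fun _ => inv_ne_zero h1) (fun _ => one_ne_zero) h3
    have e : Matrix.diagonal (fun _ : Fin (k + 1) => (f.det)⁻¹) * g1Mat δ v A B *
        Matrix.diagonal (fun _ : Fin (k + 1) => (1 : ℂ)) = f⁻¹ * B * f * revM ℂ (k + 1) := by
      rw [← hsm, Matrix.diagonal_one, Matrix.mul_one, ← Matrix.smul_one_eq_diagonal,
        Matrix.smul_mul, Matrix.one_mul]
    rw [e] at h
    exact h
  obtain ⟨U, Lo, l, b, hU, -, hLo, -, hl, hl1, hb, hbd, hq, hULo, hdLo, hdU, eA, eB⟩ :=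
    g1_chart_normal δ (f⁻¹ * A * f) (f⁻¹ * B * f) hA1 hB1
      (fun i j hij => by rw [hc]; exact p1 i j hij) (fun i => by rw [hc]; exact p2 i)
      (fun i j hij => by rw [hBA]; exact p3 i j hij) htr
  refine ⟨f, f⁻¹, U, Lo, l, b, e2, hU, hLo, hl, hl1, hb, hbd, hq, hdLo, hdU, ?_, ?_, ?_⟩
  · rw [hULo]
    exact hgen
  · rw [← eA]
    calc A = (f * f⁻¹) * A * (f * f⁻¹) := by rw [e2, Matrix.one_mul, Matrix.mul_one]
      _ = f * (f⁻¹ * A * f) * f⁻¹ := by simp only [Matrix.mul_assoc]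
  · rw [← eB]
    calc B = (f * f⁻¹) * B * (f * f⁻¹) := by rw [e2, Matrix.one_mul, Matrix.mul_one]
      _ = f * (f⁻¹ * B * f) * f⁻¹ := by simp only [Matrix.mul_assoc]

/-- Existence of a pair at which the genericity function does not vanish. -/
theorem g1_nonempty (k : ℕ) (δ : Fin (k + 1) → ℂ) (hδinj : Function.Injective δ)
    (hδ1 : ∏ i, δ i = 1) :
    ∃ (v : Fin (k + 1) → ℂ) (A B : Matrix (Fin (k + 1)) (Fin (k + 1)) ℂ), A.det = 1 ∧
      B.det = 1 ∧ (cmm A B).charpoly = ∏ i, (Polynomial.X - Polynomial.C (δ i)) ∧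
      g1Val δ v A B ≠ 0 := by
  have hδ0 := ne_zero_of_prod_eq_one δ hδ1
  obtain ⟨u, l, hu, hl, hup, hlp, hne⟩ :=
    g1_wit_diag k δ (revM ℂ (k + 1)).det (det_revM_mul_self (k + 1))
  have hp0 : ∀ i, δ i * u i * l (Fin.rev i) ≠ 0 := fun i =>
    mul_ne_zero (mul_ne_zero (hδ0 i) (hu i)) (hl _)
  have hpp : ∏ i, δ i * u i * l (Fin.rev i) = (∏ i, u i) * ∏ i, l i := by
    rw [Finset.prod_mul_distrib, Finset.prod_mul_distrib, hδ1, one_mul]
    congr 1
    exact Equiv.prod_comp Fin.revPerm l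
  obtain ⟨U, Lo, l', b, hU, hUd, hLo, hLod, hl', hl'1, hb, hbd, hq, hgen⟩ :=
    g1_wit k u l (fun i => δ i * u i * l (Fin.rev i)) hu hl hp0 hpp hne
  have hdLo : Lo.det = 1 := by
    rw [det_lt hLo]
    simp only [hLod]
    exact hlp
  have hdU : U.det = (revM ℂ (k + 1)).det := by
    rw [det_ut hU]
    simp only [hUd]
    exact hup
  obtain ⟨hA1, hB1, hKu, hKd, hcu, hcd⟩ := g1_chart_ring δ U Lo l' b hU hLo hl' hl'1 hb
    (fun i => by rw [hbd, hUd, hLod]) hq hdLo hdU
  have hBw : U * Lo * revM ℂ (k + 1) * revM ℂ (k + 1) = U * Lo := by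
    rw [Matrix.mul_assoc, revM_mul_revM, Matrix.mul_one]
  have htr : trailDet (k + 1) (U * Lo * revM ℂ (k + 1) * revM ℂ (k + 1)) ≠ 0 := by
    rw [hBw]
    exact trailDet_ut_mul_lt_ne_zero (k + 1) U Lo hU (fun i => by rw [hUd]; exact hu i) hLo
      (fun i => by rw [hLod]; exact hl i)
  obtain ⟨v, hv⟩ := g1_val_tri δ hδinj _ _ hKu hKd hcu
    (fun i => by rw [hcd, hUd]; exact hu i) htr (by rw [hBw]; exact hgen)
  refine ⟨v, _, _, hA1, hB1, ?_, hv⟩
  rw [charpoly_ut hKu]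
  exact Finset.prod_congr rfl fun i _ => by rw [hKd]

/-- The one-holed torus with regular semisimple boundary monodromy.  Let δ be a family of
k + 1 pairwise distinct algebraic integers of product one and let V be the set of pairs (A, B)
of complex matrices of size k + 1 and determinant one whose commutator has characteristic
polynomial with roots δ.  There is a polynomial F in the entries of the pair which does not
vanish identically on V such that, for every subfield L of the complex numbers which contains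
a square root of two and the numbers δ_i, every polynomial which vanishes at all points of V
with entries in the ring of integers of L at which F does not vanish, vanishes at all points
of V at which F does not vanish.  Such a field L of finite degree exists. -/
theorem torus_regular (k : ℕ) (δ : Fin (k + 1) → ℂ) (hδ : ∀ i, IsIntegral ℤ (δ i))
    (hδinj : Function.Injective δ) (hδ1 : ∏ i, δ i = 1) :
    (∃ F : MvPolynomial (Fin 2 × Fin (k + 1) × Fin (k + 1)) ℂ,
      (∃ A B : Matrix (Fin (k + 1)) (Fin (k + 1)) ℂ, A.det = 1 ∧ B.det = 1 ∧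
        (A * B * A⁻¹ * B⁻¹).charpoly = ∏ i, (Polynomial.X - Polynomial.C (δ i)) ∧
        MvPolynomial.eval (fun x => ![A, B] x.1 x.2.1 x.2.2) F ≠ 0) ∧
      ∀ A B : Matrix (Fin (k + 1)) (Fin (k + 1)) ℂ, A.det = 1 → B.det = 1 →
        (A * B * A⁻¹ * B⁻¹).charpoly = ∏ i, (Polynomial.X - Polynomial.C (δ i)) →
        MvPolynomial.eval (fun x => ![A, B] x.1 x.2.1 x.2.2) F ≠ 0 →
        ∀ L : IntermediateField ℚ ℂ, (∃ s ∈ L, s ^ 2 = 2) → (∀ i, δ i ∈ L) →
          ∀ P : MvPolynomial (Fin 2 × Fin (k + 1) × Fin (k + 1)) ℂ,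
            (∀ A' B' : Matrix (Fin (k + 1)) (Fin (k + 1)) ℂ,
              (∀ i j, A' i j ∈ L ∧ IsIntegral ℤ (A' i j)) →
              (∀ i j, B' i j ∈ L ∧ IsIntegral ℤ (B' i j)) →
              A'.det = 1 → B'.det = 1 →
              (A' * B' * A'⁻¹ * B'⁻¹).charpoly = ∏ i, (Polynomial.X - Polynomial.C (δ i)) →
              MvPolynomial.eval (fun x => ![A', B'] x.1 x.2.1 x.2.2) F ≠ 0 →
              MvPolynomial.eval (fun x => ![A', B'] x.1 x.2.1 x.2.2) P = 0) →
            MvPolynomial.eval (fun x => ![A, B] x.1 x.2.1 x.2.2) P = 0) ∧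
    ∃ L : IntermediateField ℚ ℂ, FiniteDimensional ℚ L ∧ (∃ s ∈ L, s ^ 2 = 2) ∧
      ∀ i, δ i ∈ L := by
  constructor
  · obtain ⟨v, A0, B0, hA0, hB0, hK0, hv0⟩ := g1_nonempty k δ hδinj hδ1
    refine ⟨g1Poly k δ v, ⟨A0, B0, hA0, hB0, ?_, ?_⟩, ?_⟩
    · rw [← cmm_eq_inv A0 B0 hA0 hB0]
      exact hK0
    · rw [eval_g1Poly]
      exact hv0
    · intro A B hA hB hK hF L hs hδL P hP
      obtain ⟨s, hsL, hs2⟩ := hs
      have hsq : sqrtTwo ∈ L := by
        have h0 : (s - sqrtTwo) * (s + sqrtTwo) = 0 := by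
          linear_combination hs2 - sqrtTwo_mul_self
        rcases mul_eq_zero.mp h0 with h | h
        · have e : s = sqrtTwo := sub_eq_zero.mp h
          rw [← e]
          exact hsL
        · have e : sqrtTwo = -s := by linear_combination h
          rw [e]
          exact L.neg_mem hsL
      have hPF : ∀ A' B' : Matrix (Fin (k + 1)) (Fin (k + 1)) ℂ,
          (∀ i j, A' i j ∈ ringO L) → (∀ i j, B' i j ∈ ringO L) → A'.det = 1 → B'.det = 1 →
          (cmm A' B').charpoly = ∏ i, (Polynomial.X - Polynomial.C (δ i)) →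
          MvPolynomial.eval (fun x => ![A', B'] x.1 x.2.1 x.2.2) (P * g1Poly k δ v) = 0 := by
        intro A' B' hA' hB' c1 c2 c3
        rw [map_mul]
        by_cases hF' : MvPolynomial.eval (fun x => ![A', B'] x.1 x.2.1 x.2.2)
            (g1Poly k δ v) = 0
        · rw [hF', mul_zero]
        · rw [hP A' B' hA' hB' c1 c2 (by rw [← cmm_eq_inv A' B' c1 c2]; exact c3) hF',
            zero_mul]
      have hF0 := hF
      rw [eval_g1Poly] at hF
      rw [← cmm_eq_inv A B hA hB] at hK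
      obtain ⟨g, g', U, Lo, l, b, hgg, hU, hLo, hl, hl1, hb, hbd, hq, hdLo, hdU, hgen, eA, eB⟩ :=
        g1_chart_of_val δ v A B hA hB hK hF
      have key := g1_density hsq k δ (fun i => ⟨hδL i, hδ i⟩) hδ1 (P * g1Poly k δ v) hPF
        g g' U Lo l b hgg hU hLo hl hl1 hb hbd hq hdLo hdU hgen
      rw [← eA, ← eB, map_mul] at key
      exact (mul_eq_zero.mp key).resolve_right hF0
  · exact ⟨fieldP δ δ δ, fieldP_finiteDimensional δ δ δ hδ hδ hδ,
      ⟨sqrtTwo, sqrtTwo_mem_fieldP δ δ δ, by rw [pow_two, sqrtTwo_mul_self]⟩,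
      fun i => IntermediateField.subset_adjoin ℚ _ (by simp)⟩

end Vale.Agent.Lib.P002
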