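import Mathlib

/-!
Laurent polynomial functions on a complex torus and a density lemma:
a Laurent polynomial function vanishing on S^ι for an infinite set S of units vanishes.
-/

namespace Vale.Agent.Lib.P002

open MvPolynomial

variable {ι : Type} [Fintype ι]

/-- G is a Laurent polynomial function on the torus (ℂˣ)^ι. -/
def IsLaurent (G : (ι → ℂˣ) → ℂ) : Prop :=
  ∃ (Q : MvPolynomial ι ℂ) (N : ℕ), ∀ s : ι → ℂˣ,
    G s * (∏ k, (s k : ℂ)) ^ N = eval (fun k => (s k : ℂ)) Q

theorem IsLaurent.const (c : ℂ) : IsLaurent (fun _ : ι → ℂˣ => c) :=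
  ⟨C c, 0, fun s => by simp⟩

theorem IsLaurent.add {G H : (ι → ℂˣ) → ℂ} (hG : IsLaurent G) (hH : IsLaurent H) :
    IsLaurent (fun s => G s + H s) := by
  obtain ⟨Q, N, hQ⟩ := hG
  obtain ⟨R, M, hR⟩ := hH
  refine ⟨Q * (∏ k, X k) ^ M + R * (∏ k, X k) ^ N, N + M, fun s => ?_⟩
  simp only [map_add, map_mul, map_pow, map_prod, eval_X]
  rw [← hQ, ← hR]; ring

theorem IsLaurent.mul {G H : (ι → ℂˣ) → ℂ} (hG : IsLaurent G) (hH : IsLaurent H) :
    IsLaurent (fun s => G s * H s) := by
  obtain ⟨Q, N, hQ⟩ := hG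
  obtain ⟨R, M, hR⟩ := hH
  refine ⟨Q * R, N + M, fun s => ?_⟩
  simp only [map_mul]
  rw [← hQ, ← hR]; ring

theorem IsLaurent.neg {G : (ι → ℂˣ) → ℂ} (hG : IsLaurent G) : IsLaurent (fun s => -G s) := by
  simpa using (IsLaurent.const (ι := ι) (-1)).mul hG

theorem IsLaurent.sub {G H : (ι → ℂˣ) → ℂ} (hG : IsLaurent G) (hH : IsLaurent H) :
    IsLaurent (fun s => G s - H s) := by
  simpa [sub_eq_add_neg] using hG.add hH.neg

theorem IsLaurent.coord (k : ι) : IsLaurent (fun s : ι → ℂˣ => (s k : ℂ)) :=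
  ⟨X k, 0, fun s => by simp⟩

theorem IsLaurent.coord_inv (k : ι) : IsLaurent (fun s : ι → ℂˣ => (((s k)⁻¹ : ℂˣ) : ℂ)) := by
  classical
  refine ⟨∏ j ∈ Finset.univ.erase k, X j, 1, fun s => ?_⟩
  simp only [pow_one, map_prod, eval_X]
  rw [← Finset.mul_prod_erase Finset.univ (fun j => (s j : ℂ)) (Finset.mem_univ k), ← mul_assoc]
  simp

theorem IsLaurent.sum {κ : Type} (T : Finset κ) {G : κ → (ι → ℂˣ) → ℂ}
    (hG : ∀ a ∈ T, IsLaurent (G a)) : IsLaurent (fun s => ∑ a ∈ T, G a s) := by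
  classical
  induction T using Finset.induction_on with
  | empty => simpa using IsLaurent.const (ι := ι) 0
  | insert a T ha ih =>
    simp only [Finset.sum_insert ha]
    exact (hG a (Finset.mem_insert_self a T)).add
      (ih fun b hb => hG b (Finset.mem_insert_of_mem hb))

theorem IsLaurent.pow {G : (ι → ℂˣ) → ℂ} (hG : IsLaurent G) (n : ℕ) :
    IsLaurent (fun s => G s ^ n) := by
  induction n with
  | zero => simpa using IsLaurent.const (ι := ι) 1
  | succ n ih => simpa [pow_succ] using ih.mul hG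

/-- Composition of a polynomial with Laurent polynomial functions. -/
theorem IsLaurent.eval_comp {κ : Type} (P : MvPolynomial κ ℂ) {G : κ → (ι → ℂˣ) → ℂ}
    (hG : ∀ a, IsLaurent (G a)) : IsLaurent (fun s => eval (fun a => G a s) P) := by
  induction P using MvPolynomial.induction_on with
  | C c => simpa using IsLaurent.const (ι := ι) c
  | add p q hp hq => simpa using hp.add hq
  | mul_X p a hp => simpa using hp.mul (hG a)

/-- A unit-valued function on the torus which, together with its inverse, is Laurent. -/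
def IsLaurentUnit (u : (ι → ℂˣ) → ℂˣ) : Prop :=
  IsLaurent (fun s => (u s : ℂ)) ∧ IsLaurent (fun s => (((u s)⁻¹ : ℂˣ) : ℂ))

theorem IsLaurentUnit.coord (k : ι) : IsLaurentUnit (fun s : ι → ℂˣ => s k) :=
  ⟨IsLaurent.coord k, IsLaurent.coord_inv k⟩

theorem IsLaurentUnit.one : IsLaurentUnit (fun _ : ι → ℂˣ => (1 : ℂˣ)) :=
  ⟨by simpa using IsLaurent.const (ι := ι) 1, by simpa using IsLaurent.const (ι := ι) 1⟩

theorem IsLaurentUnit.mul {u v : (ι → ℂˣ) → ℂˣ} (hu : IsLaurentUnit u) (hv : IsLaurentUnit v) :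
    IsLaurentUnit (fun s => u s * v s) :=
  ⟨by simpa using hu.1.mul hv.1, by simpa [mul_comm] using hu.2.mul hv.2⟩

theorem IsLaurentUnit.inv {u : (ι → ℂˣ) → ℂˣ} (hu : IsLaurentUnit u) :
    IsLaurentUnit (fun s => (u s)⁻¹) :=
  ⟨hu.2, by simpa using hu.1⟩

theorem IsLaurentUnit.div {u v : (ι → ℂˣ) → ℂˣ} (hu : IsLaurentUnit u) (hv : IsLaurentUnit v) :
    IsLaurentUnit (fun s => u s / v s) := by
  simpa [div_eq_mul_inv] using hu.mul hv.inv

theorem IsLaurentUnit.pow {u : (ι → ℂˣ) → ℂˣ} (hu : IsLaurentUnit u) (n : ℕ) :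
    IsLaurentUnit (fun s => u s ^ n) := by
  induction n with
  | zero => simpa using IsLaurentUnit.one (ι := ι)
  | succ n ih => simpa [pow_succ] using ih.mul hu

theorem IsLaurentUnit.zpow {u : (ι → ℂˣ) → ℂˣ} (hu : IsLaurentUnit u) (n : ℤ) :
    IsLaurentUnit (fun s => u s ^ n) := by
  cases n with
  | ofNat n => simpa using hu.pow n
  | negSucc n => simpa using (hu.pow (n + 1)).inv

theorem IsLaurentUnit.prod {κ : Type} (T : Finset κ) {u : κ → (ι → ℂˣ) → ℂˣ}
    (hu : ∀ a ∈ T, IsLaurentUnit (u a)) : IsLaurentUnit (fun s => ∏ a ∈ T, u a s) := by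
  classical
  induction T using Finset.induction_on with
  | empty => simpa using IsLaurentUnit.one (ι := ι)
  | insert a T ha ih =>
    simp only [Finset.prod_insert ha]
    exact (hu a (Finset.mem_insert_self a T)).mul
      (ih fun b hb => hu b (Finset.mem_insert_of_mem hb))

/-- Density: a Laurent polynomial function vanishing on S^ι, S infinite, vanishes. -/
theorem IsLaurent.eq_zero_of_infinite {G : (ι → ℂˣ) → ℂ} (hG : IsLaurent G) (S : Set ℂˣ)
    (hS : S.Infinite) (h : ∀ s : ι → ℂˣ, (∀ k, s k ∈ S) → G s = 0) (s : ι → ℂˣ) : G s = 0 := by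
  classical
  obtain ⟨Q, N, hQ⟩ := hG
  obtain ⟨T0, hT0S, hT0c⟩ := hS.exists_subset_card_eq (Q.totalDegree + 1)
  have hQ0 : Q = 0 := by
    refine MvPolynomial.eq_zero_of_eval_zero_at_prod_finset Q
      (fun _ => T0.image (fun z : ℂˣ => (z : ℂ))) (fun i => ?_) (fun x hx => ?_)
    · rw [Finset.card_image_of_injective _ Units.val_injective, hT0c]
      exact Nat.lt_succ_of_le (MvPolynomial.degreeOf_le_totalDegree Q i)
    · have hx' : ∀ i, ∃ z : ℂˣ, z ∈ T0 ∧ (z : ℂ) = x i := fun i => by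
        simpa using hx i
      choose z hz hzx using hx'
      have := hQ z
      rw [h z (fun k => hT0S (hz k)), zero_mul] at this
      rw [← (funext hzx : (fun k => (z k : ℂ)) = x)]
      exact this.symm
  have h1 := hQ s
  rw [hQ0, map_zero] at h1
  have h2 : (∏ k, (s k : ℂ)) ^ N ≠ 0 :=
    pow_ne_zero _ (Finset.prod_ne_zero_iff.mpr fun k _ => (s k).ne_zero)
  exact (mul_eq_zero.mp h1).resolve_right h2

/-- Solving s_i ^ r / (product of the s_j) = t_i when the product of the t_i is one. -/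
theorem exists_roots (r : ℕ) (t : Fin r → ℂˣ) (ht : ∏ i, t i = 1) :
    ∃ s : Fin r → ℂˣ, ∀ i, s i ^ r / ∏ j, s j = t i := by
  classical
  rcases Nat.eq_zero_or_pos r with rfl | hr
  · exact ⟨fun i => i.elim0, fun i => i.elim0⟩
  · have hroot : ∀ z : ℂˣ, ∃ y : ℂˣ, y ^ r = z := by
      intro z
      obtain ⟨y, hy⟩ := IsAlgClosed.exists_pow_nat_eq (z : ℂ) hr
      have hy0 : y ≠ 0 := by
        rintro rfl
        rw [zero_pow hr.ne'] at hy
        exact z.ne_zero hy.symm
      exact ⟨Units.mk0 y hy0, Units.ext (by simpa using hy)⟩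
    choose y hy using fun i => hroot (t i)
    have hc : (∏ j, y j) ^ r = 1 := by
      rw [← Finset.prod_pow]
      simp [hy, ht]
    let i0 : Fin r := ⟨0, hr⟩
    refine ⟨Function.update y i0 (y i0 / ∏ j, y j), fun i => ?_⟩
    have hprod : ∏ j, Function.update y i0 (y i0 / ∏ j, y j) j = 1 := by
      rw [Finset.prod_update_of_mem (Finset.mem_univ i0), Finset.sdiff_singleton_eq_erase,
        div_mul_eq_mul_div, Finset.mul_prod_erase Finset.univ y (Finset.mem_univ i0), div_self']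
    rw [hprod, div_one]
    by_cases h : i = i0
    · subst h
      simp [div_pow, hy, hc]
    · simp [Function.update_of_ne h, hy]

end Vale.Agent.Lib.P002
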