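import Vale.Agent.Lib.P002.SrMain

/-!
Pairs (A, B) of matrices of size at least three with prescribed characteristic polynomials of
A, B and AB and with no condition on the eigenvalues: existence of a chart pair whose members
have invertible chain frames.  The second member is the lower bidiagonal matrix with the
prescribed diagonal and ones below the diagonal; the first member is built row by row, the
characteristic polynomials of the products of the trailing blocks being chosen so that the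
entries just above the diagonal do not vanish.
-/

namespace Vale.Agent.Lib.P002

open Matrix Polynomial

section Pants

/-- The trace of a matrix whose characteristic polynomial is a product of linear factors. -/
theorem trace_of_charpoly {n : ℕ} (M : Matrix (Fin (n + 1)) (Fin (n + 1)) ℂ)
    (c : Fin (n + 1) → ℂ) (h : M.charpoly = ∏ i, (X - C (c i))) : M.trace = ∑ i, c i := by
  have h1 := Matrix.trace_eq_neg_charpoly_coeff M
  have h2 := Polynomial.prod_X_sub_C_coeff_card_pred (Finset.univ : Finset (Fin (n + 1))) c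
    (by simp)
  rw [Fintype.card_fin] at h1
  rw [Finset.card_univ, Fintype.card_fin] at h2
  rw [h1, h, h2, neg_neg]

/-- The chain frame of a block upper triangular matrix is invertible for a suitable base
vector if the chain frame of the lower block is invertible and either the first eigenvalue
does not occur in the lower block, or it is the first eigenvalue of the lower block and the
first entry of the row is nonzero. -/
theorem exists_jorU_step {k : ℕ} (α : Fin (k + 2) → ℂ) (ζ : Fin (k + 1) → ℂ)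
    (N : Matrix (Fin (k + 1)) (Fin (k + 1)) ℂ)
    (hNu : ∀ i j, j < i → N i j = 0) (hNd : ∀ i, N i i = α i.succ)
    (v' : Fin (k + 1) → ℂ) (hv' : (jorU (fun l => α l.succ) N v').det ≠ 0)
    (h01 : (α 0 = α 1 ∧ ζ 0 ≠ 0) ∨ ∀ i : Fin (k + 1), α i.succ ≠ α 0) :
    ∃ x : ℂ, (jorU α (bmat (α 0) ζ 0 N) (Fin.cons x v')).det ≠ 0 := by
  have hNc : N.charpoly = ∏ l : Fin (k + 1), (X - C (α l.succ)) := by
    rw [charpoly_ut hNu]
    simp only [hNd]
  have hfu : ∀ i r, i < r → jorU (fun l => α l.succ) N v' r i = 0 :=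
    jorU_ut (fun l => α l.succ) hNu hNd v'
  have hfd : ∀ i, jorU (fun l => α l.succ) N v' i i ≠ 0 := by
    rw [det_ut (fun i j hij => hfu j i hij)] at hv'
    exact fun i => Finset.prod_ne_zero_iff.mp hv' i (Finset.mem_univ i)
  obtain ⟨c, hcdef⟩ : ∃ c, c = jorU (fun l => α l.succ) N v' 0 0 := ⟨_, rfl⟩
  have hc : c ≠ 0 := by
    rw [hcdef]
    exact hfd 0
  have hcol : (fun r => jorU (fun l => α l.succ) N v' r 0) = c • Pi.single 0 1 := by
    funext r
    refine Fin.cases ?_ (fun r => ?_) r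
    · simp [hcdef]
    · rw [hfu 0 r.succ (Fin.succ_pos r)]
      simp [Fin.succ_ne_zero]
  obtain ⟨φ, hφ⟩ := jorU_bmat_zero_zero α ζ N v'
  have hdet : ∀ x : ℂ,
      (jorU α (bmat (α 0) ζ 0 N) (Fin.cons x v')).det =
        ((∏ l : Fin (k + 1), (α 0 - α l.succ)) * x + φ) *
          (jorU (fun l => α l.succ) N v').det := by
    intro x
    rw [det_jorU_bmat α ζ N hNc x, hφ x]
  rcases h01 with ⟨h, hζ⟩ | h
  · refine ⟨0, ?_⟩
    rw [hdet 0]
    refine mul_ne_zero ?_ hv'
    rw [← hφ 0]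
    have hcc := congrFun (jorU_col_castSucc α (bmat (α 0) ζ 0 N)
      (Fin.cons 0 v') (0 : Fin (k + 1))) 0
    have hu : (fun r => jorU α (bmat (α 0) ζ 0 N) (Fin.cons 0 v') r (Fin.succ 0)) =
        Fin.cons (jorU α (bmat (α 0) ζ 0 N) (Fin.cons 0 v') 0 (Fin.succ 0))
          (c • Pi.single 0 1) := by
      funext r
      refine Fin.cases ?_ (fun r => ?_) r
      · simp
      · rw [Fin.cons_succ, jorU_bmat_succ_succ]
        exact congrFun hcol r
    rw [Fin.castSucc_zero] at hcc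
    rw [hcc, hu, bmat_mulVec]
    simp only [Pi.sub_apply, Pi.smul_apply, Fin.cons_zero, smul_eq_mul]
    have h1 : α (Fin.succ 0) = α 0 := by
      rw [Fin.succ_zero_eq_one]
      exact h.symm
    have h2 : ζ ⬝ᵥ (c • Pi.single 0 1) = c * ζ 0 := by
      simp [dotProduct, Pi.single_apply]
      ring
    rw [h1, h2]
    have key : ∀ t : ℂ, α 0 * t + c * ζ 0 - α 0 * t ≠ 0 := by
      intro t
      have e : α 0 * t + c * ζ 0 - α 0 * t = c * ζ 0 := by ring
      rw [e]
      exact mul_ne_zero hc hζ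
    exact key _
  · have hp : (∏ l : Fin (k + 1), (α 0 - α l.succ)) ≠ 0 :=
      Finset.prod_ne_zero_iff.mpr fun l _ => sub_ne_zero.mpr (h l).symm
    by_cases hφ0 : φ = 0
    · refine ⟨1, ?_⟩
      rw [hdet 1, hφ0, mul_one, add_zero]
      exact mul_ne_zero hp hv'
    · refine ⟨0, ?_⟩
      rw [hdet 0, mul_zero, zero_add]
      exact mul_ne_zero hφ0 hv'

/-- The first row of the first member: if a chart pair of size k + 1 with lower bidiagonal
second member is given, and the sum of the roots of the characteristic polynomial of its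
product differs from the value forced by a vanishing entry above the diagonal, then there
is a chart pair of size k + 2 with lower bidiagonal second member, prescribed characteristic
polynomial of the product and invertible chain frame of the first member. -/
theorem chart_step {k : ℕ} (α β δ : Fin (k + 2) → ℂ) (δ' : Fin (k + 1) → ℂ)
    (hα0 : ∀ i, α i ≠ 0) (hβ0 : ∀ i, β i ≠ 0)
    (hprod : (∏ i, α i) * ∏ i, β i = ∏ i, δ i)
    (hsum : ∑ i, δ' i ≠ ∑ i, δ i - α 0 * β 0)
    (h01 : α 0 = α 1 ∨ ∀ i : Fin (k + 1), α i.succ ≠ α 0)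
    (U' : Matrix (Fin (k + 1)) (Fin (k + 1)) ℂ)
    (hU' : ∀ i j, j < i → U' i j = 0) (hU'd : ∀ i, U' i i = α i.succ)
    (hch' : (U' * bLow (k + 1) (fun i => β i.succ)).charpoly = ∏ i, (X - C (δ' i)))
    (hcyc' : Cyc (U' * bLow (k + 1) (fun i => β i.succ)) (Fin.cons 1 0))
    (v' : Fin (k + 1) → ℂ) (hv' : (jorU (fun l => α l.succ) U' v').det ≠ 0) :
    ∃ (U : Matrix (Fin (k + 2)) (Fin (k + 2)) ℂ) (v : Fin (k + 2) → ℂ),
      (∀ i j, j < i → U i j = 0) ∧ (∀ i, U i i = α i) ∧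
      (U * bLow (k + 2) β).charpoly = ∏ i, (X - C (δ i)) ∧
      Cyc (U * bLow (k + 2) β) (Fin.cons 1 0) ∧ (jorU α U v).det ≠ 0 := by
  obtain ⟨L', hL'def⟩ : ∃ L', L' = bLow (k + 1) (fun i => β i.succ) := ⟨_, rfl⟩
  rw [← hL'def] at hch' hcyc'
  have hU'det : U'.det = ∏ i : Fin (k + 1), α i.succ := by
    rw [det_ut hU']
    simp only [hU'd]
  have hL'det : L'.det = ∏ i : Fin (k + 1), β i.succ := by
    rw [hL'def, det_bLow]
  have hU'unit : IsUnit U'.det := by
    rw [hU'det]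
    exact isUnit_iff_ne_zero.mpr (Finset.prod_ne_zero_iff.mpr fun i _ => hα0 i.succ)
  have hL'unit : IsUnit L'.det := by
    rw [hL'det]
    exact isUnit_iff_ne_zero.mpr (Finset.prod_ne_zero_iff.mpr fun i _ => hβ0 i.succ)
  have hUc : U' *ᵥ c0 (k + 1) = α 1 • (Fin.cons 1 0 : Fin (k + 1) → ℂ) := by
    rw [c0_succ, ← single_eq_cons, Matrix.mulVec_single_one]
    funext r
    refine Fin.cases ?_ (fun r => ?_) r
    · have h := hU'd 0
      rw [Fin.succ_zero_eq_one] at h
      simp [h]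
    · simp [hU' r.succ 0 (Fin.succ_pos r), Fin.succ_ne_zero]
  have hcyc2 : Cyc (U' * L') (U' *ᵥ c0 (k + 1)) := by
    rw [hUc]
    intro u
    obtain ⟨p, hp⟩ := hcyc' ((α 1)⁻¹ • u)
    refine ⟨p, ?_⟩
    rw [Matrix.mulVec_smul, hp, smul_smul, mul_inv_cancel₀ (hα0 1), one_smul]
  have hprod' : α 0 * β 0 * ((∏ i : Fin (k + 1), α i.succ) * ∏ i : Fin (k + 1), β i.succ) =
      ∏ i, δ i := by
    rw [← hprod, Fin.prod_univ_succ α, Fin.prod_univ_succ β]
    ring
  have hfd : (∏ i, (X - C (δ i))).natDegree = k + 1 + 1 := by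
    rw [Polynomial.natDegree_prod_of_monic _ _ fun i _ => Polynomial.monic_X_sub_C _]
    simp
  have hf0 : (∏ i, (X - C (δ i))).coeff 0 = -(α 0 * β 0 * (U' * L').charpoly.coeff 0) := by
    rw [coeff_zero_prod_X_sub_C, ← hprod', coeff_zero_charpoly, Matrix.det_mul, hU'det, hL'det]
    ring
  obtain ⟨ρ, hρ, -⟩ := ext_UL U' L' (c0 (k + 1)) hU'unit hL'unit hcyc2 (α 0) (β 0)
    (∏ i, (X - C (δ i)))
    (Polynomial.monic_prod_of_monic _ _ fun i _ => Polynomial.monic_X_sub_C _) hfd hf0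
  have hmul : bmat (α 0) ρ 0 U' * bmat (β 0) 0 (c0 (k + 1)) L' =
      bmat (α 0 * β 0 + ρ ⬝ᵥ c0 (k + 1)) (ρ ᵥ* L') (U' *ᵥ c0 (k + 1)) (U' * L') := by
    rw [bmat_mul]
    congr 1 <;> simp
  have hbl : bLow (k + 2) β = bmat (β 0) 0 (c0 (k + 1)) L' := by
    rw [hL'def, bLow_succ]
  have hρ0 : ρ 0 ≠ 0 := by
    have h1 := trace_of_charpoly _ _ hρ
    rw [hmul, trace_bmat, trace_of_charpoly _ _ hch'] at h1
    have h2 : ρ ⬝ᵥ c0 (k + 1) = ρ 0 := by
      rw [c0_succ]
      simp [dotProduct, Fin.sum_univ_succ]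
    rw [h2] at h1
    intro h0
    apply hsum
    rw [h0] at h1
    linear_combination h1
  have h01' : (α 0 = α 1 ∧ ρ 0 ≠ 0) ∨ ∀ i : Fin (k + 1), α i.succ ≠ α 0 := by
    rcases h01 with h | h
    · exact Or.inl ⟨h, hρ0⟩
    · exact Or.inr h
  obtain ⟨x, hx⟩ := exists_jorU_step α ρ U' hU' hU'd v' hv' h01'
  refine ⟨bmat (α 0) ρ 0 U', Fin.cons x v', bmat_ut' (α 0) ρ hU', ?_, ?_, ?_, hx⟩
  · intro i
    refine Fin.cases ?_ (fun i => ?_) i
    · simp
    · simp [hU'd]
  · rw [hbl]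
    exact hρ
  · rw [hbl, hmul]
    exact hcyc2.block _ _

/-- A family with prescribed nonzero product whose sum avoids two values. -/
theorem exists_tuple (k : ℕ) (c t1 t2 : ℂ) (hc : c ≠ 0) :
    ∃ d : Fin (k + 2) → ℂ, ∏ i, d i = c ∧ ∑ i, d i ≠ t1 ∧ ∑ i, d i ≠ t2 := by
  have hq : ∀ t : ℂ, X ^ 2 - C t * X + C c ≠ (0 : ℂ[X]) := by
    intro t h
    have h1 := congrArg (eval 0) h
    simp at h1
    exact hc h1
  obtain ⟨z, hz⟩ := Infinite.exists_notMem_finset
    ({0} ∪ (X ^ 2 - C (t1 - k) * X + C c : ℂ[X]).roots.toFinset ∪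
      (X ^ 2 - C (t2 - k) * X + C c : ℂ[X]).roots.toFinset)
  simp only [Finset.mem_union, Finset.mem_singleton, Multiset.mem_toFinset, not_or] at hz
  obtain ⟨⟨hz0, hz1⟩, hz2⟩ := hz
  have e1 : z ^ 2 - (t1 - k) * z + c ≠ 0 := by
    intro h
    apply hz1
    rw [Polynomial.mem_roots (hq _)]
    simp [h]
  have e2 : z ^ 2 - (t2 - k) * z + c ≠ 0 := by
    intro h
    apply hz2
    rw [Polynomial.mem_roots (hq _)]
    simp [h]
  have hsum : ∑ i : Fin (k + 2), (Fin.cons z (Fin.cons (c / z) fun _ => 1) : Fin (k + 2) → ℂ) i =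
      z + (c / z + k) := by
    rw [Fin.sum_univ_succ, Fin.cons_zero]
    simp only [Fin.cons_succ]
    rw [Fin.sum_univ_succ, Fin.cons_zero]
    simp only [Fin.cons_succ]
    simp
  have key : ∀ t : ℂ, z ^ 2 - (t - k) * z + c ≠ 0 → z + (c / z + k) ≠ t := by
    intro t ht h
    apply ht
    have e : z ^ 2 - (t - k) * z + c = z * (z + (c / z + k) - t) := by
      field_simp
      ring
    rw [e, h, sub_self, mul_zero]
  refine ⟨Fin.cons z (Fin.cons (c / z) fun _ => 1), ?_, ?_, ?_⟩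
  · rw [Fin.prod_univ_succ, Fin.cons_zero]
    simp only [Fin.cons_succ]
    rw [Fin.prod_univ_succ, Fin.cons_zero]
    simp only [Fin.cons_succ]
    simp only [Finset.prod_const_one, mul_one]
    field_simp
  · rw [hsum]
    exact key t1 e1
  · rw [hsum]
    exact key t2 e2

/-- Equal members of the family are adjacent. -/
def Grouped {n : ℕ} (α : Fin n → ℂ) : Prop :=
  ∀ i j l : Fin n, i ≤ l → l ≤ j → α i = α j → α l = α i

theorem Grouped.tail {n : ℕ} {α : Fin (n + 1) → ℂ} (h : Grouped α) :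
    Grouped (fun i => α i.succ) :=
  fun i j l hil hlj hij =>
    h i.succ j.succ l.succ (Fin.succ_le_succ_iff.mpr hil) (Fin.succ_le_succ_iff.mpr hlj) hij

theorem Grouped.first {k : ℕ} {α : Fin (k + 2) → ℂ} (h : Grouped α) :
    α 0 = α 1 ∨ ∀ i : Fin (k + 1), α i.succ ≠ α 0 := by
  by_cases hex : ∃ i : Fin (k + 1), α i.succ = α 0
  · obtain ⟨i, hi⟩ := hex
    refine Or.inl ?_
    have h1 := h 0 i.succ 1 (Fin.zero_le _) ?_ hi.symm
    · exact h1.symm
    · rw [← Fin.succ_zero_eq_one]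
      exact Fin.succ_le_succ_iff.mpr (Fin.zero_le _)
  · exact Or.inr fun i hi => hex ⟨i, hi⟩

/-- Every family can be reordered so that equal members are adjacent. -/
theorem exists_grouped_perm {n : ℕ} (α : Fin n → ℂ) :
    ∃ π : Equiv.Perm (Fin n), Grouped (fun i => α (π i)) := by
  obtain ⟨f, hf⟩ : ∃ f : Fin n → ℝ ×ₗ ℝ, f = fun i => toLex ((α i).re, (α i).im) := ⟨_, rfl⟩
  refine ⟨Tuple.sort f, ?_⟩
  have hm : Monotone (f ∘ Tuple.sort f) := Tuple.monotone_sort f
  intro i j l hil hlj hij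
  have hij' : α (Tuple.sort f i) = α (Tuple.sort f j) := hij
  have h1 : f (Tuple.sort f i) ≤ f (Tuple.sort f l) := hm hil
  have h2 : f (Tuple.sort f l) ≤ f (Tuple.sort f j) := hm hlj
  have hfa : ∀ a, f a = toLex ((α a).re, (α a).im) := fun a => by rw [hf]
  have h3 : f (Tuple.sort f j) = f (Tuple.sort f i) := by
    rw [hfa, hfa, hij']
  have h4 : f (Tuple.sort f l) = f (Tuple.sort f i) := le_antisymm (h3 ▸ h2) h1
  rw [hfa, hfa] at h4
  have h5 := congrArg ofLex h4
  simp only [ofLex_toLex, Prod.mk.injEq] at h5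
  show α (Tuple.sort f l) = α (Tuple.sort f i)
  exact Complex.ext h5.1 h5.2

end Pants

section PantsMain

/-- Chart pairs with lower bidiagonal second member, prescribed characteristic polynomial of
the product and invertible chain frame of the first member.  In size two the sum of the roots
of the characteristic polynomial of the product must differ from the sum of the products of
the diagonal entries; in every larger size there is no condition. -/
theorem pd_of_sum_ne : ∀ (k : ℕ) (α β δ : Fin (k + 2) → ℂ), (∀ i, α i ≠ 0) → (∀ i, β i ≠ 0) →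
    (∏ i, α i) * ∏ i, β i = ∏ i, δ i → Grouped α → (k = 0 → ∑ i, δ i ≠ ∑ i, α i * β i) →
    ∃ (U : Matrix (Fin (k + 2)) (Fin (k + 2)) ℂ) (v : Fin (k + 2) → ℂ),
      (∀ i j, j < i → U i j = 0) ∧ (∀ i, U i i = α i) ∧
      (U * bLow (k + 2) β).charpoly = ∏ i, (X - C (δ i)) ∧
      Cyc (U * bLow (k + 2) β) (Fin.cons 1 0) ∧ (jorU α U v).det ≠ 0
  | 0, α, β, δ, hα0, hβ0, hprod, hg, hs => by
    have hsum : ∑ i : Fin 1, (fun i : Fin 1 => α i.succ * β i.succ) i ≠
        ∑ i, δ i - α 0 * β 0 := by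
      intro h
      apply hs rfl
      rw [Fin.sum_univ_one] at h
      rw [Fin.sum_univ_two (fun i => α i * β i)]
      have e : Fin.succ (0 : Fin 1) = (1 : Fin 2) := rfl
      rw [e] at h
      linear_combination -h
    have hch' : (Matrix.diagonal (fun i : Fin 1 => α i.succ) *
        bLow 1 (fun i => β i.succ)).charpoly = ∏ i : Fin 1, (X - C (α i.succ * β i.succ)) := by
      rw [charpoly_ut (fun i j hij => absurd (Subsingleton.elim j i) hij.ne)]
      refine Finset.prod_congr rfl fun i _ => ?_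
      rw [Matrix.diagonal_mul, (bLow_shape 1 _).2 i]
    have hcyc' : Cyc (Matrix.diagonal (fun i : Fin 1 => α i.succ) * bLow 1 (fun i => β i.succ))
        (Fin.cons 1 0) := by
      intro u
      refine ⟨C (u 0), ?_⟩
      funext i
      rw [Subsingleton.elim i 0, aeval_C, Algebra.algebraMap_eq_smul_one, Matrix.smul_mulVec,
        Matrix.one_mulVec]
      simp
    have hv' : (jorU (fun l : Fin 1 => α l.succ) (Matrix.diagonal (fun i : Fin 1 => α i.succ))
        (fun _ => 1)).det ≠ 0 := by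
      rw [Matrix.det_fin_one]
      have h : jorU (fun l : Fin 1 => α l.succ) (Matrix.diagonal (fun i : Fin 1 => α i.succ))
          (fun _ => 1) 0 0 = 1 :=
        congrFun (jorU_col_last (fun l : Fin 1 => α l.succ)
          (Matrix.diagonal (fun i : Fin 1 => α i.succ)) (fun _ => 1)) 0
      rw [h]
      exact one_ne_zero
    exact chart_step α β δ (fun i : Fin 1 => α i.succ * β i.succ) hα0 hβ0 hprod hsum hg.first
      (Matrix.diagonal (fun i : Fin 1 => α i.succ))
      (fun i j hij => Matrix.diagonal_apply_ne _ hij.ne')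
      (fun i => Matrix.diagonal_apply_eq _ i) hch' hcyc' (fun _ => 1) hv'
  | k + 1, α, β, δ, hα0, hβ0, hprod, hg, _ => by
    have hc : (∏ i : Fin (k + 2), α i.succ) * ∏ i : Fin (k + 2), β i.succ ≠ 0 :=
      mul_ne_zero (Finset.prod_ne_zero_iff.mpr fun i _ => hα0 i.succ)
        (Finset.prod_ne_zero_iff.mpr fun i _ => hβ0 i.succ)
    obtain ⟨δ', hp, hs1, hs2⟩ := exists_tuple k _ (∑ i, δ i - α 0 * β 0)
      (∑ i : Fin (k + 2), α i.succ * β i.succ) hc
    obtain ⟨U', v', h1, h2, h3, h4, h5⟩ := pd_of_sum_ne k (fun i => α i.succ)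
      (fun i => β i.succ) δ' (fun i => hα0 i.succ) (fun i => hβ0 i.succ) hp.symm hg.tail
      (fun _ => hs2)
    exact chart_step α β δ δ' hα0 hβ0 hprod hs1 hg.first U' h1 h2 h3 h4 v' h5

/-- Existence of a chart pair with invertible chain frames in every size at least three. -/
theorem exists_regular_chart_pants (k : ℕ) (α β δ : Fin (k + 1 + 2) → ℂ)
    (γ : Fin 0 → Fin (k + 1 + 2) → ℂ)
    (hα1 : ∏ i, α i = 1) (hβ1 : ∏ i, β i = 1) (hδ1 : ∏ i, δ i = 1) (hg : Grouped α) :
    ∃ (A B : Matrix (Fin (k + 1 + 2)) (Fin (k + 1 + 2)) ℂ)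
      (Z : Fin 0 → Matrix (Fin (k + 1 + 2)) (Fin (k + 1 + 2)) ℂ) (v w : Fin (k + 1 + 2) → ℂ),
      ChartY (k + 1 + 1) 0 α β δ γ A B Z ∧ (jorU α A v).det ≠ 0 ∧ (jorL β B w).det ≠ 0 := by
  have hα0 := ne_zero_of_prod_eq_one α hα1
  have hβ0 := ne_zero_of_prod_eq_one β hβ1
  obtain ⟨U, v, h1, h2, h3, h4, h5⟩ := pd_of_sum_ne (k + 1) α β δ hα0 hβ0
    (by rw [hα1, hβ1, hδ1, one_mul]) hg (fun h => absurd h (Nat.succ_ne_zero k))
  have hw := det_jorL_limit β (fun _ => 1) β (fun i => one_mul _) (fun _ => one_ne_zero)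
  refine ⟨U, bLow (k + 1 + 2) β, fun l => Fin.elim0 l, v, Pi.single 0 1,
    ⟨h1, h2, (bLow_shape _ β).1, (bLow_shape _ β).2, fun l => Fin.elim0 l, ?_,
      fun l => Fin.elim0 l, fun l => Fin.elim0 l, ?_⟩, h5, ?_⟩
  · simpa using h3
  · simpa using h4
  · simpa using hw

/-- The density theorem for tuples with any number of matrices Z_l, given a chart tuple with
invertible chain frames. -/
theorem spheres_regular_core (n m : ℕ) (α β δ : Fin (n + 2) → ℂ)
    (γ : Fin m → Fin (n + 2) → ℂ)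
    (hα : ∀ i, IsIntegral ℤ (α i)) (hβ : ∀ i, IsIntegral ℤ (β i)) (hδ : ∀ i, IsIntegral ℤ (δ i))
    (hγ : ∀ l i, IsIntegral ℤ (γ l i))
    (hα1 : ∏ i, α i = 1) (hβ1 : ∏ i, β i = 1) (hδ1 : ∏ i, δ i = 1)
    (hγ1 : ∀ l, ∏ i, γ l i = 1)
    (hex : ∃ (A B : Matrix (Fin (n + 2)) (Fin (n + 2)) ℂ)
      (Z : Fin m → Matrix (Fin (n + 2)) (Fin (n + 2)) ℂ) (v w : Fin (n + 2) → ℂ),
      ChartY (n + 1) m α β δ γ A B Z ∧ (jorU α A v).det ≠ 0 ∧ (jorL β B w).det ≠ 0) :
    ∃ L : IntermediateField ℚ ℂ, FiniteDimensional ℚ L ∧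
      ∃ F : MvPolynomial ((Fin 2 ⊕ Fin m) × Fin (n + 2) × Fin (n + 2)) ℂ,
        (∃ (A B : Matrix (Fin (n + 2)) (Fin (n + 2)) ℂ)
          (Z : Fin m → Matrix (Fin (n + 2)) (Fin (n + 2)) ℂ),
          A.charpoly = ∏ i, (Polynomial.X - Polynomial.C (α i)) ∧
          B.charpoly = ∏ i, (Polynomial.X - Polynomial.C (β i)) ∧
          (∀ l, (Z l).charpoly = ∏ i, (Polynomial.X - Polynomial.C (γ l i))) ∧
          (A * (List.ofFn Z).prod * B).charpoly = ∏ i, (Polynomial.X - Polynomial.C (δ i)) ∧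
          MvPolynomial.eval (fun x => Sum.elim ![A, B] Z x.1 x.2.1 x.2.2) F ≠ 0) ∧
        (∀ (A B : Matrix (Fin (n + 2)) (Fin (n + 2)) ℂ)
          (Z : Fin m → Matrix (Fin (n + 2)) (Fin (n + 2)) ℂ),
          A.charpoly = ∏ i, (Polynomial.X - Polynomial.C (α i)) →
          B.charpoly = ∏ i, (Polynomial.X - Polynomial.C (β i)) →
          (∀ l, (Z l).charpoly = ∏ i, (Polynomial.X - Polynomial.C (γ l i))) →
          (A * (List.ofFn Z).prod * B).charpoly = ∏ i, (Polynomial.X - Polynomial.C (δ i)) →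
          MvPolynomial.eval (fun x => Sum.elim ![A, B] Z x.1 x.2.1 x.2.2) F ≠ 0 →
          (∃ v : Fin (n + 2) → ℂ, ∀ u : Fin (n + 2) → ℂ, ∃ p : Polynomial ℂ,
            Matrix.mulVec (Polynomial.aeval A p) v = u) ∧
          (∃ v : Fin (n + 2) → ℂ, ∀ u : Fin (n + 2) → ℂ, ∃ p : Polynomial ℂ,
            Matrix.mulVec (Polynomial.aeval B p) v = u) ∧
          (∀ l, ∃ v : Fin (n + 2) → ℂ, ∀ u : Fin (n + 2) → ℂ, ∃ p : Polynomial ℂ,
            Matrix.mulVec (Polynomial.aeval (Z l) p) v = u) ∧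
          ∃ v : Fin (n + 2) → ℂ, ∀ u : Fin (n + 2) → ℂ, ∃ p : Polynomial ℂ,
            Matrix.mulVec (Polynomial.aeval (A * (List.ofFn Z).prod * B) p) v = u) ∧
        ∀ P : MvPolynomial ((Fin 2 ⊕ Fin m) × Fin (n + 2) × Fin (n + 2)) ℂ,
          (∀ (A B : Matrix (Fin (n + 2)) (Fin (n + 2)) ℂ)
            (Z : Fin m → Matrix (Fin (n + 2)) (Fin (n + 2)) ℂ),
            (∀ i j, A i j ∈ L ∧ IsIntegral ℤ (A i j)) →
            (∀ i j, B i j ∈ L ∧ IsIntegral ℤ (B i j)) →
            (∀ l i j, Z l i j ∈ L ∧ IsIntegral ℤ (Z l i j)) →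
            A.charpoly = ∏ i, (Polynomial.X - Polynomial.C (α i)) →
            B.charpoly = ∏ i, (Polynomial.X - Polynomial.C (β i)) →
            (∀ l, (Z l).charpoly = ∏ i, (Polynomial.X - Polynomial.C (γ l i))) →
            (A * (List.ofFn Z).prod * B).charpoly = ∏ i, (Polynomial.X - Polynomial.C (δ i)) →
            MvPolynomial.eval (fun x => Sum.elim ![A, B] Z x.1 x.2.1 x.2.2) P = 0) →
          ∀ (A B : Matrix (Fin (n + 2)) (Fin (n + 2)) ℂ)
            (Z : Fin m → Matrix (Fin (n + 2)) (Fin (n + 2)) ℂ),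
            A.charpoly = ∏ i, (Polynomial.X - Polynomial.C (α i)) →
            B.charpoly = ∏ i, (Polynomial.X - Polynomial.C (β i)) →
            (∀ l, (Z l).charpoly = ∏ i, (Polynomial.X - Polynomial.C (γ l i))) →
            (A * (List.ofFn Z).prod * B).charpoly = ∏ i, (Polynomial.X - Polynomial.C (δ i)) →
            MvPolynomial.eval (fun x => Sum.elim ![A, B] Z x.1 x.2.1 x.2.2) F ≠ 0 →
            MvPolynomial.eval (fun x => Sum.elim ![A, B] Z x.1 x.2.1 x.2.2) P = 0 := by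
  obtain ⟨-, L, hfin, hdens⟩ :=
    spheres_all (n + 1) m α β δ γ hα hβ hδ hγ hα1 hβ1 hδ1 hγ1
  obtain ⟨A0, B0, Z0, v, w, hch, hdA, hdB⟩ := hex
  refine ⟨L, hfin, polyJ (n + 1) m α β v w, ?_, ?_, ?_⟩
  · have hch' := hch
    obtain ⟨c1, c2, c3, c4, c5, c6, -, -, -⟩ := hch'
    have hau : ∀ i j, j < i → jorU α A0 v i j = 0 := fun i j hij => jorU_ut α c1 c2 v j i hij
    have hbl : ∀ i j, i < j → jorL β B0 w i j = 0 := fun i j hij => jorL_lt β c3 c4 w j i hij
    have had : ∀ i, jorU α A0 v i i ≠ 0 := by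
      rw [det_ut hau] at hdA
      exact fun i => Finset.prod_ne_zero_iff.mp hdA i (Finset.mem_univ i)
    have hbd : ∀ i, jorL β B0 w i i ≠ 0 := by
      rw [det_lt hbl] at hdB
      exact fun i => Finset.prod_ne_zero_iff.mp hdB i (Finset.mem_univ i)
    have hne := genG_chart_ne_zero (n + 1) m α β δ γ hβ1 hγ1 A0 B0 Z0 hch _ _ hau had
      hbl hbd
    refine ⟨A0, B0, Z0, ?_, ?_, c5, c6, ?_⟩
    · rw [charpoly_ut c1]
      simp only [c2]
    · rw [charpoly_lt c3]
      simp only [c4]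
    · rw [eval_polyJ]
      exact hne
  · intro A B Z hA hB hZ hN hF
    rw [eval_polyJ] at hF
    unfold genJ genG at hF
    have g5 := right_ne_zero_of_mul hF
    have hF4 := left_ne_zero_of_mul hF
    have g4 := right_ne_zero_of_mul hF4
    have hF3 := left_ne_zero_of_mul hF4
    have hF2 := left_ne_zero_of_mul hF3
    have g2 := right_ne_zero_of_mul hF2
    have g1 := left_ne_zero_of_mul hF2
    have hb : (jorL β B w).det ≠ 0 := by
      have h := trailDet_ne_zero_det (n + 1 + 1) _ g2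
      rw [Matrix.det_mul] at h
      exact right_ne_zero_of_mul h
    exact ⟨⟨v, cyc_of_det_jorU α A v g1⟩, ⟨w, cyc_of_det_jorL β B w hb⟩,
      fun l => ⟨_, cyc_of_isUnit_det_kry (isUnit_iff_ne_zero.mpr
        (Finset.prod_ne_zero_iff.mp g4 l (Finset.mem_univ l)))⟩,
      ⟨_, cyc_of_isUnit_det_kry (isUnit_iff_ne_zero.mpr g5)⟩⟩
  · intro P hP A B Z hA hB hZ hN hF
    rw [eval_polyJ] at hF
    unfold genJ genG at hF
    have g5 := right_ne_zero_of_mul hF
    have hF4 := left_ne_zero_of_mul hF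
    have g4 := right_ne_zero_of_mul hF4
    have hF3 := left_ne_zero_of_mul hF4
    have g3 := right_ne_zero_of_mul hF3
    have hF2 := left_ne_zero_of_mul hF3
    have g2 := right_ne_zero_of_mul hF2
    have g1 := left_ne_zero_of_mul hF2
    obtain ⟨g, g', A', B', Z', hgg, hch', eA, eB, eZ⟩ :=
      chart_of_regular (n + 1) m α β δ γ A B Z v w (jorU α A v) (jorL β B w) rfl rfl
        hA hB hZ hN g1 g2
        (fun l => Finset.prod_ne_zero_iff.mp g3 l (Finset.mem_univ l))
        (fun l => Finset.prod_ne_zero_iff.mp g4 l (Finset.mem_univ l)) g5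
    obtain ⟨c1, c2, c3, c4, c5, c6, c7, c8, c9⟩ := hch'
    have key := hdens P hP g g' A' B' Z' hgg c1 c2 c3 c4 c5 c6 c7
      (fun l => by rw [single_eq_cons]; exact c8 l) (by rw [single_eq_cons]; exact c9)
    have eZ' : (fun l => g * Z' l * g') = Z := by
      funext l
      exact (eZ l).symm
    rw [← eA, ← eB, eZ'] at key
    exact key

/-- Pairs of matrices of size at least three with prescribed characteristic polynomials of the
members and of the product, with no condition on the eigenvalues (the family of matrices Z_l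
is empty). -/
theorem pants_regular (n : ℕ) (α β δ : Fin (n + 1 + 2) → ℂ)
    (γ : Fin 0 → Fin (n + 1 + 2) → ℂ)
    (hα : ∀ i, IsIntegral ℤ (α i)) (hβ : ∀ i, IsIntegral ℤ (β i)) (hδ : ∀ i, IsIntegral ℤ (δ i))
    (hγ : ∀ l i, IsIntegral ℤ (γ l i))
    (hα1 : ∏ i, α i = 1) (hβ1 : ∏ i, β i = 1) (hδ1 : ∏ i, δ i = 1)
    (hγ1 : ∀ l, ∏ i, γ l i = 1) :
    ∃ L : IntermediateField ℚ ℂ, FiniteDimensional ℚ L ∧
      ∃ F : MvPolynomial ((Fin 2 ⊕ Fin 0) × Fin (n + 1 + 2) × Fin (n + 1 + 2)) ℂ,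
        (∃ (A B : Matrix (Fin (n + 1 + 2)) (Fin (n + 1 + 2)) ℂ)
          (Z : Fin 0 → Matrix (Fin (n + 1 + 2)) (Fin (n + 1 + 2)) ℂ),
          A.charpoly = ∏ i, (Polynomial.X - Polynomial.C (α i)) ∧
          B.charpoly = ∏ i, (Polynomial.X - Polynomial.C (β i)) ∧
          (∀ l, (Z l).charpoly = ∏ i, (Polynomial.X - Polynomial.C (γ l i))) ∧
          (A * (List.ofFn Z).prod * B).charpoly = ∏ i, (Polynomial.X - Polynomial.C (δ i)) ∧
          MvPolynomial.eval (fun x => Sum.elim ![A, B] Z x.1 x.2.1 x.2.2) F ≠ 0) ∧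
        (∀ (A B : Matrix (Fin (n + 1 + 2)) (Fin (n + 1 + 2)) ℂ)
          (Z : Fin 0 → Matrix (Fin (n + 1 + 2)) (Fin (n + 1 + 2)) ℂ),
          A.charpoly = ∏ i, (Polynomial.X - Polynomial.C (α i)) →
          B.charpoly = ∏ i, (Polynomial.X - Polynomial.C (β i)) →
          (∀ l, (Z l).charpoly = ∏ i, (Polynomial.X - Polynomial.C (γ l i))) →
          (A * (List.ofFn Z).prod * B).charpoly = ∏ i, (Polynomial.X - Polynomial.C (δ i)) →
          MvPolynomial.eval (fun x => Sum.elim ![A, B] Z x.1 x.2.1 x.2.2) F ≠ 0 →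
          (∃ v : Fin (n + 1 + 2) → ℂ, ∀ u : Fin (n + 1 + 2) → ℂ, ∃ p : Polynomial ℂ,
            Matrix.mulVec (Polynomial.aeval A p) v = u) ∧
          (∃ v : Fin (n + 1 + 2) → ℂ, ∀ u : Fin (n + 1 + 2) → ℂ, ∃ p : Polynomial ℂ,
            Matrix.mulVec (Polynomial.aeval B p) v = u) ∧
          (∀ l, ∃ v : Fin (n + 1 + 2) → ℂ, ∀ u : Fin (n + 1 + 2) → ℂ, ∃ p : Polynomial ℂ,
            Matrix.mulVec (Polynomial.aeval (Z l) p) v = u) ∧
          ∃ v : Fin (n + 1 + 2) → ℂ, ∀ u : Fin (n + 1 + 2) → ℂ, ∃ p : Polynomial ℂ,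
            Matrix.mulVec (Polynomial.aeval (A * (List.ofFn Z).prod * B) p) v = u) ∧
        ∀ P : MvPolynomial ((Fin 2 ⊕ Fin 0) × Fin (n + 1 + 2) × Fin (n + 1 + 2)) ℂ,
          (∀ (A B : Matrix (Fin (n + 1 + 2)) (Fin (n + 1 + 2)) ℂ)
            (Z : Fin 0 → Matrix (Fin (n + 1 + 2)) (Fin (n + 1 + 2)) ℂ),
            (∀ i j, A i j ∈ L ∧ IsIntegral ℤ (A i j)) →
            (∀ i j, B i j ∈ L ∧ IsIntegral ℤ (B i j)) →
            (∀ l i j, Z l i j ∈ L ∧ IsIntegral ℤ (Z l i j)) →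
            A.charpoly = ∏ i, (Polynomial.X - Polynomial.C (α i)) →
            B.charpoly = ∏ i, (Polynomial.X - Polynomial.C (β i)) →
            (∀ l, (Z l).charpoly = ∏ i, (Polynomial.X - Polynomial.C (γ l i))) →
            (A * (List.ofFn Z).prod * B).charpoly = ∏ i, (Polynomial.X - Polynomial.C (δ i)) →
            MvPolynomial.eval (fun x => Sum.elim ![A, B] Z x.1 x.2.1 x.2.2) P = 0) →
          ∀ (A B : Matrix (Fin (n + 1 + 2)) (Fin (n + 1 + 2)) ℂ)
            (Z : Fin 0 → Matrix (Fin (n + 1 + 2)) (Fin (n + 1 + 2)) ℂ),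
            A.charpoly = ∏ i, (Polynomial.X - Polynomial.C (α i)) →
            B.charpoly = ∏ i, (Polynomial.X - Polynomial.C (β i)) →
            (∀ l, (Z l).charpoly = ∏ i, (Polynomial.X - Polynomial.C (γ l i))) →
            (A * (List.ofFn Z).prod * B).charpoly = ∏ i, (Polynomial.X - Polynomial.C (δ i)) →
            MvPolynomial.eval (fun x => Sum.elim ![A, B] Z x.1 x.2.1 x.2.2) F ≠ 0 →
            MvPolynomial.eval (fun x => Sum.elim ![A, B] Z x.1 x.2.1 x.2.2) P = 0 := by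
  obtain ⟨π, hπ⟩ := exists_grouped_perm α
  have hp : ∏ i, (Polynomial.X - Polynomial.C (α (π i))) =
      ∏ i, (Polynomial.X - Polynomial.C (α i)) :=
    Equiv.prod_comp π (fun i => Polynomial.X - Polynomial.C (α i))
  have hα1' : ∏ i, α (π i) = 1 := by
    rw [Equiv.prod_comp π α]
    exact hα1
  have h := spheres_regular_core (n + 1) 0 (fun i => α (π i)) β δ γ (fun i => hα (π i)) hβ hδ hγ
    hα1' hβ1 hδ1 hγ1 (exists_regular_chart_pants n (fun i => α (π i)) β δ γ hα1' hβ1 hδ1 hπ)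
  simp only [hp] at h
  exact h

/-- Let α, β, δ and γ_l (l < m) be families of n + 2 algebraic integers, all of product one,
with no further condition, where n is at least one or m is at least one.  Let V be the set of
tuples (A, B, Z_0, ..., Z_{m-1}) of complex matrices of size n + 2 such that A, B, Z_l and
A Z_0 ... Z_{m-1} B have characteristic polynomials with roots α, β, γ_l and δ.  There are a
number field L inside the complex numbers and a polynomial F in the entries of the tuple such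
that F does not vanish identically on V, every matrix A, B, Z_l and A Z_0 ... Z_{m-1} B of a
point of V at which F does not vanish has a cyclic vector, and every polynomial P which
vanishes at all points of V with entries in the ring of integers of L vanishes at every point
of V at which F does not vanish. -/
theorem spheres_regular_all (n m : ℕ) (hnm : 1 ≤ n ∨ 1 ≤ m) (α β δ : Fin (n + 2) → ℂ)
    (γ : Fin m → Fin (n + 2) → ℂ)
    (hα : ∀ i, IsIntegral ℤ (α i)) (hβ : ∀ i, IsIntegral ℤ (β i)) (hδ : ∀ i, IsIntegral ℤ (δ i))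
    (hγ : ∀ l i, IsIntegral ℤ (γ l i))
    (hα1 : ∏ i, α i = 1) (hβ1 : ∏ i, β i = 1) (hδ1 : ∏ i, δ i = 1)
    (hγ1 : ∀ l, ∏ i, γ l i = 1) :
    ∃ L : IntermediateField ℚ ℂ, FiniteDimensional ℚ L ∧
      ∃ F : MvPolynomial ((Fin 2 ⊕ Fin m) × Fin (n + 2) × Fin (n + 2)) ℂ,
        (∃ (A B : Matrix (Fin (n + 2)) (Fin (n + 2)) ℂ)
          (Z : Fin m → Matrix (Fin (n + 2)) (Fin (n + 2)) ℂ),
          A.charpoly = ∏ i, (Polynomial.X - Polynomial.C (α i)) ∧
          B.charpoly = ∏ i, (Polynomial.X - Polynomial.C (β i)) ∧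
          (∀ l, (Z l).charpoly = ∏ i, (Polynomial.X - Polynomial.C (γ l i))) ∧
          (A * (List.ofFn Z).prod * B).charpoly = ∏ i, (Polynomial.X - Polynomial.C (δ i)) ∧
          MvPolynomial.eval (fun x => Sum.elim ![A, B] Z x.1 x.2.1 x.2.2) F ≠ 0) ∧
        (∀ (A B : Matrix (Fin (n + 2)) (Fin (n + 2)) ℂ)
          (Z : Fin m → Matrix (Fin (n + 2)) (Fin (n + 2)) ℂ),
          A.charpoly = ∏ i, (Polynomial.X - Polynomial.C (α i)) →
          B.charpoly = ∏ i, (Polynomial.X - Polynomial.C (β i)) →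
          (∀ l, (Z l).charpoly = ∏ i, (Polynomial.X - Polynomial.C (γ l i))) →
          (A * (List.ofFn Z).prod * B).charpoly = ∏ i, (Polynomial.X - Polynomial.C (δ i)) →
          MvPolynomial.eval (fun x => Sum.elim ![A, B] Z x.1 x.2.1 x.2.2) F ≠ 0 →
          (∃ v : Fin (n + 2) → ℂ, ∀ u : Fin (n + 2) → ℂ, ∃ p : Polynomial ℂ,
            Matrix.mulVec (Polynomial.aeval A p) v = u) ∧
          (∃ v : Fin (n + 2) → ℂ, ∀ u : Fin (n + 2) → ℂ, ∃ p : Polynomial ℂ,
            Matrix.mulVec (Polynomial.aeval B p) v = u) ∧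
          (∀ l, ∃ v : Fin (n + 2) → ℂ, ∀ u : Fin (n + 2) → ℂ, ∃ p : Polynomial ℂ,
            Matrix.mulVec (Polynomial.aeval (Z l) p) v = u) ∧
          ∃ v : Fin (n + 2) → ℂ, ∀ u : Fin (n + 2) → ℂ, ∃ p : Polynomial ℂ,
            Matrix.mulVec (Polynomial.aeval (A * (List.ofFn Z).prod * B) p) v = u) ∧
        ∀ P : MvPolynomial ((Fin 2 ⊕ Fin m) × Fin (n + 2) × Fin (n + 2)) ℂ,
          (∀ (A B : Matrix (Fin (n + 2)) (Fin (n + 2)) ℂ)
            (Z : Fin m → Matrix (Fin (n + 2)) (Fin (n + 2)) ℂ),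
            (∀ i j, A i j ∈ L ∧ IsIntegral ℤ (A i j)) →
            (∀ i j, B i j ∈ L ∧ IsIntegral ℤ (B i j)) →
            (∀ l i j, Z l i j ∈ L ∧ IsIntegral ℤ (Z l i j)) →
            A.charpoly = ∏ i, (Polynomial.X - Polynomial.C (α i)) →
            B.charpoly = ∏ i, (Polynomial.X - Polynomial.C (β i)) →
            (∀ l, (Z l).charpoly = ∏ i, (Polynomial.X - Polynomial.C (γ l i))) →
            (A * (List.ofFn Z).prod * B).charpoly = ∏ i, (Polynomial.X - Polynomial.C (δ i)) →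
            MvPolynomial.eval (fun x => Sum.elim ![A, B] Z x.1 x.2.1 x.2.2) P = 0) →
          ∀ (A B : Matrix (Fin (n + 2)) (Fin (n + 2)) ℂ)
            (Z : Fin m → Matrix (Fin (n + 2)) (Fin (n + 2)) ℂ),
            A.charpoly = ∏ i, (Polynomial.X - Polynomial.C (α i)) →
            B.charpoly = ∏ i, (Polynomial.X - Polynomial.C (β i)) →
            (∀ l, (Z l).charpoly = ∏ i, (Polynomial.X - Polynomial.C (γ l i))) →
            (A * (List.ofFn Z).prod * B).charpoly = ∏ i, (Polynomial.X - Polynomial.C (δ i)) →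
            MvPolynomial.eval (fun x => Sum.elim ![A, B] Z x.1 x.2.1 x.2.2) F ≠ 0 →
            MvPolynomial.eval (fun x => Sum.elim ![A, B] Z x.1 x.2.1 x.2.2) P = 0 := by
  cases m with
  | succ m => exact spheres_regular n m α β δ γ hα hβ hδ hγ hα1 hβ1 hδ1 hγ1
  | zero =>
    cases n with
    | zero => omega
    | succ n => exact pants_regular n α β δ γ hα hβ hδ hγ hα1 hβ1 hδ1 hγ1

end PantsMain

end Vale.Agent.Lib.P002
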