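import Vale.Agent.Lib.P002.MxMain
import Vale.Agent.Lib.P002.SrPants

/-!
Mixed tuples (A, Z_0, ..., Z_m, B) in size at least three: existence of a mixed chart tuple
with invertible chain frames for every set S of slots, without a special pair.  The pairs of
all slots are conjugated by a diagonal matrix depending on a scaling parameter; the first
member of the tuple tends to a member of a chart pair with lower bidiagonal second member as
the parameter tends to zero, and the last member tends to a lower bidiagonal matrix as the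
parameter tends to infinity.  The density theorem follows for every set S of slots in size
at least three, and in size two if the slot 0 is not in S.
-/

namespace Vale.Agent.Lib.P002

open Matrix Polynomial

/-- The determinant of the upper chain frame is a polynomial in the scaling parameter of the
right factor. -/
theorem mxb_poly_jorU {n : ℕ} (α : Fin n → ℂ) (U Xh : Matrix (Fin n) (Fin n) ℂ)
    (v : Fin n → ℂ) :
    ∃ G : ℂ[X], ∀ σ : ℂ, eval σ G = (jorU α (U * scU σ Xh) v).det := by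
  refine ⟨(jorU (fun i => C (α i))
    (U.map C * (Matrix.of fun i j => C (Xh i j) * X ^ ((j : ℕ) - (i : ℕ))))
    (fun i => C (v i))).det, fun σ => ?_⟩
  rw [← Polynomial.coe_evalRingHom, map_det' (Polynomial.evalRingHom σ), jorU_map,
    Matrix.map_mul]
  have h1 : (Matrix.of fun i j => C (Xh i j) * X ^ ((j : ℕ) - (i : ℕ))).map
      (Polynomial.evalRingHom σ) = scU σ Xh := by
    ext i j
    simp [scU]
  have h2 : (U.map C).map (Polynomial.evalRingHom σ) = U := by
    ext i j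
    simp
  rw [h1, h2]
  simp

/-- Conjugation of an upper triangular matrix by the inverse of the diagonal matrix of
powers. -/
theorem mxb_scU_conj {n : ℕ} (τ : ℂ) (hτ : τ ≠ 0) {U : Matrix (Fin n) (Fin n) ℂ}
    (hU : ∀ i j, j < i → U i j = 0) :
    Matrix.diagonal (fun i : Fin n => (τ ^ (i : ℕ))⁻¹) * U *
      Matrix.diagonal (fun i : Fin n => τ ^ (i : ℕ)) = scU τ U := by
  ext i j
  rw [Matrix.mul_diagonal, Matrix.diagonal_mul]
  simp only [scU, Matrix.of_apply]
  rcases lt_or_ge j i with h | h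
  · rw [hU i j h]
    ring
  · have hij : (i : ℕ) ≤ (j : ℕ) := h
    obtain ⟨d, hd⟩ := Nat.exists_eq_add_of_le hij
    have h1 := pow_ne_zero (i : ℕ) hτ
    rw [hd, Nat.add_sub_cancel_left, pow_add]
    field_simp

/-- Conjugation of a lower triangular matrix by the inverse of the diagonal matrix of
powers. -/
theorem mxb_scL_conj {n : ℕ} (τ : ℂ) (hτ : τ ≠ 0) {L : Matrix (Fin n) (Fin n) ℂ}
    (hL : ∀ i j, i < j → L i j = 0) :
    Matrix.diagonal (fun i : Fin n => (τ ^ (i : ℕ))⁻¹) * L *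
      Matrix.diagonal (fun i : Fin n => τ ^ (i : ℕ)) = scL τ⁻¹ L := by
  ext i j
  rw [Matrix.mul_diagonal, Matrix.diagonal_mul]
  simp only [scL, Matrix.of_apply]
  rcases lt_or_ge i j with h | h
  · rw [hL i j h]
    ring
  · have hij : (j : ℕ) ≤ (i : ℕ) := h
    obtain ⟨d, hd⟩ := Nat.exists_eq_add_of_le hij
    have h1 := pow_ne_zero (j : ℕ) hτ
    have h2 := pow_ne_zero d hτ
    rw [hd, Nat.add_sub_cancel_left, pow_add, inv_pow]
    field_simp

/-- The product of the conjugates of the first members is the conjugate of the product. -/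
theorem mxb_vOfF_conj {n : ℕ} (T T' : Matrix (Fin n) (Fin n) ℂ) (hTT' : T * T' = 1) :
    ∀ (m : ℕ) (W : Fin m → Matrix (Fin n) (Fin n) ℂ),
      vOfF m (fun j => T' * W j * T) = T' * vOfF m W * T := by
  have hT'T : T' * T = 1 := mul_eq_one_comm.mp hTT'
  intro m
  induction m with
  | zero =>
    intro W
    simp only [vOfF]
    rw [Matrix.mul_one, hT'T]
  | succ m ih =>
    intro W
    simp only [vOfF]
    rw [ih (fun i => W i.succ)]
    calc T' * vOfF m (fun i => W i.succ) * T * (T' * W 0 * T) =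
        T' * vOfF m (fun i => W i.succ) * (T * T') * W 0 * T := by
          simp only [Matrix.mul_assoc]
      _ = T' * (vOfF m (fun i => W i.succ) * W 0) * T := by
          rw [hTT', Matrix.mul_one]
          simp only [Matrix.mul_assoc]

/-- The product of the conjugates of the second members is the conjugate of the product. -/
theorem mxb_dOfF_conj {n : ℕ} (T T' : Matrix (Fin n) (Fin n) ℂ) (hTT' : T * T' = 1) :
    ∀ (m : ℕ) (D : Fin m → Matrix (Fin n) (Fin n) ℂ),
      dOfF m (fun j => T' * D j * T) = T' * dOfF m D * T := by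
  have hT'T : T' * T = 1 := mul_eq_one_comm.mp hTT'
  intro m
  induction m with
  | zero =>
    intro D
    simp only [dOfF]
    rw [Matrix.mul_one, hT'T]
  | succ m ih =>
    intro D
    simp only [dOfF]
    rw [ih (fun i => D i.succ)]
    calc T' * D 0 * T * (T' * dOfF m (fun i => D i.succ) * T) =
        T' * D 0 * (T * T') * dOfF m (fun i => D i.succ) * T := by
          simp only [Matrix.mul_assoc]
      _ = T' * (D 0 * dOfF m (fun i => D i.succ)) * T := by
          rw [hTT', Matrix.mul_one]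
          simp only [Matrix.mul_assoc]

/-- Conjugation of the pair of a slot by an invertible diagonal matrix with first entry
one. -/
theorem mxb_slotT_conj (k m : ℕ) (S : Finset (Fin m)) (γ : Fin m → Fin (k + 1) → ℂ)
    (lam mu : Fin m → ℂ) (d : Fin m → Fin (k + 1) → ℂ) (j : Fin m)
    (W D : Matrix (Fin (k + 1)) (Fin (k + 1)) ℂ) (t : Fin (k + 1) → ℂ) (ht : ∀ i, t i ≠ 0)
    (ht0 : t 0 = 1) (h : SlotT k m S γ lam mu d j W D) :
    SlotT k m S γ lam mu d j (Matrix.diagonal (fun i => (t i)⁻¹) * W * Matrix.diagonal t)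
      (Matrix.diagonal (fun i => (t i)⁻¹) * D * Matrix.diagonal t) := by
  obtain ⟨h1, h2, h3, h4, h5, h6⟩ := h
  have hTT : Matrix.diagonal t * Matrix.diagonal (fun i => (t i)⁻¹) = 1 := by
    rw [Matrix.diagonal_mul_diagonal]
    have e : (fun i => t i * (t i)⁻¹) = fun _ => (1 : ℂ) := by
      funext i
      exact mul_inv_cancel₀ (ht i)
    rw [e, Matrix.diagonal_one]
  have hTT' : Matrix.diagonal (fun i => (t i)⁻¹) * Matrix.diagonal t = 1 :=
    mul_eq_one_comm.mp hTT
  have hprod : Matrix.diagonal (fun i => (t i)⁻¹) * W * Matrix.diagonal t *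
      (Matrix.diagonal (fun i => (t i)⁻¹) * D * Matrix.diagonal t) =
      Matrix.diagonal (fun i => (t i)⁻¹) * (W * D) * Matrix.diagonal t := by
    calc Matrix.diagonal (fun i => (t i)⁻¹) * W * Matrix.diagonal t *
        (Matrix.diagonal (fun i => (t i)⁻¹) * D * Matrix.diagonal t) =
        Matrix.diagonal (fun i => (t i)⁻¹) * W *
          (Matrix.diagonal t * Matrix.diagonal (fun i => (t i)⁻¹)) * D * Matrix.diagonal t := by
          simp only [Matrix.mul_assoc]
      _ = Matrix.diagonal (fun i => (t i)⁻¹) * (W * D) * Matrix.diagonal t := by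
          rw [hTT, Matrix.mul_one]
          simp only [Matrix.mul_assoc]
  refine ⟨?_, ?_, ?_, ?_, ?_, ?_⟩
  · intro i l hil
    rw [Matrix.mul_diagonal, Matrix.diagonal_mul, h1 i l hil]
    ring
  · intro i
    rw [Matrix.mul_diagonal, Matrix.diagonal_mul, h2 i, mul_comm, ← mul_assoc,
      mul_inv_cancel₀ (ht i), one_mul]
  · intro i l hil
    rw [Matrix.mul_diagonal, Matrix.diagonal_mul, h3 i l hil]
    ring
  · intro i
    rw [Matrix.mul_diagonal, Matrix.diagonal_mul, h4 i, mul_comm, ← mul_assoc,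
      mul_inv_cancel₀ (ht i), one_mul]
  · rw [hprod]
    exact h5.conj _ _ hTT'
  · intro hj
    rw [hprod]
    have hc := (h6 hj).conj (Matrix.diagonal t) (Matrix.diagonal (fun i => (t i)⁻¹)) hTT
    have hv : Matrix.diagonal (fun i => (t i)⁻¹) *ᵥ (Fin.cons 1 0 : Fin (k + 1) → ℂ) =
        Fin.cons 1 0 := by
      funext i
      rw [Matrix.mulVec_diagonal]
      refine Fin.cases ?_ (fun i => ?_) i
      · simp [ht0]
      · simp
    rw [hv] at hc
    exact hc

/-- Existence of a mixed chart tuple with invertible chain frames in size at least three,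
for every set S of slots. -/
theorem mxb_exists_chart (k m : ℕ) (S : Finset (Fin m))
    (α β δ : Fin (k + 1 + 2) → ℂ) (γ : Fin m → Fin (k + 1 + 2) → ℂ) (lam mu : Fin m → ℂ)
    (hα1 : ∏ i, α i = 1) (hβ1 : ∏ i, β i = 1) (hδ1 : ∏ i, δ i = 1)
    (hγ1 : ∀ j, ∏ i, γ j i = 1) (hml : ∀ l, mu l ^ (k + 1 + 2) * lam l = 1)
    (hg : Grouped α) :
    ∃ (A B : Matrix (Fin (k + 1 + 2)) (Fin (k + 1 + 2)) ℂ)
      (Z : Fin m → Matrix (Fin (k + 1 + 2)) (Fin (k + 1 + 2)) ℂ) (v w : Fin (k + 1 + 2) → ℂ),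
      ChartM (k + 1 + 1) m S α β δ γ lam mu A B Z ∧ (jorU α A v).det ≠ 0 ∧
      (jorL β B w).det ≠ 0 ∧ ∀ l ∈ S, Z l ≠ mu l • 1 := by
  have hα0 := ne_zero_of_prod_eq_one α hα1
  have hβ0 := ne_zero_of_prod_eq_one β hβ1
  have hp : ∀ j : Fin m, ∃ (U Lo : Matrix (Fin (k + 1 + 2)) (Fin (k + 1 + 2)) ℂ)
      (dj : Fin (k + 1 + 2) → ℂ),
      (∀ i l, l < i → U i l = 0) ∧ (∀ i, U i i = 1) ∧ (∀ i l, i < l → Lo i l = 0) ∧
      (∀ i, Lo i i = dj i) ∧ (∏ i, dj i = 1) ∧
      CndM (k + 1 + 1) m S γ lam mu j (U * Lo) ∧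
      (j ∉ S → Cyc (U * Lo) (Fin.cons 1 0)) ∧ (j ∈ S → U * Lo ≠ mu j • 1) := by
    intro j
    by_cases hj : j ∈ S
    · obtain ⟨Lo, q1, q2, q3, q4⟩ := exists_refl_pair (k + 1) (lam j) (mu j) (hml j)
      refine ⟨1, Lo, fun i => Lo i i, fun i l hil => Matrix.one_apply_ne hil.ne',
        fun i => Matrix.one_apply_eq i, q1, fun i => rfl, q2, ?_, fun h => absurd hj h,
        fun _ => ?_⟩
      · rw [Matrix.one_mul]
        exact ⟨fun h => absurd hj h, fun _ => q4⟩
      · rw [Matrix.one_mul]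
        exact q3
    · obtain ⟨U, Lo, h1, h2, h3, h4, h5, h6⟩ :=
        exists_chart_pair (k + 1 + 1) (fun _ => 1) (fun _ => 1) (γ j)
          (fun _ => one_ne_zero) (fun _ => one_ne_zero) (by rw [hγ1]; simp)
      refine ⟨U, Lo, fun _ => 1, h1, h2, h3, h4, by simp, ⟨fun _ => h5, fun h => absurd h hj⟩,
        fun _ => ?_, fun h => absurd h hj⟩
      rw [← single_eq_cons]
      exact h6
  choose Wr Dr dr hWr hWr1 hDr hDrd hdr1 hCr hcycr hnsr using hp
  obtain ⟨p, hpdef⟩ : ∃ p : Fin (k + 1 + 2) → ℂ, p = fun i => ∏ j, dr j i := ⟨_, rfl⟩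
  have hpi : ∀ i, p i = ∏ j, dr j i := fun i => by rw [hpdef]
  have hp0 : ∀ i, p i ≠ 0 := by
    intro i
    rw [hpi]
    exact Finset.prod_ne_zero_iff.mpr fun j _ => ne_zero_of_prod_eq_one (dr j) (hdr1 j) i
  have hprod : (∏ i, α i) * ∏ i, ((∏ j, dr j i) * β i) = ∏ i, δ i := by
    rw [Finset.prod_mul_distrib, Finset.prod_comm, hα1, hβ1, hδ1]
    simp [hdr1]
  obtain ⟨U0, v0, u1, u2, u5, u6, u7⟩ :=
    pd_of_sum_ne (k + 1) α (fun i => (∏ j, dr j i) * β i) δ hα0
      (fun i => mul_ne_zero (by rw [← hpi]; exact hp0 i) (hβ0 i)) hprod hg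
      (fun h => absurd h (Nat.succ_ne_zero k))
  obtain ⟨Lh, hLh⟩ : ∃ Lh, Lh = bLow (k + 1 + 2) (fun i => (∏ j, dr j i) * β i) := ⟨_, rfl⟩
  rw [← hLh] at u5 u6
  have hlast : TopOK (k + 1 + 1) α (fun i => (∏ j, dr j i) * β i) δ U0 Lh := by
    refine ⟨u1, u2, ?_, ?_, u5, u6⟩
    · rw [hLh]
      exact (bLow_shape _ _).1
    · rw [hLh]
      exact (bLow_shape _ _).2
  obtain ⟨V', hV'⟩ : ∃ V', V' = vOfF m Wr := ⟨_, rfl⟩
  obtain ⟨D'', hD''⟩ : ∃ D'', D'' = dOfF m Dr := ⟨_, rfl⟩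
  obtain ⟨hV'u, hV'd⟩ := ut_vOfF m Wr hWr hWr1
  rw [← hV'] at hV'u hV'd
  have hV'det : V'.det = 1 := det_ut_unit hV'u hV'd
  obtain ⟨hD''l, hD''d⟩ := lt_dOfF m Dr hDr
  rw [← hD''] at hD''l hD''d
  have hD''d1 : ∀ i, D'' i i = p i := by
    intro i
    rw [hD''d, hpi]
    simp only [hDrd]
  have hD''det : D''.det = 1 := by
    rw [hD'']
    refine det_dOfF m Dr fun j => ?_
    rw [det_lt (hDr j)]
    simp only [hDrd]
    exact hdr1 j
  have hX'u := ut_adjugate hV'u hV'det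
  have hX'd : ∀ i, V'.adjugate i i = 1 := by
    intro i
    have h := ut_adjugate_diag hV'u hV'det i
    rw [hV'd, mul_one] at h
    exact h
  have hY''l := lt_adjugate hD''l hD''det
  have hY''d : ∀ i, D''.adjugate i i = (p i)⁻¹ := by
    intro i
    have h := lt_adjugate_diag hD''l hD''det i
    rw [hD''d1] at h
    exact eq_inv_of_mul_eq_one_left h
  obtain ⟨G, hG⟩ := mxb_poly_jorU α U0 V'.adjugate v0
  obtain ⟨H, hH⟩ := exists_poly_jorL β D''.adjugate Lh (Pi.single 0 1)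
  have hG0 : Polynomial.eval 0 G ≠ 0 := by
    rw [hG, scU_zero hX'u]
    have e1 : (fun i => V'.adjugate i i) = fun _ => (1 : ℂ) := funext hX'd
    rw [e1, Matrix.diagonal_one, Matrix.mul_one]
    exact u7
  have hH0 : Polynomial.eval 0 H ≠ 0 := by
    rw [hH, scL_zero hY''l, hLh]
    refine det_jorL_limit β (fun i => D''.adjugate i i) (fun i => (∏ j, dr j i) * β i)
      (fun i => ?_) (fun i => ?_)
    · rw [hY''d, ← hpi, ← mul_assoc, inv_mul_cancel₀ (hp0 i), one_mul]
    · rw [hY''d]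
      exact inv_ne_zero (hp0 i)
  obtain ⟨τ, hτ, hHτ, hGτ⟩ := exists_good_tau H G hH0 hG0
  rw [hG] at hGτ
  rw [hH] at hHτ
  obtain ⟨T, hT⟩ : ∃ T : Matrix (Fin (k + 1 + 2)) (Fin (k + 1 + 2)) ℂ,
      T = Matrix.diagonal (fun i : Fin (k + 1 + 2) => τ ^ (i : ℕ)) := ⟨_, rfl⟩
  obtain ⟨T', hT'⟩ : ∃ T' : Matrix (Fin (k + 1 + 2)) (Fin (k + 1 + 2)) ℂ,
      T' = Matrix.diagonal (fun i : Fin (k + 1 + 2) => (τ ^ (i : ℕ))⁻¹) := ⟨_, rfl⟩
  have hTT' : T * T' = 1 := by
    rw [hT, hT', Matrix.diagonal_mul_diagonal]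
    have e1 : (fun i : Fin (k + 1 + 2) => τ ^ (i : ℕ) * (τ ^ (i : ℕ))⁻¹) =
        fun _ => (1 : ℂ) := by
      funext i
      exact mul_inv_cancel₀ (pow_ne_zero _ hτ)
    rw [e1, Matrix.diagonal_one]
  have hT'T : T' * T = 1 := mul_eq_one_comm.mp hTT'
  obtain ⟨Wf, hWf⟩ : ∃ Wf : Fin m → Matrix (Fin (k + 1 + 2)) (Fin (k + 1 + 2)) ℂ,
      Wf = fun j => T' * Wr j * T := ⟨_, rfl⟩
  obtain ⟨Df, hDf⟩ : ∃ Df : Fin m → Matrix (Fin (k + 1 + 2)) (Fin (k + 1 + 2)) ℂ,
      Df = fun j => T' * Dr j * T := ⟨_, rfl⟩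
  have hWfj : ∀ j, Wf j = T' * Wr j * T := fun j => by rw [hWf]
  have hDfj : ∀ j, Df j = T' * Dr j * T := fun j => by rw [hDf]
  have hpair : ∀ j, SlotT (k + 1 + 1) m S γ lam mu dr j (Wf j) (Df j) := by
    intro j
    rw [hWfj, hDfj, hT, hT']
    exact mxb_slotT_conj (k + 1 + 1) m S γ lam mu dr j (Wr j) (Dr j)
      (fun i => τ ^ (i : ℕ)) (fun i => pow_ne_zero _ hτ) (by simp)
      ⟨hWr j, hWr1 j, hDr j, hDrd j, hCr j, hcycr j⟩
  have hch := chartM_of_data (k + 1 + 1) m S α β δ γ lam mu dr hdr1 Wf Df U0 Lh hpair hlast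
  have hVc : vOfF m Wf = T' * V' * T := by
    rw [hWf, hV']
    exact mxb_vOfF_conj T T' hTT' m Wr
  have hDc : dOfF m Df = T' * D'' * T := by
    rw [hDf, hD'']
    exact mxb_dOfF_conj T T' hTT' m Dr
  have hVdet : (T' * V' * T).det = 1 := by
    rw [Matrix.det_mul, Matrix.det_mul, hV'det, mul_one, ← Matrix.det_mul, hT'T,
      Matrix.det_one]
  have hDdet : (T' * D'' * T).det = 1 := by
    rw [Matrix.det_mul, Matrix.det_mul, hD''det, mul_one, ← Matrix.det_mul, hT'T,
      Matrix.det_one]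
  have hadjV : (T' * V' * T).adjugate = T' * V'.adjugate * T := by
    refine adjugate_eq_of_mul_eq_one ?_ hVdet
    calc T' * V' * T * (T' * V'.adjugate * T) = T' * (V' * (T * T') * V'.adjugate) * T := by
          simp only [Matrix.mul_assoc]
      _ = 1 := by rw [hTT', Matrix.mul_one, mul_adjugate_of_det hV'det, Matrix.mul_one, hT'T]
  have hadjD : (T' * D'' * T).adjugate = T' * D''.adjugate * T := by
    refine adjugate_eq_of_mul_eq_one ?_ hDdet
    calc T' * D'' * T * (T' * D''.adjugate * T) =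
        T' * (D'' * (T * T') * D''.adjugate) * T := by
          simp only [Matrix.mul_assoc]
      _ = 1 := by rw [hTT', Matrix.mul_one, mul_adjugate_of_det hD''det, Matrix.mul_one, hT'T]
  have hA : tA m Wf U0 = U0 * scU τ V'.adjugate := by
    rw [tA, hVc, hadjV, hT, hT', mxb_scU_conj τ hτ hX'u]
  have hB : tB m Df Lh = scL τ⁻¹ D''.adjugate * Lh := by
    rw [tB, hDc, hadjD, hT, hT', mxb_scL_conj τ hτ hY''l]
  refine ⟨tA m Wf U0, tB m Df Lh, zOfF m Wf Df, v0, Pi.single 0 1, hch, ?_, ?_, ?_⟩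
  · rw [hA]
    exact hGτ
  · rw [hB]
    exact hHτ
  · intro l hl hZl
    obtain ⟨V, -, -, hVd, hVc'⟩ := zOfF_conj m Wf Df (fun j => (hpair j).1)
      (fun j => (hpair j).2.1) l
    have hM : Wf l * Df l = mu l • 1 := by
      have h1 : V.adjugate * (V * (Wf l * Df l) * V.adjugate) * V = Wf l * Df l := by
        calc V.adjugate * (V * (Wf l * Df l) * V.adjugate) * V =
            (V.adjugate * V) * (Wf l * Df l) * (V.adjugate * V) := by
              simp only [Matrix.mul_assoc]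
          _ = Wf l * Df l := by
              rw [adjugate_mul_of_det hVd, Matrix.one_mul, Matrix.mul_one]
      rw [← h1, ← hVc', hZl, Matrix.mul_smul, Matrix.smul_mul, Matrix.mul_one,
        adjugate_mul_of_det hVd]
    have hM2 : Wr l * Dr l = mu l • 1 := by
      have h1 : T * (Wf l * Df l) * T' = Wr l * Dr l := by
        rw [hWfj, hDfj]
        calc T * (T' * Wr l * T * (T' * Dr l * T)) * T' =
            (T * T') * Wr l * (T * T') * Dr l * (T * T') := by
              simp only [Matrix.mul_assoc]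
          _ = Wr l * Dr l := by
              rw [hTT', Matrix.one_mul, Matrix.mul_one, Matrix.mul_one]
      rw [← h1, hM, Matrix.mul_smul, Matrix.smul_mul, Matrix.mul_one, hTT']
    exact hnsr l hl hM2

/-- Let n, m be natural numbers and S a set of slots l ≤ m, not containing 0 if n is zero.
Let α, β, δ and
γ_l (l outside S) be families of n + 2 algebraic integers of product one and lam_l, mu_l
(l in S) algebraic integers with mu_l ^ (n + 2) lam_l = 1.  Let V be the set of tuples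
(A, B, Z_0, ..., Z_m) of complex matrices of size n + 2 such that A, B and A Z_0 ... Z_m B
have characteristic polynomials with roots α, β and δ, the matrix Z_l has characteristic
polynomial with roots γ_l for l outside S, and Z_l is mu_l (1 + u v^T) with v^T u = lam_l - 1
for l in S.  There is a polynomial F which does not vanish identically on V such that at
every point of V at which F does not vanish: A, B, the product and the Z_l for l outside S
have cyclic vectors, no Z_l with l in S is the scalar mu_l, if all α_i are equal the matrices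
A, B, Z_l have no common invariant subspace besides zero and the whole space, and for every
subfield L of the complex numbers containing a square root of two and the data, every
polynomial which vanishes at the points of V with entries in the ring of integers of L at
which F does not vanish, vanishes at the point.  Such a field L of finite degree exists. -/
theorem mixed_regular_field_gen (n m : ℕ) (S : Finset (Fin (m + 1)))
    (h0 : (0 : Fin (m + 1)) ∉ S ∨ 1 ≤ n)
    (α β δ : Fin (n + 2) → ℂ) (γ : Fin (m + 1) → Fin (n + 2) → ℂ) (lam mu : Fin (m + 1) → ℂ)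
    (hα : ∀ i, IsIntegral ℤ (α i)) (hβ : ∀ i, IsIntegral ℤ (β i)) (hδ : ∀ i, IsIntegral ℤ (δ i))
    (hγ : ∀ l, l ∉ S → ∀ i, IsIntegral ℤ (γ l i))
    (hlam : ∀ l, l ∈ S → IsIntegral ℤ (lam l)) (hmu : ∀ l, l ∈ S → IsIntegral ℤ (mu l))
    (hα1 : ∏ i, α i = 1) (hβ1 : ∏ i, β i = 1) (hδ1 : ∏ i, δ i = 1)
    (hγ1 : ∀ l, l ∉ S → ∏ i, γ l i = 1) (hml : ∀ l, l ∈ S → mu l ^ (n + 2) * lam l = 1) :
    (∃ F : MvPolynomial ((Fin 2 ⊕ Fin (m + 1)) × Fin (n + 2) × Fin (n + 2)) ℂ,
      (∃ (A B : Matrix (Fin (n + 2)) (Fin (n + 2)) ℂ)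
        (Z : Fin (m + 1) → Matrix (Fin (n + 2)) (Fin (n + 2)) ℂ),
        A.charpoly = ∏ i, (Polynomial.X - Polynomial.C (α i)) ∧
        B.charpoly = ∏ i, (Polynomial.X - Polynomial.C (β i)) ∧
        (∀ l, (l ∉ S → (Z l).charpoly = ∏ i, (Polynomial.X - Polynomial.C (γ l i))) ∧
          (l ∈ S → ∃ u v : Fin (n + 2) → ℂ, dotProduct v u = lam l - 1 ∧
            Z l = mu l • (1 + Matrix.vecMulVec u v))) ∧
        (A * (List.ofFn Z).prod * B).charpoly = ∏ i, (Polynomial.X - Polynomial.C (δ i)) ∧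
        MvPolynomial.eval (fun x => Sum.elim ![A, B] Z x.1 x.2.1 x.2.2) F ≠ 0) ∧
      ∀ (A B : Matrix (Fin (n + 2)) (Fin (n + 2)) ℂ)
        (Z : Fin (m + 1) → Matrix (Fin (n + 2)) (Fin (n + 2)) ℂ),
        A.charpoly = ∏ i, (Polynomial.X - Polynomial.C (α i)) →
        B.charpoly = ∏ i, (Polynomial.X - Polynomial.C (β i)) →
        (∀ l, (l ∉ S → (Z l).charpoly = ∏ i, (Polynomial.X - Polynomial.C (γ l i))) ∧
          (l ∈ S → ∃ u v : Fin (n + 2) → ℂ, dotProduct v u = lam l - 1 ∧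
            Z l = mu l • (1 + Matrix.vecMulVec u v))) →
        (A * (List.ofFn Z).prod * B).charpoly = ∏ i, (Polynomial.X - Polynomial.C (δ i)) →
        MvPolynomial.eval (fun x => Sum.elim ![A, B] Z x.1 x.2.1 x.2.2) F ≠ 0 →
        ((∃ v : Fin (n + 2) → ℂ, ∀ u : Fin (n + 2) → ℂ, ∃ p : Polynomial ℂ,
            Matrix.mulVec (Polynomial.aeval A p) v = u) ∧
          (∃ v : Fin (n + 2) → ℂ, ∀ u : Fin (n + 2) → ℂ, ∃ p : Polynomial ℂ,
            Matrix.mulVec (Polynomial.aeval B p) v = u) ∧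
          (∀ l, l ∉ S → ∃ v : Fin (n + 2) → ℂ, ∀ u : Fin (n + 2) → ℂ, ∃ p : Polynomial ℂ,
            Matrix.mulVec (Polynomial.aeval (Z l) p) v = u) ∧
          (∀ l, l ∈ S → Z l ≠ mu l • 1) ∧
          ∃ v : Fin (n + 2) → ℂ, ∀ u : Fin (n + 2) → ℂ, ∃ p : Polynomial ℂ,
            Matrix.mulVec (Polynomial.aeval (A * (List.ofFn Z).prod * B) p) v = u) ∧
        ((∀ i, α i = α 0) →
          ∀ W : Submodule ℂ (Fin (n + 2) → ℂ), (∀ x ∈ W, Matrix.mulVec A x ∈ W) →
            (∀ x ∈ W, Matrix.mulVec B x ∈ W) → (∀ l, ∀ x ∈ W, Matrix.mulVec (Z l) x ∈ W) →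
            W = ⊥ ∨ W = ⊤) ∧
        ∀ L : IntermediateField ℚ ℂ, (∃ s ∈ L, s ^ 2 = 2) → (∀ i, α i ∈ L) → (∀ i, β i ∈ L) →
          (∀ i, δ i ∈ L) → (∀ l, l ∉ S → ∀ i, γ l i ∈ L) →
          (∀ l, l ∈ S → lam l ∈ L ∧ mu l ∈ L) →
          ∀ P : MvPolynomial ((Fin 2 ⊕ Fin (m + 1)) × Fin (n + 2) × Fin (n + 2)) ℂ,
            (∀ (A' B' : Matrix (Fin (n + 2)) (Fin (n + 2)) ℂ)
              (Z' : Fin (m + 1) → Matrix (Fin (n + 2)) (Fin (n + 2)) ℂ),
              (∀ i j, A' i j ∈ L ∧ IsIntegral ℤ (A' i j)) →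
              (∀ i j, B' i j ∈ L ∧ IsIntegral ℤ (B' i j)) →
              (∀ l i j, Z' l i j ∈ L ∧ IsIntegral ℤ (Z' l i j)) →
              A'.charpoly = ∏ i, (Polynomial.X - Polynomial.C (α i)) →
              B'.charpoly = ∏ i, (Polynomial.X - Polynomial.C (β i)) →
              (∀ l, (l ∉ S → (Z' l).charpoly = ∏ i, (Polynomial.X - Polynomial.C (γ l i))) ∧
                (l ∈ S → ∃ u v : Fin (n + 2) → ℂ, dotProduct v u = lam l - 1 ∧
                  Z' l = mu l • (1 + Matrix.vecMulVec u v))) →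
              (A' * (List.ofFn Z').prod * B').charpoly =
                ∏ i, (Polynomial.X - Polynomial.C (δ i)) →
              MvPolynomial.eval (fun x => Sum.elim ![A', B'] Z' x.1 x.2.1 x.2.2) F ≠ 0 →
              MvPolynomial.eval (fun x => Sum.elim ![A', B'] Z' x.1 x.2.1 x.2.2) P = 0) →
            MvPolynomial.eval (fun x => Sum.elim ![A, B] Z x.1 x.2.1 x.2.2) P = 0) ∧
    ∃ L : IntermediateField ℚ ℂ, FiniteDimensional ℚ L ∧ (∃ s ∈ L, s ^ 2 = 2) ∧
      (∀ i, α i ∈ L) ∧ (∀ i, β i ∈ L) ∧ (∀ i, δ i ∈ L) ∧ (∀ l, l ∉ S → ∀ i, γ l i ∈ L) ∧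
      ∀ l, l ∈ S → lam l ∈ L ∧ mu l ∈ L := by
  obtain ⟨γ', hγ'⟩ : ∃ γ' : Fin (m + 1) → Fin (n + 2) → ℂ,
      γ' = fun l i => if l ∈ S then 1 else γ l i := ⟨_, rfl⟩
  obtain ⟨lam', hlam'⟩ : ∃ lam' : Fin (m + 1) → ℂ,
      lam' = fun l => if l ∈ S then lam l else 1 := ⟨_, rfl⟩
  obtain ⟨mu', hmu'⟩ : ∃ mu' : Fin (m + 1) → ℂ,
      mu' = fun l => if l ∈ S then mu l else 1 := ⟨_, rfl⟩
  have hγe : ∀ l, l ∉ S → γ' l = γ l := by
    intro l hl
    rw [hγ']
    funext i
    exact if_neg hl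
  have hγs : ∀ l, l ∈ S → γ' l = fun _ => 1 := by
    intro l hl
    rw [hγ']
    funext i
    exact if_pos hl
  have hle : ∀ l, l ∈ S → lam' l = lam l := by
    intro l hl
    rw [hlam']
    exact if_pos hl
  have hls : ∀ l, l ∉ S → lam' l = 1 := by
    intro l hl
    rw [hlam']
    exact if_neg hl
  have hme : ∀ l, l ∈ S → mu' l = mu l := by
    intro l hl
    rw [hmu']
    exact if_pos hl
  have hms : ∀ l, l ∉ S → mu' l = 1 := by
    intro l hl
    rw [hmu']
    exact if_neg hl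
  have hγi : ∀ l i, IsIntegral ℤ (γ' l i) := by
    intro l i
    by_cases hl : l ∈ S
    · rw [hγs l hl]
      exact isIntegral_one
    · rw [hγe l hl]
      exact hγ l hl i
  have hlami : ∀ l, IsIntegral ℤ (lam' l) := by
    intro l
    by_cases hl : l ∈ S
    · rw [hle l hl]
      exact hlam l hl
    · rw [hls l hl]
      exact isIntegral_one
  have hmui : ∀ l, IsIntegral ℤ (mu' l) := by
    intro l
    by_cases hl : l ∈ S
    · rw [hme l hl]
      exact hmu l hl
    · rw [hms l hl]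
      exact isIntegral_one
  have hγ1' : ∀ l, ∏ i, γ' l i = 1 := by
    intro l
    by_cases hl : l ∈ S
    · rw [hγs l hl]
      simp
    · rw [hγe l hl]
      exact hγ1 l hl
  have hml' : ∀ l, mu' l ^ (n + 2) * lam' l = 1 := by
    intro l
    by_cases hl : l ∈ S
    · rw [hme l hl, hle l hl]
      exact hml l hl
    · rw [hms l hl, hls l hl]
      simp
  have hc : ∀ (l : Fin (m + 1)) (M : Matrix (Fin (n + 2)) (Fin (n + 2)) ℂ),
      CndM (n + 1) (m + 1) S γ' lam' mu' l M ↔ CndM (n + 1) (m + 1) S γ lam mu l M := by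
    intro l M
    unfold CndM
    constructor
    · rintro ⟨h1, h2⟩
      refine ⟨fun hl => ?_, fun hl => ?_⟩
      · rw [← hγe l hl]
        exact h1 hl
      · rw [← hle l hl, ← hme l hl]
        exact h2 hl
    · rintro ⟨h1, h2⟩
      refine ⟨fun hl => ?_, fun hl => ?_⟩
      · rw [hγe l hl]
        exact h1 hl
      · rw [hle l hl, hme l hl]
        exact h2 hl
  constructor
  · have hex : ∃ π : Equiv.Perm (Fin (n + 2)),
        ∃ (A B : Matrix (Fin (n + 2)) (Fin (n + 2)) ℂ)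
          (Z : Fin (m + 1) → Matrix (Fin (n + 2)) (Fin (n + 2)) ℂ) (v w : Fin (n + 2) → ℂ),
          ChartM (n + 1) (m + 1) S (fun i => α (π i)) β δ γ' lam' mu' A B Z ∧
          (jorU (fun i => α (π i)) A v).det ≠ 0 ∧ (jorL β B w).det ≠ 0 ∧
          ∀ l ∈ S, Z l ≠ mu' l • 1 := by
      rcases h0 with h0 | h0
      · obtain ⟨π, hπ⟩ := exists_perm_first α
        exact ⟨π, exists_mixed_chart n m S h0 (fun i => α (π i)) β δ γ' lam' mu'
          (by rw [Equiv.prod_comp π α]; exact hα1) hβ1 hδ1 hγ1' hml' hπ⟩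
      · obtain ⟨k, rfl⟩ : ∃ k, n = k + 1 := ⟨n - 1, by omega⟩
        obtain ⟨π, hπ⟩ := exists_grouped_perm α
        exact ⟨π, mxb_exists_chart k (m + 1) S (fun i => α (π i)) β δ γ' lam' mu'
          (by rw [Equiv.prod_comp π α]; exact hα1) hβ1 hδ1 hγ1' hml' hπ⟩
    obtain ⟨π, hex⟩ := hex
    have hp : ∏ i, (Polynomial.X - Polynomial.C (α (π i))) =
        ∏ i, (Polynomial.X - Polynomial.C (α i)) :=
      Equiv.prod_comp π (fun i => Polynomial.X - Polynomial.C (α i))
    have hα1' : ∏ i, α (π i) = 1 := by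
      rw [Equiv.prod_comp π α]
      exact hα1
    obtain ⟨F, ⟨A0, B0, Z0, a1, a2, a3, a4, a5⟩, h2⟩ :=
      mixed_core_field n m S (fun i => α (π i)) β δ γ' lam' mu' (fun i => hα (π i)) hβ hδ
        hγi hlami hmui hα1' hβ1 hδ1 hγ1' hml' hex
    refine ⟨F, ⟨A0, B0, Z0, a1.trans hp, a2, fun l => (hc l _).mp (a3 l), a4, a5⟩, ?_⟩
    intro A B Z hA hB hZ hN hF
    obtain ⟨⟨b1, b2, b3, b4, b5⟩, b7, b6⟩ :=
      h2 A B Z (hA.trans hp.symm) hB (fun l => (hc l _).mpr (hZ l)) hN hF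
    refine ⟨⟨b1, b2, b3, fun l hl => ?_, b5⟩,
      fun hαc => b7 fun i => (hαc (π i)).trans (hαc (π 0)).symm, ?_⟩
    · rw [← hme l hl]
      exact b4 l hl
    · intro L hs hαL hβL hδL hγL hlmL P hP
      refine b6 L hs (fun i => hαL (π i)) hβL hδL (fun l i => ?_) (fun l => ?_) (fun l => ?_) P
        (fun A' B' Z' i1 i2 i3 c1 c2 c3 c4 c5 =>
          hP A' B' Z' i1 i2 i3 (c1.trans hp) c2 (fun l => (hc l _).mp (c3 l)) c4 c5)
      · by_cases hl : l ∈ S
        · rw [hγs l hl]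
          exact L.one_mem
        · rw [hγe l hl]
          exact hγL l hl i
      · by_cases hl : l ∈ S
        · rw [hle l hl]
          exact (hlmL l hl).1
        · rw [hls l hl]
          exact L.one_mem
      · by_cases hl : l ∈ S
        · rw [hme l hl]
          exact (hlmL l hl).2
        · rw [hms l hl]
          exact L.one_mem
  · obtain ⟨L, hL⟩ : ∃ L : IntermediateField ℚ ℂ, L = IntermediateField.adjoin ℚ
        ({sqrtTwo} ∪ Set.range α ∪ Set.range β ∪ Set.range δ ∪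
          Set.range (fun x : Fin (m + 1) × Fin (n + 2) => γ' x.1 x.2) ∪ Set.range lam' ∪
          Set.range mu') := ⟨_, rfl⟩
    have hsub : ∀ x ∈ ({sqrtTwo} ∪ Set.range α ∪ Set.range β ∪ Set.range δ ∪
          Set.range (fun x : Fin (m + 1) × Fin (n + 2) => γ' x.1 x.2) ∪ Set.range lam' ∪
          Set.range mu' : Set ℂ), x ∈ L := by
      intro x hx
      rw [hL]
      exact IntermediateField.subset_adjoin ℚ _ hx
    refine ⟨L, ?_, ⟨sqrtTwo, hsub _ (by simp), by rw [pow_two, sqrtTwo_mul_self]⟩,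
      fun i => hsub _ (by simp), fun i => hsub _ (by simp), fun i => hsub _ (by simp),
      fun l hl i => ?_, fun l hl => ⟨?_, ?_⟩⟩
    · rw [hL]
      refine IntermediateField.finiteDimensional_adjoin ?_
      rintro x ((((((hx | ⟨i, rfl⟩) | ⟨i, rfl⟩) | ⟨i, rfl⟩) | ⟨i, rfl⟩) | ⟨i, rfl⟩) | ⟨i, rfl⟩)
      · rw [Set.mem_singleton_iff.mp hx]
        exact isIntegral_sqrtTwo.tower_top
      · exact (hα i).tower_top
      · exact (hβ i).tower_top
      · exact (hδ i).tower_top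
      · exact (hγi i.1 i.2).tower_top
      · exact (hlami i).tower_top
      · exact (hmui i).tower_top
    · rw [← hγe l hl]
      exact hsub _ (Or.inl (Or.inl (Or.inr ⟨(l, i), rfl⟩)))
    · rw [← hle l hl]
      exact hsub _ (Or.inl (Or.inr ⟨l, rfl⟩))
    · rw [← hme l hl]
      exact hsub _ (Or.inr ⟨l, rfl⟩)

end Vale.Agent.Lib.P002
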