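import Vale.Agent.Lib.P002.MxDense

/-!
Mixed chart tuples (A, Z_1, ..., Z_m, B): for the slots l outside a finite set S the matrix
Z_l has a prescribed characteristic polynomial and the first basis vector as a cyclic vector;
for the slots in S the matrix Z_l is a scalar multiple of a rank one perturbation of the
identity with prescribed scalar and prescribed determinant.  Density of the integral points
among the conjugates of the mixed chart tuples.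
-/

namespace Vale.Agent.Lib.P002

open Matrix

/-- The condition on the member Z_l of a tuple: the prescribed characteristic polynomial for
the slots outside S, a scalar multiple of a rank one perturbation of the identity for the
slots in S. -/
def CndM (k m : ℕ) (S : Finset (Fin m)) (γ : Fin m → Fin (k + 1) → ℂ) (lam mu : Fin m → ℂ)
    (l : Fin m) (M : Matrix (Fin (k + 1)) (Fin (k + 1)) ℂ) : Prop :=
  (l ∉ S → M.charpoly = ∏ i, (Polynomial.X - Polynomial.C (γ l i))) ∧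
    (l ∈ S → ∃ u v : Fin (k + 1) → ℂ, v ⬝ᵥ u = lam l - 1 ∧
      M = mu l • (1 + Matrix.vecMulVec u v))

theorem CndM.conj {k m : ℕ} {S : Finset (Fin m)} {γ : Fin m → Fin (k + 1) → ℂ}
    {lam mu : Fin m → ℂ} {l : Fin m} {M : Matrix (Fin (k + 1)) (Fin (k + 1)) ℂ}
    (hM : CndM k m S γ lam mu l M) (G G' : Matrix (Fin (k + 1)) (Fin (k + 1)) ℂ)
    (h : G * G' = 1) : CndM k m S γ lam mu l (G * M * G') := by
  have h' : G' * G = 1 := mul_eq_one_comm.mp h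
  refine ⟨fun hl => ?_, fun hl => ?_⟩
  · rw [charpoly_conj' G G' M h']
    exact hM.1 hl
  · obtain ⟨u, v, huv, hMe⟩ := hM.2 hl
    refine ⟨G *ᵥ u, v ᵥ* G', ?_, ?_⟩
    · rw [refl_conj_dot G G' h']
      exact huv
    · rw [hMe, refl_conj G G' h]

theorem CndM.det {k m : ℕ} {S : Finset (Fin m)} {γ : Fin m → Fin (k + 1) → ℂ}
    {lam mu : Fin m → ℂ} {l : Fin m} {M : Matrix (Fin (k + 1)) (Fin (k + 1)) ℂ}
    (hM : CndM k m S γ lam mu l M) (hγ1 : ∀ l, ∏ i, γ l i = 1)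
    (hml : ∀ l, mu l ^ (k + 1) * lam l = 1) : M.det = 1 := by
  by_cases hl : l ∈ S
  · obtain ⟨u, v, huv, hMe⟩ := hM.2 hl
    rw [hMe, det_smul_one_add_vecMulVec, huv, ← hml l]
    ring
  · rw [det_of_charpoly _ _ (hM.1 hl), hγ1]

/-- Mixed chart tuples. -/
def ChartM (k m : ℕ) (S : Finset (Fin m)) (α β δ : Fin (k + 1) → ℂ)
    (γ : Fin m → Fin (k + 1) → ℂ) (lam mu : Fin m → ℂ)
    (A B : Matrix (Fin (k + 1)) (Fin (k + 1)) ℂ)
    (Z : Fin m → Matrix (Fin (k + 1)) (Fin (k + 1)) ℂ) : Prop :=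
  (∀ i j, j < i → A i j = 0) ∧ (∀ i, A i i = α i) ∧ (∀ i j, i < j → B i j = 0) ∧
    (∀ i, B i i = β i) ∧
    (∀ l, CndM k m S γ lam mu l (Z l)) ∧
    (A * (List.ofFn Z).prod * B).charpoly = ∏ i, (Polynomial.X - Polynomial.C (δ i)) ∧
    (∀ l : Fin m, ∃ V T : Matrix (Fin (k + 1)) (Fin (k + 1)) ℂ, (∀ i j, j < i → V i j = 0) ∧
      (∀ i, V i i = 1) ∧ (∀ i j, i < j → T i j = 0) ∧
      ((List.ofFn Z).drop l).prod * B = V * T) ∧
    (∀ l, l ∉ S → Cyc (Z l) (Fin.cons 1 0)) ∧ Cyc (A * (List.ofFn Z).prod * B) (Fin.cons 1 0)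

/-- The pair of triangular matrices of a slot of a mixed chart tuple. -/
def SlotT (k m : ℕ) (S : Finset (Fin m)) (γ : Fin m → Fin (k + 1) → ℂ) (lam mu : Fin m → ℂ)
    (d : Fin m → Fin (k + 1) → ℂ) (j : Fin m)
    (W D : Matrix (Fin (k + 1)) (Fin (k + 1)) ℂ) : Prop :=
  (∀ i l, l < i → W i l = 0) ∧ (∀ i, W i i = 1) ∧ (∀ i l, i < l → D i l = 0) ∧
    (∀ i, D i i = d j i) ∧ CndM k m S γ lam mu j (W * D) ∧
    (j ∉ S → Cyc (W * D) (Fin.cons 1 0))

/-- The nested version of the pair of a slot: nested chart pairs for the slots outside S. -/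
def SlotN (k m : ℕ) (S : Finset (Fin m)) (γ : Fin m → Fin (k + 1) → ℂ) (lam mu : Fin m → ℂ)
    (d : Fin m → Fin (k + 1) → ℂ) (j : Fin m)
    (W D : Matrix (Fin (k + 1)) (Fin (k + 1)) ℂ) : Prop :=
  (j ∉ S → NestOK ℂ k (fun _ => 1) (d j) (γ j) W D) ∧
    (j ∈ S → SlotT k m S γ lam mu d j W D)

theorem nestOK_diag {k : ℕ} {a b c : Fin (k + 1) → ℂ}
    {U L : Matrix (Fin (k + 1)) (Fin (k + 1)) ℂ} (h : NestOK ℂ k a b c U L) (i : Fin (k + 1)) :
    L i i = b i := by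
  obtain ⟨-, -, -, hLb, hLev, -⟩ := h
  obtain ⟨-, -, -, t4⟩ := lev_tri hLev
  refine Fin.cases hLb (fun i => ?_) i
  exact t4 i

/-- A mixed chart tuple is the tuple attached to a family of pairs. -/
theorem chartM_data (k m : ℕ) (S : Finset (Fin m)) (α β δ : Fin (k + 1) → ℂ)
    (γ : Fin m → Fin (k + 1) → ℂ) (lam mu : Fin m → ℂ)
    (hβ1 : ∏ i, β i = 1) (hγ1 : ∀ j, ∏ i, γ j i = 1) (hml : ∀ l, mu l ^ (k + 1) * lam l = 1)
    (A B : Matrix (Fin (k + 1)) (Fin (k + 1)) ℂ)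
    (Z : Fin m → Matrix (Fin (k + 1)) (Fin (k + 1)) ℂ)
    (h : ChartM k m S α β δ γ lam mu A B Z) :
    ∃ (d : Fin m → Fin (k + 1) → ℂ) (W D : Fin m → Matrix (Fin (k + 1)) (Fin (k + 1)) ℂ)
      (Uh Lh : Matrix (Fin (k + 1)) (Fin (k + 1)) ℂ), (∀ j, ∏ i, d j i = 1) ∧
      (∀ j, SlotT k m S γ lam mu d j (W j) (D j)) ∧
      TopOK k α (fun i => (∏ j, d j i) * β i) δ Uh Lh ∧ tA m W Uh = A ∧ tB m D Lh = B ∧
      zOfF m W D = Z := by
  obtain ⟨c1, c2, c3, c4, c5, c6, c7, c8, c9⟩ := h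
  have hBdet : B.det = 1 := by
    rw [det_lt c3]
    simp only [c4]
    exact hβ1
  have hZdet : ∀ l, (Z l).det = 1 := fun l => (c5 l).det hγ1 hml
  obtain ⟨W, D, hW, hW1, hD, hDdet, hZ, hconj⟩ :=
    decomp_core k m Z B c3 (by rw [hBdet]; exact one_ne_zero) hZdet c7
  have hWdet : ∀ j, (W j).det = 1 := fun j => det_ut_unit (hW j) (hW1 j)
  obtain ⟨hV1, hV2⟩ := ut_vOfF m W hW hW1
  have hVdet : (vOfF m W).det = 1 := det_ut_unit hV1 hV2
  obtain ⟨hDt1, hDt2⟩ := lt_dOfF m D hD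
  have hDtdet := det_dOfF m D hDdet
  have hprod : A * vOfF m W * (dOfF m D * B) = A * (List.ofFn Z).prod * B := by
    rw [← hZ, prod_zOfF m W D hWdet]
    simp only [Matrix.mul_assoc]
  refine ⟨fun j i => D j i i, W, D, A * vOfF m W, dOfF m D * B, fun j => ?_, fun j => ?_, ?_, ?_,
    ?_, hZ⟩
  · rw [← det_lt (hD j)]
    exact hDdet j
  · obtain ⟨V, hVa, hVb, hVc⟩ := hconj j
    have hVd := det_ut_unit hVa hVb
    refine ⟨hW j, hW1 j, hD j, fun i => rfl, ?_, fun hj => ?_⟩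
    · rw [hVc]
      exact (c5 j).conj V.adjugate V (adjugate_mul_of_det hVd)
    · rw [hVc]
      have h := (c8 j hj).conj V V.adjugate (mul_adjugate_of_det hVd)
      rw [adjugate_ut_mulVec_cons hVa hVb] at h
      exact h
  · refine ⟨ut_mul c1 hV1, fun i => ?_, lt_mul hDt1 c3, fun i => ?_, ?_, ?_⟩
    · rw [ut_mul_diag c1 hV1, c2, hV2, mul_one]
    · rw [lt_mul_diag hDt1 c3, hDt2, c4]
    · rw [hprod]
      exact c6
    · rw [hprod]
      exact c9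
  · rw [tA, Matrix.mul_assoc, mul_adjugate_of_det hVdet, Matrix.mul_one]
  · rw [tB, ← Matrix.mul_assoc, adjugate_mul_of_det hDtdet, Matrix.one_mul]

/-- The tuple attached to a family of pairs is a mixed chart tuple. -/
theorem chartM_of_data (k m : ℕ) (S : Finset (Fin m)) (α β δ : Fin (k + 1) → ℂ)
    (γ : Fin m → Fin (k + 1) → ℂ) (lam mu : Fin m → ℂ) (d : Fin m → Fin (k + 1) → ℂ)
    (hd1 : ∀ j, ∏ i, d j i = 1) (W D : Fin m → Matrix (Fin (k + 1)) (Fin (k + 1)) ℂ)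
    (Uh Lh : Matrix (Fin (k + 1)) (Fin (k + 1)) ℂ)
    (hpair : ∀ j, SlotT k m S γ lam mu d j (W j) (D j))
    (hlast : TopOK k α (fun i => (∏ j, d j i) * β i) δ Uh Lh) :
    ChartM k m S α β δ γ lam mu (tA m W Uh) (tB m D Lh) (zOfF m W D) := by
  have hW : ∀ j, ∀ i l, l < i → W j i l = 0 := fun j => (hpair j).1
  have hW1 : ∀ j i, W j i i = 1 := fun j => (hpair j).2.1
  have hD : ∀ j, ∀ i l, i < l → D j i l = 0 := fun j => (hpair j).2.2.1
  have hDd : ∀ j i, D j i i = d j i := fun j => (hpair j).2.2.2.1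
  have hWdet : ∀ j, (W j).det = 1 := fun j => det_ut_unit (hW j) (hW1 j)
  have hDdet : ∀ j, (D j).det = 1 := by
    intro j
    rw [det_lt (hD j)]
    simp only [hDd]
    exact hd1 j
  obtain ⟨u1, u2, u3, u4, u5, u6⟩ := hlast
  have hLd : ∀ i, Lh i i = (∏ j, D j i i) * β i := by
    intro i
    rw [u4]
    simp only [hDd]
  obtain ⟨hA1, hA2⟩ := tA_shape m W Uh hW hW1 u1
  obtain ⟨hB1, hB2⟩ := tB_shape m D Lh β hD hDdet u3 hLd
  refine ⟨hA1, fun i => by rw [hA2, u2], hB1, hB2, fun l => ?_, ?_, fun l => ?_, fun l hl => ?_,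
    ?_⟩
  · obtain ⟨V, hVa, hVb, hVd, hVc⟩ := zOfF_conj m W D hW hW1 l
    rw [hVc]
    exact ((hpair l).2.2.2.2.1).conj V V.adjugate (mul_adjugate_of_det hVd)
  · rw [tA_mul_prod_mul_tB m W D Uh Lh hWdet hDdet]
    exact u5
  · obtain ⟨V, T, h1, h2, h3, h4⟩ := drop_prod_zOfF k m W D hW hW1 hD l l.2.le
    refine ⟨V, T * tB m D Lh, h1, h2, lt_mul h3 hB1, ?_⟩
    rw [h4, Matrix.mul_assoc]
  · obtain ⟨V, hVa, hVb, hVd, hVc⟩ := zOfF_conj m W D hW hW1 l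
    rw [hVc]
    have h := ((hpair l).2.2.2.2.2 hl).conj V.adjugate V (adjugate_mul_of_det hVd)
    rw [ut_mulVec_cons hVa (hVb 0)] at h
    exact h
  · rw [tA_mul_prod_mul_tB m W D Uh Lh hWdet hDdet]
    exact u6

/-- Density of the integral points among the conjugates of the mixed chart tuples, over every
subfield of the complex numbers containing the square root of two and the eigenvalue data. -/
theorem mixed_dense_field (L : IntermediateField ℚ ℂ) (hL : sqrtTwo ∈ L) (n m : ℕ)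
    (S : Finset (Fin m)) (α β δ : Fin (n + 1) → ℂ) (γ : Fin m → Fin (n + 1) → ℂ)
    (lam mu : Fin m → ℂ)
    (hα : ∀ i, IsIntegral ℤ (α i)) (hβ : ∀ i, IsIntegral ℤ (β i)) (hδ : ∀ i, IsIntegral ℤ (δ i))
    (hγ : ∀ l i, IsIntegral ℤ (γ l i)) (hlam : ∀ l, IsIntegral ℤ (lam l))
    (hmu : ∀ l, IsIntegral ℤ (mu l))
    (hαL : ∀ i, α i ∈ L) (hβL : ∀ i, β i ∈ L) (hδL : ∀ i, δ i ∈ L) (hγL : ∀ l i, γ l i ∈ L)
    (hlamL : ∀ l, lam l ∈ L) (hmuL : ∀ l, mu l ∈ L)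
    (hα1 : ∏ i, α i = 1) (hβ1 : ∏ i, β i = 1) (hδ1 : ∏ i, δ i = 1)
    (hγ1 : ∀ l, ∏ i, γ l i = 1) (hml : ∀ l, mu l ^ (n + 1) * lam l = 1)
    (P : MvPolynomial ((Fin 2 ⊕ Fin m) × Fin (n + 1) × Fin (n + 1)) ℂ)
    (hP : ∀ (A B : Matrix (Fin (n + 1)) (Fin (n + 1)) ℂ)
      (Z : Fin m → Matrix (Fin (n + 1)) (Fin (n + 1)) ℂ),
      (∀ i j, A i j ∈ L ∧ IsIntegral ℤ (A i j)) →
      (∀ i j, B i j ∈ L ∧ IsIntegral ℤ (B i j)) →
      (∀ l i j, Z l i j ∈ L ∧ IsIntegral ℤ (Z l i j)) →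
      A.charpoly = ∏ i, (Polynomial.X - Polynomial.C (α i)) →
      B.charpoly = ∏ i, (Polynomial.X - Polynomial.C (β i)) →
      (∀ l, CndM n m S γ lam mu l (Z l)) →
      (A * (List.ofFn Z).prod * B).charpoly = ∏ i, (Polynomial.X - Polynomial.C (δ i)) →
      MvPolynomial.eval (fun x => Sum.elim ![A, B] Z x.1 x.2.1 x.2.2) P = 0)
    (g g' A B : Matrix (Fin (n + 1)) (Fin (n + 1)) ℂ)
    (Z : Fin m → Matrix (Fin (n + 1)) (Fin (n + 1)) ℂ) (hg : g * g' = 1)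
    (hch : ChartM n m S α β δ γ lam mu A B Z) :
    MvPolynomial.eval (fun x => Sum.elim ![g * A * g', g * B * g']
      (fun l => g * Z l * g') x.1 x.2.1 x.2.2) P = 0 := by
  have hα0 := ne_zero_of_prod_eq_one α hα1
  have hβ0 := ne_zero_of_prod_eq_one β hβ1
  obtain ⟨d, W, D, Uh, Lh, hd1, hpair, hlast, hA, hB, hZ⟩ :=
    chartM_data n m S α β δ γ lam mu hβ1 hγ1 hml A B Z hch
  have hαL' : ∀ i, α i ∈ ringO L := fun i => ⟨hαL i, hα i⟩
  have hβL' : ∀ i, β i ∈ ringO L := fun i => ⟨hβL i, hβ i⟩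
  have hδL' : ∀ i, δ i ∈ ringO L := fun i => ⟨hδL i, hδ i⟩
  have hγL' : ∀ l i, γ l i ∈ ringO L := fun l i => ⟨hγL l i, hγ l i⟩
  have hd0 : ∀ j i, d j i ≠ 0 := fun j => ne_zero_of_prod_eq_one (d j) (hd1 j)
  have hprod : (∏ i, α i) * ∏ i, ((∏ j, d j i) * β i) = ∏ i, δ i := by
    rw [Finset.prod_mul_distrib, Finset.prod_comm, hα1, hβ1, hδ1]
    simp [hd1]
  have key := sk_upgrade_gen n m α (fun i => (∏ j, d j i) * β i) δ hα0
    (fun i => mul_ne_zero (Finset.prod_ne_zero_iff.mpr fun j _ => hd0 j i) (hβ0 i)) hprod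
    (SlotN n m S γ lam mu d) (SlotT n m S γ lam mu d)
    (fun j P' H U Lo hT => by
      by_cases hj : j ∈ S
      · exact H U Lo ⟨fun h => absurd hj h, fun _ => hT⟩
      · obtain ⟨t1, t2, t3, t4, t5, t6⟩ := hT
        exact topOK_of_nest n (fun _ => 1) (d j) (γ j) (fun _ => one_ne_zero) (hd0 j)
          (by rw [hd1, hγ1]; simp) P'
          (fun U' L' hN => H U' L' ⟨fun _ => hN, fun h => absurd h hj⟩) U Lo
          ⟨t1, t2, t3, t4, t5.1 hj, t6 hj⟩)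
    P g g' (fun W' D' Uh' Lh' hp hl => by
      have hdiag : ∀ j i, D' j i i = d j i := by
        intro j i
        by_cases hj : j ∈ S
        · exact ((hp j).2 hj).2.2.2.1 i
        · exact nestOK_diag ((hp j).1 hj) i
      have e : (fun i => (∏ j, D' j i i) * β i) = fun i => (∏ j, d j i) * β i := by
        funext i
        simp only [hdiag]
      refine sk_density_gen hL n m α β δ hαL' hβL' hδL' hα1 hβ1 hδ1
        (CndM n m S γ lam mu) (fun l M G G' hGG hM => hM.conj G G' hGG) P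
        (fun A' B' Z' hA' hB' hZ' => hP A' B' Z' hA' hB' hZ') g g' hg W' D' Uh' Lh'
        (fun j => ?_) (by rw [e]; exact hl)
      by_cases hj : j ∈ S
      · obtain ⟨t1, t2, t3, -, t5, -⟩ := (hp j).2 hj
        obtain ⟨Wt, Dt, dt, q1, q2, q3, q4, q5, q6, q7, q8⟩ := refl_slot_lift L n (lam j) (mu j)
          ⟨hlamL j, hlam j⟩ ⟨hmuL j, hmu j⟩ (hml j) (W' j) (D' j) t1 t2 t3 (t5.2 hj)
        exact ⟨Wt, Dt, dt, q1, q2, q3, q4, q5, q6, q7,
          fun s => ⟨fun h => absurd hj h, fun _ => q8 s⟩⟩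
      · obtain ⟨Wt, Dt, dt, q1, q2, q3, q4, q5, q6, q7, q8⟩ := nest_slot_lift L n (d j) (γ j)
          (hγL' j) (hγ1 j) (hd1 j) (W' j) (D' j) ((hp j).1 hj)
        exact ⟨Wt, Dt, dt, q1, q2, q3, q4, q5, q6, q7,
          fun s => ⟨fun _ => q8 s, fun h => absurd h hj⟩⟩)
    W D Uh Lh hpair hlast
  rw [skVal, hA, hB, hZ] at key
  exact key

end Vale.Agent.Lib.P002
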