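import Vale.Agent.Lib.P002.MxRefl

/-!
Tuples (A, Z_1, ..., Z_m, B) with prescribed characteristic polynomials of A, B and of the
product and with a conjugation invariant condition on every Z_l: density of the integral
points among the conjugates of the tuples attached to families of pairs of triangular
matrices which lift to the ring of Laurent polynomial functions.
-/

namespace Vale.Agent.Lib.P002

open Matrix

/-- The lifting data of a nested chart pair. -/
theorem nest_slot_lift (L : IntermediateField ℚ ℂ) (k : ℕ) (d γ : Fin (k + 1) → ℂ)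
    (hγ : ∀ i, γ i ∈ ringO L) (hγ1 : ∏ i, γ i = 1) (hd1 : ∏ i, d i = 1)
    (W D : Matrix (Fin (k + 1)) (Fin (k + 1)) ℂ) (h : NestOK ℂ k (fun _ => 1) d γ W D) :
    ∃ (Wt Dt : Matrix (Fin (k + 1)) (Fin (k + 1)) (ringR L)) (dt : Fin (k + 1) → (ringR L)ˣ),
      Wt.map (evAt L taut) = W ∧ Dt.map (evAt L taut) = D ∧ (∀ i l, l < i → Wt i l = 0) ∧
      (∀ i, Wt i i = 1) ∧ (∀ i l, i < l → Dt i l = 0) ∧ (∀ i, Dt i i = (dt i : ringR L)) ∧
      ∏ i, (dt i : ringR L) = 1 ∧
      ∀ s : ℂˣ → ℂˣ, ((Wt * Dt).map (evAt L s)).charpoly =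
        ∏ i, (Polynomial.X - Polynomial.C (γ i)) := by
  have hsurj := evAt_taut_surjective L
  have hunit := evAt_taut_unit L
  obtain ⟨dt, hdt, hdt1⟩ := exists_unit_lifts (evAt L taut) hunit k d hd1
  obtain ⟨U', L', h1, h2, h3, h4, h5, h6, h7⟩ := lift_pair_tri (evAt L taut) hsurj hunit k
    (fun _ => 1) d γ (fun _ => 1) dt (famUnit L γ hγ1 hγ)
    (fun i => by simp) hdt (fun i => evAt_famUnit L γ hγ1 hγ i taut)
    (by rw [hdt1, prod_famUnit]; simp) W D h
  refine ⟨U', L', dt, h1, h2, h3, fun i => by rw [h4 i, Units.val_one], h5, h6, hdt1,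
    fun s => ?_⟩
  rw [Matrix.charpoly_map, h7, map_prod_famUnit]

/-- A polynomial vanishing at the integral tuples with the prescribed characteristic
polynomials of A, B and the product and the prescribed conditions on the Z_l vanishes at the
conjugates of the tuples attached to families of pairs with lifts. -/
theorem sk_density_gen {L : IntermediateField ℚ ℂ} (hL : sqrtTwo ∈ L) (k m : ℕ)
    (α β δ : Fin (k + 1) → ℂ)
    (hα : ∀ i, α i ∈ ringO L) (hβ : ∀ i, β i ∈ ringO L) (hδ : ∀ i, δ i ∈ ringO L)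
    (hα1 : ∏ i, α i = 1) (hβ1 : ∏ i, β i = 1) (hδ1 : ∏ i, δ i = 1)
    (Cnd : Fin m → Matrix (Fin (k + 1)) (Fin (k + 1)) ℂ → Prop)
    (hCnd : ∀ l (M G G' : Matrix (Fin (k + 1)) (Fin (k + 1)) ℂ), G * G' = 1 → Cnd l M →
      Cnd l (G * M * G'))
    (P : MvPolynomial ((Fin 2 ⊕ Fin m) × Fin (k + 1) × Fin (k + 1)) ℂ)
    (hP : ∀ (A B : Matrix (Fin (k + 1)) (Fin (k + 1)) ℂ)
      (Z : Fin m → Matrix (Fin (k + 1)) (Fin (k + 1)) ℂ),
      (∀ i j, A i j ∈ ringO L) → (∀ i j, B i j ∈ ringO L) → (∀ l i j, Z l i j ∈ ringO L) →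
      A.charpoly = ∏ i, (Polynomial.X - Polynomial.C (α i)) →
      B.charpoly = ∏ i, (Polynomial.X - Polynomial.C (β i)) →
      (∀ l, Cnd l (Z l)) →
      (A * (List.ofFn Z).prod * B).charpoly = ∏ i, (Polynomial.X - Polynomial.C (δ i)) →
      MvPolynomial.eval (fun x => Sum.elim ![A, B] Z x.1 x.2.1 x.2.2) P = 0)
    (g g' : Matrix (Fin (k + 1)) (Fin (k + 1)) ℂ) (hg : g * g' = 1)
    (W D : Fin m → Matrix (Fin (k + 1)) (Fin (k + 1)) ℂ)
    (Uh Lh : Matrix (Fin (k + 1)) (Fin (k + 1)) ℂ)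
    (hslot : ∀ j, ∃ (Wt Dt : Matrix (Fin (k + 1)) (Fin (k + 1)) (ringR L))
      (dt : Fin (k + 1) → (ringR L)ˣ),
      Wt.map (evAt L taut) = W j ∧ Dt.map (evAt L taut) = D j ∧ (∀ i l, l < i → Wt i l = 0) ∧
      (∀ i, Wt i i = 1) ∧ (∀ i l, i < l → Dt i l = 0) ∧ (∀ i, Dt i i = (dt i : ringR L)) ∧
      ∏ i, (dt i : ringR L) = 1 ∧ ∀ s : ℂˣ → ℂˣ, Cnd j ((Wt * Dt).map (evAt L s)))
    (hlast : NestOK ℂ k α (fun i => (∏ j, D j i i) * β i) δ Uh Lh) :
    MvPolynomial.eval (fun x => Sum.elim ![g * tA m W Uh * g', g * tB m D Lh * g']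
      (fun j => g * zOfF m W D j * g') x.1 x.2.1 x.2.2) P = 0 := by
  have hsurj := evAt_taut_surjective L
  have hunit := evAt_taut_unit L
  choose Wt Dt dt hWm hDm hWt hWt1 hDt hDtd hdt1 hCs using hslot
  have hdtv : ∀ j i, evAt L taut (dt j i : ringR L) = D j i i := by
    intro j i
    rw [← hDtd j i, ← hDm j]
    rfl
  -- the last pair
  have hlam : ∀ i, evAt L taut ((((∏ j, dt j i) * famUnit L β hβ1 hβ i : (ringR L)ˣ)) : ringR L) =
      (∏ j, D j i i) * β i := by
    intro i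
    rw [Units.val_mul, map_mul, Units.coe_prod, map_prod, evAt_famUnit]
    congr 1
    exact Finset.prod_congr rfl fun j _ => hdtv j i
  have hprodl : (∏ i, (famUnit L α hα1 hα i : ringR L)) *
      ∏ i, ((((∏ j, dt j i) * famUnit L β hβ1 hβ i : (ringR L)ˣ)) : ringR L) =
      ∏ i, (famUnit L δ hδ1 hδ i : ringR L) := by
    rw [prod_famUnit, prod_famUnit, one_mul]
    simp only [Units.val_mul, Units.coe_prod]
    rw [Finset.prod_mul_distrib, prod_famUnit, mul_one, Finset.prod_comm]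
    exact Finset.prod_eq_one fun j _ => hdt1 j
  obtain ⟨Uht, Lht, hUm, hLm, hUt, hUtd, hLt, hLtd, hULt⟩ := lift_pair_tri (evAt L taut) hsurj
    hunit k α (fun i => (∏ j, D j i i) * β i) δ (famUnit L α hα1 hα)
    (fun i => (∏ j, dt j i) * famUnit L β hβ1 hβ i) (famUnit L δ hδ1 hδ)
    (fun i => evAt_famUnit L α hα1 hα i taut) hlam (fun i => evAt_famUnit L δ hδ1 hδ i taut)
    hprodl Uh Lh hlast
  -- the tuple over the ring
  have hWdet : ∀ j, (Wt j).det = 1 := by
    intro j
    rw [det_ut (hWt j)]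
    simp [hWt1 j]
  have hDdet : ∀ j, (Dt j).det = 1 := by
    intro j
    rw [det_lt (hDt j)]
    simp only [hDtd]
    exact hdt1 j
  have hLd : ∀ i, Lht i i = (∏ j, Dt j i i) * (famUnit L β hβ1 hβ i : ringR L) := by
    intro i
    rw [hLtd, Units.val_mul, Units.coe_prod]
    congr 1
    exact Finset.prod_congr rfl fun j _ => (hDtd j i).symm
  obtain ⟨hA1, hA2⟩ := tA_shape m Wt Uht hWt hWt1 hUt
  obtain ⟨hB1, hB2⟩ := tB_shape m Dt Lht (fun i => (famUnit L β hβ1 hβ i : ringR L)) hDt hDdet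
    hLt hLd
  have hcA : (tA m Wt Uht).charpoly =
      ∏ i, (Polynomial.X - Polynomial.C (famUnit L α hα1 hα i : ringR L)) := by
    rw [charpoly_ut hA1]
    exact Finset.prod_congr rfl fun i _ => by rw [hA2, hUtd]
  have hcB : (tB m Dt Lht).charpoly =
      ∏ i, (Polynomial.X - Polynomial.C (famUnit L β hβ1 hβ i : ringR L)) := by
    rw [charpoly_lt hB1]
    exact Finset.prod_congr rfl fun i _ => by rw [hB2]
  have hcN : (tA m Wt Uht * (List.ofFn (zOfF m Wt Dt)).prod * tB m Dt Lht).charpoly =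
      ∏ i, (Polynomial.X - Polynomial.C (famUnit L δ hδ1 hδ i : ringR L)) := by
    rw [tA_mul_prod_mul_tB m Wt Dt Uht Lht hWdet hDdet, hULt]
  obtain ⟨G, G', hGG', hG'G, hGmap, hG'map⟩ := lift_gl_inv (evAt L taut) hsurj hunit g g' hg
  obtain ⟨FA, hFA⟩ : ∃ FA, FA = G * tA m Wt Uht * G' := ⟨_, rfl⟩
  obtain ⟨FB, hFB⟩ : ∃ FB, FB = G * tB m Dt Lht * G' := ⟨_, rfl⟩
  obtain ⟨FZ, hFZ⟩ : ∃ FZ : Fin m → Matrix (Fin (k + 1)) (Fin (k + 1)) (ringR L),
    FZ = fun j => G * zOfF m Wt Dt j * G' := ⟨_, rfl⟩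
  have hcFA : FA.charpoly =
      ∏ i, (Polynomial.X - Polynomial.C (famUnit L α hα1 hα i : ringR L)) := by
    rw [hFA, charpoly_conj' _ _ _ hG'G, hcA]
  have hcFB : FB.charpoly =
      ∏ i, (Polynomial.X - Polynomial.C (famUnit L β hβ1 hβ i : ringR L)) := by
    rw [hFB, charpoly_conj' _ _ _ hG'G, hcB]
  have hCZ : ∀ (s : ℂˣ → ℂˣ) (j : Fin m), Cnd j ((FZ j).map (evAt L s)) := by
    intro s j
    obtain ⟨V, -, -, hV3, hV4⟩ := zOfF_conj m Wt Dt hWt hWt1 j
    have e : (FZ j).map (evAt L s) = (G * V).map (evAt L s) * (Wt j * Dt j).map (evAt L s) *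
        (V.adjugate * G').map (evAt L s) := by
      rw [hFZ]
      simp only
      rw [hV4, ← Matrix.map_mul, ← Matrix.map_mul]
      congr 1
      simp only [Matrix.mul_assoc]
    rw [e]
    refine hCnd j _ _ _ ?_ (hCs j s)
    rw [← Matrix.map_mul]
    have h1 : G * V * (V.adjugate * G') = 1 := by
      calc G * V * (V.adjugate * G') = G * (V * V.adjugate) * G' := by
            simp only [Matrix.mul_assoc]
        _ = 1 := by rw [mul_adjugate_of_det hV3, Matrix.mul_one, hGG']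
    rw [h1]
    simp
  have hcFN : (FA * (List.ofFn FZ).prod * FB).charpoly =
      ∏ i, (Polynomial.X - Polynomial.C (famUnit L δ hδ1 hδ i : ringR L)) := by
    have hmul : FA * (List.ofFn FZ).prod * FB =
        G * (tA m Wt Uht * (List.ofFn (zOfF m Wt Dt)).prod * tB m Dt Lht) * G' := by
      rw [hFA, hFB, hFZ, prod_ofFn_conj' G G' hGG' hG'G]
      calc G * tA m Wt Uht * G' * (G * (List.ofFn (zOfF m Wt Dt)).prod * G') *
            (G * tB m Dt Lht * G') =
          G * tA m Wt Uht * (G' * G) * (List.ofFn (zOfF m Wt Dt)).prod * (G' * G) *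
            tB m Dt Lht * G' := by simp only [Matrix.mul_assoc]
        _ = G * (tA m Wt Uht * (List.ofFn (zOfF m Wt Dt)).prod * tB m Dt Lht) * G' := by
            rw [hG'G]
            simp only [Matrix.mul_assoc, Matrix.one_mul]
    rw [hmul, charpoly_conj' _ _ _ hG'G, hcN]
  have hLau : FLau (fun s => MvPolynomial.eval
      (fun x => Sum.elim ![FA.map (evAt L s), FB.map (evAt L s)]
        (fun j => (FZ j).map (evAt L s)) x.1 x.2.1 x.2.2) P) := by
    refine FLau.eval_comp P fun x => ?_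
    obtain ⟨e, i, j⟩ := x
    rcases e with e | l
    · fin_cases e
      · exact flau_evAt L (FA i j)
      · exact flau_evAt L (FB i j)
    · exact flau_evAt L (FZ l i j)
  have hzero : ∀ s : ℂˣ → ℂˣ, (∀ t, s t ∈ Set.range (fun n : ℕ => fundUnit ^ n)) →
      MvPolynomial.eval (fun x => Sum.elim ![FA.map (evAt L s), FB.map (evAt L s)]
        (fun j => (FZ j).map (evAt L s)) x.1 x.2.1 x.2.2) P = 0 := by
    intro s hs
    have hsU : ∀ t, s t ∈ unitsO L := by
      intro t
      obtain ⟨n, hn⟩ := hs t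
      rw [← hn]
      exact (unitsO L).pow_mem (fundUnit_mem_unitsO_of_mem hL) n
    refine hP (FA.map (evAt L s)) (FB.map (evAt L s)) (fun j => (FZ j).map (evAt L s))
      (fun i j => evAt_mem_ringO L s hsU (FA i j)) (fun i j => evAt_mem_ringO L s hsU (FB i j))
      (fun l i j => evAt_mem_ringO L s hsU (FZ l i j)) ?_ ?_ (fun l => hCZ s l) ?_
    · rw [Matrix.charpoly_map, hcFA, map_prod_famUnit]
    · rw [Matrix.charpoly_map, hcFB, map_prod_famUnit]
    · rw [← map_prod_ofFn, ← Matrix.map_mul, ← Matrix.map_mul, Matrix.charpoly_map, hcFN,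
        map_prod_famUnit]
  have h0 := hLau.eq_zero_of_infinite _ infinite_powers_fundUnit hzero taut
  have e1 : FA.map (evAt L taut) = g * tA m W Uh * g' := by
    rw [hFA, Matrix.map_mul, Matrix.map_mul, hGmap, hG'map, map_tA, hUm,
      (funext hWm : (fun j => (Wt j).map (evAt L taut)) = W)]
  have e2 : FB.map (evAt L taut) = g * tB m D Lh * g' := by
    rw [hFB, Matrix.map_mul, Matrix.map_mul, hGmap, hG'map, map_tB, hLm,
      (funext hDm : (fun j => (Dt j).map (evAt L taut)) = D)]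
  have e3 : (fun j => (FZ j).map (evAt L taut)) = fun j => g * zOfF m W D j * g' := by
    funext j
    rw [hFZ, Matrix.map_mul, Matrix.map_mul, hGmap, hG'map, map_zOfF,
      (funext hWm : (fun j => (Wt j).map (evAt L taut)) = W),
      (funext hDm : (fun j => (Dt j).map (evAt L taut)) = D)]
  rw [e1, e2, e3] at h0
  exact h0

/-- From nested chart pairs to chart pairs, for slots of two kinds: the passage is the
polynomial identity argument of the hypothesis on each slot, and the polynomial identity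
argument for chart pairs on the last pair. -/
theorem sk_upgrade_gen (k m : ℕ) (α lam δ : Fin (k + 1) → ℂ)
    (hα0 : ∀ i, α i ≠ 0) (hlam0 : ∀ i, lam i ≠ 0)
    (hprod : (∏ i, α i) * ∏ i, lam i = ∏ i, δ i)
    (SN ST : Fin m → Matrix (Fin (k + 1)) (Fin (k + 1)) ℂ →
      Matrix (Fin (k + 1)) (Fin (k + 1)) ℂ → Prop)
    (hup : ∀ (j : Fin m) (P' : MvPolynomial (Fin 2 × Fin (k + 1) × Fin (k + 1)) ℂ),
      (∀ U L, SN j U L → MvPolynomial.eval (fun x => ![U, L] x.1 x.2.1 x.2.2) P' = 0) →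
      ∀ U L, ST j U L → MvPolynomial.eval (fun x => ![U, L] x.1 x.2.1 x.2.2) P' = 0)
    (P : MvPolynomial ((Fin 2 ⊕ Fin m) × Fin (k + 1) × Fin (k + 1)) ℂ)
    (g g' : Matrix (Fin (k + 1)) (Fin (k + 1)) ℂ)
    (Hnest : ∀ (W D : Fin m → Matrix (Fin (k + 1)) (Fin (k + 1)) ℂ)
      (Uh Lh : Matrix (Fin (k + 1)) (Fin (k + 1)) ℂ),
      (∀ j, SN j (W j) (D j)) → NestOK ℂ k α lam δ Uh Lh → skVal P g g' W D Uh Lh = 0)
    (W D : Fin m → Matrix (Fin (k + 1)) (Fin (k + 1)) ℂ)
    (Uh Lh : Matrix (Fin (k + 1)) (Fin (k + 1)) ℂ)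
    (hpair : ∀ j, ST j (W j) (D j))
    (hlast : TopOK k α lam δ Uh Lh) : skVal P g g' W D Uh Lh = 0 := by
  -- the pairs, one at a time
  have step : ∀ q : ℕ, q ≤ m → ∀ (W D : Fin m → Matrix (Fin (k + 1)) (Fin (k + 1)) ℂ)
      (Uh Lh : Matrix (Fin (k + 1)) (Fin (k + 1)) ℂ),
      (∀ j : Fin m, (j : ℕ) < q → ST j (W j) (D j)) →
      (∀ j : Fin m, q ≤ (j : ℕ) → SN j (W j) (D j)) →
      NestOK ℂ k α lam δ Uh Lh → skVal P g g' W D Uh Lh = 0 := by
    intro q
    induction q with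
    | zero =>
      intro _ W D Uh Lh _ hN hl
      exact Hnest W D Uh Lh (fun j => hN j (Nat.zero_le _)) hl
    | succ q ih =>
      intro hq W D Uh Lh hT hN hl
      obtain ⟨P', hP'⟩ := skVal_poly P g g'
        (Function.update (fun j => (W j).map MvPolynomial.C) ⟨q, hq⟩ (univU k))
        (Function.update (fun j => (D j).map MvPolynomial.C) ⟨q, hq⟩ (univL k))
        (Uh.map MvPolynomial.C) (Lh.map MvPolynomial.C)
      have hP'' : ∀ U L : Matrix (Fin (k + 1)) (Fin (k + 1)) ℂ,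
          MvPolynomial.eval (fun x => ![U, L] x.1 x.2.1 x.2.2) P' =
            skVal P g g' (Function.update W ⟨q, hq⟩ U) (Function.update D ⟨q, hq⟩ L) Uh Lh := by
        intro U L
        rw [hP', update_map, update_map, univU_map, univL_map, const_map, const_map]
      have h0 := hup ⟨q, hq⟩ P' (fun U L hUL => by
          rw [hP'']
          refine ih (Nat.le_of_succ_le hq) _ _ Uh Lh (fun j hj => ?_) (fun j hj => ?_) hl
          · have hne : j ≠ ⟨q, hq⟩ := fun h => by
              rw [h] at hj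
              exact lt_irrefl _ hj
            rw [Function.update_of_ne hne, Function.update_of_ne hne]
            exact hT j (Nat.lt_succ_of_lt hj)
          · by_cases hne : j = ⟨q, hq⟩
            · subst hne
              rw [Function.update_self, Function.update_self]
              exact hUL
            · rw [Function.update_of_ne hne, Function.update_of_ne hne]
              refine hN j (Nat.succ_le_of_lt (lt_of_le_of_ne hj fun h => hne ?_))
              exact Fin.ext h.symm)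
        (W ⟨q, hq⟩) (D ⟨q, hq⟩) (hT ⟨q, hq⟩ (Nat.lt_succ_self q))
      rw [hP'', Function.update_eq_self, Function.update_eq_self] at h0
      exact h0
  -- the last pair
  obtain ⟨P', hP'⟩ := skVal_poly P g g' (fun j => (W j).map MvPolynomial.C)
    (fun j => (D j).map MvPolynomial.C) (univU k) (univL k)
  have hP'' : ∀ U L : Matrix (Fin (k + 1)) (Fin (k + 1)) ℂ,
      MvPolynomial.eval (fun x => ![U, L] x.1 x.2.1 x.2.2) P' = skVal P g g' W D U L := by
    intro U L
    rw [hP', univU_map, univL_map]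
    simp only [const_map]
  have h0 := topOK_of_nest k α lam δ hα0 hlam0 hprod P' (fun U L hUL => by
    rw [hP'']
    exact step m le_rfl W D U L (fun j _ => hpair j) (fun j hj => absurd j.2 (not_lt.mpr hj)) hUL)
    Uh Lh hlast
  rw [hP''] at h0
  exact h0

end Vale.Agent.Lib.P002
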