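import Vale.Agent.Lib.P002.MxChart

/-!
The genericity function of a mixed tuple with respect to two frames, the genericity polynomial
built from the chain frames, and the passage from chain frames in general position to mixed
chart tuples.
-/

namespace Vale.Agent.Lib.P002

open Matrix

section GenM

variable {S : Type*} [CommRing S]

/-- The genericity function of a mixed tuple (A, B, Z) with respect to two frames a and b. -/
noncomputable def genM (k m : ℕ) (Sr : Finset (Fin m))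
    (a b A B : Matrix (Fin (k + 1)) (Fin (k + 1)) S)
    (Z : Fin m → Matrix (Fin (k + 1)) (Fin (k + 1)) S) : S :=
  a.det * trailDet (k + 1) (a.adjugate * b) *
    (∏ l : Fin m, trailDet (k + 1)
      (a.adjugate * (((List.ofFn Z).drop (l : ℕ)).prod * B) * b)) *
    (∏ l : Fin m, if l ∈ Sr then 1 else (kry (Z l) (fun i => a i 0)).det) *
    (kry (A * (List.ofFn Z).prod * B) (fun i => a i 0)).det

/-- The genericity function of a mixed tuple (A, B, Z) with respect to its chain frames. -/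
noncomputable def genMJ (k m : ℕ) (Sr : Finset (Fin m)) (α β v w : Fin (k + 1) → S)
    (A B : Matrix (Fin (k + 1)) (Fin (k + 1)) S)
    (Z : Fin m → Matrix (Fin (k + 1)) (Fin (k + 1)) S) : S :=
  genM k m Sr (jorU α A v) (jorL β B w) A B Z

variable {T : Type*} [CommRing T] (f : S →+* T)

theorem map_genM (k m : ℕ) (Sr : Finset (Fin m))
    (a b A B : Matrix (Fin (k + 1)) (Fin (k + 1)) S)
    (Z : Fin m → Matrix (Fin (k + 1)) (Fin (k + 1)) S) :
    f (genM k m Sr a b A B Z) =
      genM k m Sr (a.map f) (b.map f) (A.map f) (B.map f) (fun l => (Z l).map f) := by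
  have e3 : (fun i => f (a i 0)) = fun i => (a.map f) i 0 := rfl
  have t1 : f a.det = (a.map f).det := map_det' f a
  have t2 : f (trailDet (k + 1) (a.adjugate * b)) =
      trailDet (k + 1) ((a.map f).adjugate * b.map f) := by
    rw [map_trailDet, Matrix.map_mul, map_adjugate']
  have t3 : ∀ l : Fin m, f (trailDet (k + 1)
      (a.adjugate * (((List.ofFn Z).drop (l : ℕ)).prod * B) * b)) =
      trailDet (k + 1) ((a.map f).adjugate *
        (((List.ofFn fun j => (Z j).map f).drop (l : ℕ)).prod * B.map f) * b.map f) := by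
    intro l
    rw [map_trailDet, Matrix.map_mul, Matrix.map_mul, Matrix.map_mul, map_adjugate',
      map_drop_prod]
  have t4 : ∀ l : Fin m, f (if l ∈ Sr then 1 else (kry (Z l) (fun i => a i 0)).det) =
      if l ∈ Sr then 1 else (kry ((Z l).map f) (fun i => (a.map f) i 0)).det := by
    intro l
    split_ifs
    · exact map_one f
    · rw [map_det', kry_map, e3]
  have t5 : f (kry (A * (List.ofFn Z).prod * B) (fun i => a i 0)).det =
      (kry (A.map f * (List.ofFn fun l => (Z l).map f).prod * B.map f)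
        (fun i => (a.map f) i 0)).det := by
    rw [map_det', kry_map, e3, Matrix.map_mul, Matrix.map_mul, map_prod_ofFn]
  unfold genM
  rw [map_mul, map_mul, map_mul, map_mul, map_prod, map_prod, t1, t2, t5]
  simp only [t3, t4]

theorem map_genMJ (k m : ℕ) (Sr : Finset (Fin m)) (α β v w : Fin (k + 1) → S)
    (A B : Matrix (Fin (k + 1)) (Fin (k + 1)) S)
    (Z : Fin m → Matrix (Fin (k + 1)) (Fin (k + 1)) S) :
    f (genMJ k m Sr α β v w A B Z) =
      genMJ k m Sr (fun i => f (α i)) (fun i => f (β i)) (fun i => f (v i)) (fun i => f (w i))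
        (A.map f) (B.map f) (fun l => (Z l).map f) := by
  rw [genMJ, map_genM, jorU_map, jorL_map, genMJ]

end GenM

/-- The genericity polynomial of mixed tuples for the chain frames with base vectors v, w. -/
noncomputable def polyM (k m : ℕ) (Sr : Finset (Fin m)) (α β v w : Fin (k + 1) → ℂ) :
    MvPolynomial ((Fin 2 ⊕ Fin m) × Fin (k + 1) × Fin (k + 1)) ℂ :=
  genMJ k m Sr (fun i => MvPolynomial.C (α i)) (fun i => MvPolynomial.C (β i))
    (fun i => MvPolynomial.C (v i)) (fun i => MvPolynomial.C (w i))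
    (uMat k m (Sum.inl 0)) (uMat k m (Sum.inl 1)) (fun l => uMat k m (Sum.inr l))

theorem eval_polyM (k m : ℕ) (Sr : Finset (Fin m)) (α β v w : Fin (k + 1) → ℂ)
    (A B : Matrix (Fin (k + 1)) (Fin (k + 1)) ℂ)
    (Z : Fin m → Matrix (Fin (k + 1)) (Fin (k + 1)) ℂ) :
    MvPolynomial.eval (fun x => Sum.elim ![A, B] Z x.1 x.2.1 x.2.2) (polyM k m Sr α β v w) =
      genMJ k m Sr α β v w A B Z := by
  rw [polyM, map_genMJ]
  have h3 : (uMat k m (Sum.inl 0)).map (MvPolynomial.eval
      (fun x : (Fin 2 ⊕ Fin m) × Fin (k + 1) × Fin (k + 1) =>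
        Sum.elim ![A, B] Z x.1 x.2.1 x.2.2)) = A := by
    ext i j
    simp [uMat]
  have h4 : (uMat k m (Sum.inl 1)).map (MvPolynomial.eval
      (fun x : (Fin 2 ⊕ Fin m) × Fin (k + 1) × Fin (k + 1) =>
        Sum.elim ![A, B] Z x.1 x.2.1 x.2.2)) = B := by
    ext i j
    simp [uMat]
  have h5 : (fun l => (uMat k m (Sum.inr l)).map (MvPolynomial.eval
      (fun x : (Fin 2 ⊕ Fin m) × Fin (k + 1) × Fin (k + 1) =>
        Sum.elim ![A, B] Z x.1 x.2.1 x.2.2))) = Z := by
    funext l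
    ext i j
    simp [uMat]
  rw [h3, h4, h5]
  simp only [MvPolynomial.eval_C]

/-- The genericity function does not vanish at a mixed chart tuple, for every upper triangular
frame and every lower triangular frame with nonzero diagonals. -/
theorem genM_chart_ne_zero (k m : ℕ) (Sr : Finset (Fin m)) (α β δ : Fin (k + 1) → ℂ)
    (γ : Fin m → Fin (k + 1) → ℂ) (lam mu : Fin m → ℂ)
    (hβ1 : ∏ i, β i = 1) (hγ1 : ∀ l, ∏ i, γ l i = 1) (hml : ∀ l, mu l ^ (k + 1) * lam l = 1)
    (A B : Matrix (Fin (k + 1)) (Fin (k + 1)) ℂ)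
    (Z : Fin m → Matrix (Fin (k + 1)) (Fin (k + 1)) ℂ)
    (h : ChartM k m Sr α β δ γ lam mu A B Z)
    (a b : Matrix (Fin (k + 1)) (Fin (k + 1)) ℂ)
    (hau : ∀ i j, j < i → a i j = 0) (had : ∀ i, a i i ≠ 0)
    (hbl : ∀ i j, i < j → b i j = 0) (hbd : ∀ i, b i i ≠ 0) :
    genM k m Sr a b A B Z ≠ 0 := by
  obtain ⟨c1, c2, c3, c4, c5, c6, c7, c8, c9⟩ := h
  obtain ⟨hadj, hadjd⟩ := ut_adjugate_ne hau had
  have hBdet : B.det ≠ 0 := by
    rw [det_lt c3]
    simp only [c4]
    rw [hβ1]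
    exact one_ne_zero
  have hZdet : ∀ l, (Z l).det ≠ 0 := by
    intro l
    rw [(c5 l).det hγ1 hml]
    exact one_ne_zero
  have ha0 : (fun i => a i 0) = a 0 0 • (Fin.cons 1 0 : Fin (k + 1) → ℂ) := col_zero_ut hau
  unfold genM
  refine mul_ne_zero (mul_ne_zero (mul_ne_zero (mul_ne_zero ?_ ?_) ?_) ?_) ?_
  · rw [det_ut hau]
    exact Finset.prod_ne_zero_iff.mpr fun i _ => had i
  · exact trailDet_ut_mul_lt_ne_zero (k + 1) _ _ hadj hadjd hbl hbd
  · refine Finset.prod_ne_zero_iff.mpr fun l _ => ?_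
    obtain ⟨V, T, hV, hV1, hT, hVT⟩ := c7 l
    have hdet : (((List.ofFn Z).drop (l : ℕ)).prod * B).det ≠ 0 := by
      rw [Matrix.det_mul]
      refine mul_ne_zero (det_list_prod_ne_zero _ fun M hM => ?_) hBdet
      obtain ⟨j, rfl⟩ := (List.mem_ofFn' Z M).mp (List.mem_of_mem_drop hM)
      exact hZdet j
    have hTd : ∀ i, T i i ≠ 0 := by
      rw [hVT, Matrix.det_mul, det_ut_unit hV hV1, one_mul, det_lt hT] at hdet
      intro i
      exact Finset.prod_ne_zero_iff.mp hdet i (Finset.mem_univ i)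
    have e : a.adjugate * (((List.ofFn Z).drop (l : ℕ)).prod * B) * b =
        a.adjugate * V * (T * b) := by
      rw [hVT]
      simp only [Matrix.mul_assoc]
    rw [e]
    refine trailDet_ut_mul_lt_ne_zero (k + 1) _ _ (ut_mul hadj hV) (fun i => ?_)
      (lt_mul hT hbl) (fun i => ?_)
    · rw [ut_mul_diag hadj hV, hV1, mul_one]
      exact hadjd i
    · rw [lt_mul_diag hT hbl]
      exact mul_ne_zero (hTd i) (hbd i)
  · refine Finset.prod_ne_zero_iff.mpr fun l _ => ?_
    split_ifs with hl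
    · exact one_ne_zero
    · rw [ha0]
      exact ((c8 l hl).smul_vec (had 0)).det_kry_ne_zero
  · rw [ha0]
    exact (c9.smul_vec (had 0)).det_kry_ne_zero

/-- A mixed tuple whose chain frames are in general position is a simultaneous conjugate of a
mixed chart tuple. -/
theorem chart_of_mixed (k m : ℕ) (Sr : Finset (Fin m)) (α β δ : Fin (k + 1) → ℂ)
    (γ : Fin m → Fin (k + 1) → ℂ) (lam mu : Fin m → ℂ)
    (A B : Matrix (Fin (k + 1)) (Fin (k + 1)) ℂ)
    (Z : Fin m → Matrix (Fin (k + 1)) (Fin (k + 1)) ℂ)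
    (v w : Fin (k + 1) → ℂ)
    (a b : Matrix (Fin (k + 1)) (Fin (k + 1)) ℂ) (ha : a = jorU α A v) (hb : b = jorL β B w)
    (hA : A.charpoly = ∏ i, (Polynomial.X - Polynomial.C (α i)))
    (hB : B.charpoly = ∏ i, (Polynomial.X - Polynomial.C (β i)))
    (hZ : ∀ l, CndM k m Sr γ lam mu l (Z l))
    (hN : (A * (List.ofFn Z).prod * B).charpoly = ∏ i, (Polynomial.X - Polynomial.C (δ i)))
    (g1 : a.det ≠ 0)
    (g2 : trailDet (k + 1) (a.adjugate * b) ≠ 0)
    (g3 : ∀ l : Fin m, trailDet (k + 1)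
      (a.adjugate * (((List.ofFn Z).drop l).prod * B) * b) ≠ 0)
    (g4 : ∀ l, l ∉ Sr → (kry (Z l) (fun i => a i 0)).det ≠ 0)
    (g5 : (kry (A * (List.ofFn Z).prod * B) (fun i => a i 0)).det ≠ 0) :
    ∃ (g g' A' B' : Matrix (Fin (k + 1)) (Fin (k + 1)) ℂ)
      (Z' : Fin m → Matrix (Fin (k + 1)) (Fin (k + 1)) ℂ), g * g' = 1 ∧
      ChartM k m Sr α β δ γ lam mu A' B' Z' ∧ A = g * A' * g' ∧ B = g * B' * g' ∧
      ∀ l, Z l = g * Z' l * g' := by
  have hau : IsUnit a.det := isUnit_iff_ne_zero.mpr g1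
  have hainv : a⁻¹ = (a.det)⁻¹ • a.adjugate := by
    rw [Matrix.inv_def, Ring.inverse_eq_inv']
  have haa : a * a⁻¹ = 1 := Matrix.mul_nonsing_inv a hau
  have haa' : a⁻¹ * a = 1 := Matrix.nonsing_inv_mul a hau
  have hc0 : trailDet (k + 1) (a⁻¹ * b) ≠ 0 := by
    rw [hainv, Matrix.smul_mul]
    exact trailDet_smul_ne_zero _ _ (inv_ne_zero g1) _ g2
  obtain ⟨V, T, hV, hV1, hT, hVT⟩ := exists_ul (k + 1) _ hc0
  have hVdet : V.det = 1 := det_ut_unit hV hV1
  have hTdet : T.det ≠ 0 := by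
    have h := trailDet_ne_zero_det (k + 1) _ hc0
    rw [hVT, Matrix.det_mul, hVdet, one_mul] at h
    exact h
  have hTu : IsUnit T.det := isUnit_iff_ne_zero.mpr hTdet
  have hTT : T * T⁻¹ = 1 := Matrix.mul_nonsing_inv T hTu
  have hTT' : T⁻¹ * T = 1 := Matrix.nonsing_inv_mul T hTu
  have hTi : ∀ i j, i < j → T⁻¹ i j = 0 := lt_inv hT hTdet
  have hTid : ∀ i, T⁻¹ i i * T i i = 1 := by
    intro i
    rw [← lt_mul_diag hTi hT, hTT', Matrix.one_apply_eq]
  have hVa : ∀ i j, j < i → V.adjugate i j = 0 := ut_adjugate hV hVdet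
  have hVad : ∀ i, V.adjugate i i = 1 := by
    intro i
    have h := ut_adjugate_diag hV hVdet i
    rw [hV1, mul_one] at h
    exact h
  obtain ⟨g, hg⟩ : ∃ g, g = a * V := ⟨_, rfl⟩
  obtain ⟨g', hg'⟩ : ∃ g', g' = V.adjugate * a⁻¹ := ⟨_, rfl⟩
  have hgg : g * g' = 1 := by
    rw [hg, hg']
    calc a * V * (V.adjugate * a⁻¹) = a * (V * V.adjugate) * a⁻¹ := by
          simp only [Matrix.mul_assoc]
      _ = 1 := by rw [mul_adjugate_of_det hVdet, Matrix.mul_one, haa]
  have hgg' : g' * g = 1 := mul_eq_one_comm.mp hgg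
  have hbg : b = g * T := by
    rw [hg, Matrix.mul_assoc, ← hVT, ← Matrix.mul_assoc, haa, Matrix.one_mul]
  have hgb : g = b * T⁻¹ := by
    rw [hbg, Matrix.mul_assoc, hTT, Matrix.mul_one]
  have hA' : g' * A * g = V.adjugate * (Matrix.diagonal α + shU ℂ (k + 1)) * V := by
    have h1 := mul_jorU α A hA v
    rw [← ha] at h1
    rw [hg, hg']
    calc V.adjugate * a⁻¹ * A * (a * V) = V.adjugate * (a⁻¹ * (A * a)) * V := by
          simp only [Matrix.mul_assoc]
      _ = V.adjugate * (Matrix.diagonal α + shU ℂ (k + 1)) * V := by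
          rw [h1, ← Matrix.mul_assoc a⁻¹, haa', Matrix.one_mul]
  have hB' : g' * B * g = T * (Matrix.diagonal β + shL ℂ (k + 1)) * T⁻¹ := by
    have h1 := mul_jorL β B hB w
    rw [← hb] at h1
    calc g' * B * g = g' * (B * b) * T⁻¹ := by
          rw [hgb]
          simp only [Matrix.mul_assoc]
      _ = g' * g * T * (Matrix.diagonal β + shL ℂ (k + 1)) * T⁻¹ := by
          rw [h1, hbg]
          simp only [Matrix.mul_assoc]
      _ = T * (Matrix.diagonal β + shL ℂ (k + 1)) * T⁻¹ := by rw [hgg', Matrix.one_mul]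
  have hdα : ∀ i j, j < i → (Matrix.diagonal α + shU ℂ (k + 1)) i j = 0 := (bidU_shape α).1
  have hdβ : ∀ i j, i < j → (Matrix.diagonal β + shL ℂ (k + 1)) i j = 0 := (bidL_shape β).1
  have hprod : (List.ofFn fun l => g' * Z l * g).prod = g' * (List.ofFn Z).prod * g :=
    prod_ofFn_conj' g' g hgg' hgg m Z
  have hNconj : g' * A * g * (List.ofFn fun l => g' * Z l * g).prod * (g' * B * g) =
      g' * (A * (List.ofFn Z).prod * B) * g := by
    rw [hprod, conj_mul g' g _ _ hgg, conj_mul g' g _ _ hgg]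
  have he0 : g' *ᵥ (fun i => a i 0) = (Fin.cons 1 0 : Fin (k + 1) → ℂ) := by
    have h1 : (fun i => a i 0) = a *ᵥ (Fin.cons 1 0 : Fin (k + 1) → ℂ) := by
      rw [← single_eq_cons, Matrix.mulVec_single_one]
      rfl
    rw [h1, Matrix.mulVec_mulVec, hg', Matrix.mul_assoc, haa', Matrix.mul_one]
    exact adjugate_ut_mulVec_cons hV hV1
  refine ⟨g, g', g' * A * g, g' * B * g, fun l => g' * Z l * g, hgg,
    ⟨?_, ?_, ?_, ?_, ?_, ?_, ?_, ?_, ?_⟩, conj_back g g' A hgg, conj_back g g' B hgg,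
    fun l => conj_back g g' (Z l) hgg⟩
  · rw [hA']
    exact ut_mul (ut_mul hVa hdα) hV
  · intro i
    rw [hA', ut_mul_diag (ut_mul hVa hdα) hV, ut_mul_diag hVa hdα, hVad, hV1,
      (bidU_shape α).2, one_mul, mul_one]
  · rw [hB']
    exact lt_mul (lt_mul hT hdβ) hTi
  · intro i
    rw [hB', lt_mul_diag (lt_mul hT hdβ) hTi, lt_mul_diag hT hdβ, (bidL_shape β).2,
      mul_comm (T i i), mul_assoc, mul_comm (T i i), hTid, mul_one]
  · intro l
    exact (hZ l).conj g' g hgg'
  · rw [hNconj, charpoly_conj' g' g _ hgg]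
    exact hN
  · intro l
    have h1 : ((List.ofFn fun j => g' * Z j * g).drop (l : ℕ)).prod * (g' * B * g) =
        g' * (((List.ofFn Z).drop (l : ℕ)).prod * B) * g := by
      rw [drop_prod_conj g' g hgg' hgg m Z l, conj_mul g' g _ _ hgg]
    have h2 : g' * (((List.ofFn Z).drop (l : ℕ)).prod * B) * g =
        ((a.det)⁻¹ • V.adjugate) * (a.adjugate * (((List.ofFn Z).drop (l : ℕ)).prod * B) * b) *
          T⁻¹ := by
      rw [hg', hainv, hgb]
      simp only [Matrix.mul_smul, Matrix.smul_mul, Matrix.mul_assoc]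
    have h3 : trailDet (k + 1) (g' * (((List.ofFn Z).drop (l : ℕ)).prod * B) * g) ≠ 0 := by
      rw [h2]
      refine trailDet_conj_ne_zero (k + 1) _ _ _ ?_ ?_ hTi ?_ (g3 l)
      · intro i j hij
        rw [Matrix.smul_apply, hVa i j hij, smul_zero]
      · intro i
        rw [Matrix.smul_apply, hVad, smul_eq_mul, mul_one]
        exact inv_ne_zero g1
      · intro i
        exact left_ne_zero_of_mul_eq_one (hTid i)
    obtain ⟨Vl, Tl, q1, q2, q3, q4⟩ := exists_ul (k + 1) _ h3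
    exact ⟨Vl, Tl, q1, q2, q3, h1.trans q4⟩
  · intro l hl
    have h := (cyc_of_isUnit_det_kry (isUnit_iff_ne_zero.mpr (g4 l hl))).conj g g' hgg
    rw [he0] at h
    exact h
  · have h := (cyc_of_isUnit_det_kry (isUnit_iff_ne_zero.mpr g5)).conj g g' hgg
    rw [he0] at h
    rw [hNconj]
    exact h

end Vale.Agent.Lib.P002
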