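import Vale.Agent.Lib.P002.MxExist
import Vale.Agent.Lib.P002.SrIrred

/-!
The density theorem for mixed tuples (A, Z_0, ..., Z_m, B): the matrices A, B, the product
A Z_0 ... Z_m B and the matrices Z_l for l outside a finite set S of slots not containing 0
have prescribed characteristic polynomials; for l in S the matrix Z_l is a prescribed scalar
times a rank one perturbation of the identity of prescribed determinant.  One polynomial F
serves every subfield of the complex numbers which contains a square root of two and the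
eigenvalue data.
-/

namespace Vale.Agent.Lib.P002

open Matrix

/-- The density theorem over every field, given a mixed chart tuple with invertible chain
frames whose members in the slots of S are not scalar matrices. -/
theorem mixed_core_field (n m : ℕ) (S : Finset (Fin (m + 1)))
    (α β δ : Fin (n + 2) → ℂ) (γ : Fin (m + 1) → Fin (n + 2) → ℂ) (lam mu : Fin (m + 1) → ℂ)
    (hα : ∀ i, IsIntegral ℤ (α i)) (hβ : ∀ i, IsIntegral ℤ (β i)) (hδ : ∀ i, IsIntegral ℤ (δ i))
    (hγ : ∀ l i, IsIntegral ℤ (γ l i)) (hlam : ∀ l, IsIntegral ℤ (lam l))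
    (hmu : ∀ l, IsIntegral ℤ (mu l))
    (hα1 : ∏ i, α i = 1) (hβ1 : ∏ i, β i = 1) (hδ1 : ∏ i, δ i = 1)
    (hγ1 : ∀ l, ∏ i, γ l i = 1) (hml : ∀ l, mu l ^ (n + 2) * lam l = 1)
    (hex : ∃ (A B : Matrix (Fin (n + 2)) (Fin (n + 2)) ℂ)
      (Z : Fin (m + 1) → Matrix (Fin (n + 2)) (Fin (n + 2)) ℂ) (v w : Fin (n + 2) → ℂ),
      ChartM (n + 1) (m + 1) S α β δ γ lam mu A B Z ∧ (jorU α A v).det ≠ 0 ∧
      (jorL β B w).det ≠ 0 ∧ ∀ l ∈ S, Z l ≠ mu l • 1) :
    ∃ F : MvPolynomial ((Fin 2 ⊕ Fin (m + 1)) × Fin (n + 2) × Fin (n + 2)) ℂ,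
      (∃ (A B : Matrix (Fin (n + 2)) (Fin (n + 2)) ℂ)
        (Z : Fin (m + 1) → Matrix (Fin (n + 2)) (Fin (n + 2)) ℂ),
        A.charpoly = ∏ i, (Polynomial.X - Polynomial.C (α i)) ∧
        B.charpoly = ∏ i, (Polynomial.X - Polynomial.C (β i)) ∧
        (∀ l, CndM (n + 1) (m + 1) S γ lam mu l (Z l)) ∧
        (A * (List.ofFn Z).prod * B).charpoly = ∏ i, (Polynomial.X - Polynomial.C (δ i)) ∧
        MvPolynomial.eval (fun x => Sum.elim ![A, B] Z x.1 x.2.1 x.2.2) F ≠ 0) ∧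
      ∀ (A B : Matrix (Fin (n + 2)) (Fin (n + 2)) ℂ)
        (Z : Fin (m + 1) → Matrix (Fin (n + 2)) (Fin (n + 2)) ℂ),
        A.charpoly = ∏ i, (Polynomial.X - Polynomial.C (α i)) →
        B.charpoly = ∏ i, (Polynomial.X - Polynomial.C (β i)) →
        (∀ l, CndM (n + 1) (m + 1) S γ lam mu l (Z l)) →
        (A * (List.ofFn Z).prod * B).charpoly = ∏ i, (Polynomial.X - Polynomial.C (δ i)) →
        MvPolynomial.eval (fun x => Sum.elim ![A, B] Z x.1 x.2.1 x.2.2) F ≠ 0 →
        ((∃ v : Fin (n + 2) → ℂ, ∀ u : Fin (n + 2) → ℂ, ∃ p : Polynomial ℂ,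
            Matrix.mulVec (Polynomial.aeval A p) v = u) ∧
          (∃ v : Fin (n + 2) → ℂ, ∀ u : Fin (n + 2) → ℂ, ∃ p : Polynomial ℂ,
            Matrix.mulVec (Polynomial.aeval B p) v = u) ∧
          (∀ l, l ∉ S → ∃ v : Fin (n + 2) → ℂ, ∀ u : Fin (n + 2) → ℂ, ∃ p : Polynomial ℂ,
            Matrix.mulVec (Polynomial.aeval (Z l) p) v = u) ∧
          (∀ l, l ∈ S → Z l ≠ mu l • 1) ∧
          ∃ v : Fin (n + 2) → ℂ, ∀ u : Fin (n + 2) → ℂ, ∃ p : Polynomial ℂ,
            Matrix.mulVec (Polynomial.aeval (A * (List.ofFn Z).prod * B) p) v = u) ∧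
        ((∀ i, α i = α 0) →
          ∀ W : Submodule ℂ (Fin (n + 2) → ℂ), (∀ x ∈ W, Matrix.mulVec A x ∈ W) →
            (∀ x ∈ W, Matrix.mulVec B x ∈ W) → (∀ l, ∀ x ∈ W, Matrix.mulVec (Z l) x ∈ W) →
            W = ⊥ ∨ W = ⊤) ∧
        ∀ L : IntermediateField ℚ ℂ, (∃ s ∈ L, s ^ 2 = 2) → (∀ i, α i ∈ L) → (∀ i, β i ∈ L) →
          (∀ i, δ i ∈ L) → (∀ l i, γ l i ∈ L) → (∀ l, lam l ∈ L) → (∀ l, mu l ∈ L) →
          ∀ P : MvPolynomial ((Fin 2 ⊕ Fin (m + 1)) × Fin (n + 2) × Fin (n + 2)) ℂ,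
            (∀ (A' B' : Matrix (Fin (n + 2)) (Fin (n + 2)) ℂ)
              (Z' : Fin (m + 1) → Matrix (Fin (n + 2)) (Fin (n + 2)) ℂ),
              (∀ i j, A' i j ∈ L ∧ IsIntegral ℤ (A' i j)) →
              (∀ i j, B' i j ∈ L ∧ IsIntegral ℤ (B' i j)) →
              (∀ l i j, Z' l i j ∈ L ∧ IsIntegral ℤ (Z' l i j)) →
              A'.charpoly = ∏ i, (Polynomial.X - Polynomial.C (α i)) →
              B'.charpoly = ∏ i, (Polynomial.X - Polynomial.C (β i)) →
              (∀ l, CndM (n + 1) (m + 1) S γ lam mu l (Z' l)) →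
              (A' * (List.ofFn Z').prod * B').charpoly =
                ∏ i, (Polynomial.X - Polynomial.C (δ i)) →
              MvPolynomial.eval (fun x => Sum.elim ![A', B'] Z' x.1 x.2.1 x.2.2) F ≠ 0 →
              MvPolynomial.eval (fun x => Sum.elim ![A', B'] Z' x.1 x.2.1 x.2.2) P = 0) →
            MvPolynomial.eval (fun x => Sum.elim ![A, B] Z x.1 x.2.1 x.2.2) P = 0 := by
  obtain ⟨A0, B0, Z0, v, w, hch, hdA, hdB, hns⟩ := hex
  have hQ : ∀ l : Fin (m + 1),
      ∃ Q : MvPolynomial ((Fin 2 ⊕ Fin (m + 1)) × Fin (n + 2) × Fin (n + 2)) ℂ,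
        MvPolynomial.eval (fun x => Sum.elim ![A0, B0] Z0 x.1 x.2.1 x.2.2) Q ≠ 0 ∧
        ∀ (A B : Matrix (Fin (n + 2)) (Fin (n + 2)) ℂ)
          (Z : Fin (m + 1) → Matrix (Fin (n + 2)) (Fin (n + 2)) ℂ),
          MvPolynomial.eval (fun x => Sum.elim ![A, B] Z x.1 x.2.1 x.2.2) Q ≠ 0 → l ∈ S →
          Z l ≠ mu l • 1 := by
    intro l
    by_cases hl : l ∈ S
    · have hne := hns l hl
      obtain ⟨i, j, hij⟩ : ∃ i j, Z0 l i j ≠
          (mu l • (1 : Matrix (Fin (n + 2)) (Fin (n + 2)) ℂ)) i j := by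
        by_contra hcon
        push_neg at hcon
        exact hne (Matrix.ext hcon)
      refine ⟨MvPolynomial.X (Sum.inr l, i, j) -
        MvPolynomial.C ((mu l • (1 : Matrix (Fin (n + 2)) (Fin (n + 2)) ℂ)) i j), ?_, ?_⟩
      · simp only [map_sub, MvPolynomial.eval_X, MvPolynomial.eval_C, Sum.elim_inr]
        exact sub_ne_zero.mpr hij
      · intro A B Z hQ _ hZ
        apply hQ
        simp only [map_sub, MvPolynomial.eval_X, MvPolynomial.eval_C, Sum.elim_inr]
        rw [hZ, sub_self]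
    · exact ⟨1, by simp, fun A B Z _ h => absurd h hl⟩
  choose Q hQ0 hQns using hQ
  refine ⟨polyM (n + 1) (m + 1) S α β v w * ∏ l, Q l, ?_, ?_⟩
  · have hch' := hch
    obtain ⟨c1, c2, c3, c4, c5, c6, -, -, -⟩ := hch'
    have hau : ∀ i j, j < i → jorU α A0 v i j = 0 := fun i j hij => jorU_ut α c1 c2 v j i hij
    have hbl : ∀ i j, i < j → jorL β B0 w i j = 0 := fun i j hij => jorL_lt β c3 c4 w j i hij
    have had : ∀ i, jorU α A0 v i i ≠ 0 := by
      rw [det_ut hau] at hdA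
      exact fun i => Finset.prod_ne_zero_iff.mp hdA i (Finset.mem_univ i)
    have hbd : ∀ i, jorL β B0 w i i ≠ 0 := by
      rw [det_lt hbl] at hdB
      exact fun i => Finset.prod_ne_zero_iff.mp hdB i (Finset.mem_univ i)
    have hne := genM_chart_ne_zero (n + 1) (m + 1) S α β δ γ lam mu hβ1 hγ1 hml A0 B0 Z0 hch
      _ _ hau had hbl hbd
    refine ⟨A0, B0, Z0, ?_, ?_, c5, c6, ?_⟩
    · rw [charpoly_ut c1]
      simp only [c2]
    · rw [charpoly_lt c3]
      simp only [c4]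
    · rw [map_mul, eval_polyM, map_prod]
      exact mul_ne_zero hne (Finset.prod_ne_zero_iff.mpr fun l _ => hQ0 l)
  · intro A B Z hA hB hZ hN hF
    have hF0 := hF
    rw [map_mul, map_prod] at hF
    have hF1 := left_ne_zero_of_mul hF
    have hF2 := right_ne_zero_of_mul hF
    rw [eval_polyM] at hF1
    unfold genMJ genM at hF1
    have g5 := right_ne_zero_of_mul hF1
    have hF4 := left_ne_zero_of_mul hF1
    have g4 := right_ne_zero_of_mul hF4
    have hF3 := left_ne_zero_of_mul hF4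
    have g3 := right_ne_zero_of_mul hF3
    have hF2' := left_ne_zero_of_mul hF3
    have g2 := right_ne_zero_of_mul hF2'
    have g1 := left_ne_zero_of_mul hF2'
    have g4' : ∀ l, l ∉ S → (kry (Z l) (fun i => jorU α A v i 0)).det ≠ 0 := by
      intro l hl
      have h := Finset.prod_ne_zero_iff.mp g4 l (Finset.mem_univ l)
      rw [if_neg hl] at h
      exact h
    have hb : (jorL β B w).det ≠ 0 := by
      have h := trailDet_ne_zero_det (n + 1 + 1) _ g2
      rw [Matrix.det_mul] at h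
      exact right_ne_zero_of_mul h
    refine ⟨⟨⟨v, cyc_of_det_jorU α A v g1⟩, ⟨w, cyc_of_det_jorL β B w hb⟩,
      fun l hl => ⟨_, cyc_of_isUnit_det_kry (isUnit_iff_ne_zero.mpr (g4' l hl))⟩,
      fun l hl => hQns l A B Z (Finset.prod_ne_zero_iff.mp hF2 l (Finset.mem_univ l)) hl,
      ⟨_, cyc_of_isUnit_det_kry (isUnit_iff_ne_zero.mpr g5)⟩⟩, ?_, ?_⟩
    · intro hαc W hWA hWB hWZ
      by_cases hW : W = ⊥
      · exact Or.inl hW
      · refine Or.inr ?_
        have hx0 := frame_zero_mem α hαc A hA v g1 W hWA hW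
        have hWM : ∀ x ∈ W, (A * (List.ofFn Z).prod * B) *ᵥ x ∈ W := by
          intro x hx
          rw [← Matrix.mulVec_mulVec, ← Matrix.mulVec_mulVec]
          refine hWA _ (invariant_list_prod W _ (fun M' hM' => ?_) _ (hWB x hx))
          obtain ⟨l, rfl⟩ := (List.mem_ofFn' Z M').mp hM'
          exact hWZ l
        have hcyc : Cyc (A * (List.ofFn Z).prod * B) (fun i => jorU α A v i 0) :=
          cyc_of_isUnit_det_kry (isUnit_iff_ne_zero.mpr g5)
        rw [Submodule.eq_top_iff']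
        intro u
        obtain ⟨p, hp⟩ := hcyc u
        rw [← hp]
        exact invariant_aeval W _ hWM p _ hx0
    intro L hs hαL hβL hδL hγL hlamL hmuL P hP
    obtain ⟨s, hsL, hs2⟩ := hs
    have hsq : sqrtTwo ∈ L := by
      have h0 : (s - sqrtTwo) * (s + sqrtTwo) = 0 := by
        linear_combination hs2 - sqrtTwo_mul_self
      rcases mul_eq_zero.mp h0 with h | h
      · have e : s = sqrtTwo := sub_eq_zero.mp h
        rw [← e]
        exact hsL
      · have e : sqrtTwo = -s := by linear_combination h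
        rw [e]
        exact L.neg_mem hsL
    have hPF : ∀ (A B : Matrix (Fin (n + 2)) (Fin (n + 2)) ℂ)
        (Z : Fin (m + 1) → Matrix (Fin (n + 2)) (Fin (n + 2)) ℂ),
        (∀ i j, A i j ∈ L ∧ IsIntegral ℤ (A i j)) →
        (∀ i j, B i j ∈ L ∧ IsIntegral ℤ (B i j)) →
        (∀ l i j, Z l i j ∈ L ∧ IsIntegral ℤ (Z l i j)) →
        A.charpoly = ∏ i, (Polynomial.X - Polynomial.C (α i)) →
        B.charpoly = ∏ i, (Polynomial.X - Polynomial.C (β i)) →
        (∀ l, CndM (n + 1) (m + 1) S γ lam mu l (Z l)) →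
        (A * (List.ofFn Z).prod * B).charpoly = ∏ i, (Polynomial.X - Polynomial.C (δ i)) →
        MvPolynomial.eval (fun x => Sum.elim ![A, B] Z x.1 x.2.1 x.2.2)
          (P * (polyM (n + 1) (m + 1) S α β v w * ∏ l, Q l)) = 0 := by
      intro A' B' Z' hA' hB' hZ' c1 c2 c3 c4
      rw [map_mul]
      by_cases hF' : MvPolynomial.eval (fun x => Sum.elim ![A', B'] Z' x.1 x.2.1 x.2.2)
          (polyM (n + 1) (m + 1) S α β v w * ∏ l, Q l) = 0
      · rw [hF', mul_zero]
      · rw [hP A' B' Z' hA' hB' hZ' c1 c2 c3 c4 hF', zero_mul]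
    obtain ⟨g, g', A', B', Z', hgg, hch', eA, eB, eZ⟩ :=
      chart_of_mixed (n + 1) (m + 1) S α β δ γ lam mu A B Z v w (jorU α A v) (jorL β B w)
        rfl rfl hA hB hZ hN g1 g2
        (fun l => Finset.prod_ne_zero_iff.mp g3 l (Finset.mem_univ l)) g4' g5
    have key := mixed_dense_field L hsq (n + 1) (m + 1) S α β δ γ lam mu hα hβ hδ hγ hlam hmu
      hαL hβL hδL hγL hlamL hmuL hα1 hβ1 hδ1 hγ1 hml
      (P * (polyM (n + 1) (m + 1) S α β v w * ∏ l, Q l)) hPF g g' A' B' Z' hgg hch'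
    have eZ' : (fun l => g * Z' l * g') = Z := by
      funext l
      exact (eZ l).symm
    rw [← eA, ← eB, eZ', map_mul] at key
    exact (mul_eq_zero.mp key).resolve_right hF0

/-- Let n, m be natural numbers and S a set of slots l ≤ m not containing 0.  Let α, β, δ and
γ_l (l outside S) be families of n + 2 algebraic integers of product one and lam_l, mu_l
(l in S) algebraic integers with mu_l ^ (n + 2) lam_l = 1.  Let V be the set of tuples
(A, B, Z_0, ..., Z_m) of complex matrices of size n + 2 such that A, B and A Z_0 ... Z_m B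
have characteristic polynomials with roots α, β and δ, the matrix Z_l has characteristic
polynomial with roots γ_l for l outside S, and Z_l is mu_l (1 + u v^T) with v^T u = lam_l - 1
for l in S.  There is a polynomial F which does not vanish identically on V such that at
every point of V at which F does not vanish: A, B, the product and the Z_l for l outside S
have cyclic vectors, no Z_l with l in S is the scalar mu_l, if all α_i are equal the matrices
A, B, Z_l have no common invariant subspace besides zero and the whole space, and for every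
subfield L of the complex numbers containing a square root of two and the data, every
polynomial which vanishes at the points of V with entries in the ring of integers of L at
which F does not vanish, vanishes at the point.  Such a field L of finite degree exists. -/
theorem mixed_regular_field (n m : ℕ) (S : Finset (Fin (m + 1))) (h0 : (0 : Fin (m + 1)) ∉ S)
    (α β δ : Fin (n + 2) → ℂ) (γ : Fin (m + 1) → Fin (n + 2) → ℂ) (lam mu : Fin (m + 1) → ℂ)
    (hα : ∀ i, IsIntegral ℤ (α i)) (hβ : ∀ i, IsIntegral ℤ (β i)) (hδ : ∀ i, IsIntegral ℤ (δ i))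
    (hγ : ∀ l, l ∉ S → ∀ i, IsIntegral ℤ (γ l i))
    (hlam : ∀ l, l ∈ S → IsIntegral ℤ (lam l)) (hmu : ∀ l, l ∈ S → IsIntegral ℤ (mu l))
    (hα1 : ∏ i, α i = 1) (hβ1 : ∏ i, β i = 1) (hδ1 : ∏ i, δ i = 1)
    (hγ1 : ∀ l, l ∉ S → ∏ i, γ l i = 1) (hml : ∀ l, l ∈ S → mu l ^ (n + 2) * lam l = 1) :
    (∃ F : MvPolynomial ((Fin 2 ⊕ Fin (m + 1)) × Fin (n + 2) × Fin (n + 2)) ℂ,
      (∃ (A B : Matrix (Fin (n + 2)) (Fin (n + 2)) ℂ)
        (Z : Fin (m + 1) → Matrix (Fin (n + 2)) (Fin (n + 2)) ℂ),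
        A.charpoly = ∏ i, (Polynomial.X - Polynomial.C (α i)) ∧
        B.charpoly = ∏ i, (Polynomial.X - Polynomial.C (β i)) ∧
        (∀ l, (l ∉ S → (Z l).charpoly = ∏ i, (Polynomial.X - Polynomial.C (γ l i))) ∧
          (l ∈ S → ∃ u v : Fin (n + 2) → ℂ, dotProduct v u = lam l - 1 ∧
            Z l = mu l • (1 + Matrix.vecMulVec u v))) ∧
        (A * (List.ofFn Z).prod * B).charpoly = ∏ i, (Polynomial.X - Polynomial.C (δ i)) ∧
        MvPolynomial.eval (fun x => Sum.elim ![A, B] Z x.1 x.2.1 x.2.2) F ≠ 0) ∧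
      ∀ (A B : Matrix (Fin (n + 2)) (Fin (n + 2)) ℂ)
        (Z : Fin (m + 1) → Matrix (Fin (n + 2)) (Fin (n + 2)) ℂ),
        A.charpoly = ∏ i, (Polynomial.X - Polynomial.C (α i)) →
        B.charpoly = ∏ i, (Polynomial.X - Polynomial.C (β i)) →
        (∀ l, (l ∉ S → (Z l).charpoly = ∏ i, (Polynomial.X - Polynomial.C (γ l i))) ∧
          (l ∈ S → ∃ u v : Fin (n + 2) → ℂ, dotProduct v u = lam l - 1 ∧
            Z l = mu l • (1 + Matrix.vecMulVec u v))) →
        (A * (List.ofFn Z).prod * B).charpoly = ∏ i, (Polynomial.X - Polynomial.C (δ i)) →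
        MvPolynomial.eval (fun x => Sum.elim ![A, B] Z x.1 x.2.1 x.2.2) F ≠ 0 →
        ((∃ v : Fin (n + 2) → ℂ, ∀ u : Fin (n + 2) → ℂ, ∃ p : Polynomial ℂ,
            Matrix.mulVec (Polynomial.aeval A p) v = u) ∧
          (∃ v : Fin (n + 2) → ℂ, ∀ u : Fin (n + 2) → ℂ, ∃ p : Polynomial ℂ,
            Matrix.mulVec (Polynomial.aeval B p) v = u) ∧
          (∀ l, l ∉ S → ∃ v : Fin (n + 2) → ℂ, ∀ u : Fin (n + 2) → ℂ, ∃ p : Polynomial ℂ,
            Matrix.mulVec (Polynomial.aeval (Z l) p) v = u) ∧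
          (∀ l, l ∈ S → Z l ≠ mu l • 1) ∧
          ∃ v : Fin (n + 2) → ℂ, ∀ u : Fin (n + 2) → ℂ, ∃ p : Polynomial ℂ,
            Matrix.mulVec (Polynomial.aeval (A * (List.ofFn Z).prod * B) p) v = u) ∧
        ((∀ i, α i = α 0) →
          ∀ W : Submodule ℂ (Fin (n + 2) → ℂ), (∀ x ∈ W, Matrix.mulVec A x ∈ W) →
            (∀ x ∈ W, Matrix.mulVec B x ∈ W) → (∀ l, ∀ x ∈ W, Matrix.mulVec (Z l) x ∈ W) →
            W = ⊥ ∨ W = ⊤) ∧
        ∀ L : IntermediateField ℚ ℂ, (∃ s ∈ L, s ^ 2 = 2) → (∀ i, α i ∈ L) → (∀ i, β i ∈ L) →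
          (∀ i, δ i ∈ L) → (∀ l, l ∉ S → ∀ i, γ l i ∈ L) →
          (∀ l, l ∈ S → lam l ∈ L ∧ mu l ∈ L) →
          ∀ P : MvPolynomial ((Fin 2 ⊕ Fin (m + 1)) × Fin (n + 2) × Fin (n + 2)) ℂ,
            (∀ (A' B' : Matrix (Fin (n + 2)) (Fin (n + 2)) ℂ)
              (Z' : Fin (m + 1) → Matrix (Fin (n + 2)) (Fin (n + 2)) ℂ),
              (∀ i j, A' i j ∈ L ∧ IsIntegral ℤ (A' i j)) →
              (∀ i j, B' i j ∈ L ∧ IsIntegral ℤ (B' i j)) →
              (∀ l i j, Z' l i j ∈ L ∧ IsIntegral ℤ (Z' l i j)) →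
              A'.charpoly = ∏ i, (Polynomial.X - Polynomial.C (α i)) →
              B'.charpoly = ∏ i, (Polynomial.X - Polynomial.C (β i)) →
              (∀ l, (l ∉ S → (Z' l).charpoly = ∏ i, (Polynomial.X - Polynomial.C (γ l i))) ∧
                (l ∈ S → ∃ u v : Fin (n + 2) → ℂ, dotProduct v u = lam l - 1 ∧
                  Z' l = mu l • (1 + Matrix.vecMulVec u v))) →
              (A' * (List.ofFn Z').prod * B').charpoly =
                ∏ i, (Polynomial.X - Polynomial.C (δ i)) →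
              MvPolynomial.eval (fun x => Sum.elim ![A', B'] Z' x.1 x.2.1 x.2.2) F ≠ 0 →
              MvPolynomial.eval (fun x => Sum.elim ![A', B'] Z' x.1 x.2.1 x.2.2) P = 0) →
            MvPolynomial.eval (fun x => Sum.elim ![A, B] Z x.1 x.2.1 x.2.2) P = 0) ∧
    ∃ L : IntermediateField ℚ ℂ, FiniteDimensional ℚ L ∧ (∃ s ∈ L, s ^ 2 = 2) ∧
      (∀ i, α i ∈ L) ∧ (∀ i, β i ∈ L) ∧ (∀ i, δ i ∈ L) ∧ (∀ l, l ∉ S → ∀ i, γ l i ∈ L) ∧
      ∀ l, l ∈ S → lam l ∈ L ∧ mu l ∈ L := by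
  obtain ⟨γ', hγ'⟩ : ∃ γ' : Fin (m + 1) → Fin (n + 2) → ℂ,
      γ' = fun l i => if l ∈ S then 1 else γ l i := ⟨_, rfl⟩
  obtain ⟨lam', hlam'⟩ : ∃ lam' : Fin (m + 1) → ℂ,
      lam' = fun l => if l ∈ S then lam l else 1 := ⟨_, rfl⟩
  obtain ⟨mu', hmu'⟩ : ∃ mu' : Fin (m + 1) → ℂ,
      mu' = fun l => if l ∈ S then mu l else 1 := ⟨_, rfl⟩
  have hγe : ∀ l, l ∉ S → γ' l = γ l := by
    intro l hl
    rw [hγ']
    funext i
    exact if_neg hl
  have hγs : ∀ l, l ∈ S → γ' l = fun _ => 1 := by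
    intro l hl
    rw [hγ']
    funext i
    exact if_pos hl
  have hle : ∀ l, l ∈ S → lam' l = lam l := by
    intro l hl
    rw [hlam']
    exact if_pos hl
  have hls : ∀ l, l ∉ S → lam' l = 1 := by
    intro l hl
    rw [hlam']
    exact if_neg hl
  have hme : ∀ l, l ∈ S → mu' l = mu l := by
    intro l hl
    rw [hmu']
    exact if_pos hl
  have hms : ∀ l, l ∉ S → mu' l = 1 := by
    intro l hl
    rw [hmu']
    exact if_neg hl
  have hγi : ∀ l i, IsIntegral ℤ (γ' l i) := by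
    intro l i
    by_cases hl : l ∈ S
    · rw [hγs l hl]
      exact isIntegral_one
    · rw [hγe l hl]
      exact hγ l hl i
  have hlami : ∀ l, IsIntegral ℤ (lam' l) := by
    intro l
    by_cases hl : l ∈ S
    · rw [hle l hl]
      exact hlam l hl
    · rw [hls l hl]
      exact isIntegral_one
  have hmui : ∀ l, IsIntegral ℤ (mu' l) := by
    intro l
    by_cases hl : l ∈ S
    · rw [hme l hl]
      exact hmu l hl
    · rw [hms l hl]
      exact isIntegral_one
  have hγ1' : ∀ l, ∏ i, γ' l i = 1 := by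
    intro l
    by_cases hl : l ∈ S
    · rw [hγs l hl]
      simp
    · rw [hγe l hl]
      exact hγ1 l hl
  have hml' : ∀ l, mu' l ^ (n + 2) * lam' l = 1 := by
    intro l
    by_cases hl : l ∈ S
    · rw [hme l hl, hle l hl]
      exact hml l hl
    · rw [hms l hl, hls l hl]
      simp
  have hc : ∀ (l : Fin (m + 1)) (M : Matrix (Fin (n + 2)) (Fin (n + 2)) ℂ),
      CndM (n + 1) (m + 1) S γ' lam' mu' l M ↔ CndM (n + 1) (m + 1) S γ lam mu l M := by
    intro l M
    unfold CndM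
    constructor
    · rintro ⟨h1, h2⟩
      refine ⟨fun hl => ?_, fun hl => ?_⟩
      · rw [← hγe l hl]
        exact h1 hl
      · rw [← hle l hl, ← hme l hl]
        exact h2 hl
    · rintro ⟨h1, h2⟩
      refine ⟨fun hl => ?_, fun hl => ?_⟩
      · rw [hγe l hl]
        exact h1 hl
      · rw [hle l hl, hme l hl]
        exact h2 hl
  constructor
  · obtain ⟨π, hπ⟩ := exists_perm_first α
    have hp : ∏ i, (Polynomial.X - Polynomial.C (α (π i))) =
        ∏ i, (Polynomial.X - Polynomial.C (α i)) :=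
      Equiv.prod_comp π (fun i => Polynomial.X - Polynomial.C (α i))
    have hα1' : ∏ i, α (π i) = 1 := by
      rw [Equiv.prod_comp π α]
      exact hα1
    obtain ⟨F, ⟨A0, B0, Z0, a1, a2, a3, a4, a5⟩, h2⟩ :=
      mixed_core_field n m S (fun i => α (π i)) β δ γ' lam' mu' (fun i => hα (π i)) hβ hδ
        hγi hlami hmui hα1' hβ1 hδ1 hγ1' hml'
        (exists_mixed_chart n m S h0 (fun i => α (π i)) β δ γ' lam' mu' hα1' hβ1 hδ1 hγ1' hml'
          hπ)
    refine ⟨F, ⟨A0, B0, Z0, a1.trans hp, a2, fun l => (hc l _).mp (a3 l), a4, a5⟩, ?_⟩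
    intro A B Z hA hB hZ hN hF
    obtain ⟨⟨b1, b2, b3, b4, b5⟩, b7, b6⟩ :=
      h2 A B Z (hA.trans hp.symm) hB (fun l => (hc l _).mpr (hZ l)) hN hF
    refine ⟨⟨b1, b2, b3, fun l hl => ?_, b5⟩,
      fun hαc => b7 fun i => (hαc (π i)).trans (hαc (π 0)).symm, ?_⟩
    · rw [← hme l hl]
      exact b4 l hl
    · intro L hs hαL hβL hδL hγL hlmL P hP
      refine b6 L hs (fun i => hαL (π i)) hβL hδL (fun l i => ?_) (fun l => ?_) (fun l => ?_) P
        (fun A' B' Z' i1 i2 i3 c1 c2 c3 c4 c5 =>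
          hP A' B' Z' i1 i2 i3 (c1.trans hp) c2 (fun l => (hc l _).mp (c3 l)) c4 c5)
      · by_cases hl : l ∈ S
        · rw [hγs l hl]
          exact L.one_mem
        · rw [hγe l hl]
          exact hγL l hl i
      · by_cases hl : l ∈ S
        · rw [hle l hl]
          exact (hlmL l hl).1
        · rw [hls l hl]
          exact L.one_mem
      · by_cases hl : l ∈ S
        · rw [hme l hl]
          exact (hlmL l hl).2
        · rw [hms l hl]
          exact L.one_mem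
  · obtain ⟨L, hL⟩ : ∃ L : IntermediateField ℚ ℂ, L = IntermediateField.adjoin ℚ
        ({sqrtTwo} ∪ Set.range α ∪ Set.range β ∪ Set.range δ ∪
          Set.range (fun x : Fin (m + 1) × Fin (n + 2) => γ' x.1 x.2) ∪ Set.range lam' ∪
          Set.range mu') := ⟨_, rfl⟩
    have hsub : ∀ x ∈ ({sqrtTwo} ∪ Set.range α ∪ Set.range β ∪ Set.range δ ∪
          Set.range (fun x : Fin (m + 1) × Fin (n + 2) => γ' x.1 x.2) ∪ Set.range lam' ∪
          Set.range mu' : Set ℂ), x ∈ L := by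
      intro x hx
      rw [hL]
      exact IntermediateField.subset_adjoin ℚ _ hx
    refine ⟨L, ?_, ⟨sqrtTwo, hsub _ (by simp), by rw [pow_two, sqrtTwo_mul_self]⟩,
      fun i => hsub _ (by simp), fun i => hsub _ (by simp), fun i => hsub _ (by simp),
      fun l hl i => ?_, fun l hl => ⟨?_, ?_⟩⟩
    · rw [hL]
      refine IntermediateField.finiteDimensional_adjoin ?_
      rintro x ((((((hx | ⟨i, rfl⟩) | ⟨i, rfl⟩) | ⟨i, rfl⟩) | ⟨i, rfl⟩) | ⟨i, rfl⟩) | ⟨i, rfl⟩)
      · rw [Set.mem_singleton_iff.mp hx]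
        exact isIntegral_sqrtTwo.tower_top
      · exact (hα i).tower_top
      · exact (hβ i).tower_top
      · exact (hδ i).tower_top
      · exact (hγi i.1 i.2).tower_top
      · exact (hlami i).tower_top
      · exact (hmui i).tower_top
    · rw [← hγe l hl]
      exact hsub _ (Or.inl (Or.inl (Or.inr ⟨(l, i), rfl⟩)))
    · rw [← hle l hl]
      exact hsub _ (Or.inl (Or.inr ⟨l, rfl⟩))
    · rw [← hme l hl]
      exact hsub _ (Or.inr ⟨l, rfl⟩)

end Vale.Agent.Lib.P002
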