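import Vale.Agent.Lib.P002.SrField

/-!
Scalar multiples of rank one perturbations of the identity (scaled pseudo-reflections and
transvections): determinant, conjugation, the factorization into an upper triangular matrix
with unit diagonal and a lower triangular matrix, and the lifting of such a factorization to
the ring of Laurent polynomial functions.
-/

namespace Vale.Agent.Lib.P002

open Matrix

section ReflAlg

variable {S : Type*} [CommRing S] {n : ℕ}

/-- The determinant of a scalar times a rank one perturbation of the identity. -/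
theorem det_smul_one_add_vecMulVec (c : S) (u v : Fin n → S) :
    (c • (1 + Matrix.vecMulVec u v)).det = c ^ n * (1 + v ⬝ᵥ u) := by
  rw [Matrix.det_smul, Fintype.card_fin]
  congr 1
  have h : Matrix.vecMulVec u v = Matrix.replicateCol Unit u * Matrix.replicateRow Unit v := by
    ext i j
    simp [Matrix.vecMulVec_apply, Matrix.mul_apply]
  rw [h, Matrix.det_one_add_replicateCol_mul_replicateRow]

/-- Conjugation of a scalar times a rank one perturbation of the identity. -/
theorem refl_conj (G G' : Matrix (Fin n) (Fin n) S) (h : G * G' = 1) (c : S) (u v : Fin n → S) :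
    G * (c • (1 + Matrix.vecMulVec u v)) * G' =
      c • (1 + Matrix.vecMulVec (G *ᵥ u) (v ᵥ* G')) := by
  rw [Matrix.mul_smul, Matrix.smul_mul, Matrix.mul_add, Matrix.add_mul, Matrix.mul_one, h,
    Matrix.mul_vecMulVec, Matrix.vecMulVec_mul]

theorem refl_conj_dot (G G' : Matrix (Fin n) (Fin n) S) (h : G' * G = 1) (u v : Fin n → S) :
    (v ᵥ* G') ⬝ᵥ (G *ᵥ u) = v ⬝ᵥ u := by
  rw [Matrix.dotProduct_mulVec, Matrix.vecMul_vecMul, h, Matrix.vecMul_one]

/-- The upper triangular matrix with unit diagonal attached to two vectors. -/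
def rxX (x v : Fin n → S) : Matrix (Fin n) (Fin n) S :=
  Matrix.of fun i j => if i < j then -(x i * v j) else if i = j then 1 else 0

/-- The lower triangular matrix attached to a scalar and two vectors. -/
def rxD (c : S) (x v : Fin n → S) : Matrix (Fin n) (Fin n) S :=
  Matrix.of fun i j => if j < i then c * (x i * v j) else if i = j then c * (1 + x i * v i)
    else 0

theorem rxX_ut (x v : Fin n → S) : ∀ i j, j < i → rxX x v i j = 0 := by
  intro i j hji
  simp [rxX, not_lt.mpr hji.le, hji.ne']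

theorem rxX_diag (x v : Fin n → S) (i : Fin n) : rxX x v i i = 1 := by simp [rxX]

theorem rxD_lt (c : S) (x v : Fin n → S) : ∀ i j, i < j → rxD c x v i j = 0 := by
  intro i j hij
  simp [rxD, not_lt.mpr hij.le, hij.ne]

theorem rxD_diag (c : S) (x v : Fin n → S) (i : Fin n) :
    rxD c x v i i = c * (1 + x i * v i) := by
  simp [rxD]

theorem rxD_eq (c : S) (x v : Fin n → S) :
    rxD c x v = c • (rxX x v + Matrix.vecMulVec x v) := by
  ext i j
  simp only [rxD, rxX, Matrix.of_apply, Matrix.smul_apply, Matrix.add_apply,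
    Matrix.vecMulVec_apply, smul_eq_mul]
  rcases lt_trichotomy i j with h | h | h
  · simp [h, not_lt.mpr h.le, h.ne]
  · subst h
    simp
  · simp [h, not_lt.mpr h.le, h.ne']

theorem det_rxX (x v : Fin n → S) : (rxX x v).det = 1 := by
  rw [det_ut (rxX_ut x v)]
  simp [rxX_diag]

/-- The pair attached to a scalar and two vectors is a factorization of a scalar times a rank
one perturbation of the identity. -/
theorem rx_mul (c : S) (x v : Fin n → S) :
    (rxX x v).adjugate * rxD c x v =
      c • (1 + Matrix.vecMulVec ((rxX x v).adjugate *ᵥ x) v) := by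
  rw [rxD_eq, Matrix.mul_smul, Matrix.mul_add, adjugate_mul_of_det (det_rxX x v),
    Matrix.mul_vecMulVec]

theorem rx_dot (c : S) (hc : IsUnit c) (x v : Fin n → S) :
    v ⬝ᵥ ((rxX x v).adjugate *ᵥ x) = ∏ i, (1 + x i * v i) - 1 := by
  have h1 := congrArg Matrix.det (rx_mul c x v)
  rw [Matrix.det_mul, det_smul_one_add_vecMulVec, det_lt (rxD_lt c x v)] at h1
  have h2 : (rxX x v).adjugate.det = 1 := by
    rw [Matrix.det_adjugate, det_rxX, one_pow]
  rw [h2, one_mul] at h1
  simp only [rxD_diag] at h1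
  rw [Finset.prod_mul_distrib, Finset.prod_const, Finset.card_univ, Fintype.card_fin] at h1
  have h3 := (hc.pow n).mul_left_cancel h1
  rw [h3]
  ring

theorem map_rxX {T : Type*} [CommRing T] (f : S →+* T) (x v : Fin n → S) :
    (rxX x v).map f = rxX (fun i => f (x i)) (fun i => f (v i)) := by
  ext i j
  simp only [rxX, Matrix.map_apply, Matrix.of_apply]
  split_ifs <;> simp

theorem map_rxD {T : Type*} [CommRing T] (f : S →+* T) (c : S) (x v : Fin n → S) :
    (rxD c x v).map f = rxD (f c) (fun i => f (x i)) (fun i => f (v i)) := by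
  ext i j
  simp only [rxD, Matrix.map_apply, Matrix.of_apply]
  split_ifs <;> simp

theorem map_smul_one_add_vecMulVec {T : Type*} [CommRing T] (f : S →+* T) (c : S)
    (u v : Fin n → S) :
    (c • (1 + Matrix.vecMulVec u v)).map f =
      f c • (1 + Matrix.vecMulVec (fun i => f (u i)) (fun i => f (v i))) := by
  ext i j
  simp only [Matrix.map_apply, Matrix.smul_apply, Matrix.add_apply, Matrix.vecMulVec_apply,
    smul_eq_mul, map_mul, map_add, Matrix.one_apply]
  split_ifs <;> simp

/-- A factorization of a scalar times a rank one perturbation of the identity into an upper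
triangular matrix with unit diagonal and a lower triangular matrix is the pair attached to
the scalar and two vectors. -/
theorem rx_of_pair {K : Type*} [Field K] (c : K) (hc : c ≠ 0) (W D : Matrix (Fin n) (Fin n) K)
    (u v : Fin n → K) (hW : ∀ i j, j < i → W i j = 0) (hW1 : ∀ i, W i i = 1)
    (hD : ∀ i j, i < j → D i j = 0) (hWD : W * D = c • (1 + Matrix.vecMulVec u v)) :
    D = rxD c (W.adjugate *ᵥ u) v ∧ W = (rxX (W.adjugate *ᵥ u) v).adjugate := by
  have hdet : W.det = 1 := by
    rw [det_ut hW]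
    simp [hW1]
  obtain ⟨x, hx⟩ : ∃ x, x = W.adjugate *ᵥ u := ⟨_, rfl⟩
  rw [← hx]
  have hDeq : D = c • (W.adjugate + Matrix.vecMulVec x v) := by
    have h : W.adjugate * (W * D) = W.adjugate * (c • (1 + Matrix.vecMulVec u v)) := by
      rw [hWD]
    rw [← Matrix.mul_assoc, adjugate_mul_of_det hdet, Matrix.one_mul, Matrix.mul_smul,
      Matrix.mul_add, Matrix.mul_one, Matrix.mul_vecMulVec, ← hx] at h
    exact h
  have hadj := ut_adjugate hW hdet
  have hadjd : ∀ i, W.adjugate i i = 1 := fun i => by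
    have h := ut_adjugate_diag hW hdet i
    rwa [hW1, mul_one] at h
  have hX : W.adjugate = rxX x v := by
    ext i j
    rcases lt_trichotomy i j with h | h | h
    · have h1 := hD i j h
      rw [hDeq] at h1
      simp only [Matrix.smul_apply, Matrix.add_apply, Matrix.vecMulVec_apply, smul_eq_mul] at h1
      have h2 := (mul_eq_zero.mp h1).resolve_left hc
      simp only [rxX, Matrix.of_apply, h, if_true]
      linear_combination h2
    · subst h
      rw [hadjd, rxX_diag]
    · rw [hadj i j h, rxX_ut x v i j h]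
  refine ⟨?_, ?_⟩
  · rw [rxD_eq, ← hX]
    exact hDeq
  · have hadjdet : W.adjugate.det = 1 := by rw [Matrix.det_adjugate, hdet, one_pow]
    rw [← hX, adjugate_eq_inv hadjdet, adjugate_eq_inv hdet,
      Matrix.nonsing_inv_nonsing_inv W (by rw [hdet]; exact isUnit_one)]

end ReflAlg

section ReflLift

variable {R K : Type*} [CommRing R] [Field K] (ev : R →+* K)

theorem lift_one (hunit : ∀ z : K, z ≠ 0 → ∃ u : Rˣ, ev u = z) (x v : K) (e : Rˣ)
    (he : ev e = 1 + x * v) (h : x ≠ 0 ∨ v ≠ 0) :
    ∃ xt vt : R, ev xt = x ∧ ev vt = v ∧ 1 + xt * vt = e := by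
  rcases h with h | h
  · obtain ⟨ξ, hξ⟩ := hunit x h
    refine ⟨ξ, ((ξ⁻¹ : Rˣ) : R) * (e - 1), hξ, ?_, ?_⟩
    · have h1 : ev ((ξ⁻¹ : Rˣ) : R) * x = 1 := by
        rw [← hξ, ← map_mul, Units.inv_mul, map_one]
      rw [map_mul, map_sub, he, map_one]
      linear_combination v * h1
    · rw [← mul_assoc, Units.mul_inv, one_mul]
      ring
  · obtain ⟨η, hη⟩ := hunit v h
    refine ⟨((η⁻¹ : Rˣ) : R) * (e - 1), η, ?_, hη, ?_⟩
    · have h1 : ev ((η⁻¹ : Rˣ) : R) * v = 1 := by
        rw [← hη, ← map_mul, Units.inv_mul, map_one]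
      rw [map_mul, map_sub, he, map_one]
      linear_combination x * h1
    · rw [mul_comm, ← mul_assoc, Units.mul_inv, one_mul]
      ring

/-- Lifting two vectors x, v with prescribed unit value of the product of the 1 + x_i v_i. -/
theorem lift_refl_data (hunit : ∀ z : K, z ≠ 0 → ∃ u : Rˣ, ev u = z) (n : ℕ)
    (x v : Fin n → K) (lam : K) (lamU : Rˣ) (hlam : ev lamU = lam) (hlam1 : lam = 1 → lamU = 1)
    (hd : ∀ i, 1 + x i * v i ≠ 0) (hprod : ∏ i, (1 + x i * v i) = lam) :
    ∃ (xt vt : Fin n → R) (e : Fin n → Rˣ), (∀ i, ev (xt i) = x i) ∧ (∀ i, ev (vt i) = v i) ∧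
      (∀ i, 1 + xt i * vt i = (e i : R)) ∧ ∏ i, e i = lamU := by
  classical
  have key : ∀ i (e : Rˣ), ev e = 1 + x i * v i → ((x i = 0 ∧ v i = 0) → e = 1) →
      ∃ xt vt : R, ev xt = x i ∧ ev vt = v i ∧ 1 + xt * vt = e := by
    intro i e he h1
    by_cases h : x i = 0 ∧ v i = 0
    · refine ⟨0, 0, by rw [map_zero, h.1], by rw [map_zero, h.2], ?_⟩
      rw [h1 h]
      simp
    · refine lift_one ev hunit (x i) (v i) e he ?_
      by_contra hcon
      push_neg at hcon
      exact h hcon
  have hex : ∃ e : Fin n → Rˣ, (∀ i, ev (e i) = 1 + x i * v i) ∧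
      (∀ i, (x i = 0 ∧ v i = 0) → e i = 1) ∧ ∏ i, e i = lamU := by
    by_cases hall : ∀ i, x i = 0 ∧ v i = 0
    · refine ⟨fun _ => 1, fun i => ?_, fun i _ => rfl, ?_⟩
      · rw [(hall i).1]
        simp
      · have h1 : lam = 1 := by
          rw [← hprod]
          refine Finset.prod_eq_one fun i _ => ?_
          rw [(hall i).1]
          simp
        rw [hlam1 h1]
        simp
    · push_neg at hall
      obtain ⟨i0, hi0⟩ := hall
      choose w hw using fun i => hunit (1 + x i * v i) (hd i)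
      obtain ⟨e0, he0⟩ : ∃ e0 : Fin n → Rˣ, e0 = fun i => if x i = 0 ∧ v i = 0 then 1 else w i :=
        ⟨_, rfl⟩
      have he0v : ∀ i, ev (e0 i) = 1 + x i * v i := by
        intro i
        rw [he0]
        by_cases h : x i = 0 ∧ v i = 0
        · simp [h]
        · simp only [h, if_false]
          exact hw i
      have hlam0 : lam ≠ 0 := by
        rw [← hprod]
        exact Finset.prod_ne_zero_iff.mpr fun i _ => hd i
      obtain ⟨c, hc⟩ : ∃ c : Rˣ, c = lamU * (∏ i, e0 i)⁻¹ := ⟨_, rfl⟩
      have hcv : ev (c : R) = 1 := by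
        rw [hc, Units.val_mul, map_mul, hlam, map_units_inv, Units.coe_prod, map_prod]
        simp only [he0v]
        rw [hprod, mul_inv_cancel₀ hlam0]
      refine ⟨fun i => e0 i * (if i = i0 then c else 1), fun i => ?_, fun i hi => ?_, ?_⟩
      · rw [Units.val_mul, map_mul, he0v]
        by_cases h : i = i0
        · simp [h, hcv]
        · simp [h]
      · have hne : i ≠ i0 := by
          rintro rfl
          exact hi0 hi.1 hi.2
        simp [hne, he0, hi]
      · rw [Finset.prod_mul_distrib, Finset.prod_ite_eq' Finset.univ i0 (fun _ => c), hc]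
        simp
  obtain ⟨e, he1, he2, he3⟩ := hex
  choose xt vt h1 h2 h3 using fun i => key i (e i) (he1 i) (he2 i)
  exact ⟨xt, vt, e, h1, h2, h3, he3⟩

end ReflLift

/-- The lifting theorem for a factorization of a scalar times a rank one perturbation of the
identity: the lifted pair is such a factorization at every point of the infinite torus. -/
theorem refl_slot_lift (L : IntermediateField ℚ ℂ) (k : ℕ) (lam mu : ℂ) (hlamL : lam ∈ ringO L)
    (hmuL : mu ∈ ringO L) (hml : mu ^ (k + 1) * lam = 1)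
    (W D : Matrix (Fin (k + 1)) (Fin (k + 1)) ℂ)
    (hW : ∀ i j, j < i → W i j = 0) (hW1 : ∀ i, W i i = 1) (hD : ∀ i j, i < j → D i j = 0)
    (hWD : ∃ u v : Fin (k + 1) → ℂ, v ⬝ᵥ u = lam - 1 ∧
      W * D = mu • (1 + Matrix.vecMulVec u v)) :
    ∃ (Wt Dt : Matrix (Fin (k + 1)) (Fin (k + 1)) (ringR L)) (dt : Fin (k + 1) → (ringR L)ˣ),
      Wt.map (evAt L taut) = W ∧ Dt.map (evAt L taut) = D ∧ (∀ i l, l < i → Wt i l = 0) ∧
      (∀ i, Wt i i = 1) ∧ (∀ i l, i < l → Dt i l = 0) ∧ (∀ i, Dt i i = (dt i : ringR L)) ∧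
      ∏ i, (dt i : ringR L) = 1 ∧
      ∀ s : ℂˣ → ℂˣ, ∃ u v : Fin (k + 1) → ℂ, v ⬝ᵥ u = lam - 1 ∧
        (Wt * Dt).map (evAt L s) = mu • (1 + Matrix.vecMulVec u v) := by
  obtain ⟨u, v, huv, hWD⟩ := hWD
  have hmu0 : mu ≠ 0 := by
    rintro rfl
    simp at hml
  have hlam0 : lam ≠ 0 := by
    rintro rfl
    simp at hml
  have hmuinv : mu⁻¹ ∈ ringO L := by
    have h : mu⁻¹ = mu ^ k * lam := by
      have h1 : mu * (mu ^ k * lam) = 1 := by rw [← hml]; ring
      exact inv_eq_of_mul_eq_one_right h1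
    rw [h]
    exact Subring.mul_mem _ (Subring.pow_mem _ hmuL k) hlamL
  have hlaminv : lam⁻¹ ∈ ringO L := by
    have h : lam⁻¹ = mu ^ (k + 1) := by
      have h1 : lam * mu ^ (k + 1) = 1 := by rw [← hml]; ring
      exact inv_eq_of_mul_eq_one_right h1
    rw [h]
    exact Subring.pow_mem _ hmuL (k + 1)
  obtain ⟨muU, hmuU⟩ : ∃ muU : (ringR L)ˣ, muU = unitR L mu hmuL hmuinv hmu0 := ⟨_, rfl⟩
  obtain ⟨lamU, hlamU⟩ : ∃ lamU : (ringR L)ˣ, lamU = unitR L lam hlamL hlaminv hlam0 := ⟨_, rfl⟩
  have hmuev : ∀ s, evAt L s (muU : ringR L) = mu := fun s => by rw [hmuU]; rfl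
  have hlamev : ∀ s, evAt L s (lamU : ringR L) = lam := fun s => by rw [hlamU]; rfl
  obtain ⟨x, hx⟩ : ∃ x, x = W.adjugate *ᵥ u := ⟨_, rfl⟩
  obtain ⟨hDx, hWx⟩ := rx_of_pair mu hmu0 W D u v hW hW1 hD hWD
  rw [← hx] at hDx hWx
  have hWdet : W.det = 1 := by
    rw [det_ut hW]
    simp [hW1]
  have hDdet : D.det = 1 := by
    have h := congrArg Matrix.det hWD
    rw [Matrix.det_mul, hWdet, one_mul, det_smul_one_add_vecMulVec, huv] at h
    rw [h, ← hml]
    ring
  have hprodD : mu ^ (k + 1) * ∏ i, (1 + x i * v i) = 1 := by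
    rw [det_lt hD, hDx] at hDdet
    simp only [rxD_diag] at hDdet
    rw [Finset.prod_mul_distrib, Finset.prod_const, Finset.card_univ, Fintype.card_fin] at hDdet
    exact hDdet
  have hprod : ∏ i, (1 + x i * v i) = lam := by
    have h : mu ^ (k + 1) * ∏ i, (1 + x i * v i) = mu ^ (k + 1) * lam := by rw [hprodD, hml]
    exact mul_left_cancel₀ (pow_ne_zero _ hmu0) h
  have hd : ∀ i, 1 + x i * v i ≠ 0 := by
    intro i h0
    have h1 : ∏ i, (1 + x i * v i) = 0 := Finset.prod_eq_zero (Finset.mem_univ i) h0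
    rw [hprod] at h1
    exact hlam0 h1
  have hlam1 : lam = 1 → lamU = 1 := by
    intro h1
    rw [hlamU]
    exact Units.ext (Subtype.ext (funext fun s => h1))
  obtain ⟨xt, vt, e, hxt, hvt, he, hpe⟩ := lift_refl_data (evAt L taut) (evAt_taut_unit L)
    (k + 1) x v lam lamU (hlamev taut) hlam1 hd hprod
  have hXdet := det_rxX xt vt
  have hWD' := rx_mul (muU : ringR L) xt vt
  refine ⟨(rxX xt vt).adjugate, rxD (muU : ringR L) xt vt, fun i => muU * e i, ?_, ?_,
    ut_adjugate (rxX_ut xt vt) hXdet, fun i => ?_, rxD_lt _ xt vt, fun i => ?_, ?_, fun s => ?_⟩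
  · rw [map_adjugate', map_rxX, (funext hxt : (fun i => evAt L taut (xt i)) = x),
      (funext hvt : (fun i => evAt L taut (vt i)) = v)]
    exact hWx.symm
  · rw [map_rxD, (funext hxt : (fun i => evAt L taut (xt i)) = x),
      (funext hvt : (fun i => evAt L taut (vt i)) = v), hmuev]
    exact hDx.symm
  · have h := ut_adjugate_diag (rxX_ut xt vt) hXdet i
    rwa [rxX_diag, mul_one] at h
  · rw [rxD_diag, he, Units.val_mul]
  · simp only [Units.val_mul]
    rw [Finset.prod_mul_distrib, Finset.prod_const, Finset.card_univ, Fintype.card_fin,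
      ← Units.coe_prod, hpe]
    apply Subtype.ext
    funext s
    change evAt L s ((muU : ringR L) ^ (k + 1) * (lamU : ringR L)) = evAt L s 1
    rw [map_mul, map_pow, hmuev, hlamev, map_one]
    exact hml
  · refine ⟨fun i => evAt L s (((rxX xt vt).adjugate *ᵥ xt) i), fun i => evAt L s (vt i), ?_, ?_⟩
    · refine (RingHom.map_dotProduct (evAt L s) vt _).symm.trans ?_
      rw [rx_dot (muU : ringR L) muU.isUnit xt vt]
      simp only [he]
      rw [← Units.coe_prod, hpe, map_sub, hlamev, map_one]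
    · rw [hWD', map_smul_one_add_vecMulVec, hmuev]

end Vale.Agent.Lib.P002
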