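import Mathlib

/-!
Algebra of a chart on the variety of pairs of 3 x 3 matrices (A, B) with prescribed eigenvalues of
A, B and A * B.  In a basis adapted to an A-stable flag and an opposite B-stable flag, A is upper
triangular and B is lower triangular; if the product is conjugate, by a unipotent upper triangular
matrix U, to a lower triangular matrix, then the pair is encoded by the matrix N = U⁻¹ * A * B,
whose leading and trailing principal minors are prescribed.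
-/

namespace Vale.Agent.Lib.P002

open Matrix

/-- The upper triangular factor, with diagonal a, of the factorization N = P * B. -/
noncomputable def Pm (a b : Fin 3 → ℂ) (N : Matrix (Fin 3) (Fin 3) ℂ) :
    Matrix (Fin 3) (Fin 3) ℂ :=
  !![a 0, (N 0 1 - N 0 2 / b 2 * (N 2 1 / a 2)) / b 1, N 0 2 / b 2;
     0, a 1, N 1 2 / b 2;
     0, 0, a 2]

/-- The lower triangular factor, with diagonal b, of the factorization N = P * B. -/
noncomputable def Bm (a b : Fin 3 → ℂ) (N : Matrix (Fin 3) (Fin 3) ℂ) :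
    Matrix (Fin 3) (Fin 3) ℂ :=
  !![b 0, 0, 0;
     (N 1 0 - N 1 2 / b 2 * (N 2 0 / a 2)) / a 1, b 1, 0;
     N 2 0 / a 2, N 2 1 / a 2, b 2]

/-- The unipotent upper triangular factor of the factorization N = M * V, M lower triangular
with diagonal c. -/
noncomputable def Vm (c : Fin 3 → ℂ) (N : Matrix (Fin 3) (Fin 3) ℂ) : Matrix (Fin 3) (Fin 3) ℂ :=
  !![1, N 0 1 / c 0, N 0 2 / c 0;
     0, 1, (N 1 2 - N 1 0 * (N 0 2 / c 0)) / c 1;
     0, 0, 1]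

/-- The inverse of Vm c N. -/
noncomputable def Um (c : Fin 3 → ℂ) (N : Matrix (Fin 3) (Fin 3) ℂ) : Matrix (Fin 3) (Fin 3) ℂ :=
  !![1, -(N 0 1 / c 0),
       N 0 1 / c 0 * ((N 1 2 - N 1 0 * (N 0 2 / c 0)) / c 1) - N 0 2 / c 0;
     0, 1, -((N 1 2 - N 1 0 * (N 0 2 / c 0)) / c 1);
     0, 0, 1]

theorem Um_mul_Vm (c : Fin 3 → ℂ) (N : Matrix (Fin 3) (Fin 3) ℂ) : Um c N * Vm c N = 1 := by
  ext i j
  fin_cases i <;> fin_cases j <;>
    simp [Um, Vm, Matrix.mul_apply, Fin.sum_univ_three] <;> ring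

theorem Vm_mul_Um (c : Fin 3 → ℂ) (N : Matrix (Fin 3) (Fin 3) ℂ) : Vm c N * Um c N = 1 :=
  mul_eq_one_comm.mp (Um_mul_Vm c N)

theorem ne_zero_of_prod {a : Fin 3 → ℂ} (ha : a 0 * a 1 * a 2 = 1) :
    a 0 ≠ 0 ∧ a 1 ≠ 0 ∧ a 2 ≠ 0 := by
  refine ⟨?_, ?_, ?_⟩ <;> rintro h <;> simp [h] at ha

/-- If N has the prescribed principal minors and determinant one, then N = P * B. -/
theorem Pm_mul_Bm (a b : Fin 3 → ℂ) (ha : a 0 * a 1 * a 2 = 1) (hb : b 0 * b 1 * b 2 = 1)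
    (N : Matrix (Fin 3) (Fin 3) ℂ) (h22 : N 2 2 = a 2 * b 2)
    (h2 : N 1 2 * N 2 1 = a 2 * b 2 * N 1 1 - a 1 * b 1 * a 2 * b 2) (hdet : N.det = 1) :
    Pm a b N * Bm a b N = N := by
  rw [Matrix.det_fin_three] at hdet
  obtain ⟨ha0, ha1, ha2⟩ := ne_zero_of_prod ha
  obtain ⟨hb0, hb1, hb2⟩ := ne_zero_of_prod hb
  ext i j
  fin_cases i <;> fin_cases j <;>
    simp [Pm, Bm, Matrix.mul_apply, Fin.sum_univ_three] <;> field_simp <;> grind

/-- If N has the prescribed principal minors and determinant one, then N * U is lower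
triangular with diagonal c. -/
theorem mul_Um_apply (c : Fin 3 → ℂ) (hc : c 0 * c 1 * c 2 = 1)
    (N : Matrix (Fin 3) (Fin 3) ℂ) (h00 : N 0 0 = c 0)
    (h1 : N 0 1 * N 1 0 = c 0 * N 1 1 - c 0 * c 1) (hdet : N.det = 1) :
    (N * Um c N) 0 1 = 0 ∧ (N * Um c N) 0 2 = 0 ∧ (N * Um c N) 1 2 = 0 ∧
      ∀ i, (N * Um c N) i i = c i := by
  rw [Matrix.det_fin_three] at hdet
  obtain ⟨hc0, hc1, hc2⟩ := ne_zero_of_prod hc
  refine ⟨?_, ?_, ?_, fun i => ?_⟩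
  · simp [Um, Matrix.mul_apply, Fin.sum_univ_three]; try field_simp
    grind
  · simp [Um, Matrix.mul_apply, Fin.sum_univ_three]; try field_simp
    grind
  · simp [Um, Matrix.mul_apply, Fin.sum_univ_three]; try field_simp
    grind
  · fin_cases i <;> simp [Um, Matrix.mul_apply, Fin.sum_univ_three] <;> (try field_simp) <;> grind

/-- Uniqueness of the factorization N = M * V. -/
theorem Vm_mul (c : Fin 3 → ℂ) (hc : c 0 * c 1 * c 2 = 1) (m10 m20 m21 w01 w02 w12 : ℂ) :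
    Vm c (!![c 0, 0, 0; m10, c 1, 0; m20, m21, c 2] * !![1, w01, w02; 0, 1, w12; 0, 0, 1]) =
      !![1, w01, w02; 0, 1, w12; 0, 0, 1] := by
  obtain ⟨hc0, hc1, hc2⟩ := ne_zero_of_prod hc
  ext i j
  fin_cases i <;> fin_cases j <;>
    simp [Vm, Matrix.mul_apply, Fin.sum_univ_three] <;> field_simp <;> ring

/-- Uniqueness of the factorization N = P * B, upper factor. -/
theorem Pm_mul (a b : Fin 3 → ℂ) (ha : a 0 * a 1 * a 2 = 1) (hb : b 0 * b 1 * b 2 = 1)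
    (p01 p02 p12 q10 q20 q21 : ℂ) :
    Pm a b (!![a 0, p01, p02; 0, a 1, p12; 0, 0, a 2] * !![b 0, 0, 0; q10, b 1, 0; q20, q21, b 2]) =
      !![a 0, p01, p02; 0, a 1, p12; 0, 0, a 2] := by
  obtain ⟨ha0, ha1, ha2⟩ := ne_zero_of_prod ha
  obtain ⟨hb0, hb1, hb2⟩ := ne_zero_of_prod hb
  ext i j
  fin_cases i <;> fin_cases j <;>
    simp [Pm, Matrix.mul_apply, Fin.sum_univ_three] <;> field_simp <;> ring

/-- Uniqueness of the factorization N = P * B, lower factor. -/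
theorem Bm_mul (a b : Fin 3 → ℂ) (ha : a 0 * a 1 * a 2 = 1) (hb : b 0 * b 1 * b 2 = 1)
    (p01 p02 p12 q10 q20 q21 : ℂ) :
    Bm a b (!![a 0, p01, p02; 0, a 1, p12; 0, 0, a 2] * !![b 0, 0, 0; q10, b 1, 0; q20, q21, b 2]) =
      !![b 0, 0, 0; q10, b 1, 0; q20, q21, b 2] := by
  obtain ⟨ha0, ha1, ha2⟩ := ne_zero_of_prod ha
  obtain ⟨hb0, hb1, hb2⟩ := ne_zero_of_prod hb
  ext i j
  fin_cases i <;> fin_cases j <;>
    simp [Bm, Matrix.mul_apply, Fin.sum_univ_three] <;> field_simp <;> ring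

theorem exists_upper {A : Matrix (Fin 3) (Fin 3) ℂ} (hA : A.IsUpperTriangular) (a : Fin 3 → ℂ)
    (hAd : ∀ i, A i i = a i) :
    ∃ p01 p02 p12 : ℂ, A = !![a 0, p01, p02; 0, a 1, p12; 0, 0, a 2] := by
  refine ⟨A 0 1, A 0 2, A 1 2, ?_⟩
  have h10 : A 1 0 = 0 := hA (i := 1) (j := 0) (by decide)
  have h20 : A 2 0 = 0 := hA (i := 2) (j := 0) (by decide)
  have h21 : A 2 1 = 0 := hA (i := 2) (j := 1) (by decide)
  ext i j
  fin_cases i <;> fin_cases j <;> simp [h10, h20, h21, ← hAd]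

theorem exists_lower {A : Matrix (Fin 3) (Fin 3) ℂ} (hA : A.IsLowerTriangular) (a : Fin 3 → ℂ)
    (hAd : ∀ i, A i i = a i) :
    ∃ q10 q20 q21 : ℂ, A = !![a 0, 0, 0; q10, a 1, 0; q20, q21, a 2] := by
  refine ⟨A 1 0, A 2 0, A 2 1, ?_⟩
  have h01 : A 0 1 = 0 := hA (i := 0) (j := 1) (by decide)
  have h02 : A 0 2 = 0 := hA (i := 0) (j := 2) (by decide)
  have h12 : A 1 2 = 0 := hA (i := 1) (j := 2) (by decide)
  ext i j
  fin_cases i <;> fin_cases j <;> simp [h01, h02, h12, ← hAd]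

/-- Every pair in the chart is encoded by a matrix N with prescribed principal minors. -/
theorem chart_bwd (a b c : Fin 3 → ℂ) (ha : a 0 * a 1 * a 2 = 1) (hb : b 0 * b 1 * b 2 = 1)
    (A B U M : Matrix (Fin 3) (Fin 3) ℂ)
    (hA : A.IsUpperTriangular) (hAd : ∀ i, A i i = a i)
    (hB : B.IsLowerTriangular) (hBd : ∀ i, B i i = b i)
    (hU : U.IsUpperTriangular) (hUd : ∀ i, U i i = 1)
    (hM : M.IsLowerTriangular) (hMd : ∀ i, M i i = c i) (h : A * B * U = U * M) :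
    ∃ N : Matrix (Fin 3) (Fin 3) ℂ, c 0 * c 1 * c 2 = 1 ∧ N 0 0 = c 0 ∧ N 2 2 = a 2 * b 2 ∧
      N 0 1 * N 1 0 = c 0 * N 1 1 - c 0 * c 1 ∧
      N 1 2 * N 2 1 = a 2 * b 2 * N 1 1 - a 1 * b 1 * a 2 * b 2 ∧ N.det = 1 ∧
      A = Um c N * Pm a b N ∧ B = Bm a b N := by
  have hc : c 0 * c 1 * c 2 = 1 := by
    have hd := congrArg Matrix.det h
    rw [Matrix.det_mul, Matrix.det_mul, Matrix.det_mul, det_of_isUpperTriangular hA,
      det_of_isLowerTriangular _ hB, det_of_isUpperTriangular hU,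
      det_of_isLowerTriangular _ hM] at hd
    simp only [Fin.prod_univ_three, hAd, hBd, hUd, hMd] at hd
    rw [ha, hb] at hd
    simpa using hd.symm
  obtain ⟨p01, p02, p12, rfl⟩ := exists_upper hA a hAd
  obtain ⟨q10, q20, q21, rfl⟩ := exists_lower hB b hBd
  obtain ⟨u01, u02, u12, rfl⟩ := exists_upper hU (fun _ => 1) hUd
  obtain ⟨m10, m20, m21, rfl⟩ := exists_lower hM c hMd
  have hUW : !![1, u01, u02; 0, 1, u12; 0, 0, 1] *
      !![1, -u01, u01 * u12 - u02; 0, 1, -u12; 0, 0, (1 : ℂ)] = 1 := by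
    ext i j
    fin_cases i <;> fin_cases j <;> simp [Matrix.mul_apply, Fin.sum_univ_three] <;> ring
  have hWU := mul_eq_one_comm.mp hUW
  have hN : !![1, -u01, u01 * u12 - u02; 0, 1, -u12; 0, 0, (1 : ℂ)] *
      !![a 0, p01, p02; 0, a 1, p12; 0, 0, a 2] * !![b 0, 0, 0; q10, b 1, 0; q20, q21, b 2] =
      !![c 0, 0, 0; m10, c 1, 0; m20, m21, c 2] *
        !![1, -u01, u01 * u12 - u02; 0, 1, -u12; 0, 0, (1 : ℂ)] := by
    have h1 := congrArg (fun X => !![1, -u01, u01 * u12 - u02; 0, 1, -u12; 0, 0, (1 : ℂ)] * X *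
      !![1, -u01, u01 * u12 - u02; 0, 1, -u12; 0, 0, (1 : ℂ)]) h
    simp only [Matrix.mul_assoc] at h1
    rw [hUW, Matrix.mul_one] at h1
    rw [← Matrix.mul_assoc _ !![1, u01, u02; 0, 1, u12; 0, 0, 1], hWU, Matrix.one_mul] at h1
    simpa only [Matrix.mul_assoc] using h1
  have hWA : !![1, -u01, u01 * u12 - u02; 0, 1, -u12; 0, 0, (1 : ℂ)] *
      !![a 0, p01, p02; 0, a 1, p12; 0, 0, a 2] =
      !![a 0, p01 - u01 * a 1, p02 - u01 * p12 + (u01 * u12 - u02) * a 2;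
         0, a 1, p12 - u12 * a 2; 0, 0, a 2] := by
    ext i j
    fin_cases i <;> fin_cases j <;> simp [Matrix.mul_apply, Fin.sum_univ_three] <;> ring
  have hV := Vm_mul c hc m10 m20 m21 (-u01) (u01 * u12 - u02) (-u12)
  have hUm : Um c (!![c 0, 0, 0; m10, c 1, 0; m20, m21, c 2] *
      !![1, -u01, u01 * u12 - u02; 0, 1, -u12; 0, 0, (1 : ℂ)]) =
      !![1, u01, u02; 0, 1, u12; 0, 0, 1] := by
    have h2 := Um_mul_Vm c (!![c 0, 0, 0; m10, c 1, 0; m20, m21, c 2] *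
      !![1, -u01, u01 * u12 - u02; 0, 1, -u12; 0, 0, (1 : ℂ)])
    rw [hV] at h2
    have h3 := congrArg (fun X => X * !![1, u01, u02; 0, 1, u12; 0, 0, (1 : ℂ)]) h2
    simp only [Matrix.mul_assoc, hWU, Matrix.mul_one, Matrix.one_mul] at h3
    exact h3
  refine ⟨!![c 0, 0, 0; m10, c 1, 0; m20, m21, c 2] *
    !![1, -u01, u01 * u12 - u02; 0, 1, -u12; 0, 0, (1 : ℂ)], hc, ?_, ?_, ?_, ?_, ?_, ?_, ?_⟩
  · simp [Matrix.mul_apply, Fin.sum_univ_three]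
  · rw [← hN, hWA]
    simp [Matrix.mul_apply, Fin.sum_univ_three]
  · simp [Matrix.mul_apply, Fin.sum_univ_three]
    ring
  · rw [← hN, hWA]
    simp [Matrix.mul_apply, Fin.sum_univ_three]
    ring
  · rw [Matrix.det_mul, Matrix.det_fin_three, Matrix.det_fin_three]
    simp
    linear_combination hc
  · rw [hUm, ← hN, hWA, Pm_mul a b ha hb, ← hWA, ← Matrix.mul_assoc, hUW, Matrix.one_mul]
  · rw [← hN, hWA, Bm_mul a b ha hb]

/-- The matrix attached to the data (ν, x1, y1, x2, y2, x3, y3), where νi is the inverse of ν. -/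
def Nd (a b c : Fin 3 → ℂ) (ν νi x1 y1 x2 y2 x3 y3 : ℂ) : Matrix (Fin 3) (Fin 3) ℂ :=
  !![c 0, x1, (x3 + x1 * x2) * νi;
     y1, ν, x2;
     (y3 + y1 * y2) * νi, y2, a 2 * b 2]

theorem Nd_det (a b c : Fin 3 → ℂ) (ν νi x1 y1 x2 y2 x3 y3 : ℂ) (hν : ν * νi = 1)
    (R1 : x1 * y1 = c 0 * ν - c 0 * c 1)
    (R2 : x2 * y2 = a 2 * b 2 * ν - a 1 * b 1 * a 2 * b 2)
    (R3 : x3 * y3 = c 0 * c 1 * (a 1 * b 1 * a 2 * b 2) - ν) :
    (Nd a b c ν νi x1 y1 x2 y2 x3 y3).det = 1 := by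
  rw [Matrix.det_fin_three]
  simp [Nd]
  grind

/-- Every matrix with the prescribed principal minors and nonzero central entry comes from
data. -/
theorem Nd_eq (a b c : Fin 3 → ℂ) (N : Matrix (Fin 3) (Fin 3) ℂ) (h00 : N 0 0 = c 0)
    (h22 : N 2 2 = a 2 * b 2) (hν : N 1 1 ≠ 0) :
    N = Nd a b c (N 1 1) (N 1 1)⁻¹ (N 0 1) (N 1 0) (N 1 2) (N 2 1)
      (N 1 1 * N 0 2 - N 0 1 * N 1 2) (N 1 1 * N 2 0 - N 1 0 * N 2 1) := by
  ext i j
  fin_cases i <;> fin_cases j <;> simp [Nd, h00, h22] <;> field_simp <;> ring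

theorem Nd_R3 (a b c : Fin 3 → ℂ) (N : Matrix (Fin 3) (Fin 3) ℂ) (h00 : N 0 0 = c 0)
    (h22 : N 2 2 = a 2 * b 2) (h1 : N 0 1 * N 1 0 = c 0 * N 1 1 - c 0 * c 1)
    (h2 : N 1 2 * N 2 1 = a 2 * b 2 * N 1 1 - a 1 * b 1 * a 2 * b 2) (hdet : N.det = 1) :
    (N 1 1 * N 0 2 - N 0 1 * N 1 2) * (N 1 1 * N 2 0 - N 1 0 * N 2 1) =
      c 0 * c 1 * (a 1 * b 1 * a 2 * b 2) - N 1 1 := by
  rw [Matrix.det_fin_three] at hdet
  grind

/-- The matrix with central entry zero attached to (t1, t2, z), where t1i and t2i are the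
inverses of t1 and t2. -/
def Nz (a b c : Fin 3 → ℂ) (t1 t1i t2 t2i z : ℂ) : Matrix (Fin 3) (Fin 3) ℂ :=
  !![c 0, t1, z;
     -(c 0 * c 1) * t1i, 0, t2;
     (1 - c 0 * (a 1 * b 1 * a 2 * b 2) - c 0 * c 1 * (a 2 * b 2) -
       z * (c 0 * c 1 * (a 1 * b 1 * a 2 * b 2)) * t1i * t2i) * t1i * t2i,
       -(a 1 * b 1 * a 2 * b 2) * t2i, a 2 * b 2]

theorem Nz_det (a b c : Fin 3 → ℂ) (t1 t1i t2 t2i z : ℂ) (h1 : t1 * t1i = 1)
    (h2 : t2 * t2i = 1) : (Nz a b c t1 t1i t2 t2i z).det = 1 := by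
  rw [Matrix.det_fin_three]
  simp [Nz]
  grind

/-- Every matrix with the prescribed principal minors and central entry zero is of the
form Nz. -/
theorem Nz_eq (a b c : Fin 3 → ℂ) (ha : a 0 * a 1 * a 2 = 1) (hb : b 0 * b 1 * b 2 = 1)
    (hc : c 0 * c 1 * c 2 = 1) (N : Matrix (Fin 3) (Fin 3) ℂ) (h00 : N 0 0 = c 0)
    (h22 : N 2 2 = a 2 * b 2) (h1 : N 0 1 * N 1 0 = c 0 * N 1 1 - c 0 * c 1)
    (h2 : N 1 2 * N 2 1 = a 2 * b 2 * N 1 1 - a 1 * b 1 * a 2 * b 2) (hdet : N.det = 1)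
    (hν : N 1 1 = 0) :
    N 0 1 ≠ 0 ∧ N 1 2 ≠ 0 ∧ N = Nz a b c (N 0 1) (N 0 1)⁻¹ (N 1 2) (N 1 2)⁻¹ (N 0 2) := by
  rw [Matrix.det_fin_three] at hdet
  obtain ⟨ha0, ha1, ha2⟩ := ne_zero_of_prod ha
  obtain ⟨hb0, hb1, hb2⟩ := ne_zero_of_prod hb
  obtain ⟨hc0, hc1, hc2⟩ := ne_zero_of_prod hc
  rw [hν] at h1 h2 hdet
  have h01 : N 0 1 ≠ 0 := by
    intro h0
    rw [h0] at h1
    have : c 0 * c 1 = 0 := by linear_combination h1
    exact mul_ne_zero hc0 hc1 this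
  have h12 : N 1 2 ≠ 0 := by
    intro h0
    rw [h0] at h2
    have : a 1 * b 1 * a 2 * b 2 = 0 := by linear_combination h2
    exact mul_ne_zero (mul_ne_zero (mul_ne_zero ha1 hb1) ha2) hb2 this
  have key : N 2 0 * N 0 1 ^ 2 * N 1 2 ^ 2 =
      (1 - c 0 * (a 1 * b 1 * a 2 * b 2) - c 0 * c 1 * (a 2 * b 2)) * N 0 1 * N 1 2 -
        c 0 * c 1 * (a 1 * b 1 * a 2 * b 2) * N 0 2 := by
    linear_combination (N 0 1 * N 1 2) * hdet - (a 1 * b 1 * a 2 * b 2 * N 0 1 * N 1 2) * h00 -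
      (c 0 * c 1 * N 0 1 * N 1 2) * h22 + (N 0 0 * N 0 1 * N 1 2 + N 0 2 * (c 0 * c 1)) * h2 +
      (N 0 1 * N 1 2 * N 2 2 + N 0 2 * (a 1 * b 1 * a 2 * b 2) -
        N 0 2 * (N 1 2 * N 2 1 + a 1 * b 1 * a 2 * b 2)) * h1
  refine ⟨h01, h12, ?_⟩
  ext i j
  fin_cases i <;> fin_cases j <;> simp [Nz, h00, h22, hν] <;> field_simp <;> grind

end Vale.Agent.Lib.P002
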