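import Vale.Agent.Lib.P002.PantsFam

/-!
The chart statement for pairs of 3 x 3 matrices with prescribed eigenvalues, over the number
field generated by the square root of two and the eigenvalues.
-/

namespace Vale.Agent.Lib.P002

open MvPolynomial Matrix

/-- The number field generated by the square root of two and three triples of numbers. -/
noncomputable def fieldE (α β δ : Fin 3 → ℂ) : IntermediateField ℚ ℂ :=
  IntermediateField.adjoin ℚ ({sqrtTwo} ∪ Set.range α ∪ Set.range β ∪ Set.range δ)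

theorem fieldE_finiteDimensional (α β δ : Fin 3 → ℂ) (hα : ∀ i, IsIntegral ℤ (α i))
    (hβ : ∀ i, IsIntegral ℤ (β i)) (hδ : ∀ i, IsIntegral ℤ (δ i)) :
    FiniteDimensional ℚ (fieldE α β δ) := by
  unfold fieldE
  refine IntermediateField.finiteDimensional_adjoin ?_
  rintro x (((hx | ⟨i, rfl⟩) | ⟨i, rfl⟩) | ⟨i, rfl⟩)
  · rw [Set.mem_singleton_iff.mp hx]
    exact isIntegral_sqrtTwo.tower_top
  · exact (hα i).tower_top
  · exact (hβ i).tower_top
  · exact (hδ i).tower_top

theorem sqrtTwo_mem_fieldE (α β δ : Fin 3 → ℂ) : sqrtTwo ∈ fieldE α β δ :=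
  IntermediateField.subset_adjoin ℚ _ (by simp)

theorem mem_ringO_fieldE (α β δ : Fin 3 → ℂ) (hα : ∀ i, IsIntegral ℤ (α i))
    (hβ : ∀ i, IsIntegral ℤ (β i)) (hδ : ∀ i, IsIntegral ℤ (δ i)) :
    (∀ i, α i ∈ ringO (fieldE α β δ)) ∧ (∀ i, β i ∈ ringO (fieldE α β δ)) ∧
      ∀ i, δ i ∈ ringO (fieldE α β δ) :=
  ⟨fun i => ⟨IntermediateField.subset_adjoin ℚ _ (by simp), hα i⟩,
    fun i => ⟨IntermediateField.subset_adjoin ℚ _ (by simp), hβ i⟩,
    fun i => ⟨IntermediateField.subset_adjoin ℚ _ (by simp), hδ i⟩⟩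

/-- Density of integral points in the chart of the variety of pairs (A, B) with prescribed
eigenvalues of A, B and A * B. -/
theorem pants_chart (α β δ : Fin 3 → ℂ)
    (hα : ∀ i, IsIntegral ℤ (α i)) (hβ : ∀ i, IsIntegral ℤ (β i)) (hδ : ∀ i, IsIntegral ℤ (δ i))
    (hα1 : α 0 * α 1 * α 2 = 1) (hβ1 : β 0 * β 1 * β 2 = 1) :
    ∃ L : IntermediateField ℚ ℂ, FiniteDimensional ℚ L ∧
      ∀ P : MvPolynomial (Fin 2 × Fin 3 × Fin 3) ℂ,
        (∀ A B : Matrix (Fin 3) (Fin 3) ℂ,
          (∀ i j, A i j ∈ L ∧ IsIntegral ℤ (A i j)) →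
          (∀ i j, B i j ∈ L ∧ IsIntegral ℤ (B i j)) →
          A.charpoly = ∏ i, (Polynomial.X - Polynomial.C (α i)) →
          B.charpoly = ∏ i, (Polynomial.X - Polynomial.C (β i)) →
          (A * B).charpoly = ∏ i, (Polynomial.X - Polynomial.C (δ i)) →
          MvPolynomial.eval (fun x => ![A, B] x.1 x.2.1 x.2.2) P = 0) →
        ∀ A B g h u v : Matrix (Fin 3) (Fin 3) ℂ, g * h = 1 → u * v = 1 →
          (h * A * g).IsUpperTriangular → (∀ i, (h * A * g) i i = α i) →
          (h * B * g).IsLowerTriangular → (∀ i, (h * B * g) i i = β i) →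
          u.IsUpperTriangular → (∀ i, u i i = 1) →
          (v * (h * (A * B) * g) * u).IsLowerTriangular →
          (∀ i, (v * (h * (A * B) * g) * u) i i = δ i) →
          MvPolynomial.eval (fun x => ![A, B] x.1 x.2.1 x.2.2) P = 0 := by
  obtain ⟨ha, hb, hc⟩ := mem_ringO_fieldE α β δ hα hβ hδ
  refine ⟨fieldE α β δ, fieldE_finiteDimensional α β δ hα hβ hδ, fun P hP => ?_⟩
  intro A B g h u v hgh huv hA hAd hB hBd hU hUd hM hMd
  have hhg : h * g = 1 := mul_eq_one_comm.mp hgh
  have hvu : v * u = 1 := mul_eq_one_comm.mp huv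
  have key := density_pants_chart (sqrtTwo_mem_fieldE α β δ) α β δ hα1 hβ1 ha hb hc P
    (fun A B hAi hBi => hP A B hAi hBi) g h (h * A * g) (h * B * g) u
    (v * (h * (A * B) * g) * u) hgh hA hAd hB hBd hU hUd hM hMd (by
      have e1 : h * A * g * (h * B * g) = h * (A * B) * g := by
        calc h * A * g * (h * B * g) = h * A * (g * h) * B * g := by
              simp only [Matrix.mul_assoc]
          _ = h * (A * B) * g := by rw [hgh]; simp only [Matrix.mul_assoc, Matrix.one_mul]
      rw [e1]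
      calc h * (A * B) * g * u = (u * v) * (h * (A * B) * g * u) := by rw [huv, Matrix.one_mul]
        _ = u * (v * (h * (A * B) * g) * u) := by simp only [Matrix.mul_assoc])
  have eA : g * (h * A * g) * h = A := by
    calc g * (h * A * g) * h = (g * h) * A * (g * h) := by simp only [Matrix.mul_assoc]
      _ = A := by rw [hgh, Matrix.one_mul, Matrix.mul_one]
  have eB : g * (h * B * g) * h = B := by
    calc g * (h * B * g) * h = (g * h) * B * (g * h) := by simp only [Matrix.mul_assoc]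
      _ = B := by rw [hgh, Matrix.one_mul, Matrix.mul_one]
  rw [eA, eB] at key
  exact key

end Vale.Agent.Lib.P002
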