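import Vale.Agent.Lib.P002.Param
import Vale.Agent.Lib.P002.PantsAlg

/-!
Laurent families of matrices with prescribed principal minors, with integral specializations,
and the resulting density statement for the chart of pairs (A, B) of 3 x 3 matrices.
-/

namespace Vale.Agent.Lib.P002

open MvPolynomial Matrix

section Good

variable {ι : Type} [Fintype ι]

/-- A Laurent polynomial function whose values at units of the ring of integers of L are
integers of L. -/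
def Good (L : IntermediateField ℚ ℂ) (f : (ι → ℂˣ) → ℂ) : Prop :=
  IsLaurent f ∧ ∀ s : ι → ℂˣ, (∀ k, s k ∈ unitsO L) → f s ∈ ringO L

variable {L : IntermediateField ℚ ℂ}

theorem Good.const {c : ℂ} (hc : c ∈ ringO L) : Good L (fun _ : ι → ℂˣ => c) :=
  ⟨IsLaurent.const c, fun _ _ => hc⟩

theorem Good.add {f g : (ι → ℂˣ) → ℂ} (hf : Good L f) (hg : Good L g) :
    Good L (fun s => f s + g s) :=
  ⟨hf.1.add hg.1, fun s hs => Subring.add_mem _ (hf.2 s hs) (hg.2 s hs)⟩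

theorem Good.mul {f g : (ι → ℂˣ) → ℂ} (hf : Good L f) (hg : Good L g) :
    Good L (fun s => f s * g s) :=
  ⟨hf.1.mul hg.1, fun s hs => Subring.mul_mem _ (hf.2 s hs) (hg.2 s hs)⟩

theorem Good.sub {f g : (ι → ℂˣ) → ℂ} (hf : Good L f) (hg : Good L g) :
    Good L (fun s => f s - g s) :=
  ⟨hf.1.sub hg.1, fun s hs => Subring.sub_mem _ (hf.2 s hs) (hg.2 s hs)⟩

theorem Good.neg {f : (ι → ℂˣ) → ℂ} (hf : Good L f) : Good L (fun s => -f s) :=
  ⟨hf.1.neg, fun s hs => Subring.neg_mem _ (hf.2 s hs)⟩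

theorem Good.div_const {f : (ι → ℂˣ) → ℂ} {c : ℂ} (hf : Good L f) (hc : c⁻¹ ∈ ringO L) :
    Good L (fun s => f s / c) := by
  simpa [div_eq_mul_inv] using hf.mul (Good.const hc)

theorem Good.coord (L : IntermediateField ℚ ℂ) (k : ι) : Good L (fun s : ι → ℂˣ => (s k : ℂ)) :=
  ⟨IsLaurent.coord k, fun _ hs => coe_mem_ringO (hs k)⟩

theorem Good.coord_inv (L : IntermediateField ℚ ℂ) (k : ι) :
    Good L (fun s : ι → ℂˣ => (((s k)⁻¹ : ℂˣ) : ℂ)) :=
  ⟨IsLaurent.coord_inv k, fun _ hs => coe_inv_mem_ringO (hs k)⟩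

theorem Good.comp_injective {ι' : Type} [Fintype ι'] {f : (ι → ℂˣ) → ℂ} (hf : Good L f)
    (e : ι → ι') (he : Function.Injective e) : Good L (fun s : ι' → ℂˣ => f (s ∘ e)) :=
  ⟨hf.1.comp_injective e he, fun s hs => hf.2 (s ∘ e) fun k => hs (e k)⟩

/-- A family of 3 x 3 matrices all of whose entries are Good. -/
def GoodM (L : IntermediateField ℚ ℂ) (M : (ι → ℂˣ) → Matrix (Fin 3) (Fin 3) ℂ) : Prop :=
  ∀ i j, Good L (fun s => M s i j)

theorem GoodM.mul {M N : (ι → ℂˣ) → Matrix (Fin 3) (Fin 3) ℂ} (hM : GoodM L M)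
    (hN : GoodM L N) : GoodM L (fun s => M s * N s) := by
  intro i j
  simp only [Matrix.mul_apply, Fin.sum_univ_three]
  exact (((hM i 0).mul (hN 0 j)).add ((hM i 1).mul (hN 1 j))).add ((hM i 2).mul (hN 2 j))

theorem GoodM.comp_injective {ι' : Type} [Fintype ι'] {M : (ι → ℂˣ) → Matrix (Fin 3) (Fin 3) ℂ}
    (hM : GoodM L M) (e : ι → ι') (he : Function.Injective e) :
    GoodM L (fun s : ι' → ℂˣ => M (s ∘ e)) :=
  fun i j => (hM i j).comp_injective e he

theorem GoodM.Pm {a b : Fin 3 → ℂ} (ha : ∀ i, a i ∈ ringO L) (hai : ∀ i, (a i)⁻¹ ∈ ringO L)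
    (hbi : ∀ i, (b i)⁻¹ ∈ ringO L)
    {N : (ι → ℂˣ) → Matrix (Fin 3) (Fin 3) ℂ} (hN : GoodM L N) :
    GoodM L (fun s => Pm a b (N s)) := by
  intro i j
  fin_cases i <;> fin_cases j <;>
    first
    | exact Good.const (ha _)
    | exact Good.const (Subring.zero_mem _)
    | exact (hN _ _).div_const (hbi _)
    | exact (((hN 0 1).sub (((hN 0 2).div_const (hbi 2)).mul
        ((hN 2 1).div_const (hai 2)))).div_const (hbi 1))

theorem GoodM.Bm {a b : Fin 3 → ℂ} (hb : ∀ i, b i ∈ ringO L) (hai : ∀ i, (a i)⁻¹ ∈ ringO L)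
    (hbi : ∀ i, (b i)⁻¹ ∈ ringO L)
    {N : (ι → ℂˣ) → Matrix (Fin 3) (Fin 3) ℂ} (hN : GoodM L N) :
    GoodM L (fun s => Bm a b (N s)) := by
  intro i j
  fin_cases i <;> fin_cases j <;>
    first
    | exact Good.const (hb _)
    | exact Good.const (Subring.zero_mem _)
    | exact (hN _ _).div_const (hai _)
    | exact (((hN 1 0).sub (((hN 1 2).div_const (hbi 2)).mul
        ((hN 2 0).div_const (hai 2)))).div_const (hai 1))

theorem GoodM.Um {c : Fin 3 → ℂ} (hci : ∀ i, (c i)⁻¹ ∈ ringO L)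
    {N : (ι → ℂˣ) → Matrix (Fin 3) (Fin 3) ℂ} (hN : GoodM L N) :
    GoodM L (fun s => Um c (N s)) := by
  have h12 : Good L (fun s => (N s 1 2 - N s 1 0 * (N s 0 2 / c 0)) / c 1) :=
    ((hN 1 2).sub ((hN 1 0).mul ((hN 0 2).div_const (hci 0)))).div_const (hci 1)
  intro i j
  fin_cases i <;> fin_cases j <;>
    first
    | exact Good.const (Subring.zero_mem _)
    | exact Good.const (Subring.one_mem _)
    | exact ((hN 0 1).div_const (hci 0)).neg
    | exact h12.neg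
    | exact (((hN 0 1).div_const (hci 0)).mul h12).sub ((hN 0 2).div_const (hci 0))

end Good

/-- The x-coordinate of a point of the hyperbola x * y = cc, in one of two modes. -/
def hx (m : Bool) (t : ℂˣ) : ℂ := if m then 0 else (t : ℂ)

/-- The y-coordinate of a point of the hyperbola x * y = cc, in one of two modes. -/
def hy (m : Bool) (cc : ℂ) (t : ℂˣ) : ℂ :=
  if m then (t : ℂ) - ((t⁻¹ : ℂˣ) : ℂ) else cc * ((t⁻¹ : ℂˣ) : ℂ)

theorem hx_mul_hy (m : Bool) (cc : ℂ) (t : ℂˣ) (h : m = true → cc = 0) :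
    hx m t * hy m cc t = cc := by
  cases m
  · simp only [hx, hy, Bool.false_eq_true, if_false, Units.val_inv_eq_inv_val]
    field_simp
  · simp [hx, h rfl]

theorem exists_hx_hy (x y cc : ℂ) (h : x * y = cc) :
    ∃ (m : Bool) (t : ℂˣ), (m = true → cc = 0) ∧ hx m t = x ∧ hy m cc t = y := by
  by_cases hx0 : x = 0
  · obtain ⟨t, ht⟩ := exists_unit_sub_inv y
    refine ⟨true, t, fun _ => ?_, ?_, ?_⟩
    · rw [← h, hx0, zero_mul]
    · simp [hx, hx0]
    · simpa [hy] using ht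
  · refine ⟨false, Units.mk0 x hx0, fun h' => by simp at h', ?_, ?_⟩
    · simp [hx]
    · simp only [hy, Bool.false_eq_true, if_false, Units.val_inv_eq_inv_val, Units.val_mk0]
      rw [← h]
      field_simp

section Families

variable {ι : Type} [Fintype ι] {L : IntermediateField ℚ ℂ}

theorem Good.hx (m : Bool) (k : ι) : Good L (fun s : ι → ℂˣ => hx m (s k)) := by
  cases m
  · simpa [Vale.Agent.Lib.P002.hx] using Good.coord L k
  · simpa [Vale.Agent.Lib.P002.hx] using Good.const (L := L) (ι := ι) (Subring.zero_mem _)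

theorem Good.hy (m : Bool) {cc : (ι → ℂˣ) → ℂ} (hcc : Good L cc) (k : ι) :
    Good L (fun s : ι → ℂˣ => hy m (cc s) (s k)) := by
  cases m
  · simpa [Vale.Agent.Lib.P002.hy] using hcc.mul (Good.coord_inv L k)
  · simpa [Vale.Agent.Lib.P002.hy] using (Good.coord L k).sub (Good.coord_inv L k)

/-- The family of matrices attached to a unit valued function νf and three hyperbola modes. -/
noncomputable def Nfam (a b c : Fin 3 → ℂ) (νf : (ι → ℂˣ) → ℂˣ) (k : Fin 3 → ι)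
    (m : Fin 3 → Bool) (s : ι → ℂˣ) : Matrix (Fin 3) (Fin 3) ℂ :=
  Nd a b c (νf s) (((νf s)⁻¹ : ℂˣ) : ℂ)
    (hx (m 0) (s (k 0))) (hy (m 0) (c 0 * νf s - c 0 * c 1) (s (k 0)))
    (hx (m 1) (s (k 1))) (hy (m 1) (a 2 * b 2 * νf s - a 1 * b 1 * a 2 * b 2) (s (k 1)))
    (hx (m 2) (s (k 2))) (hy (m 2) (c 0 * c 1 * (a 1 * b 1 * a 2 * b 2) - νf s) (s (k 2)))

theorem GoodM.Nfam {a b c : Fin 3 → ℂ} (ha : ∀ i, a i ∈ ringO L) (hb : ∀ i, b i ∈ ringO L)
    (hc : ∀ i, c i ∈ ringO L) {νf : (ι → ℂˣ) → ℂˣ} (hν : Good L (fun s => (νf s : ℂ)))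
    (hνi : Good L (fun s => (((νf s)⁻¹ : ℂˣ) : ℂ))) (k : Fin 3 → ι) (m : Fin 3 → Bool) :
    GoodM L (Nfam a b c νf k m) := by
  have hca : ∀ i, Good L (fun _ : ι → ℂˣ => a i) := fun i => Good.const (ha i)
  have hcb : ∀ i, Good L (fun _ : ι → ℂˣ => b i) := fun i => Good.const (hb i)
  have hcc : ∀ i, Good L (fun _ : ι → ℂˣ => c i) := fun i => Good.const (hc i)
  have hy0 : Good L (fun s : ι → ℂˣ => hy (m 0) (c 0 * νf s - c 0 * c 1) (s (k 0))) :=
    Good.hy (m 0) (((hcc 0).mul hν).sub ((hcc 0).mul (hcc 1))) (k 0)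
  have hy1 : Good L (fun s : ι → ℂˣ =>
      hy (m 1) (a 2 * b 2 * νf s - a 1 * b 1 * a 2 * b 2) (s (k 1))) :=
    Good.hy (m 1) ((((hca 2).mul (hcb 2)).mul hν).sub
      ((((hca 1).mul (hcb 1)).mul (hca 2)).mul (hcb 2))) (k 1)
  have hy2 : Good L (fun s : ι → ℂˣ =>
      hy (m 2) (c 0 * c 1 * (a 1 * b 1 * a 2 * b 2) - νf s) (s (k 2))) :=
    Good.hy (m 2) ((((hcc 0).mul (hcc 1)).mul
      ((((hca 1).mul (hcb 1)).mul (hca 2)).mul (hcb 2))).sub hν) (k 2)
  intro i j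
  fin_cases i <;> fin_cases j <;>
    first
    | exact hcc 0
    | exact Good.hx (m 0) (k 0)
    | exact ((Good.hx (m 2) (k 2)).add ((Good.hx (m 0) (k 0)).mul (Good.hx (m 1) (k 1)))).mul hνi
    | exact hy0
    | exact hν
    | exact Good.hx (m 1) (k 1)
    | exact (hy2.add (hy0.mul hy1)).mul hνi
    | exact hy1
    | exact (hca 2).mul (hcb 2)

/-- N has the prescribed principal minors and determinant one. -/
def IsChartMatrix (a b c : Fin 3 → ℂ) (N : Matrix (Fin 3) (Fin 3) ℂ) : Prop :=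
  N 0 0 = c 0 ∧ N 2 2 = a 2 * b 2 ∧ N 0 1 * N 1 0 = c 0 * N 1 1 - c 0 * c 1 ∧
    N 1 2 * N 2 1 = a 2 * b 2 * N 1 1 - a 1 * b 1 * a 2 * b 2 ∧ N.det = 1

theorem isChartMatrix_Nd (a b c : Fin 3 → ℂ) (ν νi x1 y1 x2 y2 x3 y3 : ℂ) (hν : ν * νi = 1)
    (R1 : x1 * y1 = c 0 * ν - c 0 * c 1)
    (R2 : x2 * y2 = a 2 * b 2 * ν - a 1 * b 1 * a 2 * b 2)
    (R3 : x3 * y3 = c 0 * c 1 * (a 1 * b 1 * a 2 * b 2) - ν) :
    IsChartMatrix a b c (Nd a b c ν νi x1 y1 x2 y2 x3 y3) :=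
  ⟨by simp [Nd], by simp [Nd], by simpa [Nd] using R1, by simpa [Nd] using R2,
    Nd_det a b c ν νi x1 y1 x2 y2 x3 y3 hν R1 R2 R3⟩

omit [Fintype ι] in
theorem isChartMatrix_Nfam (a b c : Fin 3 → ℂ) (νf : (ι → ℂˣ) → ℂˣ) (k : Fin 3 → ι)
    (m : Fin 3 → Bool)
    (h0 : m 0 = true → ∀ s, c 0 * (νf s : ℂ) - c 0 * c 1 = 0)
    (h1 : m 1 = true → ∀ s, a 2 * b 2 * (νf s : ℂ) - a 1 * b 1 * a 2 * b 2 = 0)
    (h2 : m 2 = true → ∀ s, c 0 * c 1 * (a 1 * b 1 * a 2 * b 2) - (νf s : ℂ) = 0)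
    (s : ι → ℂˣ) : IsChartMatrix a b c (Nfam a b c νf k m s) :=
  isChartMatrix_Nd a b c _ _ _ _ _ _ _ _ (Units.mul_inv _)
    (hx_mul_hy _ _ _ fun h => h0 h s) (hx_mul_hy _ _ _ fun h => h1 h s)
    (hx_mul_hy _ _ _ fun h => h2 h s)

/-- The family of matrices with central entry zero. -/
noncomputable def Nzfam (a b c : Fin 3 → ℂ) (s : Fin 3 → ℂˣ) : Matrix (Fin 3) (Fin 3) ℂ :=
  Nz a b c (s 0) (((s 0)⁻¹ : ℂˣ) : ℂ) (s 1) (((s 1)⁻¹ : ℂˣ) : ℂ)
    ((s 2 : ℂ) - (((s 2)⁻¹ : ℂˣ) : ℂ))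

theorem isChartMatrix_Nzfam (a b c : Fin 3 → ℂ) (s : Fin 3 → ℂˣ) :
    IsChartMatrix a b c (Nzfam a b c s) :=
  ⟨by simp [Nzfam, Nz], by simp [Nzfam, Nz],
    by simp only [Nzfam, Nz]; simp; field_simp,
    by simp only [Nzfam, Nz]; simp; field_simp,
    Nz_det a b c _ _ _ _ _ (Units.mul_inv _) (Units.mul_inv _)⟩

theorem GoodM.Nzfam {a b c : Fin 3 → ℂ} (ha : ∀ i, a i ∈ ringO L) (hb : ∀ i, b i ∈ ringO L)
    (hc : ∀ i, c i ∈ ringO L) : GoodM L (Nzfam a b c) := by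
  have hca : ∀ i, Good L (fun _ : Fin 3 → ℂˣ => a i) := fun i => Good.const (ha i)
  have hcb : ∀ i, Good L (fun _ : Fin 3 → ℂˣ => b i) := fun i => Good.const (hb i)
  have hcc : ∀ i, Good L (fun _ : Fin 3 → ℂˣ => c i) := fun i => Good.const (hc i)
  have hT : Good L (fun _ : Fin 3 → ℂˣ => a 1 * b 1 * a 2 * b 2) :=
    (((hca 1).mul (hcb 1)).mul (hca 2)).mul (hcb 2)
  have hone : Good L (fun _ : Fin 3 → ℂˣ => (1 : ℂ)) := Good.const (Subring.one_mem _)
  have hz : Good L (fun s : Fin 3 → ℂˣ => (s 2 : ℂ) - (((s 2)⁻¹ : ℂˣ) : ℂ)) :=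
    (Good.coord L 2).sub (Good.coord_inv L 2)
  intro i j
  fin_cases i <;> fin_cases j <;>
    first
    | exact hcc 0
    | exact Good.coord L 0
    | exact hz
    | exact (((hcc 0).mul (hcc 1)).neg).mul (Good.coord_inv L 0)
    | exact Good.const (Subring.zero_mem _)
    | exact Good.coord L 1
    | exact ((((hone.sub ((hcc 0).mul hT)).sub (((hcc 0).mul (hcc 1)).mul ((hca 2).mul (hcb 2)))).sub
        (((hz.mul (((hcc 0).mul (hcc 1)).mul hT)).mul (Good.coord_inv L 0)).mul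
          (Good.coord_inv L 1))).mul (Good.coord_inv L 0)).mul (Good.coord_inv L 1)
    | exact hT.neg.mul (Good.coord_inv L 1)
    | exact (hca 2).mul (hcb 2)

end Families

theorem charpoly_upper (X : Matrix (Fin 3) (Fin 3) ℂ) (a : Fin 3 → ℂ) (h10 : X 1 0 = 0)
    (h20 : X 2 0 = 0) (h21 : X 2 1 = 0) (hd : ∀ i, X i i = a i) :
    X.charpoly = ∏ i, (Polynomial.X - Polynomial.C (a i)) := by
  have hX : X.IsUpperTriangular := by
    intro i j hij
    fin_cases i <;> fin_cases j <;>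
      first | exact h10 | exact h20 | exact h21 | (exfalso; revert hij; decide)
  rw [Matrix.charpoly_of_isUpperTriangular X hX]
  exact Finset.prod_congr rfl fun i _ => by rw [hd]

theorem charpoly_lower (X : Matrix (Fin 3) (Fin 3) ℂ) (a : Fin 3 → ℂ) (h01 : X 0 1 = 0)
    (h02 : X 0 2 = 0) (h12 : X 1 2 = 0) (hd : ∀ i, X i i = a i) :
    X.charpoly = ∏ i, (Polynomial.X - Polynomial.C (a i)) := by
  rw [← Matrix.charpoly_transpose]
  exact charpoly_upper Xᵀ a h01 h02 h12 hd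

theorem charpoly_conj (G G' X : Matrix (Fin 3) (Fin 3) ℂ) (h : G' * G = 1) :
    (G * X * G').charpoly = X.charpoly := by
  rw [Matrix.mul_assoc, Matrix.charpoly_mul_comm, Matrix.mul_assoc, h, Matrix.mul_one]

theorem charpoly_Um_mul_Pm (a b c : Fin 3 → ℂ) (N : Matrix (Fin 3) (Fin 3) ℂ) :
    (Um c N * Pm a b N).charpoly = ∏ i, (Polynomial.X - Polynomial.C (a i)) := by
  refine charpoly_upper _ a ?_ ?_ ?_ fun i => ?_
  · simp [Um, Pm, Matrix.mul_apply, Fin.sum_univ_three]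
  · simp [Um, Pm, Matrix.mul_apply, Fin.sum_univ_three]
  · simp [Um, Pm, Matrix.mul_apply, Fin.sum_univ_three]
  · fin_cases i <;> simp [Um, Pm, Matrix.mul_apply, Fin.sum_univ_three]

theorem charpoly_Bm (a b : Fin 3 → ℂ) (N : Matrix (Fin 3) (Fin 3) ℂ) :
    (Bm a b N).charpoly = ∏ i, (Polynomial.X - Polynomial.C (b i)) := by
  refine charpoly_lower _ b ?_ ?_ ?_ fun i => ?_
  · simp [Bm]
  · simp [Bm]
  · simp [Bm]
  · fin_cases i <;> simp [Bm]

theorem charpoly_chart (a b c : Fin 3 → ℂ) (ha : a 0 * a 1 * a 2 = 1) (hb : b 0 * b 1 * b 2 = 1)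
    (hc : c 0 * c 1 * c 2 = 1) (N : Matrix (Fin 3) (Fin 3) ℂ) (hN : IsChartMatrix a b c N) :
    (Um c N * Pm a b N * Bm a b N).charpoly = ∏ i, (Polynomial.X - Polynomial.C (c i)) := by
  obtain ⟨h00, h22, h1, h2, hdet⟩ := hN
  rw [Matrix.mul_assoc, Pm_mul_Bm a b ha hb N h22 h2 hdet, Matrix.charpoly_mul_comm]
  obtain ⟨e01, e02, e12, ed⟩ := mul_Um_apply c hc N h00 h1 hdet
  exact charpoly_lower _ c e01 e02 e12 ed

/-- The coordinates of a pair of 3 x 3 matrices. -/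
def pairEnc (A B : Matrix (Fin 3) (Fin 3) ℂ) : Fin 2 × Fin 3 × Fin 3 → ℂ :=
  fun x => ![A, B] x.1 x.2.1 x.2.2

theorem fundUnit_mem_unitsO_of_mem {L : IntermediateField ℚ ℂ} (hL : sqrtTwo ∈ L) :
    fundUnit ∈ unitsO L := by
  refine ⟨?_, ?_, ?_⟩
  · exact L.add_mem L.one_mem hL
  · exact isIntegral_one.add isIntegral_sqrtTwo
  · exact isIntegral_sqrtTwo.sub isIntegral_one

theorem inv_mem_ringO_of_prod {L : IntermediateField ℚ ℂ} {a : Fin 3 → ℂ}
    (ha1 : a 0 * a 1 * a 2 = 1) (ha : ∀ i, a i ∈ ringO L) (i : Fin 3) : (a i)⁻¹ ∈ ringO L := by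
  obtain ⟨h0, h1, h2⟩ := ne_zero_of_prod ha1
  fin_cases i
  · have : (a 0)⁻¹ = a 1 * a 2 := by field_simp; linear_combination -ha1
    change (a 0)⁻¹ ∈ ringO L
    rw [this]
    exact Subring.mul_mem _ (ha 1) (ha 2)
  · have : (a 1)⁻¹ = a 0 * a 2 := by field_simp; linear_combination -ha1
    change (a 1)⁻¹ ∈ ringO L
    rw [this]
    exact Subring.mul_mem _ (ha 0) (ha 2)
  · have : (a 2)⁻¹ = a 0 * a 1 := by field_simp; linear_combination -ha1
    change (a 2)⁻¹ ∈ ringO L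
    rw [this]
    exact Subring.mul_mem _ (ha 0) (ha 1)

/-- A polynomial vanishing at the integral pairs with the prescribed characteristic polynomials
vanishes on the conjugates of a Good family of chart pairs. -/
theorem density_of_family {L : IntermediateField ℚ ℂ} (hL : sqrtTwo ∈ L) (a b c : Fin 3 → ℂ)
    (ha1 : a 0 * a 1 * a 2 = 1) (hb1 : b 0 * b 1 * b 2 = 1) (hc1 : c 0 * c 1 * c 2 = 1)
    (ha : ∀ i, a i ∈ ringO L) (hb : ∀ i, b i ∈ ringO L) (hc : ∀ i, c i ∈ ringO L)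
    (P : MvPolynomial (Fin 2 × Fin 3 × Fin 3) ℂ)
    (hP : ∀ A B : Matrix (Fin 3) (Fin 3) ℂ, (∀ i j, A i j ∈ ringO L) →
      (∀ i j, B i j ∈ ringO L) →
      A.charpoly = ∏ i, (Polynomial.X - Polynomial.C (a i)) →
      B.charpoly = ∏ i, (Polynomial.X - Polynomial.C (b i)) →
      (A * B).charpoly = ∏ i, (Polynomial.X - Polynomial.C (c i)) → eval (pairEnc A B) P = 0)
    {ι : Type} [Fintype ι] (Nf : (ι → ℂˣ) → Matrix (Fin 3) (Fin 3) ℂ) (hgood : GoodM L Nf)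
    (hspec : ∀ s, IsChartMatrix a b c (Nf s)) (g g' : Matrix (Fin 3) (Fin 3) ℂ)
    (hg : g * g' = 1) (s : ι → ℂˣ) :
    eval (pairEnc (g * (Um c (Nf s) * Pm a b (Nf s)) * g') (g * Bm a b (Nf s) * g')) P = 0 := by
  have hai := inv_mem_ringO_of_prod ha1 ha
  have hbi := inv_mem_ringO_of_prod hb1 hb
  have hci := inv_mem_ringO_of_prod hc1 hc
  have hgdet : g.det ≠ 0 := by
    intro h0
    have := congrArg Matrix.det hg
    rw [Matrix.det_mul, h0, zero_mul, Matrix.det_one] at this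
    exact zero_ne_one this
  obtain ⟨κ, _, G, G', hG, hG', hinv, hint, -, s₀, hs₀⟩ := Param.of_det_ne_zero L g hgdet
  have hinv' : ∀ t, G' t * G t = 1 := fun t => mul_eq_one_comm.mp (hinv t)
  have hg' : G' s₀ = g' := by
    have h1 := hinv s₀
    rw [hs₀] at h1
    calc G' s₀ = (g' * g) * G' s₀ := by rw [mul_eq_one_comm.mp hg, Matrix.one_mul]
      _ = g' * (g * G' s₀) := Matrix.mul_assoc _ _ _
      _ = g' := by rw [h1, Matrix.mul_one]
  have hGG : GoodM L G := fun i j => ⟨hG i j, fun t ht => (hint t ht i j).1⟩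
  have hGG' : GoodM L G' := fun i j => ⟨hG' i j, fun t ht => (hint t ht i j).2⟩
  let FA : (κ ⊕ ι → ℂˣ) → Matrix (Fin 3) (Fin 3) ℂ := fun t =>
    G (t ∘ Sum.inl) * (Um c (Nf (t ∘ Sum.inr)) * Pm a b (Nf (t ∘ Sum.inr))) * G' (t ∘ Sum.inl)
  let FB : (κ ⊕ ι → ℂˣ) → Matrix (Fin 3) (Fin 3) ℂ := fun t =>
    G (t ∘ Sum.inl) * Bm a b (Nf (t ∘ Sum.inr)) * G' (t ∘ Sum.inl)
  have hFA : GoodM L FA :=
    ((hGG.comp_injective Sum.inl Sum.inl_injective).mul
      (((GoodM.Um hci hgood).mul (GoodM.Pm ha hai hbi hgood)).comp_injective Sum.inr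
        Sum.inr_injective)).mul (hGG'.comp_injective Sum.inl Sum.inl_injective)
  have hFB : GoodM L FB :=
    ((hGG.comp_injective Sum.inl Sum.inl_injective).mul
      ((GoodM.Bm hb hai hbi hgood).comp_injective Sum.inr Sum.inr_injective)).mul
        (hGG'.comp_injective Sum.inl Sum.inl_injective)
  have hLau : IsLaurent (fun t => eval (pairEnc (FA t) (FB t)) P) := by
    refine IsLaurent.eval_comp P fun x => ?_
    obtain ⟨e, i, j⟩ := x
    fin_cases e
    · exact (hFA i j).1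
    · exact (hFB i j).1
  have hzero : ∀ t : κ ⊕ ι → ℂˣ, (∀ k, t k ∈ Set.range (fun n : ℕ => fundUnit ^ n)) →
      eval (pairEnc (FA t) (FB t)) P = 0 := by
    intro t ht
    have htU : ∀ k, t k ∈ unitsO L := by
      intro k
      obtain ⟨n, hn⟩ := ht k
      rw [← hn]
      exact (unitsO L).pow_mem (fundUnit_mem_unitsO_of_mem hL) n
    refine hP (FA t) (FB t) (fun i j => (hFA i j).2 t htU) (fun i j => (hFB i j).2 t htU) ?_ ?_ ?_
    · rw [charpoly_conj _ _ _ (hinv' _)]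
      exact charpoly_Um_mul_Pm a b c _
    · rw [charpoly_conj _ _ _ (hinv' _)]
      exact charpoly_Bm a b _
    · have hmul : FA t * FB t = G (t ∘ Sum.inl) *
          (Um c (Nf (t ∘ Sum.inr)) * Pm a b (Nf (t ∘ Sum.inr)) * Bm a b (Nf (t ∘ Sum.inr))) *
          G' (t ∘ Sum.inl) := by
        simp only [FA, FB, Matrix.mul_assoc]
        rw [← Matrix.mul_assoc (G' (t ∘ Sum.inl)) (G (t ∘ Sum.inl)), hinv', Matrix.one_mul]
      rw [hmul, charpoly_conj _ _ _ (hinv' _)]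
      exact charpoly_chart a b c ha1 hb1 hc1 _ (hspec _)
  have h0 := hLau.eq_zero_of_infinite _ infinite_powers_fundUnit hzero (Sum.elim s₀ s)
  have e1 : (Sum.elim s₀ s) ∘ Sum.inl = s₀ := rfl
  have e2 : (Sum.elim s₀ s) ∘ Sum.inr = s := rfl
  simp only [FA, FB, e1, e2, hs₀, hg'] at h0
  exact h0

/-- Every matrix Nd attached to complex data lies in a Good family of chart matrices. -/
theorem exists_family_of_data {L : IntermediateField ℚ ℂ} (a b c : Fin 3 → ℂ)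
    (ha1 : a 0 * a 1 * a 2 = 1) (hb1 : b 0 * b 1 * b 2 = 1) (hc1 : c 0 * c 1 * c 2 = 1)
    (ha : ∀ i, a i ∈ ringO L) (hb : ∀ i, b i ∈ ringO L) (hc : ∀ i, c i ∈ ringO L)
    (ν x1 y1 x2 y2 x3 y3 : ℂ) (hν : ν ≠ 0)
    (R1 : x1 * y1 = c 0 * ν - c 0 * c 1)
    (R2 : x2 * y2 = a 2 * b 2 * ν - a 1 * b 1 * a 2 * b 2)
    (R3 : x3 * y3 = c 0 * c 1 * (a 1 * b 1 * a 2 * b 2) - ν) :
    ∃ (ι : Type) (_ : Fintype ι) (Nf : (ι → ℂˣ) → Matrix (Fin 3) (Fin 3) ℂ),
      GoodM L Nf ∧ (∀ s, IsChartMatrix a b c (Nf s)) ∧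
        ∃ s, Nf s = Nd a b c ν ν⁻¹ x1 y1 x2 y2 x3 y3 := by
  obtain ⟨ha0, ha1', ha2⟩ := ne_zero_of_prod ha1
  obtain ⟨hb0, hb1', hb2⟩ := ne_zero_of_prod hb1
  obtain ⟨hc0, hc1', hc2⟩ := ne_zero_of_prod hc1
  have hai := inv_mem_ringO_of_prod ha1 ha
  have hbi := inv_mem_ringO_of_prod hb1 hb
  have hci := inv_mem_ringO_of_prod hc1 hc
  obtain ⟨m0, t0, hm0, hx0, hy0⟩ := exists_hx_hy x1 y1 _ R1
  obtain ⟨m1, t1, hm1, hx1, hy1⟩ := exists_hx_hy x2 y2 _ R2
  obtain ⟨m2, t2, hm2, hx2, hy2⟩ := exists_hx_hy x3 y3 _ R3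
  by_cases hall : m0 = false ∧ m1 = false ∧ m2 = false
  · obtain ⟨rfl, rfl, rfl⟩ := hall
    refine ⟨Fin 4, inferInstance, Nfam a b c (fun s => s 0) ![1, 2, 3] (fun _ => false),
      GoodM.Nfam ha hb hc (Good.coord L 0) (Good.coord_inv L 0) _ _,
      fun s => isChartMatrix_Nfam a b c _ _ _ (by simp) (by simp) (by simp) s,
      ![Units.mk0 ν hν, t0, t1, t2], ?_⟩
    simp [Nfam, hx0, hy0, hx1, hy1, hx2, hy2]
  · have hνO : ν ∈ ringO L ∧ ν⁻¹ ∈ ringO L := by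
      have hcase : m0 = true ∨ m1 = true ∨ m2 = true := by
        by_contra hcon
        simp only [not_or, Bool.not_eq_true] at hcon
        exact hall hcon
      rcases hcase with h | h | h
      · have e : ν = c 1 := by
          have := hm0 h
          have h3 : c 0 * (ν - c 1) = 0 := by linear_combination this
          rcases mul_eq_zero.mp h3 with h4 | h4
          · exact absurd h4 hc0
          · exact sub_eq_zero.mp h4
        rw [e]
        exact ⟨hc 1, hci 1⟩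
      · have e : ν = a 1 * b 1 := by
          have := hm1 h
          have h3 : a 2 * b 2 * (ν - a 1 * b 1) = 0 := by linear_combination this
          rcases mul_eq_zero.mp h3 with h4 | h4
          · exact absurd h4 (mul_ne_zero ha2 hb2)
          · exact sub_eq_zero.mp h4
        rw [e, mul_inv]
        exact ⟨Subring.mul_mem _ (ha 1) (hb 1), Subring.mul_mem _ (hai 1) (hbi 1)⟩
      · have e : ν = c 0 * c 1 * (a 1 * b 1 * a 2 * b 2) := by
          have := hm2 h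
          linear_combination -this
        rw [e]
        simp only [mul_inv]
        exact ⟨Subring.mul_mem _ (Subring.mul_mem _ (hc 0) (hc 1))
            (Subring.mul_mem _ (Subring.mul_mem _ (Subring.mul_mem _ (ha 1) (hb 1)) (ha 2)) (hb 2)),
          Subring.mul_mem _ (Subring.mul_mem _ (hci 0) (hci 1))
            (Subring.mul_mem _ (Subring.mul_mem _ (Subring.mul_mem _ (hai 1) (hbi 1)) (hai 2))
              (hbi 2))⟩
    refine ⟨Fin 3, inferInstance,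
      Nfam a b c (fun _ => Units.mk0 ν hν) ![0, 1, 2] ![m0, m1, m2],
      GoodM.Nfam ha hb hc (by simpa using Good.const hνO.1) (by simpa using Good.const hνO.2) _ _,
      fun s => isChartMatrix_Nfam a b c _ _ _ (fun h _ => by simpa using hm0 (by simpa using h))
        (fun h _ => by simpa using hm1 (by simpa using h))
        (fun h _ => by simpa using hm2 (by simpa using h)) s,
      ![t0, t1, t2], ?_⟩
    simp [Nfam, hx0, hy0, hx1, hy1, hx2, hy2]

/-- Density of integral points in the chart: a polynomial vanishing at all integral pairs with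
the prescribed characteristic polynomials vanishes at every pair of the chart. -/
theorem density_pants_chart {L : IntermediateField ℚ ℂ} (hL : sqrtTwo ∈ L) (a b c : Fin 3 → ℂ)
    (ha1 : a 0 * a 1 * a 2 = 1) (hb1 : b 0 * b 1 * b 2 = 1)
    (ha : ∀ i, a i ∈ ringO L) (hb : ∀ i, b i ∈ ringO L) (hc : ∀ i, c i ∈ ringO L)
    (P : MvPolynomial (Fin 2 × Fin 3 × Fin 3) ℂ)
    (hP : ∀ A B : Matrix (Fin 3) (Fin 3) ℂ, (∀ i j, A i j ∈ ringO L) →
      (∀ i j, B i j ∈ ringO L) →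
      A.charpoly = ∏ i, (Polynomial.X - Polynomial.C (a i)) →
      B.charpoly = ∏ i, (Polynomial.X - Polynomial.C (b i)) →
      (A * B).charpoly = ∏ i, (Polynomial.X - Polynomial.C (c i)) → eval (pairEnc A B) P = 0)
    (g g' A B U M : Matrix (Fin 3) (Fin 3) ℂ) (hg : g * g' = 1)
    (hA : A.IsUpperTriangular) (hAd : ∀ i, A i i = a i)
    (hB : B.IsLowerTriangular) (hBd : ∀ i, B i i = b i)
    (hU : U.IsUpperTriangular) (hUd : ∀ i, U i i = 1)
    (hM : M.IsLowerTriangular) (hMd : ∀ i, M i i = c i) (h : A * B * U = U * M) :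
    eval (pairEnc (g * A * g') (g * B * g')) P = 0 := by
  obtain ⟨N, hc1, h00, h22, h1, h2, hdet, rfl, rfl⟩ :=
    chart_bwd a b c ha1 hb1 A B U M hA hAd hB hBd hU hUd hM hMd h
  by_cases hν : N 1 1 = 0
  · obtain ⟨h01, h12, hN⟩ := Nz_eq a b c ha1 hb1 hc1 N h00 h22 h1 h2 hdet hν
    obtain ⟨t, ht⟩ := exists_unit_sub_inv (N 0 2)
    have hfam := density_of_family hL a b c ha1 hb1 hc1 ha hb hc P hP (Nzfam a b c)
      (GoodM.Nzfam ha hb hc) (isChartMatrix_Nzfam a b c) g g' hg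
      ![Units.mk0 _ h01, Units.mk0 _ h12, t]
    have e : Nzfam a b c ![Units.mk0 _ h01, Units.mk0 _ h12, t] = N := by
      refine Eq.trans ?_ hN.symm
      have ht' : (t : ℂ) - (t : ℂ)⁻¹ = N 0 2 := by simpa using ht
      simp [Nzfam, ht']
    rw [e] at hfam
    exact hfam
  · have hNd := Nd_eq a b c N h00 h22 hν
    have hR3 := Nd_R3 a b c N h00 h22 h1 h2 hdet
    obtain ⟨ι, _, Nf, hgood, hspec, s, hs⟩ := exists_family_of_data (L := L) a b c ha1 hb1 hc1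
      ha hb hc (N 1 1) (N 0 1) (N 1 0) (N 1 2) (N 2 1) _ _ hν h1 h2 hR3
    have hfam := density_of_family hL a b c ha1 hb1 hc1 ha hb hc P hP Nf hgood hspec g g' hg s
    rw [hs, ← hNd] at hfam
    exact hfam

end Vale.Agent.Lib.P002
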