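import Vale.Agent.Lib.P002.PantsChart
import Mathlib.LinearAlgebra.CrossProduct

/-!
Every pair (A, B) of complex 3 x 3 matrices such that A, B and A * B have simple eigenvalues lies
in one of the charts of `PantsChart`: there are an A-stable flag, a B-stable flag opposite to it
and an AB-stable flag opposite to the A-stable flag.
-/

namespace Vale.Agent.Lib.P002

open MvPolynomial Matrix Module

/-- A matrix whose characteristic polynomial has simple roots has a basis of eigenvectors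
(the columns of S) and a dual basis of left eigenvectors (the rows of S'). -/
theorem exists_eigen_of_charpoly (X : Matrix (Fin 3) (Fin 3) ℂ) (x : Fin 3 → ℂ)
    (hx : Function.Injective x)
    (hX : X.charpoly = ∏ i, (Polynomial.X - Polynomial.C (x i))) :
    ∃ S S' : Matrix (Fin 3) (Fin 3) ℂ, S' * S = 1 ∧
      (∀ i, ∃ μ : ℂ, X *ᵥ (fun k => S k i) = μ • fun k => S k i) ∧
      (∀ j, ∃ μ : ℂ, (fun k => S' j k) ᵥ* X = μ • fun k => S' j k) := by
  classical
  let f : Module.End ℂ (Fin 3 → ℂ) := Matrix.toLin' X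
  have hss : f.IsSemisimple := by
    refine Module.End.isSemisimple_of_squarefree_aeval_eq_zero
      (p := X.charpoly) ?_ ?_
    · rw [hX]
      exact (Polynomial.separable_prod_X_sub_C_iff.mpr hx).squarefree
    · have h1 : Polynomial.aeval X X.charpoly = 0 := Matrix.aeval_self_charpoly X
      have h2 := Polynomial.aeval_algHom_apply (Matrix.toLinAlgEquiv' : _ ≃ₐ[ℂ] _).toAlgHom X
        X.charpoly
      rw [h1] at h2
      simp only [map_zero] at h2
      exact h2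
  have htop := hss.iSup_eigenspace_eq_top
  let T : Set (Fin 3 → ℂ) := {v | v ≠ 0 ∧ ∃ μ : ℂ, f v = μ • v}
  have hspan : Submodule.span ℂ T = ⊤ := by
    rw [eq_top_iff, ← htop]
    refine iSup_le fun μ v hv => ?_
    by_cases hv0 : v = 0
    · rw [hv0]; exact Submodule.zero_mem _
    · exact Submodule.subset_span ⟨hv0, μ, Module.End.mem_eigenspace_iff.mp hv⟩
  obtain ⟨b, hbS, hbspan, hbli⟩ := exists_linearIndependent ℂ T
  have hbtop : ⊤ ≤ Submodule.span ℂ (Set.range ((↑) : b → Fin 3 → ℂ)) := by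
    rw [Subtype.range_coe, hbspan, hspan]
  let bs : Basis b ℂ (Fin 3 → ℂ) := Basis.mk hbli hbtop
  have hfin : Finite b := Module.Finite.finite_basis bs
  have hfint : Fintype b := Fintype.ofFinite b
  have hcard : Fintype.card b = 3 := by
    rw [← Module.finrank_eq_card_basis bs]
    simp
  let e : Fin 3 ≃ b := (Fintype.equivFinOfCardEq hcard).symm
  let bs' : Basis (Fin 3) ℂ (Fin 3 → ℂ) := bs.reindex e.symm
  have hbs' : ∀ i, bs' i = (e i : Fin 3 → ℂ) := by
    intro i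
    simp [bs', bs]
  have heig : ∀ i, ∃ μ : ℂ, f (bs' i) = μ • bs' i := by
    intro i
    rw [hbs']
    exact (hbS (e i).2).2
  choose D hD using heig
  set S : Matrix (Fin 3) (Fin 3) ℂ := (Pi.basisFun ℂ (Fin 3)).toMatrix bs' with hS
  set S' : Matrix (Fin 3) (Fin 3) ℂ := bs'.toMatrix (Pi.basisFun ℂ (Fin 3)) with hS'
  have hSS' : S * S' = 1 := Basis.toMatrix_mul_toMatrix_flip _ _
  have hS'S : S' * S = 1 := mul_eq_one_comm.mp hSS'
  have hXS : X * S = S * Matrix.diagonal D := by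
    ext a i
    rw [Matrix.mul_diagonal]
    have h3 := congrFun (hD i) a
    simp only [f, Matrix.toLin'_apply, Pi.smul_apply, smul_eq_mul] at h3
    simp only [Matrix.mul_apply, hS, Basis.toMatrix_apply, Pi.basisFun_repr]
    simp only [Matrix.mulVec, dotProduct] at h3
    rw [h3, mul_comm]
  have hS'X : S' * X = Matrix.diagonal D * S' := by
    calc S' * X = S' * X * (S * S') := by rw [hSS', Matrix.mul_one]
      _ = S' * (X * S) * S' := by simp only [Matrix.mul_assoc]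
      _ = (S' * S) * Matrix.diagonal D * S' := by rw [hXS]; simp only [Matrix.mul_assoc]
      _ = Matrix.diagonal D * S' := by rw [hS'S, Matrix.one_mul]
  refine ⟨S, S', hS'S, fun i => ⟨D i, ?_⟩, fun j => ⟨D j, ?_⟩⟩
  · funext k
    have h := congrFun (congrFun hXS k) i
    rw [Matrix.mul_diagonal] at h
    simp only [Matrix.mulVec, dotProduct, Pi.smul_apply, smul_eq_mul]
    rw [Matrix.mul_apply] at h
    rw [h, mul_comm]
  · funext k
    have h := congrFun (congrFun hS'X j) k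
    rw [Matrix.diagonal_mul] at h
    simp only [Matrix.vecMul, dotProduct, Pi.smul_apply, smul_eq_mul]
    rw [Matrix.mul_apply] at h
    rw [h]

/-- Selection of a pair of indices in two mutually inverse matrices. -/
theorem exists_ne_of_mul_eq_one {n : Type*} [Fintype n] [DecidableEq n] (T T' : Matrix n n ℂ)
    (h : T' * T = 1) (i j : n) (hij : i ≠ j) : ∃ k l, k ≠ l ∧ T' j k ≠ 0 ∧ T l i ≠ 0 := by
  by_contra hcon
  push Not at hcon
  have h1 : ∃ k0, T' j k0 ≠ 0 := by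
    by_contra h0
    push Not at h0
    have := congrFun (congrFun h j) j
    simp [Matrix.mul_apply, h0] at this
  have h2 : ∃ l0, T l0 i ≠ 0 := by
    by_contra h0
    push Not at h0
    have := congrFun (congrFun h i) i
    simp [Matrix.mul_apply, h0] at this
  obtain ⟨k0, hk0⟩ := h1
  obtain ⟨l0, hl0⟩ := h2
  have hkl : k0 = l0 := by
    by_contra hne
    exact hl0 (hcon k0 l0 hne hk0)
  subst hkl
  have h3 := congrFun (congrFun h j) i
  rw [Matrix.mul_apply, Matrix.one_apply_ne (Ne.symm hij)] at h3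
  rw [Finset.sum_eq_single k0] at h3
  · exact (mul_ne_zero hk0 hl0) h3
  · intro b _ hb
    by_cases hb0 : T' j b = 0
    · simp [hb0]
    · exact absurd (hcon b k0 hb hb0) hl0
  · intro hk
    exact absurd (Finset.mem_univ _) hk


theorem isUpperTriangular_of (X : Matrix (Fin 3) (Fin 3) ℂ) (h10 : X 1 0 = 0) (h20 : X 2 0 = 0)
    (h21 : X 2 1 = 0) : X.IsUpperTriangular := by
  intro i j hij
  fin_cases i <;> fin_cases j <;>
    first | exact h10 | exact h20 | exact h21 | (exfalso; revert hij; decide)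

theorem isLowerTriangular_of (X : Matrix (Fin 3) (Fin 3) ℂ) (h01 : X 0 1 = 0) (h02 : X 0 2 = 0)
    (h12 : X 1 2 = 0) : X.IsLowerTriangular := by
  intro i j hij
  fin_cases i <;> fin_cases j <;>
    first | exact h01 | exact h02 | exact h12 | (exfalso; revert hij; decide)

theorem conj_apply_of_mulVec (h A g : Matrix (Fin 3) (Fin 3) ℂ) (i j : Fin 3) (μ : ℂ)
    (hA : A *ᵥ (fun k => g k j) = μ • fun k => g k j) : (h * A * g) i j = μ * (h * g) i j := by
  have e : ∀ k, (A * g) k j = μ * g k j := fun k => by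
    have := congrFun hA k
    simpa [Matrix.mulVec, dotProduct, Matrix.mul_apply] using this
  rw [Matrix.mul_assoc, Matrix.mul_apply, Matrix.mul_apply, Finset.mul_sum]
  exact Finset.sum_congr rfl fun k _ => by rw [e]; ring

theorem conj_apply_of_vecMul (h A g : Matrix (Fin 3) (Fin 3) ℂ) (i j : Fin 3) (μ : ℂ)
    (hA : (fun k => h i k) ᵥ* A = μ • fun k => h i k) : (h * A * g) i j = μ * (h * g) i j := by
  have e : ∀ k, (h * A) i k = μ * h i k := fun k => by
    have := congrFun hA k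
    simpa [Matrix.vecMul, dotProduct, Matrix.mul_apply] using this
  rw [Matrix.mul_apply, Matrix.mul_apply, Finset.mul_sum]
  exact Finset.sum_congr rfl fun k _ => by rw [e]; ring

/-- Two opposite flags, stable under A and B, give a basis in which A is upper triangular and B
is lower triangular. -/
theorem exists_basis_of_flags (A B : Matrix (Fin 3) (Fin 3) ℂ) (a φ b ψ : Fin 3 → ℂ)
    (l1 l2 m1 m2 : ℂ)
    (ha : A *ᵥ a = l1 • a) (hφ : φ ᵥ* A = l2 • φ) (hφa : φ ⬝ᵥ a = 0)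
    (hb : B *ᵥ b = m1 • b) (hψ : ψ ᵥ* B = m2 • ψ) (hψb : ψ ⬝ᵥ b = 0)
    (hφb : φ ⬝ᵥ b ≠ 0) (hψa : ψ ⬝ᵥ a ≠ 0) :
    ∃ g h : Matrix (Fin 3) (Fin 3) ℂ, h * g = 1 ∧
      (h * A * g).IsUpperTriangular ∧ (h * B * g).IsLowerTriangular ∧
      (fun k => g k 0) = a ∧ (fun k => h 2 k) = (φ ⬝ᵥ b)⁻¹ • φ := by
  let g : Matrix (Fin 3) (Fin 3) ℂ := Matrix.of fun i j => ![a, φ ⨯₃ ψ, b] j i
  let h : Matrix (Fin 3) (Fin 3) ℂ := Matrix.of
    ![(ψ ⬝ᵥ a)⁻¹ • ψ, ((φ ⬝ᵥ b) * (ψ ⬝ᵥ a))⁻¹ • (b ⨯₃ a), (φ ⬝ᵥ b)⁻¹ • φ]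
  have hg : ∀ j, (fun k => g k j) = ![a, φ ⨯₃ ψ, b] j := fun j => rfl
  have hh : ∀ i, (fun k => h i k) =
      ![(ψ ⬝ᵥ a)⁻¹ • ψ, ((φ ⬝ᵥ b) * (ψ ⬝ᵥ a))⁻¹ • (b ⨯₃ a), (φ ⬝ᵥ b)⁻¹ • φ] i := fun i => rfl
  have e00 : (h * g) 0 0 = 1 := by
    rw [Matrix.mul_apply']
    change ((ψ ⬝ᵥ a)⁻¹ • ψ) ⬝ᵥ a = 1
    rw [smul_dotProduct, smul_eq_mul, inv_mul_cancel₀ hψa]
  have e01 : (h * g) 0 1 = 0 := by
    rw [Matrix.mul_apply']
    change ((ψ ⬝ᵥ a)⁻¹ • ψ) ⬝ᵥ (φ ⨯₃ ψ) = 0
    rw [smul_dotProduct, dot_cross_self, smul_zero]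
  have e02 : (h * g) 0 2 = 0 := by
    rw [Matrix.mul_apply']
    change ((ψ ⬝ᵥ a)⁻¹ • ψ) ⬝ᵥ b = 0
    rw [smul_dotProduct, hψb, smul_zero]
  have e10 : (h * g) 1 0 = 0 := by
    rw [Matrix.mul_apply']
    change (((φ ⬝ᵥ b) * (ψ ⬝ᵥ a))⁻¹ • (b ⨯₃ a)) ⬝ᵥ a = 0
    rw [smul_dotProduct, dotProduct_comm (b ⨯₃ a) a, dot_cross_self, smul_zero]
  have e11 : (h * g) 1 1 = 1 := by
    rw [Matrix.mul_apply']
    change (((φ ⬝ᵥ b) * (ψ ⬝ᵥ a))⁻¹ • (b ⨯₃ a)) ⬝ᵥ (φ ⨯₃ ψ) = 1
    rw [smul_dotProduct, cross_dot_cross, dotProduct_comm a φ, hφa, mul_zero, sub_zero,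
      dotProduct_comm b φ, dotProduct_comm a ψ, smul_eq_mul,
      inv_mul_cancel₀ (mul_ne_zero hφb hψa)]
  have e12 : (h * g) 1 2 = 0 := by
    rw [Matrix.mul_apply']
    change (((φ ⬝ᵥ b) * (ψ ⬝ᵥ a))⁻¹ • (b ⨯₃ a)) ⬝ᵥ b = 0
    rw [smul_dotProduct, dotProduct_comm (b ⨯₃ a) b, dot_self_cross, smul_zero]
  have e20 : (h * g) 2 0 = 0 := by
    rw [Matrix.mul_apply']
    change ((φ ⬝ᵥ b)⁻¹ • φ) ⬝ᵥ a = 0
    rw [smul_dotProduct, hφa, smul_zero]
  have e21 : (h * g) 2 1 = 0 := by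
    rw [Matrix.mul_apply']
    change ((φ ⬝ᵥ b)⁻¹ • φ) ⬝ᵥ (φ ⨯₃ ψ) = 0
    rw [smul_dotProduct, dot_self_cross, smul_zero]
  have e22 : (h * g) 2 2 = 1 := by
    rw [Matrix.mul_apply']
    change ((φ ⬝ᵥ b)⁻¹ • φ) ⬝ᵥ b = 1
    rw [smul_dotProduct, smul_eq_mul, inv_mul_cancel₀ hφb]
  have hhg : h * g = 1 := by
    ext i j
    fin_cases i <;> fin_cases j <;> simp [e00, e01, e02, e10, e11, e12, e20, e21, e22]
  have hAg : A *ᵥ (fun k => g k 0) = l1 • fun k => g k 0 := ha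
  have hBg : B *ᵥ (fun k => g k 2) = m1 • fun k => g k 2 := hb
  have hhA : (fun k => h 2 k) ᵥ* A = l2 • fun k => h 2 k := by
    change ((φ ⬝ᵥ b)⁻¹ • φ) ᵥ* A = l2 • ((φ ⬝ᵥ b)⁻¹ • φ)
    rw [Matrix.smul_vecMul, hφ, smul_comm]
  have hhB : (fun k => h 0 k) ᵥ* B = m2 • fun k => h 0 k := by
    change ((ψ ⬝ᵥ a)⁻¹ • ψ) ᵥ* B = m2 • ((ψ ⬝ᵥ a)⁻¹ • ψ)
    rw [Matrix.smul_vecMul, hψ, smul_comm]
  refine ⟨g, h, hhg, isUpperTriangular_of _ ?_ ?_ ?_, isLowerTriangular_of _ ?_ ?_ ?_, rfl, rfl⟩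
  · rw [conj_apply_of_mulVec h A g 1 0 l1 hAg, e10, mul_zero]
  · rw [conj_apply_of_mulVec h A g 2 0 l1 hAg, e20, mul_zero]
  · rw [conj_apply_of_vecMul h A g 2 1 l2 hhA, e21, mul_zero]
  · rw [conj_apply_of_vecMul h B g 0 1 m2 hhB, e01, mul_zero]
  · rw [conj_apply_of_mulVec h B g 0 2 m1 hBg, e02, mul_zero]
  · rw [conj_apply_of_mulVec h B g 1 2 m1 hBg, e12, mul_zero]


/-- A third flag, stable under C and opposite to the standard upper flag in the basis g, gives a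
unipotent upper triangular matrix u that makes the conjugate of C lower triangular. -/
theorem exists_unipotent_of_flag (C g h : Matrix (Fin 3) (Fin 3) ℂ) (hhg : h * g = 1)
    (c χ : Fin 3 → ℂ) (n1 n2 : ℂ)
    (hc : C *ᵥ c = n1 • c) (hχ : χ ᵥ* C = n2 • χ) (hχc : χ ⬝ᵥ c = 0)
    (h2 : (h *ᵥ c) 2 ≠ 0) (h0 : (χ ᵥ* g) 0 ≠ 0) :
    ∃ u v : Matrix (Fin 3) (Fin 3) ℂ, u * v = 1 ∧ u.IsUpperTriangular ∧ (∀ i, u i i = 1) ∧
      (v * (h * C * g) * u).IsLowerTriangular := by
  have hgh : g * h = 1 := mul_eq_one_comm.mp hhg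
  have hdot : (χ ᵥ* g) ⬝ᵥ (h *ᵥ c) = 0 := by
    rw [Matrix.dotProduct_mulVec, Matrix.vecMul_vecMul, hgh, Matrix.vecMul_one, hχc]
  have hgc : g *ᵥ (h *ᵥ c) = c := by
    rw [Matrix.mulVec_mulVec, hgh, Matrix.one_mulVec]
  have hχh : (χ ᵥ* g) ᵥ* h = χ := by
    rw [Matrix.vecMul_vecMul, hgh, Matrix.vecMul_one]
  generalize h *ᵥ c = c' at h2 hdot hgc
  generalize χ ᵥ* g = χ' at h0 hdot hχh
  have hdot' : χ' 0 * c' 0 + χ' 1 * c' 1 + χ' 2 * c' 2 = 0 := by
    simpa [dotProduct, Fin.sum_univ_three] using hdot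
  let u : Matrix (Fin 3) (Fin 3) ℂ :=
    !![1, -χ' 1 / χ' 0, c' 0 / c' 2; 0, 1, c' 1 / c' 2; 0, 0, 1]
  let v : Matrix (Fin 3) (Fin 3) ℂ :=
    !![1, χ' 1 / χ' 0, χ' 2 / χ' 0; 0, 1, -c' 1 / c' 2; 0, 0, 1]
  have huv : u * v = 1 := by
    ext i j
    fin_cases i <;> fin_cases j <;> simp [u, v, Matrix.mul_apply, Fin.sum_univ_three] <;>
      field_simp <;> first | ring1 | linear_combination hdot'
  have hvu : v * u = 1 := mul_eq_one_comm.mp huv
  have hHG : (v * h) * (g * u) = 1 := by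
    calc (v * h) * (g * u) = v * (h * g) * u := by simp only [Matrix.mul_assoc]
      _ = 1 := by rw [hhg, Matrix.mul_one, hvu]
  have hcol : (fun k => (g * u) k 2) = (c' 2)⁻¹ • c := by
    have e1 : (fun l => u l 2) = (c' 2)⁻¹ • c' := by
      funext l
      fin_cases l <;> simp [u] <;> field_simp
    have e2 : (fun k => (g * u) k 2) = g *ᵥ (fun l => u l 2) := by
      funext k
      simp [Matrix.mul_apply, Matrix.mulVec, dotProduct]
    rw [e2, e1, Matrix.mulVec_smul, hgc]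
  have hrow : (fun k => (v * h) 0 k) = (χ' 0)⁻¹ • χ := by
    have e1 : (fun l => v 0 l) = (χ' 0)⁻¹ • χ' := by
      funext l
      fin_cases l <;> simp [v] <;> field_simp
    have e2 : (fun k => (v * h) 0 k) = (fun l => v 0 l) ᵥ* h := by
      funext k
      simp [Matrix.mul_apply, Matrix.vecMul, dotProduct]
    rw [e2, e1, Matrix.smul_vecMul, hχh]
  have hCcol : C *ᵥ (fun k => (g * u) k 2) = n1 • fun k => (g * u) k 2 := by
    rw [hcol, Matrix.mulVec_smul, hc, smul_comm]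
  have hCrow : (fun k => (v * h) 0 k) ᵥ* C = n2 • fun k => (v * h) 0 k := by
    rw [hrow, Matrix.smul_vecMul, hχ, smul_comm]
  have hassoc : v * (h * C * g) * u = (v * h) * C * (g * u) := by simp only [Matrix.mul_assoc]
  refine ⟨u, v, huv, isUpperTriangular_of _ (by simp [u]) (by simp [u]) (by simp [u]),
    fun i => by fin_cases i <;> simp [u], ?_⟩
  rw [hassoc]
  refine isLowerTriangular_of _ ?_ ?_ ?_
  · rw [conj_apply_of_vecMul _ C _ 0 1 n2 hCrow, hHG]
    simp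
  · rw [conj_apply_of_mulVec _ C _ 0 2 n1 hCcol, hHG]
    simp
  · rw [conj_apply_of_mulVec _ C _ 1 2 n1 hCcol, hHG]
    simp


/-- Every pair (A, B) such that A, B and A * B have simple eigenvalues lies in a chart. -/
theorem exists_chart_of_charpoly (A B : Matrix (Fin 3) (Fin 3) ℂ) (α β δ : Fin 3 → ℂ)
    (hα : Function.Injective α) (hβ : Function.Injective β) (hδ : Function.Injective δ)
    (hA : A.charpoly = ∏ i, (Polynomial.X - Polynomial.C (α i)))
    (hB : B.charpoly = ∏ i, (Polynomial.X - Polynomial.C (β i)))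
    (hC : (A * B).charpoly = ∏ i, (Polynomial.X - Polynomial.C (δ i))) :
    ∃ g h u v : Matrix (Fin 3) (Fin 3) ℂ, g * h = 1 ∧ u * v = 1 ∧
      (h * A * g).IsUpperTriangular ∧ (h * B * g).IsLowerTriangular ∧
      u.IsUpperTriangular ∧ (∀ i, u i i = 1) ∧
      (v * (h * (A * B) * g) * u).IsLowerTriangular := by
  obtain ⟨SA, SA', hSA, hAr, hAl⟩ := exists_eigen_of_charpoly A α hα hA
  obtain ⟨SB, SB', hSB, hBr, hBl⟩ := exists_eigen_of_charpoly B β hβ hB
  obtain ⟨SC, SC', hSC, hCr, hCl⟩ := exists_eigen_of_charpoly (A * B) δ hδ hC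
  have hTB : (SA' * SB) * (SB' * SA) = 1 := by
    calc (SA' * SB) * (SB' * SA) = SA' * (SB * SB') * SA := by simp only [Matrix.mul_assoc]
      _ = 1 := by rw [mul_eq_one_comm.mp hSB, Matrix.mul_one, hSA]
  have hTC : (SA' * SC) * (SC' * SA) = 1 := by
    calc (SA' * SC) * (SC' * SA) = SA' * (SC * SC') * SA := by simp only [Matrix.mul_assoc]
      _ = 1 := by rw [mul_eq_one_comm.mp hSC, Matrix.mul_one, hSA]
  obtain ⟨k, l, hkl, hk, hl⟩ :=
    exists_ne_of_mul_eq_one (SB' * SA) (SA' * SB) hTB 0 1 (by decide)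
  obtain ⟨m, n, hmn, hm, hn⟩ :=
    exists_ne_of_mul_eq_one (SC' * SA) (SA' * SC) hTC 0 1 (by decide)
  obtain ⟨l1, ha⟩ := hAr 0
  obtain ⟨l2, hφ⟩ := hAl 1
  obtain ⟨m1, hb⟩ := hBr k
  obtain ⟨m2, hψ⟩ := hBl l
  obtain ⟨n1, hc⟩ := hCr m
  obtain ⟨n2, hχ⟩ := hCl n
  have hφa : (fun r => SA' 1 r) ⬝ᵥ (fun r => SA r 0) = 0 := by
    have h := congrFun (congrFun hSA 1) 0
    rw [Matrix.mul_apply', Matrix.one_apply_ne (by decide)] at h
    exact h
  have hψb : (fun r => SB' l r) ⬝ᵥ (fun r => SB r k) = 0 := by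
    have h := congrFun (congrFun hSB l) k
    rw [Matrix.mul_apply', Matrix.one_apply_ne (Ne.symm hkl)] at h
    exact h
  have hχc : (fun r => SC' n r) ⬝ᵥ (fun r => SC r m) = 0 := by
    have h := congrFun (congrFun hSC n) m
    rw [Matrix.mul_apply', Matrix.one_apply_ne (Ne.symm hmn)] at h
    exact h
  have hφb : (fun r => SA' 1 r) ⬝ᵥ (fun r => SB r k) ≠ 0 := by
    rw [Matrix.mul_apply'] at hk
    exact hk
  have hψa : (fun r => SB' l r) ⬝ᵥ (fun r => SA r 0) ≠ 0 := by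
    rw [Matrix.mul_apply'] at hl
    exact hl
  have hφc : (fun r => SA' 1 r) ⬝ᵥ (fun r => SC r m) ≠ 0 := by
    rw [Matrix.mul_apply'] at hm
    exact hm
  have hχa : (fun r => SC' n r) ⬝ᵥ (fun r => SA r 0) ≠ 0 := by
    rw [Matrix.mul_apply'] at hn
    exact hn
  obtain ⟨g, h, hhg, hAu, hBlow, hg0, hh2⟩ := exists_basis_of_flags A B _ _ _ _ l1 l2 m1 m2
    ha hφ hφa hb hψ hψb hφb hψa
  have h2 : (h *ᵥ (fun r => SC r m)) 2 ≠ 0 := by
    have e : (h *ᵥ (fun r => SC r m)) 2 = (fun k => h 2 k) ⬝ᵥ (fun r => SC r m) := rfl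
    rw [e, hh2, smul_dotProduct, smul_eq_mul]
    exact mul_ne_zero (inv_ne_zero hφb) hφc
  have h0 : ((fun r => SC' n r) ᵥ* g) 0 ≠ 0 := by
    have e : ((fun r => SC' n r) ᵥ* g) 0 = (fun r => SC' n r) ⬝ᵥ (fun k => g k 0) := rfl
    rw [e, hg0]
    exact hχa
  obtain ⟨u, v, huv, hu, hud, hM⟩ := exists_unipotent_of_flag (A * B) g h hhg _ _ n1 n2
    hc hχ hχc h2 h0
  exact ⟨g, h, u, v, mul_eq_one_comm.mp hhg, huv, hAu, hBlow, hu, hud, hM⟩


theorem exists_eq_of_prod_eq (a α : Fin 3 → ℂ)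
    (h : ∏ i, (Polynomial.X - Polynomial.C (a i)) = ∏ i, (Polynomial.X - Polynomial.C (α i)))
    (i : Fin 3) : ∃ j, a i = α j := by
  have hl : Polynomial.eval (a i) (∏ j, (Polynomial.X - Polynomial.C (a j))) = 0 := by
    rw [Polynomial.eval_prod]
    exact Finset.prod_eq_zero (Finset.mem_univ i) (by simp)
  rw [h, Polynomial.eval_prod, Finset.prod_eq_zero_iff] at hl
  obtain ⟨j, -, hj⟩ := hl
  refine ⟨j, ?_⟩
  have hj' : a i - α j = 0 := by simpa using hj
  exact sub_eq_zero.mp hj'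

theorem prod_eq_of_prod_eq (a α : Fin 3 → ℂ)
    (h : ∏ i, (Polynomial.X - Polynomial.C (a i)) = ∏ i, (Polynomial.X - Polynomial.C (α i))) :
    a 0 * a 1 * a 2 = α 0 * α 1 * α 2 := by
  have h0 := congrArg (Polynomial.eval 0) h
  simp only [Fin.prod_univ_three, Polynomial.eval_mul, Polynomial.eval_sub, Polynomial.eval_X,
    Polynomial.eval_C] at h0
  linear_combination -h0

theorem charpoly_of_isLowerTriangular' (X : Matrix (Fin 3) (Fin 3) ℂ) (hX : X.IsLowerTriangular) :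
    X.charpoly = ∏ i, (Polynomial.X - Polynomial.C (X i i)) :=
  charpoly_lower X (fun i => X i i) (hX (i := 0) (j := 1) (by decide))
    (hX (i := 0) (j := 2) (by decide)) (hX (i := 1) (j := 2) (by decide)) fun _ => rfl

/-- Density of integral points in the variety of pairs (A, B) such that A, B and A * B have
prescribed simple eigenvalues. -/
theorem pants_full (α β δ : Fin 3 → ℂ)
    (hα : ∀ i, IsIntegral ℤ (α i)) (hβ : ∀ i, IsIntegral ℤ (β i)) (hδ : ∀ i, IsIntegral ℤ (δ i))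
    (hαi : Function.Injective α) (hβi : Function.Injective β) (hδi : Function.Injective δ)
    (hα1 : α 0 * α 1 * α 2 = 1) (hβ1 : β 0 * β 1 * β 2 = 1) :
    ∃ L : IntermediateField ℚ ℂ, FiniteDimensional ℚ L ∧
      ∀ P : MvPolynomial (Fin 2 × Fin 3 × Fin 3) ℂ,
        (∀ A B : Matrix (Fin 3) (Fin 3) ℂ,
          (∀ i j, A i j ∈ L ∧ IsIntegral ℤ (A i j)) →
          (∀ i j, B i j ∈ L ∧ IsIntegral ℤ (B i j)) →
          A.charpoly = ∏ i, (Polynomial.X - Polynomial.C (α i)) →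
          B.charpoly = ∏ i, (Polynomial.X - Polynomial.C (β i)) →
          (A * B).charpoly = ∏ i, (Polynomial.X - Polynomial.C (δ i)) →
          MvPolynomial.eval (fun x => ![A, B] x.1 x.2.1 x.2.2) P = 0) →
        ∀ A B : Matrix (Fin 3) (Fin 3) ℂ,
          A.charpoly = ∏ i, (Polynomial.X - Polynomial.C (α i)) →
          B.charpoly = ∏ i, (Polynomial.X - Polynomial.C (β i)) →
          (A * B).charpoly = ∏ i, (Polynomial.X - Polynomial.C (δ i)) →
          MvPolynomial.eval (fun x => ![A, B] x.1 x.2.1 x.2.2) P = 0 := by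
  obtain ⟨ha, hb, hc⟩ := mem_ringO_fieldE α β δ hα hβ hδ
  refine ⟨fieldE α β δ, fieldE_finiteDimensional α β δ hα hβ hδ, fun P hP => ?_⟩
  intro A B hA hB hC
  obtain ⟨g, h, u, v, hgh, huv, hAu, hBl, hu, hud, hM⟩ :=
    exists_chart_of_charpoly A B α β δ hαi hβi hδi hA hB hC
  have hhg : h * g = 1 := mul_eq_one_comm.mp hgh
  have hvu : v * u = 1 := mul_eq_one_comm.mp huv
  have eqA : ∏ i, (Polynomial.X - Polynomial.C ((h * A * g) i i)) =
      ∏ i, (Polynomial.X - Polynomial.C (α i)) := by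
    rw [← Matrix.charpoly_of_isUpperTriangular _ hAu, charpoly_conj h g A hgh, hA]
  have eqB : ∏ i, (Polynomial.X - Polynomial.C ((h * B * g) i i)) =
      ∏ i, (Polynomial.X - Polynomial.C (β i)) := by
    rw [← charpoly_of_isLowerTriangular' _ hBl, charpoly_conj h g B hgh, hB]
  have eqC : ∏ i, (Polynomial.X - Polynomial.C ((v * (h * (A * B) * g) * u) i i)) =
      ∏ i, (Polynomial.X - Polynomial.C (δ i)) := by
    rw [← charpoly_of_isLowerTriangular' _ hM, charpoly_conj v u _ huv,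
      charpoly_conj h g (A * B) hgh, hC]
  have key := density_pants_chart (sqrtTwo_mem_fieldE α β δ)
    (fun i => (h * A * g) i i) (fun i => (h * B * g) i i)
    (fun i => (v * (h * (A * B) * g) * u) i i)
    ((prod_eq_of_prod_eq _ α eqA).trans hα1) ((prod_eq_of_prod_eq _ β eqB).trans hβ1)
    (fun i => by
      obtain ⟨j, hj⟩ := exists_eq_of_prod_eq _ α eqA i
      simp only [hj]
      exact ha j)
    (fun i => by
      obtain ⟨j, hj⟩ := exists_eq_of_prod_eq _ β eqB i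
      simp only [hj]
      exact hb j)
    (fun i => by
      obtain ⟨j, hj⟩ := exists_eq_of_prod_eq _ δ eqC i
      simp only [hj]
      exact hc j) P
    (fun A B hAi hBi hA' hB' hC' => hP A B hAi hBi (hA'.trans eqA) (hB'.trans eqB)
      (hC'.trans eqC)) g h (h * A * g) (h * B * g) u
    (v * (h * (A * B) * g) * u) hgh hAu (fun _ => rfl) hBl (fun _ => rfl) hu hud hM
    (fun _ => rfl) (by
      have e1 : h * A * g * (h * B * g) = h * (A * B) * g := by
        calc h * A * g * (h * B * g) = h * A * (g * h) * B * g := by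
              simp only [Matrix.mul_assoc]
          _ = h * (A * B) * g := by rw [hgh]; simp only [Matrix.mul_assoc, Matrix.one_mul]
      rw [e1]
      calc h * (A * B) * g * u = (u * v) * (h * (A * B) * g * u) := by rw [huv, Matrix.one_mul]
        _ = u * (v * (h * (A * B) * g) * u) := by simp only [Matrix.mul_assoc])
  have eA : g * (h * A * g) * h = A := by
    calc g * (h * A * g) * h = (g * h) * A * (g * h) := by simp only [Matrix.mul_assoc]
      _ = A := by rw [hgh, Matrix.one_mul, Matrix.mul_one]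
  have eB : g * (h * B * g) * h = B := by
    calc g * (h * B * g) * h = (g * h) * B * (g * h) := by simp only [Matrix.mul_assoc]
      _ = B := by rw [hgh, Matrix.one_mul, Matrix.mul_one]
  rw [eA, eB] at key
  exact key


/-- Every complex 3 x 3 matrix has a stable full flag: an eigenvector c and a left eigenvector χ
vanishing on c. -/
theorem exists_stable_flag (C : Matrix (Fin 3) (Fin 3) ℂ) :
    ∃ (c χ : Fin 3 → ℂ) (n1 n2 : ℂ), c ≠ 0 ∧ χ ≠ 0 ∧ C *ᵥ c = n1 • c ∧ χ ᵥ* C = n2 • χ ∧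
      χ ⬝ᵥ c = 0 := by
  classical
  obtain ⟨n1, hn1⟩ := Module.End.exists_eigenvalue (Matrix.toLin' C)
  obtain ⟨c, hc⟩ := hn1.exists_hasEigenvector
  have hc0 : c ≠ 0 := hc.2
  have hCc : C *ᵥ c = n1 • c := by
    have := hc.apply_eq_smul
    simpa using this
  let W : Submodule ℂ (Fin 3 → ℂ) :=
    { carrier := {χ | χ ⬝ᵥ c = 0}
      add_mem' := by
        intro x y hx hy
        change x ⬝ᵥ c = 0 at hx
        change y ⬝ᵥ c = 0 at hy
        change (x + y) ⬝ᵥ c = 0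
        rw [add_dotProduct, hx, hy, add_zero]
      zero_mem' := by simp
      smul_mem' := by
        intro t x hx
        change x ⬝ᵥ c = 0 at hx
        change (t • x) ⬝ᵥ c = 0
        rw [smul_dotProduct, hx, smul_zero] }
  have hWmem : ∀ χ : Fin 3 → ℂ, χ ∈ W ↔ χ ⬝ᵥ c = 0 := fun χ => Iff.rfl
  have hinv : ∀ χ ∈ W, (Matrix.toLin' Cᵀ) χ ∈ W := by
    intro χ hχ
    rw [hWmem] at hχ ⊢
    rw [Matrix.toLin'_apply, Matrix.mulVec_transpose, ← Matrix.dotProduct_mulVec, hCc,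
      dotProduct_smul, hχ, smul_zero]
  have hnon : Nontrivial W := by
    by_cases h01 : c 0 ≠ 0 ∨ c 1 ≠ 0
    · refine ⟨⟨⟨![c 1, -c 0, 0], ?_⟩, 0, ?_⟩⟩
      · rw [hWmem]
        simp [dotProduct, Fin.sum_univ_three]
        ring
      · intro h
        have h' := congrArg Subtype.val h
        have e0 := congrFun h' 0
        have e1 := congrFun h' 1
        simp at e0 e1
        rcases h01 with h0 | h1
        · exact h0 e1
        · exact h1 e0
    · push Not at h01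
      have h2 : c 2 ≠ 0 := by
        intro h2
        apply hc0
        funext k
        fin_cases k
        · exact h01.1
        · exact h01.2
        · exact h2
      refine ⟨⟨⟨![0, c 2, -c 1], ?_⟩, 0, ?_⟩⟩
      · rw [hWmem]
        simp [dotProduct, Fin.sum_univ_three]
        ring
      · intro h
        have h' := congrArg Subtype.val h
        have e1 := congrFun h' 1
        simp at e1
        exact h2 e1
  obtain ⟨n2, hn2⟩ := Module.End.exists_eigenvalue ((Matrix.toLin' Cᵀ).restrict hinv)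
  obtain ⟨χ, hχ⟩ := hn2.exists_hasEigenvector
  have hχ0 : (χ : Fin 3 → ℂ) ≠ 0 := by
    intro h
    exact hχ.2 (Subtype.ext h)
  have hχC : (χ : Fin 3 → ℂ) ᵥ* C = n2 • (χ : Fin 3 → ℂ) := by
    have h := congrArg Subtype.val hχ.apply_eq_smul
    simp only [LinearMap.coe_restrict_apply, Matrix.toLin'_apply, Matrix.mulVec_transpose,
      Submodule.coe_smul] at h
    exact h
  exact ⟨c, χ, n1, n2, hc0, hχ0, hCc, hχC, (hWmem _).mp χ.2⟩

/-- Two nonzero vectors with vanishing pairing have nonzero coordinates at distinct places. -/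
theorem exists_ne_of_dotProduct_eq_zero {n : Type*} [Fintype n] [DecidableEq n] (x γ : n → ℂ)
    (hx : x ≠ 0) (hγ : γ ≠ 0) (h : x ⬝ᵥ γ = 0) : ∃ i j, i ≠ j ∧ x i ≠ 0 ∧ γ j ≠ 0 := by
  obtain ⟨i0, hi0⟩ := Function.ne_iff.mp hx
  obtain ⟨j0, hj0⟩ := Function.ne_iff.mp hγ
  simp only [Pi.zero_apply] at hi0 hj0
  by_cases hij : i0 = j0
  · subst hij
    by_cases h1 : ∃ i, i ≠ i0 ∧ x i ≠ 0
    · obtain ⟨i, hi, hxi⟩ := h1
      exact ⟨i, i0, hi, hxi, hj0⟩
    · by_cases h2 : ∃ j, j ≠ i0 ∧ γ j ≠ 0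
      · obtain ⟨j, hj, hγj⟩ := h2
        exact ⟨i0, j, Ne.symm hj, hi0, hγj⟩
      · exfalso
        push Not at h1 h2
        rw [dotProduct, Finset.sum_eq_single i0] at h
        · exact (mul_ne_zero hi0 hj0) h
        · intro b _ hb
          rw [h1 b hb, zero_mul]
        · intro hk
          exact absurd (Finset.mem_univ _) hk
  · exact ⟨i0, j0, hij, hi0, hj0⟩

/-- Every pair (A, B) such that A and B have simple eigenvalues lies in a chart. -/
theorem exists_chart_of_charpoly' (A B : Matrix (Fin 3) (Fin 3) ℂ) (α β : Fin 3 → ℂ)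
    (hα : Function.Injective α) (hβ : Function.Injective β)
    (hA : A.charpoly = ∏ i, (Polynomial.X - Polynomial.C (α i)))
    (hB : B.charpoly = ∏ i, (Polynomial.X - Polynomial.C (β i))) :
    ∃ g h u v : Matrix (Fin 3) (Fin 3) ℂ, g * h = 1 ∧ u * v = 1 ∧
      (h * A * g).IsUpperTriangular ∧ (h * B * g).IsLowerTriangular ∧
      u.IsUpperTriangular ∧ (∀ i, u i i = 1) ∧
      (v * (h * (A * B) * g) * u).IsLowerTriangular := by
  obtain ⟨SA, SA', hSA, hAr, hAl⟩ := exists_eigen_of_charpoly A α hα hA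
  obtain ⟨SB, SB', hSB, hBr, hBl⟩ := exists_eigen_of_charpoly B β hβ hB
  obtain ⟨c, χ, n1, n2, hc0, hχ0, hc, hχ, hχc⟩ := exists_stable_flag (A * B)
  have hSA2 : SA * SA' = 1 := mul_eq_one_comm.mp hSA
  have hx : χ ᵥ* SA ≠ 0 := by
    intro h0
    apply hχ0
    have : (χ ᵥ* SA) ᵥ* SA' = χ := by rw [Matrix.vecMul_vecMul, hSA2, Matrix.vecMul_one]
    rw [← this, h0, Matrix.zero_vecMul]
  have hγ : SA' *ᵥ c ≠ 0 := by
    intro h0
    apply hc0
    have : SA *ᵥ (SA' *ᵥ c) = c := by rw [Matrix.mulVec_mulVec, hSA2, Matrix.one_mulVec]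
    rw [← this, h0, Matrix.mulVec_zero]
  have hxγ : (χ ᵥ* SA) ⬝ᵥ (SA' *ᵥ c) = 0 := by
    rw [Matrix.dotProduct_mulVec, Matrix.vecMul_vecMul, hSA2, Matrix.vecMul_one, hχc]
  obtain ⟨i, j, hij, hxi, hγj⟩ := exists_ne_of_dotProduct_eq_zero _ _ hx hγ hxγ
  have hTB : (SA' * SB) * (SB' * SA) = 1 := by
    calc (SA' * SB) * (SB' * SA) = SA' * (SB * SB') * SA := by simp only [Matrix.mul_assoc]
      _ = 1 := by rw [mul_eq_one_comm.mp hSB, Matrix.mul_one, hSA]
  obtain ⟨k, l, hkl, hk, hl⟩ :=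
    exists_ne_of_mul_eq_one (SB' * SA) (SA' * SB) hTB i j hij
  obtain ⟨l1, ha⟩ := hAr i
  obtain ⟨l2, hφ⟩ := hAl j
  obtain ⟨m1, hb⟩ := hBr k
  obtain ⟨m2, hψ⟩ := hBl l
  have hφa : (fun r => SA' j r) ⬝ᵥ (fun r => SA r i) = 0 := by
    have h := congrFun (congrFun hSA j) i
    rw [Matrix.mul_apply', Matrix.one_apply_ne (Ne.symm hij)] at h
    exact h
  have hψb : (fun r => SB' l r) ⬝ᵥ (fun r => SB r k) = 0 := by
    have h := congrFun (congrFun hSB l) k
    rw [Matrix.mul_apply', Matrix.one_apply_ne (Ne.symm hkl)] at h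
    exact h
  have hφb : (fun r => SA' j r) ⬝ᵥ (fun r => SB r k) ≠ 0 := by
    rw [Matrix.mul_apply'] at hk
    exact hk
  have hψa : (fun r => SB' l r) ⬝ᵥ (fun r => SA r i) ≠ 0 := by
    rw [Matrix.mul_apply'] at hl
    exact hl
  have hφc : (fun r => SA' j r) ⬝ᵥ c ≠ 0 := hγj
  have hχa : χ ⬝ᵥ (fun r => SA r i) ≠ 0 := hxi
  obtain ⟨g, h, hhg, hAu, hBlow, hg0, hh2⟩ := exists_basis_of_flags A B _ _ _ _ l1 l2 m1 m2
    ha hφ hφa hb hψ hψb hφb hψa
  have h2 : (h *ᵥ c) 2 ≠ 0 := by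
    have e : (h *ᵥ c) 2 = (fun k => h 2 k) ⬝ᵥ c := rfl
    rw [e, hh2, smul_dotProduct, smul_eq_mul]
    exact mul_ne_zero (inv_ne_zero hφb) hφc
  have h0 : (χ ᵥ* g) 0 ≠ 0 := by
    have e : (χ ᵥ* g) 0 = χ ⬝ᵥ (fun k => g k 0) := rfl
    rw [e, hg0]
    exact hχa
  obtain ⟨u, v, huv, hu, hud, hM⟩ := exists_unipotent_of_flag (A * B) g h hhg c χ n1 n2
    hc hχ hχc h2 h0
  exact ⟨g, h, u, v, mul_eq_one_comm.mp hhg, huv, hAu, hBlow, hu, hud, hM⟩


/-- Density of integral points in the variety of pairs (A, B) such that A and B have prescribed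
simple eigenvalues and A * B has a prescribed characteristic polynomial. -/
theorem pants_full' (α β δ : Fin 3 → ℂ)
    (hα : ∀ i, IsIntegral ℤ (α i)) (hβ : ∀ i, IsIntegral ℤ (β i)) (hδ : ∀ i, IsIntegral ℤ (δ i))
    (hαi : Function.Injective α) (hβi : Function.Injective β)
    (hα1 : α 0 * α 1 * α 2 = 1) (hβ1 : β 0 * β 1 * β 2 = 1) :
    ∃ L : IntermediateField ℚ ℂ, FiniteDimensional ℚ L ∧
      ∀ P : MvPolynomial (Fin 2 × Fin 3 × Fin 3) ℂ,
        (∀ A B : Matrix (Fin 3) (Fin 3) ℂ,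
          (∀ i j, A i j ∈ L ∧ IsIntegral ℤ (A i j)) →
          (∀ i j, B i j ∈ L ∧ IsIntegral ℤ (B i j)) →
          A.charpoly = ∏ i, (Polynomial.X - Polynomial.C (α i)) →
          B.charpoly = ∏ i, (Polynomial.X - Polynomial.C (β i)) →
          (A * B).charpoly = ∏ i, (Polynomial.X - Polynomial.C (δ i)) →
          MvPolynomial.eval (fun x => ![A, B] x.1 x.2.1 x.2.2) P = 0) →
        ∀ A B : Matrix (Fin 3) (Fin 3) ℂ,
          A.charpoly = ∏ i, (Polynomial.X - Polynomial.C (α i)) →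
          B.charpoly = ∏ i, (Polynomial.X - Polynomial.C (β i)) →
          (A * B).charpoly = ∏ i, (Polynomial.X - Polynomial.C (δ i)) →
          MvPolynomial.eval (fun x => ![A, B] x.1 x.2.1 x.2.2) P = 0 := by
  obtain ⟨ha, hb, hc⟩ := mem_ringO_fieldE α β δ hα hβ hδ
  refine ⟨fieldE α β δ, fieldE_finiteDimensional α β δ hα hβ hδ, fun P hP => ?_⟩
  intro A B hA hB hC
  obtain ⟨g, h, u, v, hgh, huv, hAu, hBl, hu, hud, hM⟩ :=
    exists_chart_of_charpoly' A B α β hαi hβi hA hB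
  have hhg : h * g = 1 := mul_eq_one_comm.mp hgh
  have hvu : v * u = 1 := mul_eq_one_comm.mp huv
  have eqA : ∏ i, (Polynomial.X - Polynomial.C ((h * A * g) i i)) =
      ∏ i, (Polynomial.X - Polynomial.C (α i)) := by
    rw [← Matrix.charpoly_of_isUpperTriangular _ hAu, charpoly_conj h g A hgh, hA]
  have eqB : ∏ i, (Polynomial.X - Polynomial.C ((h * B * g) i i)) =
      ∏ i, (Polynomial.X - Polynomial.C (β i)) := by
    rw [← charpoly_of_isLowerTriangular' _ hBl, charpoly_conj h g B hgh, hB]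
  have eqC : ∏ i, (Polynomial.X - Polynomial.C ((v * (h * (A * B) * g) * u) i i)) =
      ∏ i, (Polynomial.X - Polynomial.C (δ i)) := by
    rw [← charpoly_of_isLowerTriangular' _ hM, charpoly_conj v u _ huv,
      charpoly_conj h g (A * B) hgh, hC]
  have key := density_pants_chart (sqrtTwo_mem_fieldE α β δ)
    (fun i => (h * A * g) i i) (fun i => (h * B * g) i i)
    (fun i => (v * (h * (A * B) * g) * u) i i)
    ((prod_eq_of_prod_eq _ α eqA).trans hα1) ((prod_eq_of_prod_eq _ β eqB).trans hβ1)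
    (fun i => by
      obtain ⟨j, hj⟩ := exists_eq_of_prod_eq _ α eqA i
      simp only [hj]
      exact ha j)
    (fun i => by
      obtain ⟨j, hj⟩ := exists_eq_of_prod_eq _ β eqB i
      simp only [hj]
      exact hb j)
    (fun i => by
      obtain ⟨j, hj⟩ := exists_eq_of_prod_eq _ δ eqC i
      simp only [hj]
      exact hc j) P
    (fun A B hAi hBi hA' hB' hC' => hP A B hAi hBi (hA'.trans eqA) (hB'.trans eqB)
      (hC'.trans eqC)) g h (h * A * g) (h * B * g) u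
    (v * (h * (A * B) * g) * u) hgh hAu (fun _ => rfl) hBl (fun _ => rfl) hu hud hM
    (fun _ => rfl) (by
      have e1 : h * A * g * (h * B * g) = h * (A * B) * g := by
        calc h * A * g * (h * B * g) = h * A * (g * h) * B * g := by
              simp only [Matrix.mul_assoc]
          _ = h * (A * B) * g := by rw [hgh]; simp only [Matrix.mul_assoc, Matrix.one_mul]
      rw [e1]
      calc h * (A * B) * g * u = (u * v) * (h * (A * B) * g * u) := by rw [huv, Matrix.one_mul]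
        _ = u * (v * (h * (A * B) * g) * u) := by simp only [Matrix.mul_assoc])
  have eA : g * (h * A * g) * h = A := by
    calc g * (h * A * g) * h = (g * h) * A * (g * h) := by simp only [Matrix.mul_assoc]
      _ = A := by rw [hgh, Matrix.one_mul, Matrix.mul_one]
  have eB : g * (h * B * g) * h = B := by
    calc g * (h * B * g) * h = (g * h) * B * (g * h) := by simp only [Matrix.mul_assoc]
      _ = B := by rw [hgh, Matrix.one_mul, Matrix.mul_one]
  rw [eA, eB] at key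
  exact key

end Vale.Agent.Lib.P002
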