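import Vale.Agent.Lib.P002.Laurent
import Vale.Agent.Lib.P002.Units

/-!
Laurent families of matrices with integral specializations, and the fact that every complex
matrix of determinant one (resp. every invertible matrix) lies in such a family.
-/

namespace Vale.Agent.Lib.P002

open MvPolynomial

/-- Pull back a Laurent polynomial function along an injection of the variables. -/
theorem IsLaurent.comp_injective {ι ι' : Type} [Fintype ι] [Fintype ι'] {G : (ι → ℂˣ) → ℂ}
    (hG : IsLaurent G) (e : ι → ι') (he : Function.Injective e) :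
    IsLaurent (fun s : ι' → ℂˣ => G (s ∘ e)) := by
  classical
  obtain ⟨Q, N, hQ⟩ := hG
  refine ⟨rename e Q * (∏ k ∈ Finset.univ \ Finset.univ.image e, X k) ^ N, N, fun s => ?_⟩
  have hprod : ∏ k, (s k : ℂ) =
      (∏ k, ((s ∘ e) k : ℂ)) * ∏ k ∈ Finset.univ \ Finset.univ.image e, (s k : ℂ) := by
    rw [← Finset.prod_sdiff (Finset.subset_univ (Finset.univ.image e)), mul_comm]
    congr 1
    rw [Finset.prod_image fun a _ b _ h => he h]
    rfl
  simp only [map_mul, map_pow, map_prod, eval_X, eval_rename]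
  rw [hprod, mul_pow, ← mul_assoc, hQ (s ∘ e)]
  rfl

/-- The ring of integers of L, as a subring of the complex numbers. -/
def ringO (L : IntermediateField ℚ ℂ) : Subring ℂ where
  carrier := {z | z ∈ L ∧ IsIntegral ℤ z}
  mul_mem' := fun ha hb => ⟨L.mul_mem ha.1 hb.1, ha.2.mul hb.2⟩
  one_mem' := ⟨L.one_mem, isIntegral_one⟩
  add_mem' := fun ha hb => ⟨L.add_mem ha.1 hb.1, ha.2.add hb.2⟩
  zero_mem' := ⟨L.zero_mem, isIntegral_zero⟩
  neg_mem' := fun ha => ⟨L.neg_mem ha.1, ha.2.neg⟩

theorem mem_ringO_iff (L : IntermediateField ℚ ℂ) (z : ℂ) :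
    z ∈ ringO L ↔ z ∈ L ∧ IsIntegral ℤ z := Iff.rfl

theorem coe_mem_ringO {L : IntermediateField ℚ ℂ} {z : ℂˣ} (hz : z ∈ unitsO L) :
    (z : ℂ) ∈ ringO L := ⟨hz.1, hz.2.1⟩

theorem coe_inv_mem_ringO {L : IntermediateField ℚ ℂ} {z : ℂˣ} (hz : z ∈ unitsO L) :
    ((z⁻¹ : ℂˣ) : ℂ) ∈ ringO L := coe_mem_ringO ((unitsO L).inv_mem hz)

/-- The matrix g lies in a Laurent family of invertible matrices, with Laurent inverses, whose
specializations at units of the ring of integers of L are integral; if sl holds, all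
members of the family have determinant one. -/
def Param (L : IntermediateField ℚ ℂ) (sl : Prop) {r : ℕ} (g : Matrix (Fin r) (Fin r) ℂ) :
    Prop :=
  ∃ (ι : Type) (_ : Fintype ι) (M M' : (ι → ℂˣ) → Matrix (Fin r) (Fin r) ℂ),
    (∀ a b, IsLaurent (fun s => M s a b)) ∧ (∀ a b, IsLaurent (fun s => M' s a b)) ∧
    (∀ s, M s * M' s = 1) ∧
    (∀ s, (∀ k, s k ∈ unitsO L) → ∀ a b, M s a b ∈ ringO L ∧ M' s a b ∈ ringO L) ∧
    (sl → ∀ s, (M s).det = 1) ∧ ∃ s, M s = g

theorem isLaurent_mul_apply {ι : Type} [Fintype ι] {r : ℕ}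
    {M N : (ι → ℂˣ) → Matrix (Fin r) (Fin r) ℂ} (hM : ∀ a b, IsLaurent (fun s => M s a b))
    (hN : ∀ a b, IsLaurent (fun s => N s a b)) (a b : Fin r) :
    IsLaurent (fun s => (M s * N s) a b) := by
  simp only [Matrix.mul_apply]
  exact IsLaurent.sum _ fun c _ => (hM a c).mul (hN c b)

theorem Param.mul {L : IntermediateField ℚ ℂ} {sl : Prop} {r : ℕ}
    {g h : Matrix (Fin r) (Fin r) ℂ} (hg : Param L sl g) (hh : Param L sl h) :
    Param L sl (g * h) := by
  obtain ⟨ι₁, _, M₁, M₁', hM₁, hM₁', hinv₁, hint₁, hdet₁, s₁, hs₁⟩ := hg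
  obtain ⟨ι₂, _, M₂, M₂', hM₂, hM₂', hinv₂, hint₂, hdet₂, s₂, hs₂⟩ := hh
  refine ⟨ι₁ ⊕ ι₂, inferInstance, fun s => M₁ (s ∘ Sum.inl) * M₂ (s ∘ Sum.inr),
    fun s => M₂' (s ∘ Sum.inr) * M₁' (s ∘ Sum.inl), ?_, ?_, ?_, ?_, ?_, ?_⟩
  · exact isLaurent_mul_apply
      (fun a b => (hM₁ a b).comp_injective Sum.inl Sum.inl_injective)
      (fun a b => (hM₂ a b).comp_injective Sum.inr Sum.inr_injective)
  · exact isLaurent_mul_apply
      (fun a b => (hM₂' a b).comp_injective Sum.inr Sum.inr_injective)
      (fun a b => (hM₁' a b).comp_injective Sum.inl Sum.inl_injective)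
  · intro s
    rw [Matrix.mul_assoc, ← Matrix.mul_assoc (M₂ _), hinv₂, Matrix.one_mul, hinv₁]
  · intro s hs a b
    have h1 := hint₁ (s ∘ Sum.inl) (fun k => hs _)
    have h2 := hint₂ (s ∘ Sum.inr) (fun k => hs _)
    simp only [Matrix.mul_apply]
    exact ⟨Subring.sum_mem _ fun c _ => Subring.mul_mem _ (h1 a c).1 (h2 c b).1,
      Subring.sum_mem _ fun c _ => Subring.mul_mem _ (h2 a c).2 (h1 c b).2⟩
  · intro hsl s
    rw [Matrix.det_mul, hdet₁ hsl, hdet₂ hsl, one_mul]
  · exact ⟨Sum.elim s₁ s₂, by simp [hs₁, hs₂]⟩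

theorem Param.one (L : IntermediateField ℚ ℂ) (sl : Prop) (r : ℕ) :
    Param L sl (1 : Matrix (Fin r) (Fin r) ℂ) := by
  refine ⟨PEmpty, inferInstance, fun _ => 1, fun _ => 1, ?_, ?_, ?_, ?_, ?_, ?_⟩
  · exact fun a b => IsLaurent.const _
  · exact fun a b => IsLaurent.const _
  · intro s; simp
  · intro s _ a b
    have : (1 : Matrix (Fin r) (Fin r) ℂ) a b ∈ ringO L := by
      rw [Matrix.one_apply]
      split_ifs
      · exact Subring.one_mem _
      · exact Subring.zero_mem _
    exact ⟨this, this⟩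
  · intro _ s; simp
  · exact ⟨fun k => k.elim, rfl⟩

/-- Every complex number is of the form s - 1/s for a unit s. -/
theorem exists_unit_sub_inv (c : ℂ) : ∃ s : ℂˣ, (s : ℂ) - ((s⁻¹ : ℂˣ) : ℂ) = c := by
  obtain ⟨d, hd⟩ := IsAlgClosed.exists_pow_nat_eq (c ^ 2 + 4) (n := 2) (by norm_num)
  refine ⟨⟨(c + d) / 2, (d - c) / 2, by linear_combination hd / 4,
    by linear_combination hd / 4⟩, ?_⟩
  simp only [Units.inv_mk]
  ring

theorem Param.transvection (L : IntermediateField ℚ ℂ) (sl : Prop) {r : ℕ} (i j : Fin r)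
    (hij : i ≠ j) (c : ℂ) : Param L sl (Matrix.transvection i j c) := by
  obtain ⟨s₀, hs₀⟩ := exists_unit_sub_inv c
  refine ⟨Unit, inferInstance,
    fun s => Matrix.transvection i j ((s () : ℂ) - ((s ())⁻¹ : ℂˣ)),
    fun s => Matrix.transvection i j (-((s () : ℂ) - ((s ())⁻¹ : ℂˣ))), ?_, ?_, ?_, ?_, ?_, ?_⟩
  · intro a b
    simp only [Matrix.transvection, Matrix.add_apply, Matrix.one_apply, Matrix.single_apply]
    refine IsLaurent.add (IsLaurent.const _) ?_
    split_ifs
    · exact (IsLaurent.coord ()).sub (IsLaurent.coord_inv ())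
    · exact IsLaurent.const _
  · intro a b
    simp only [Matrix.transvection, Matrix.add_apply, Matrix.one_apply, Matrix.single_apply]
    refine IsLaurent.add (IsLaurent.const _) ?_
    split_ifs
    · exact ((IsLaurent.coord ()).sub (IsLaurent.coord_inv ())).neg
    · exact IsLaurent.const _
  · intro s
    rw [Matrix.transvection_mul_transvection_same _ _ hij]
    simp
  · intro s hs a b
    have h1 : (s () : ℂ) - ((s ())⁻¹ : ℂˣ) ∈ ringO L :=
      Subring.sub_mem _ (coe_mem_ringO (hs ())) (coe_inv_mem_ringO (hs ()))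
    have key : ∀ x : ℂ, x ∈ ringO L → Matrix.transvection i j x a b ∈ ringO L := by
      intro x hx
      simp only [Matrix.transvection, Matrix.add_apply, Matrix.one_apply, Matrix.single_apply]
      refine Subring.add_mem _ ?_ ?_
      · split_ifs
        · exact Subring.one_mem _
        · exact Subring.zero_mem _
      · split_ifs
        · exact hx
        · exact Subring.zero_mem _
    exact ⟨key _ h1, key _ (Subring.neg_mem _ h1)⟩
  · intro _ s
    exact Matrix.det_transvection_of_ne i j hij _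
  · refine ⟨fun _ => s₀, ?_⟩
    change Matrix.transvection i j ((s₀ : ℂ) - ((s₀⁻¹ : ℂˣ) : ℂ)) = _
    rw [hs₀]

theorem Param.transvectionList (L : IntermediateField ℚ ℂ) (sl : Prop) {r : ℕ}
    (l : List (Matrix.TransvectionStruct (Fin r) ℂ)) :
    Param L sl (l.map Matrix.TransvectionStruct.toMatrix).prod := by
  induction l with
  | nil => simpa using Param.one L sl r
  | cons t l ih =>
    simp only [List.map_cons, List.prod_cons]
    exact (Param.transvection L sl t.i t.j t.hij t.c).mul ih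

/-- Diagonal matrices with unit entries. -/
theorem Param.diagonal (L : IntermediateField ℚ ℂ) {r : ℕ} (d : Fin r → ℂˣ) :
    Param L False (Matrix.diagonal fun a => (d a : ℂ)) := by
  refine ⟨Fin r, inferInstance, fun s => Matrix.diagonal fun a => (s a : ℂ),
    fun s => Matrix.diagonal fun a => (((s a)⁻¹ : ℂˣ) : ℂ), ?_, ?_, ?_, ?_, ?_, ?_⟩
  · intro a b
    simp only [Matrix.diagonal_apply]
    split_ifs
    · exact IsLaurent.coord a
    · exact IsLaurent.const _
  · intro a b
    simp only [Matrix.diagonal_apply]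
    split_ifs
    · exact IsLaurent.coord_inv a
    · exact IsLaurent.const _
  · intro s
    rw [Matrix.diagonal_mul_diagonal]
    simp
  · intro s hs a b
    simp only [Matrix.diagonal_apply]
    split_ifs
    · exact ⟨coe_mem_ringO (hs a), coe_inv_mem_ringO (hs a)⟩
    · exact ⟨Subring.zero_mem _, Subring.zero_mem _⟩
  · exact fun h => h.elim
  · exact ⟨d, rfl⟩

theorem Param.mono {L : IntermediateField ℚ ℂ} {sl : Prop} {r : ℕ}
    {g : Matrix (Fin r) (Fin r) ℂ} (hg : Param L True g) : Param L sl g := by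
  obtain ⟨ι, _, M, M', hM, hM', hinv, hint, hdet, hs⟩ := hg
  exact ⟨ι, inferInstance, M, M', hM, hM', hinv, hint, fun _ => hdet trivial, hs⟩

/-- Diagonal matrices of determinant one, inside a family of determinant one. -/
theorem Param.diagonalSL (L : IntermediateField ℚ ℂ) {r : ℕ} (d : Fin r → ℂˣ)
    (hd : ∏ a, d a = 1) : Param L True (Matrix.diagonal fun a => (d a : ℂ)) := by
  obtain ⟨s₀, hs₀⟩ := exists_roots r d hd
  have hL : IsLaurentUnit (fun s : Fin r → ℂˣ => ∏ j, s j) :=
    IsLaurentUnit.prod _ fun j _ => IsLaurentUnit.coord j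
  have hLa : ∀ a, IsLaurentUnit (fun s : Fin r → ℂˣ => s a ^ r / ∏ j, s j) := fun a =>
    ((IsLaurentUnit.coord a).pow r).div hL
  refine ⟨Fin r, inferInstance,
    fun s => Matrix.diagonal fun a => ((s a ^ r / ∏ j, s j : ℂˣ) : ℂ),
    fun s => Matrix.diagonal fun a => (((s a ^ r / ∏ j, s j)⁻¹ : ℂˣ) : ℂ), ?_, ?_, ?_, ?_, ?_, ?_⟩
  · intro a b
    simp only [Matrix.diagonal_apply]
    split_ifs
    · exact (hLa a).1
    · exact IsLaurent.const _
  · intro a b
    simp only [Matrix.diagonal_apply]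
    split_ifs
    · exact (hLa a).2
    · exact IsLaurent.const _
  · intro s
    rw [Matrix.diagonal_mul_diagonal]
    have h1 : (fun a => ((s a ^ r / ∏ j, s j : ℂˣ) : ℂ) * (((s a ^ r / ∏ j, s j)⁻¹ : ℂˣ) : ℂ)) =
        fun _ => 1 := by
      funext a
      exact Units.mul_inv _
    rw [h1, Matrix.diagonal_one]
  · intro s hs a b
    have hmem : ∀ a, s a ^ r / ∏ j, s j ∈ unitsO L := fun a =>
      Subgroup.div_mem _ (Subgroup.pow_mem _ (hs a) r) (Subgroup.prod_mem _ fun j _ => hs j)
    simp only [Matrix.diagonal_apply]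
    split_ifs
    · exact ⟨coe_mem_ringO (hmem a), coe_inv_mem_ringO (hmem a)⟩
    · exact ⟨Subring.zero_mem _, Subring.zero_mem _⟩
  · intro _ s
    rw [Matrix.det_diagonal, ← Units.coe_prod, Finset.prod_div_distrib, Finset.prod_pow,
      Finset.prod_const, Finset.card_univ, Fintype.card_fin, div_self', Units.val_one]
  · refine ⟨s₀, ?_⟩
    simp only [hs₀]

/-- Every complex matrix of determinant one lies in a Laurent family of determinant one. -/
theorem Param.of_det_eq_one (L : IntermediateField ℚ ℂ) {r : ℕ} (g : Matrix (Fin r) (Fin r) ℂ)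
    (hg : g.det = 1) : Param L True g := by
  obtain ⟨l, l', D, hD⟩ := Matrix.Pivot.exists_list_transvec_mul_diagonal_mul_list_transvec g
  have hdet : ∏ a, D a = 1 := by
    have := congrArg Matrix.det hD
    rw [hg, Matrix.det_mul, Matrix.det_mul, Matrix.TransvectionStruct.det_toMatrix_prod,
      Matrix.TransvectionStruct.det_toMatrix_prod, Matrix.det_diagonal, one_mul, mul_one] at this
    exact this.symm
  have hD0 : ∀ a, D a ≠ 0 := by
    intro a ha
    have := Finset.prod_eq_zero (Finset.mem_univ a) ha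
    rw [hdet] at this
    exact one_ne_zero this
  have hdiag : Param L True (Matrix.diagonal D) := by
    have h := Param.diagonalSL L (fun a => Units.mk0 (D a) (hD0 a)) (by
      apply Units.ext
      rw [Units.coe_prod]
      simpa using hdet)
    simpa using h
  rw [hD]
  exact ((Param.transvectionList L True l).mul hdiag).mul (Param.transvectionList L True l')

/-- Every invertible complex matrix lies in a Laurent family of invertible matrices. -/
theorem Param.of_det_ne_zero (L : IntermediateField ℚ ℂ) {r : ℕ}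
    (g : Matrix (Fin r) (Fin r) ℂ) (hg : g.det ≠ 0) : Param L False g := by
  obtain ⟨l, l', D, hD⟩ := Matrix.Pivot.exists_list_transvec_mul_diagonal_mul_list_transvec g
  have hdet : ∏ a, D a = g.det := by
    have := congrArg Matrix.det hD
    rw [Matrix.det_mul, Matrix.det_mul, Matrix.TransvectionStruct.det_toMatrix_prod,
      Matrix.TransvectionStruct.det_toMatrix_prod, Matrix.det_diagonal, one_mul, mul_one] at this
    exact this.symm
  have hD0 : ∀ a, D a ≠ 0 := by
    intro a ha
    have := Finset.prod_eq_zero (Finset.mem_univ a) ha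
    rw [hdet] at this
    exact hg this
  have hdiag : Param L False (Matrix.diagonal D) := by
    have h := Param.diagonal L (fun a => Units.mk0 (D a) (hD0 a))
    simpa using h
  rw [hD]
  exact ((Param.transvectionList L False l).mul hdiag).mul (Param.transvectionList L False l')

end Vale.Agent.Lib.P002
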