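import Vale.Agent.Lib.P002.RfNormal

/-!
Tuples of scaled pseudo-reflections with prescribed characteristic polynomial of the ordered
product: the integral points are Zariski dense in the open set where the roots are linearly
independent and the first root is a cyclic vector for the product.
-/

namespace Vale.Agent.Lib.P002

open Matrix

/-- A polynomial vanishing at the integral tuples of scaled pseudo-reflections with the
prescribed characteristic polynomial of the product vanishes at the conjugates of the tuples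
attached to nested chart pairs. -/
theorem refl_density_nested {L : IntermediateField ℚ ℂ} (hL : sqrtTwo ∈ L) (k : ℕ)
    (lam mu b δ : Fin (k + 1) → ℂ) (c : ℂ)
    (hmu : ∀ i, mu i ∈ ringO L) (hcL : c ∈ ringO L) (hb : ∀ i, b i ∈ ringO L)
    (hδ : ∀ i, δ i ∈ ringO L) (hb1 : ∏ i, b i = 1) (hδ1 : ∏ i, δ i = 1)
    (hc : (∏ i, mu i) * c = 1) (hcb : ∀ i, c * b i = lam i)
    (Q : MvPolynomial (Fin (k + 1) × Fin (k + 1) × Fin (k + 1)) ℂ)
    (hQ : ∀ R : Fin (k + 1) → Matrix (Fin (k + 1)) (Fin (k + 1)) ℂ,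
      (∀ i a a', R i a a' ∈ ringO L) →
      (∀ i, ∃ u v : Fin (k + 1) → ℂ, v ⬝ᵥ u = lam i - 1 ∧
        R i = mu i • (1 + Matrix.vecMulVec u v)) →
      (List.ofFn R).prod.charpoly = ∏ i, (Polynomial.X - Polynomial.C (δ i)) →
      MvPolynomial.eval (fun x => R x.1 x.2.1 x.2.2) Q = 0)
    (g g' U Lo : Matrix (Fin (k + 1)) (Fin (k + 1)) ℂ) (hg : g * g' = 1)
    (h : NestOK ℂ k (fun _ => 1) b δ U Lo) :
    MvPolynomial.eval (fun x => (g * rfT mu c U Lo x.1 * g') x.2.1 x.2.2) Q = 0 := by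
  have hsurj := evAt_taut_surjective L
  have hunit := evAt_taut_unit L
  have hprod : (∏ _i : Fin (k + 1), (((1 : (ringR L)ˣ)) : ringR L)) *
      ∏ i, (famUnit L b hb1 hb i : ringR L) = ∏ i, (famUnit L δ hδ1 hδ i : ringR L) := by
    rw [prod_famUnit, prod_famUnit]
    simp
  obtain ⟨Ut, Lt, hUm, hLm, hUt, hUtd, hLt, hLtd, hULt⟩ := lift_pair_tri (evAt L taut) hsurj
    hunit k (fun _ => 1) b δ (fun _ => 1) (famUnit L b hb1 hb) (famUnit L δ hδ1 hδ)
    (fun i => by simp) (fun i => evAt_famUnit L b hb1 hb i taut)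
    (fun i => evAt_famUnit L δ hδ1 hδ i taut) hprod U Lo h
  obtain ⟨G, G', hGG', hG'G, hGmap, hG'map⟩ := lift_gl_inv (evAt L taut) hsurj hunit g g' hg
  obtain ⟨FR, hFR⟩ : ∃ FR : Fin (k + 1) → Matrix (Fin (k + 1)) (Fin (k + 1)) (ringR L),
      FR = fun i => G * rfT (fun j => constR L (mu j) (hmu j)) (constR L c hcL) Ut Lt i * G' :=
    ⟨_, rfl⟩
  have hmap : ∀ (s : ℂˣ → ℂˣ) (i : Fin (k + 1)), (FR i).map (evAt L s) =
      G.map (evAt L s) * rfT mu c (Ut.map (evAt L s)) (Lt.map (evAt L s)) i *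
        G'.map (evAt L s) := by
    intro s i
    rw [hFR, Matrix.map_mul, Matrix.map_mul, map_rfT]
    simp only [evAt_constR]
  have hLau : FLau (fun s => MvPolynomial.eval
      (fun x => (FR x.1).map (evAt L s) x.2.1 x.2.2) Q) := by
    refine FLau.eval_comp Q fun x => ?_
    exact flau_evAt L (FR x.1 x.2.1 x.2.2)
  have hone : ∀ s : ℂˣ → ℂˣ,
      (1 : Matrix (Fin (k + 1)) (Fin (k + 1)) (ringR L)).map (evAt L s) = 1 := by
    intro s
    simp
  have hzero : ∀ s : ℂˣ → ℂˣ, (∀ t, s t ∈ Set.range (fun n : ℕ => fundUnit ^ n)) →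
      MvPolynomial.eval (fun x => (FR x.1).map (evAt L s) x.2.1 x.2.2) Q = 0 := by
    intro s hs
    have hsU : ∀ t, s t ∈ unitsO L := by
      intro t
      obtain ⟨n, hn⟩ := hs t
      rw [← hn]
      exact (unitsO L).pow_mem (fundUnit_mem_unitsO_of_mem hL) n
    have hGs : G.map (evAt L s) * G'.map (evAt L s) = 1 := by
      rw [← Matrix.map_mul, hGG', hone]
    have hGs' : G'.map (evAt L s) * G.map (evAt L s) = 1 := by
      rw [← Matrix.map_mul, hG'G, hone]
    have hUs : ∀ i j, j < i → (Ut.map (evAt L s)) i j = 0 := fun i j hij => by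
      rw [Matrix.map_apply, hUt i j hij, map_zero]
    have hUs1 : ∀ i, (Ut.map (evAt L s)) i i = 1 := fun i => by
      rw [Matrix.map_apply, hUtd i]
      simp
    have hLs : ∀ i j, i < j → (Lt.map (evAt L s)) i j = 0 := fun i j hij => by
      rw [Matrix.map_apply, hLt i j hij, map_zero]
    have hLsb : ∀ i, (Lt.map (evAt L s)) i i = b i := fun i => by
      rw [Matrix.map_apply, hLtd i, evAt_famUnit]
    obtain ⟨t1, t2⟩ := rfT_tuple lam mu b c hc hcb (G.map (evAt L s)) (G'.map (evAt L s))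
      (Ut.map (evAt L s)) (Lt.map (evAt L s)) hGs hGs' hUs hUs1 hLs hLsb
    refine hQ (fun i => (FR i).map (evAt L s))
      (fun i a a' => evAt_mem_ringO L s hsU (FR i a a')) (fun i => ?_) ?_
    · rw [hmap]
      exact t1 i
    · have e : (fun i => (FR i).map (evAt L s)) = fun i => G.map (evAt L s) *
          rfT mu c (Ut.map (evAt L s)) (Lt.map (evAt L s)) i * G'.map (evAt L s) :=
        funext (hmap s)
      rw [e, t2, charpoly_conj' _ _ _ hGs', ← Matrix.map_mul, Matrix.charpoly_map, hULt,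
        map_prod_famUnit]
  have h0 := hLau.eq_zero_of_infinite _ infinite_powers_fundUnit hzero taut
  have e1 : (fun x : Fin (k + 1) × Fin (k + 1) × Fin (k + 1) =>
      (FR x.1).map (evAt L taut) x.2.1 x.2.2) =
      fun x => (g * rfT mu c U Lo x.1 * g') x.2.1 x.2.2 := by
    funext x
    rw [hmap, hGmap, hG'map, hUm, hLm]
  rw [e1] at h0
  exact h0

theorem eval_eval₂_C {σ κ : Type} (Q : MvPolynomial κ ℂ) (F : κ → MvPolynomial σ ℂ)
    (y : σ → ℂ) :
    MvPolynomial.eval y (MvPolynomial.eval₂ MvPolynomial.C F Q) =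
      MvPolynomial.eval (fun x => MvPolynomial.eval y (F x)) Q := by
  have hid : (MvPolynomial.eval y).comp MvPolynomial.C = RingHom.id ℂ :=
    RingHom.ext fun c => MvPolynomial.eval_C c
  rw [MvPolynomial.eval₂_comp_left (MvPolynomial.eval y), hid, MvPolynomial.eval₂_id]
  rfl

/-- The same for the tuples attached to chart pairs for which the first basis vector is cyclic
for the product. -/
theorem refl_density_top {L : IntermediateField ℚ ℂ} (hL : sqrtTwo ∈ L) (k : ℕ)
    (lam mu b δ : Fin (k + 1) → ℂ) (c : ℂ)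
    (hmu : ∀ i, mu i ∈ ringO L) (hcL : c ∈ ringO L) (hb : ∀ i, b i ∈ ringO L)
    (hδ : ∀ i, δ i ∈ ringO L) (hb1 : ∏ i, b i = 1) (hδ1 : ∏ i, δ i = 1)
    (hc : (∏ i, mu i) * c = 1) (hcb : ∀ i, c * b i = lam i)
    (Q : MvPolynomial (Fin (k + 1) × Fin (k + 1) × Fin (k + 1)) ℂ)
    (hQ : ∀ R : Fin (k + 1) → Matrix (Fin (k + 1)) (Fin (k + 1)) ℂ,
      (∀ i a a', R i a a' ∈ ringO L) →
      (∀ i, ∃ u v : Fin (k + 1) → ℂ, v ⬝ᵥ u = lam i - 1 ∧
        R i = mu i • (1 + Matrix.vecMulVec u v)) →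
      (List.ofFn R).prod.charpoly = ∏ i, (Polynomial.X - Polynomial.C (δ i)) →
      MvPolynomial.eval (fun x => R x.1 x.2.1 x.2.2) Q = 0)
    (g g' U Lo : Matrix (Fin (k + 1)) (Fin (k + 1)) ℂ) (hg : g * g' = 1)
    (h : TopOK k (fun _ => 1) b δ U Lo) :
    MvPolynomial.eval (fun x => (g * rfT mu c U Lo x.1 * g') x.2.1 x.2.2) Q = 0 := by
  obtain ⟨P', hP'⟩ : ∃ P' : MvPolynomial (Fin 2 × Fin (k + 1) × Fin (k + 1)) ℂ,
      ∀ U' L' : Matrix (Fin (k + 1)) (Fin (k + 1)) ℂ,
        MvPolynomial.eval (fun x => ![U', L'] x.1 x.2.1 x.2.2) P' =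
          MvPolynomial.eval (fun x => (g * rfT mu c U' L' x.1 * g') x.2.1 x.2.2) Q := by
    refine ⟨MvPolynomial.eval₂ MvPolynomial.C
      (fun x : Fin (k + 1) × Fin (k + 1) × Fin (k + 1) =>
        ((g.map MvPolynomial.C * rfT (fun j => MvPolynomial.C (mu j)) (MvPolynomial.C c)
          (univU k) (univL k) x.1 * g'.map MvPolynomial.C :
            Matrix (Fin (k + 1)) (Fin (k + 1))
              (MvPolynomial (Fin 2 × Fin (k + 1) × Fin (k + 1)) ℂ))) x.2.1 x.2.2) Q,
      fun U' L' => ?_⟩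
    rw [eval_eval₂_C]
    refine congrArg (fun f => MvPolynomial.eval f Q) (funext fun x => ?_)
    change (((g.map MvPolynomial.C * rfT (fun j => MvPolynomial.C (mu j)) (MvPolynomial.C c)
      (univU k) (univL k) x.1 * g'.map MvPolynomial.C :
        Matrix (Fin (k + 1)) (Fin (k + 1))
          (MvPolynomial (Fin 2 × Fin (k + 1) × Fin (k + 1)) ℂ))).map
        (MvPolynomial.eval (fun x => ![U', L'] x.1 x.2.1 x.2.2))) x.2.1 x.2.2 = _
    rw [Matrix.map_mul, Matrix.map_mul, map_rfT, const_map, const_map, univU_map, univL_map]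
    simp only [MvPolynomial.eval_C]
  have hb0 := ne_zero_of_prod_eq_one b hb1
  have h0 := topOK_of_nest k (fun _ => 1) b δ (fun _ => one_ne_zero) hb0
    (by rw [hb1, hδ1]; simp) P'
    (fun U' L' hUL => by
      rw [hP']
      exact refl_density_nested hL k lam mu b δ c hmu hcL hb hδ hb1 hδ1 hc hcb Q hQ g g' U' L'
        hg hUL) U Lo h
  rw [hP'] at h0
  exact h0

/-- Let lam, mu and δ be families of k + 1 algebraic integers with mu_i ^ (k + 1) * lam_i = 1,
lam_i different from 1, and δ of product one.  Let V be the set of tuples (R_0, ..., R_k) of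
complex matrices of size k + 1 such that every R_i is mu_i times a pseudo-reflection with
nontrivial eigenvalue lam_i, and the ordered product R_0 ... R_k has characteristic polynomial
with roots δ.  There is a polynomial F in the entries of the tuple which does not vanish
identically on V, such that at every point of V at which F does not vanish the product
R_0 ... R_k has a cyclic vector, and for every subfield L of the complex numbers containing a
square root of two and all lam_i, mu_i, δ_i, every polynomial P which vanishes at all points of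
V with entries in the ring of integers of L at which F does not vanish, vanishes at the point.
Such a field L of finite degree exists. -/
theorem reflections_dense (k : ℕ) (lam mu δ : Fin (k + 1) → ℂ)
    (hlam : ∀ i, IsIntegral ℤ (lam i)) (hmu : ∀ i, IsIntegral ℤ (mu i))
    (hδ : ∀ i, IsIntegral ℤ (δ i)) (hml : ∀ i, mu i ^ (k + 1) * lam i = 1)
    (hlam1 : ∀ i, lam i ≠ 1) (hδ1 : ∏ i, δ i = 1) :
    (∃ F : MvPolynomial (Fin (k + 1) × Fin (k + 1) × Fin (k + 1)) ℂ,
      (∃ R : Fin (k + 1) → Matrix (Fin (k + 1)) (Fin (k + 1)) ℂ,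
        (∀ i, ∃ u v : Fin (k + 1) → ℂ, v ⬝ᵥ u = lam i - 1 ∧
          R i = mu i • (1 + Matrix.vecMulVec u v)) ∧
        (List.ofFn R).prod.charpoly = ∏ i, (Polynomial.X - Polynomial.C (δ i)) ∧
        MvPolynomial.eval (fun x => R x.1 x.2.1 x.2.2) F ≠ 0) ∧
      ∀ R : Fin (k + 1) → Matrix (Fin (k + 1)) (Fin (k + 1)) ℂ,
        (∀ i, ∃ u v : Fin (k + 1) → ℂ, v ⬝ᵥ u = lam i - 1 ∧
          R i = mu i • (1 + Matrix.vecMulVec u v)) →
        (List.ofFn R).prod.charpoly = ∏ i, (Polynomial.X - Polynomial.C (δ i)) →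
        MvPolynomial.eval (fun x => R x.1 x.2.1 x.2.2) F ≠ 0 →
        (∃ w : Fin (k + 1) → ℂ, ∀ y : Fin (k + 1) → ℂ, ∃ p : Polynomial ℂ,
          Matrix.mulVec (Polynomial.aeval (List.ofFn R).prod p) w = y) ∧
        ∀ L : IntermediateField ℚ ℂ, (∃ s ∈ L, s ^ 2 = 2) → (∀ i, lam i ∈ L) →
          (∀ i, mu i ∈ L) → (∀ i, δ i ∈ L) →
          ∀ P : MvPolynomial (Fin (k + 1) × Fin (k + 1) × Fin (k + 1)) ℂ,
            (∀ R' : Fin (k + 1) → Matrix (Fin (k + 1)) (Fin (k + 1)) ℂ,
              (∀ i a a', R' i a a' ∈ L ∧ IsIntegral ℤ (R' i a a')) →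
              (∀ i, ∃ u v : Fin (k + 1) → ℂ, v ⬝ᵥ u = lam i - 1 ∧
                R' i = mu i • (1 + Matrix.vecMulVec u v)) →
              (List.ofFn R').prod.charpoly = ∏ i, (Polynomial.X - Polynomial.C (δ i)) →
              MvPolynomial.eval (fun x => R' x.1 x.2.1 x.2.2) F ≠ 0 →
              MvPolynomial.eval (fun x => R' x.1 x.2.1 x.2.2) P = 0) →
            MvPolynomial.eval (fun x => R x.1 x.2.1 x.2.2) P = 0) ∧
    ∃ L : IntermediateField ℚ ℂ, FiniteDimensional ℚ L ∧ (∃ s ∈ L, s ^ 2 = 2) ∧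
      (∀ i, lam i ∈ L) ∧ (∀ i, mu i ∈ L) ∧ ∀ i, δ i ∈ L := by
  have hmu0 : ∀ i, mu i ≠ 0 := by
    intro i h0
    have h := hml i
    rw [h0, zero_pow (Nat.succ_ne_zero k), zero_mul] at h
    exact zero_ne_one h
  obtain ⟨c, hcdef⟩ : ∃ c, c = ∏ i, (mu i ^ k * lam i) := ⟨_, rfl⟩
  have hc : (∏ i, mu i) * c = 1 := by
    rw [hcdef, ← Finset.prod_mul_distrib]
    refine Finset.prod_eq_one fun i _ => ?_
    rw [← hml i]
    ring
  obtain ⟨b, hbdef⟩ : ∃ b : Fin (k + 1) → ℂ, b = fun i => (∏ j, mu j) * lam i := ⟨_, rfl⟩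
  have hb1 : ∏ i, b i = 1 := by
    rw [hbdef, Finset.prod_mul_distrib, Finset.prod_const, Finset.card_univ, Fintype.card_fin,
      ← Finset.prod_pow, ← Finset.prod_mul_distrib]
    exact Finset.prod_eq_one fun i _ => hml i
  have hcb : ∀ i, c * b i = lam i := by
    intro i
    rw [hbdef]
    linear_combination lam i * hc
  have hb0 := ne_zero_of_prod_eq_one b hb1
  constructor
  · refine ⟨polyRf k mu, ?_, ?_⟩
    · obtain ⟨U, Lo, h1, h2, h3, h4, h5, h6⟩ := exists_chart_pair k (fun _ => 1) b δ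
        (fun _ => one_ne_zero) hb0 (by rw [hb1, hδ1]; simp)
      have hTop : TopOK k (fun _ => 1) b δ U Lo := ⟨h1, h2, h3, h4, h5, by
        rw [← single_eq_cons]
        exact h6⟩
      obtain ⟨t1, -⟩ := rfT_tuple lam mu b c hc hcb 1 1 U Lo (Matrix.one_mul 1)
        (Matrix.one_mul 1) h1 h2 h3 h4
      refine ⟨rfT mu c U Lo, fun i => ?_, ?_, ?_⟩
      · obtain ⟨u, v, e1, e2⟩ := t1 i
        rw [Matrix.one_mul, Matrix.mul_one] at e2
        exact ⟨u, v, e1, e2⟩
      · rw [prod_rfT mu c U Lo h1 h2 h3 hc, h5]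
      · rw [eval_polyRf]
        exact rfGen_chart_ne_zero k lam mu b δ c hmu0 hlam1 hc hcb U Lo hTop
    · intro R hR hchar hF
      have hF0 := hF
      rw [eval_polyRf] at hF
      refine ⟨⟨_, cyc_of_isUnit_det_kry (isUnit_iff_ne_zero.mpr (right_ne_zero_of_mul hF))⟩, ?_⟩
      intro L hs hlamL hmuL hδL P hP
      obtain ⟨s, hsL, hs2⟩ := hs
      have hsq : sqrtTwo ∈ L := by
        have h0 : (s - sqrtTwo) * (s + sqrtTwo) = 0 := by
          linear_combination hs2 - sqrtTwo_mul_self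
        rcases mul_eq_zero.mp h0 with h | h
        · have e : s = sqrtTwo := sub_eq_zero.mp h
          rw [← e]
          exact hsL
        · have e : sqrtTwo = -s := by linear_combination h
          rw [e]
          exact L.neg_mem hsL
      have hmuO : ∀ i, mu i ∈ ringO L := fun i => ⟨hmuL i, hmu i⟩
      have hlamO : ∀ i, lam i ∈ ringO L := fun i => ⟨hlamL i, hlam i⟩
      have hδO : ∀ i, δ i ∈ ringO L := fun i => ⟨hδL i, hδ i⟩
      have hcO : c ∈ ringO L := by
        rw [hcdef]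
        exact Subring.prod_mem _ fun i _ =>
          Subring.mul_mem _ (Subring.pow_mem _ (hmuO i) k) (hlamO i)
      have hbO : ∀ i, b i ∈ ringO L := by
        intro i
        rw [hbdef]
        exact Subring.mul_mem _ (Subring.prod_mem _ fun j _ => hmuO j) (hlamO i)
      have hPF : ∀ R' : Fin (k + 1) → Matrix (Fin (k + 1)) (Fin (k + 1)) ℂ,
          (∀ i a a', R' i a a' ∈ ringO L) →
          (∀ i, ∃ u v : Fin (k + 1) → ℂ, v ⬝ᵥ u = lam i - 1 ∧
            R' i = mu i • (1 + Matrix.vecMulVec u v)) →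
          (List.ofFn R').prod.charpoly = ∏ i, (Polynomial.X - Polynomial.C (δ i)) →
          MvPolynomial.eval (fun x => R' x.1 x.2.1 x.2.2) (P * polyRf k mu) = 0 := by
        intro R' hR' c1 c2
        rw [map_mul]
        by_cases hF' : MvPolynomial.eval (fun x => R' x.1 x.2.1 x.2.2) (polyRf k mu) = 0
        · rw [hF', mul_zero]
        · rw [hP R' hR' c1 c2 hF', zero_mul]
      obtain ⟨g, g', U, Lo, hgg, hTop, hRi⟩ :=
        refl_normal_form k lam mu δ c hmu0 hc R hR hchar hF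
      have hTop' : TopOK k (fun _ => 1) b δ U Lo := by
        rw [hbdef]
        exact hTop
      have key := refl_density_top hsq k lam mu b δ c hmuO hcO hbO hδO hb1 hδ1 hc hcb
        (P * polyRf k mu) hPF g g' U Lo hgg hTop'
      have e : (fun x : Fin (k + 1) × Fin (k + 1) × Fin (k + 1) =>
          (g * rfT mu c U Lo x.1 * g') x.2.1 x.2.2) = fun x => R x.1 x.2.1 x.2.2 := by
        funext x
        rw [hRi]
      rw [e, map_mul] at key
      exact (mul_eq_zero.mp key).resolve_right hF0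
  · refine ⟨fieldQ lam mu δ (fun (_ : Fin 0) _ => 0),
      fieldQ_finiteDimensional lam mu δ _ hlam hmu hδ (fun l => l.elim0),
      ⟨sqrtTwo, sqrtTwo_mem_fieldQ _ _ _ _, by rw [pow_two, sqrtTwo_mul_self]⟩,
      fun i => IntermediateField.subset_adjoin ℚ _ (by simp),
      fun i => IntermediateField.subset_adjoin ℚ _ (by simp),
      fun i => IntermediateField.subset_adjoin ℚ _ (by simp)⟩

end Vale.Agent.Lib.P002
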