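import Vale.Agent.Lib.P002.RfProd

/-!
Tuples of scaled pseudo-reflections: the genericity function (the roots are linearly
independent and the first root is a cyclic vector for the product), and the normal form of a
generic tuple as a simultaneous conjugate of the tuple attached to a chart pair.
-/

namespace Vale.Agent.Lib.P002

open Matrix

section Gen

variable {S : Type*} [CommRing S]

/-- The matrix whose i-th column is the i-th column of R_i - mu_i. -/
def rfCol {n : ℕ} (mu : Fin n → S) (R : Fin n → Matrix (Fin n) (Fin n) S) :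
    Matrix (Fin n) (Fin n) S :=
  Matrix.of fun a i => R i a i - (if a = i then mu i else 0)

/-- The genericity function of a tuple of scaled pseudo-reflections. -/
noncomputable def rfGen {k : ℕ} (mu : Fin (k + 1) → S)
    (R : Fin (k + 1) → Matrix (Fin (k + 1)) (Fin (k + 1)) S) : S :=
  (rfCol mu R).det * (kry (List.ofFn R).prod (fun a => rfCol mu R a 0)).det

variable {T : Type*} [CommRing T] (f : S →+* T)

theorem map_rfCol {n : ℕ} (mu : Fin n → S) (R : Fin n → Matrix (Fin n) (Fin n) S) :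
    (rfCol mu R).map f = rfCol (fun i => f (mu i)) (fun i => (R i).map f) := by
  ext a i
  by_cases h : a = i
  · subst h
    simp [rfCol]
  · simp [rfCol, h]

theorem map_rfGen {k : ℕ} (mu : Fin (k + 1) → S)
    (R : Fin (k + 1) → Matrix (Fin (k + 1)) (Fin (k + 1)) S) :
    f (rfGen mu R) = rfGen (fun i => f (mu i)) (fun i => (R i).map f) := by
  have e : (fun a => f (rfCol mu R a 0)) =
      fun a => rfCol (fun i => f (mu i)) (fun i => (R i).map f) a 0 := by
    funext a
    exact congrFun (congrFun (map_rfCol f mu R) a) 0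
  unfold rfGen
  rw [map_mul, map_det', map_det', kry_map, map_rfCol, map_prod_ofFn, e]

end Gen

/-- The matrices of indeterminates of a tuple. -/
noncomputable def uRf (k : ℕ) (i : Fin (k + 1)) :
    Matrix (Fin (k + 1)) (Fin (k + 1))
      (MvPolynomial (Fin (k + 1) × Fin (k + 1) × Fin (k + 1)) ℂ) :=
  Matrix.of fun a b => MvPolynomial.X (i, a, b)

/-- The genericity polynomial of tuples of scaled pseudo-reflections. -/
noncomputable def polyRf (k : ℕ) (mu : Fin (k + 1) → ℂ) :
    MvPolynomial (Fin (k + 1) × Fin (k + 1) × Fin (k + 1)) ℂ :=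
  rfGen (fun i => MvPolynomial.C (mu i)) (uRf k)

theorem eval_polyRf (k : ℕ) (mu : Fin (k + 1) → ℂ)
    (R : Fin (k + 1) → Matrix (Fin (k + 1)) (Fin (k + 1)) ℂ) :
    MvPolynomial.eval (fun x => R x.1 x.2.1 x.2.2) (polyRf k mu) = rfGen mu R := by
  rw [polyRf, map_rfGen]
  have h : (fun i => (uRf k i).map (MvPolynomial.eval
      fun x : Fin (k + 1) × Fin (k + 1) × Fin (k + 1) => R x.1 x.2.1 x.2.2)) = R := by
    funext i
    ext a b
    simp [uRf]
  rw [h]
  simp only [MvPolynomial.eval_C]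

/-- The genericity function does not vanish at the tuple attached to a chart pair. -/
theorem rfGen_chart_ne_zero (k : ℕ) (lam mu b δ : Fin (k + 1) → ℂ) (c : ℂ)
    (hmu : ∀ i, mu i ≠ 0) (hlam : ∀ i, lam i ≠ 1) (hc : (∏ i, mu i) * c = 1)
    (hcb : ∀ i, c * b i = lam i) (U L : Matrix (Fin (k + 1)) (Fin (k + 1)) ℂ)
    (h : TopOK k (fun _ => 1) b δ U L) : rfGen mu (rfT mu c U L) ≠ 0 := by
  obtain ⟨hU, hU1, hL, hLb, -, hcyc⟩ := h
  have hdet : U.det = 1 := by
    rw [det_ut hU]
    simp [hU1]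
  have hV1 : ∀ i, U.adjugate i i = 1 := fun i => by
    have h := ut_adjugate_diag hU hdet i
    rwa [hU1, mul_one] at h
  have hcol : rfCol mu (rfT mu c U L) = Matrix.diagonal fun i => mu i * (lam i - 1) := by
    ext a i
    by_cases hai : a = i
    · subst hai
      simp [rfCol, rfT, rfG, rowSel, hLb, hV1, hcb]
      ring
    · simp [rfCol, rfT, rfG, rowSel, hai, Matrix.one_apply]
  have hne : ∀ i, mu i * (lam i - 1) ≠ 0 := fun i =>
    mul_ne_zero (hmu i) (sub_ne_zero.mpr (hlam i))
  unfold rfGen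
  refine mul_ne_zero ?_ ?_
  · rw [hcol, Matrix.det_diagonal]
    exact Finset.prod_ne_zero_iff.mpr fun i _ => hne i
  · rw [prod_rfT mu c U L hU (fun i => hU1 i) hL hc]
    have hvec : (fun a => rfCol mu (rfT mu c U L) a 0) =
        (mu 0 * (lam 0 - 1)) • (Fin.cons 1 0 : Fin (k + 1) → ℂ) := by
      rw [hcol, ← single_eq_cons]
      funext a
      by_cases ha : a = 0
      · subst ha
        simp
      · simp [Matrix.diagonal_apply, ha, Pi.single_apply]
    rw [hvec]
    exact (hcyc.smul_vec (hne 0)).det_kry_ne_zero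

/-- The normal form of a generic tuple of scaled pseudo-reflections. -/
theorem refl_normal_form (k : ℕ) (lam mu δ : Fin (k + 1) → ℂ) (c : ℂ) (hmu : ∀ i, mu i ≠ 0)
    (hc : (∏ i, mu i) * c = 1)
    (R : Fin (k + 1) → Matrix (Fin (k + 1)) (Fin (k + 1)) ℂ)
    (hR : ∀ i, ∃ u v : Fin (k + 1) → ℂ, v ⬝ᵥ u = lam i - 1 ∧
      R i = mu i • (1 + Matrix.vecMulVec u v))
    (hchar : (List.ofFn R).prod.charpoly = ∏ i, (Polynomial.X - Polynomial.C (δ i)))
    (hF : rfGen mu R ≠ 0) :
    ∃ g g' U L : Matrix (Fin (k + 1)) (Fin (k + 1)) ℂ, g * g' = 1 ∧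
      TopOK k (fun _ => 1) (fun i => (∏ j, mu j) * lam i) δ U L ∧
      ∀ i, R i = g * rfT mu c U L i * g' := by
  choose u v huv hRi using hR
  obtain ⟨g, hgdef⟩ : ∃ g, g = rfCol mu R := ⟨_, rfl⟩
  have hdet : g.det ≠ 0 := by
    rw [hgdef]
    exact left_ne_zero_of_mul hF
  have hkry : (kry (List.ofFn R).prod (fun a => g a 0)).det ≠ 0 := by
    rw [hgdef]
    exact right_ne_zero_of_mul hF
  have hgg' : g * g⁻¹ = 1 := Matrix.mul_nonsing_inv g (isUnit_iff_ne_zero.mpr hdet)
  have hg'g : g⁻¹ * g = 1 := Matrix.nonsing_inv_mul g (isUnit_iff_ne_zero.mpr hdet)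
  have hcolg : ∀ a i, g a i = mu i * u i a * v i i := by
    intro a i
    rw [hgdef]
    by_cases hai : a = i
    · subst hai
      simp [rfCol, hRi, Matrix.vecMulVec_apply]
      ring
    · simp [rfCol, hRi, Matrix.vecMulVec_apply, hai, Matrix.one_apply]
      ring
  have hvi : ∀ i, v i i ≠ 0 := by
    intro i h0
    apply hdet
    refine Matrix.det_eq_zero_of_column_eq_zero i fun a => ?_
    rw [hcolg, h0, mul_zero]
  have hmv : ∀ i, mu i * v i i ≠ 0 := fun i => mul_ne_zero (hmu i) (hvi i)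
  obtain ⟨G, hGdef⟩ : ∃ G : Matrix (Fin (k + 1)) (Fin (k + 1)) ℂ,
      G = Matrix.of fun i j => (mu i * v i i)⁻¹ * (v i ᵥ* g) j := ⟨_, rfl⟩
  have hGrow : ∀ i, G i = (mu i * v i i)⁻¹ • (v i ᵥ* g) := by
    intro i
    rw [hGdef]
    rfl
  have hGdiag : ∀ i, G i i = lam i - 1 := by
    intro i
    rw [hGrow, ← huv i]
    simp only [Pi.smul_apply, smul_eq_mul, Matrix.vecMul, dotProduct, hcolg]
    rw [Finset.mul_sum]
    refine Finset.sum_congr rfl fun a _ => ?_
    field_simp [hmu i, hvi i]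
  -- conjugation of the members
  have hconj : ∀ i, R i * g = g * (mu i • (1 + rowSel i G)) := by
    intro i
    have h1 : g * rowSel i G = Matrix.vecMulVec (u i) (v i ᵥ* g) := by
      rw [rowSel_eq_vecMulVec, Matrix.mul_vecMulVec, hGrow]
      ext a b
      simp only [Matrix.vecMulVec_apply, Matrix.mulVec, dotProduct, Pi.single_apply, mul_ite,
        mul_one, mul_zero, Finset.sum_ite_eq', Finset.mem_univ, if_true, Pi.smul_apply,
        smul_eq_mul, hcolg]
      field_simp [hmu i, hvi i]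
    rw [Matrix.mul_smul, Matrix.mul_add, Matrix.mul_one, h1, hRi i, Matrix.smul_mul,
      Matrix.add_mul, Matrix.one_mul, Matrix.vecMulVec_mul]
  have hRg : ∀ i, R i = g * (mu i • (1 + rowSel i G)) * g⁻¹ := by
    intro i
    rw [← hconj i, Matrix.mul_assoc, hgg', Matrix.mul_one]
  -- the chart pair
  obtain ⟨M, hM⟩ : ∃ M, M = ∏ j, mu j := ⟨_, rfl⟩
  obtain ⟨V, hVdef⟩ : ∃ V : Matrix (Fin (k + 1)) (Fin (k + 1)) ℂ,
      V = Matrix.of fun i j => if i < j then -G i j else if i = j then 1 else 0 := ⟨_, rfl⟩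
  obtain ⟨Lm, hLdef⟩ : ∃ Lm : Matrix (Fin (k + 1)) (Fin (k + 1)) ℂ,
      Lm = Matrix.of fun i j => if j < i then M * G i j else if j = i then M * (G i i + 1)
        else 0 := ⟨_, rfl⟩
  have hVut : ∀ i j, j < i → V i j = 0 := by
    intro i j hji
    rw [hVdef]
    simp [not_lt.mpr hji.le, hji.ne']
  have hV1 : ∀ i, V i i = 1 := by
    intro i
    rw [hVdef]
    simp
  have hVdet : V.det = 1 := by
    rw [det_ut hVut]
    simp [hV1]
  have hUut := ut_adjugate hVut hVdet
  have hU1 : ∀ i, V.adjugate i i = 1 := fun i => by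
    have h := ut_adjugate_diag hVut hVdet i
    rwa [hV1, mul_one] at h
  have hUadj : V.adjugate.adjugate = V := by
    have hUdet : V.adjugate.det = 1 := by
      rw [det_ut hUut]
      simp [hU1]
    rw [adjugate_eq_inv hUdet, adjugate_eq_inv hVdet,
      Matrix.nonsing_inv_nonsing_inv V (by rw [hVdet]; exact isUnit_one)]
  have hLlt : ∀ i j, i < j → Lm i j = 0 := by
    intro i j hij
    rw [hLdef]
    simp [not_lt.mpr hij.le, hij.ne']
  have hLd : ∀ i, Lm i i = M * lam i := by
    intro i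
    rw [hLdef]
    simp [hGdiag]
  have hG : rfG c V.adjugate Lm = G := by
    have hMc : M * c = 1 := by rw [hM]; exact hc
    ext i j
    rw [rfG, hUadj, hVdef, hLdef]
    rcases lt_trichotomy i j with h | h | h
    · simp [h, not_lt.mpr h.le, h.ne']
    · subst h
      simp
      linear_combination (G i i + 1) * hMc
    · simp [h, not_lt.mpr h.le, h.ne']
      linear_combination G i j * hMc
  have hT : ∀ i, rfT mu c V.adjugate Lm i = mu i • (1 + rowSel i G) := by
    intro i
    rw [rfT, hG]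
  have hprod : V.adjugate * Lm = g⁻¹ * (List.ofFn R).prod * g := by
    have hfun : rfT mu c V.adjugate Lm = fun l => g⁻¹ * R l * g := by
      funext i
      rw [hT, hRg i]
      simp only [Matrix.mul_assoc]
      rw [hg'g, Matrix.mul_one, ← Matrix.mul_assoc, hg'g, Matrix.one_mul]
    rw [← prod_rfT mu c V.adjugate Lm hUut hU1 hLlt hc, ← prod_ofFn_conj' g⁻¹ g hg'g hgg', hfun]
  refine ⟨g, g⁻¹, V.adjugate, Lm, hgg', ⟨hUut, hU1, hLlt, ?_, ?_, ?_⟩, fun i => ?_⟩
  · intro i
    rw [hLd, hM]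
  · rw [hprod, charpoly_conj' _ _ _ hgg', hchar]
  · rw [hprod]
    have h := (cyc_of_isUnit_det_kry (isUnit_iff_ne_zero.mpr hkry)).conj g g⁻¹ hgg'
    have hvec : g⁻¹ *ᵥ (fun a => g a 0) = (Fin.cons 1 0 : Fin (k + 1) → ℂ) := by
      rw [← single_eq_cons]
      funext b
      have h2 := congrFun (congrFun hg'g b) 0
      rw [Matrix.mul_apply] at h2
      rw [Matrix.mulVec, dotProduct, h2, Matrix.one_apply, Pi.single_apply]
    rw [hvec] at h
    exact h
  · rw [hT, hRg i]

end Vale.Agent.Lib.P002
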