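import Vale.Agent.Lib.P002.SrField

/-!
Tuples of pseudo-reflections with linearly independent roots: the normal form attached to a
matrix G (the i-th member is the identity plus the i-th row of G placed in row i), and the
product formula: if G = T - V with V upper triangular with unit diagonal and T lower
triangular, then V times the ordered product of the members is T.
-/

namespace Vale.Agent.Lib.P002

open Matrix

section Refl

variable {S : Type*} [CommRing S] {n : ℕ}

/-- The matrix with the same row i as G and zeros elsewhere. -/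
def rowSel (i : Fin n) (G : Matrix (Fin n) (Fin n) S) : Matrix (Fin n) (Fin n) S :=
  Matrix.of fun a b => if a = i then G a b else 0

/-- The matrix with the same first q rows as G and zeros elsewhere. -/
def rowCut (q : ℕ) (G : Matrix (Fin n) (Fin n) S) : Matrix (Fin n) (Fin n) S :=
  Matrix.of fun a b => if (a : ℕ) < q then G a b else 0

theorem rowSel_eq_vecMulVec (i : Fin n) (G : Matrix (Fin n) (Fin n) S) :
    rowSel i G = Matrix.vecMulVec (Pi.single i 1) (G i) := by
  ext a b
  by_cases h : a = i
  · subst h
    simp [rowSel, Matrix.vecMulVec_apply]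
  · simp [rowSel, Matrix.vecMulVec_apply, h]

theorem prod_take_refl (V T : Matrix (Fin n) (Fin n) S) (hV : ∀ i j, j < i → V i j = 0)
    (hV1 : ∀ i, V i i = 1) (hT : ∀ i j, i < j → T i j = 0) :
    ∀ q : ℕ, q ≤ n →
      V * ((List.ofFn fun i => 1 + rowSel i (T - V)).take q).prod = V + rowCut q (T - V) := by
  intro q
  induction q with
  | zero =>
    intro _
    rw [List.take_zero, List.prod_nil, Matrix.mul_one]
    ext a b
    simp [rowCut]
  | succ q ih =>
    intro hq
    have hq' : q < (List.ofFn fun i : Fin n => 1 + rowSel i (T - V)).length := by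
      rw [List.length_ofFn]
      exact hq
    rw [List.prod_take_succ _ _ hq', ← Matrix.mul_assoc, ih (Nat.le_of_succ_le hq),
      List.getElem_ofFn, Matrix.mul_add, Matrix.mul_one]
    have key : (V + rowCut q (T - V)) * rowSel ⟨q, hq⟩ (T - V) = rowSel ⟨q, hq⟩ (T - V) := by
      ext a b
      rw [Matrix.mul_apply, Finset.sum_eq_single (⟨q, hq⟩ : Fin n)]
      · by_cases haq : a = ⟨q, hq⟩
        · subst haq
          simp [rowSel, rowCut, hV1]
        · rcases lt_or_gt_of_ne haq with h | h
          · have h' : (a : ℕ) < q := h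
            simp [rowSel, rowCut, haq, h', hT a ⟨q, hq⟩ h]
          · have h' : ¬ (a : ℕ) < q := by
              have h2 : q < (a : ℕ) := h
              omega
            simp [rowSel, rowCut, haq, h', hV a ⟨q, hq⟩ h]
      · intro j _ hj
        simp [rowSel, hj]
      · intro h
        exact absurd (Finset.mem_univ _) h
    rw [key]
    ext a b
    by_cases haq : a = ⟨q, hq⟩
    · subst haq
      simp [rowSel, rowCut]
    · have hne : (a : ℕ) ≠ q := fun e => haq (Fin.ext e)
      by_cases hlt : (a : ℕ) < q
      · have hlt' : (a : ℕ) ≤ q := by omega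
        simp [rowSel, rowCut, haq, hlt, hlt']
      · have hlt' : ¬ (a : ℕ) ≤ q := by omega
        simp [rowSel, rowCut, haq, hlt, hlt']

/-- The product formula for pseudo-reflections in normal form. -/
theorem prod_refl (V T : Matrix (Fin n) (Fin n) S) (hV : ∀ i j, j < i → V i j = 0)
    (hV1 : ∀ i, V i i = 1) (hT : ∀ i j, i < j → T i j = 0) :
    V * (List.ofFn fun i => 1 + rowSel i (T - V)).prod = T := by
  have h := prod_take_refl V T hV hV1 hT n le_rfl
  rw [List.take_of_length_le (by rw [List.length_ofFn])] at h
  rw [h]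
  ext a b
  simp [rowCut]

theorem prod_ofFn_smul : ∀ (m : ℕ) (a : Fin m → S) (X : Fin m → Matrix (Fin n) (Fin n) S),
    (List.ofFn fun i => a i • X i).prod = (∏ i, a i) • (List.ofFn X).prod := by
  intro m
  induction m with
  | zero =>
    intro a X
    simp
  | succ m ih =>
    intro a X
    rw [List.ofFn_succ, List.prod_cons, ih, List.ofFn_succ, List.prod_cons, Fin.prod_univ_succ,
      smul_mul_smul_comm]

/-- The matrix G attached to a chart pair (U, L) and a scalar c. -/
def rfG (c : S) (U L : Matrix (Fin n) (Fin n) S) : Matrix (Fin n) (Fin n) S :=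
  c • L - U.adjugate

/-- The tuple of scaled pseudo-reflections attached to a chart pair. -/
def rfT (mu : Fin n → S) (c : S) (U L : Matrix (Fin n) (Fin n) S) (i : Fin n) :
    Matrix (Fin n) (Fin n) S :=
  mu i • (1 + rowSel i (rfG c U L))

/-- The ordered product of the tuple attached to a chart pair is the product of the pair. -/
theorem prod_rfT (mu : Fin n → S) (c : S) (U L : Matrix (Fin n) (Fin n) S)
    (hU : ∀ i j, j < i → U i j = 0) (hU1 : ∀ i, U i i = 1) (hL : ∀ i j, i < j → L i j = 0)
    (hc : (∏ i, mu i) * c = 1) : (List.ofFn (rfT mu c U L)).prod = U * L := by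
  have hdet : U.det = 1 := by
    rw [det_ut hU]
    simp [hU1]
  have hV := ut_adjugate hU hdet
  have hV1 : ∀ i, U.adjugate i i = 1 := fun i => by
    have h := ut_adjugate_diag hU hdet i
    rwa [hU1, mul_one] at h
  have hT : ∀ i j, i < j → (c • L) i j = 0 := fun i j h => by simp [hL i j h]
  have h := prod_refl U.adjugate (c • L) hV hV1 hT
  have e : List.ofFn (rfT mu c U L) =
      List.ofFn fun i => mu i • (1 + rowSel i (c • L - U.adjugate)) := rfl
  rw [e, prod_ofFn_smul]
  calc (∏ i, mu i) • (List.ofFn fun i => 1 + rowSel i (c • L - U.adjugate)).prod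
      = (∏ i, mu i) • ((U * U.adjugate) *
          (List.ofFn fun i => 1 + rowSel i (c • L - U.adjugate)).prod) := by
        rw [mul_adjugate_of_det hdet, Matrix.one_mul]
    _ = (∏ i, mu i) • (U * (c • L)) := by rw [Matrix.mul_assoc, h]
    _ = U * L := by rw [Matrix.mul_smul, smul_smul, hc, one_smul]

/-- The members of a conjugate of the tuple attached to a chart pair are scaled
pseudo-reflections, and the product is the conjugate of the product of the pair. -/
theorem rfT_tuple (lam mu b : Fin n → S) (c : S) (hc : (∏ i, mu i) * c = 1)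
    (hcb : ∀ i, c * b i = lam i) (g g' U L : Matrix (Fin n) (Fin n) S) (hg : g * g' = 1)
    (hg' : g' * g = 1) (hU : ∀ i j, j < i → U i j = 0) (hU1 : ∀ i, U i i = 1)
    (hL : ∀ i j, i < j → L i j = 0) (hLb : ∀ i, L i i = b i) :
    (∀ i, ∃ u v : Fin n → S, v ⬝ᵥ u = lam i - 1 ∧
      g * rfT mu c U L i * g' = mu i • (1 + Matrix.vecMulVec u v)) ∧
    (List.ofFn fun i => g * rfT mu c U L i * g').prod = g * (U * L) * g' := by
  have hdet : U.det = 1 := by
    rw [det_ut hU]
    simp [hU1]
  have hV1 : ∀ i, U.adjugate i i = 1 := fun i => by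
    have h := ut_adjugate_diag hU hdet i
    rwa [hU1, mul_one] at h
  constructor
  · intro i
    refine ⟨g *ᵥ Pi.single i 1, rfG c U L i ᵥ* g', ?_, ?_⟩
    · rw [← Matrix.dotProduct_mulVec, Matrix.mulVec_mulVec, hg', Matrix.one_mulVec]
      simp [rfG, hLb, hV1, hcb]
    · rw [rfT, Matrix.mul_smul, Matrix.smul_mul, Matrix.mul_add, Matrix.add_mul, Matrix.mul_one,
        hg, rowSel_eq_vecMulVec, Matrix.mul_vecMulVec, Matrix.vecMulVec_mul]
  · rw [prod_ofFn_conj' g g' hg hg', prod_rfT mu c U L hU hU1 hL hc]

variable {T : Type*} [CommRing T] (f : S →+* T)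

theorem map_rfT (mu : Fin n → S) (c : S) (U L : Matrix (Fin n) (Fin n) S) (i : Fin n) :
    (rfT mu c U L i).map f = rfT (fun j => f (mu j)) (f c) (U.map f) (L.map f) i := by
  have hadj := map_adjugate' f U
  ext a b
  have h2 := congrFun (congrFun hadj a) b
  simp only [Matrix.map_apply] at h2
  by_cases h : a = i
  · subst h
    by_cases hab : a = b
    · subst hab
      simp [rfT, rfG, rowSel, h2, Matrix.one_apply]
      ring
    · simp [rfT, rfG, rowSel, h2, Matrix.one_apply, hab]
  · by_cases hab : a = b
    · subst hab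
      simp [rfT, rfG, rowSel, h, Matrix.one_apply]
    · simp [rfT, rfG, rowSel, h, Matrix.one_apply, hab]

end Refl

end Vale.Agent.Lib.P002
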