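import Mathlib

/-!
Block matrices of size k + 1 built from a scalar, a row, a column and a k x k matrix, and the
characteristic polynomial of such a matrix.
-/

namespace Vale.Agent.Lib.P002

open Matrix Polynomial

variable {R : Type*} [CommRing R] {k : ℕ}

/-- The block matrix with corner a, first row b, first column c and lower right block N. -/
def bmat (a : R) (b c : Fin k → R) (N : Matrix (Fin k) (Fin k) R) :
    Matrix (Fin (k + 1)) (Fin (k + 1)) R :=
  Matrix.of (Fin.cons (Fin.cons a b) (fun i => Fin.cons (c i) (N i)))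

@[simp] theorem bmat_zero_zero (a : R) (b c : Fin k → R) (N : Matrix (Fin k) (Fin k) R) :
    bmat a b c N 0 0 = a := rfl

@[simp] theorem bmat_zero_succ (a : R) (b c : Fin k → R) (N : Matrix (Fin k) (Fin k) R)
    (j : Fin k) : bmat a b c N 0 j.succ = b j := rfl

@[simp] theorem bmat_succ_zero (a : R) (b c : Fin k → R) (N : Matrix (Fin k) (Fin k) R)
    (i : Fin k) : bmat a b c N i.succ 0 = c i := rfl

@[simp] theorem bmat_succ_succ (a : R) (b c : Fin k → R) (N : Matrix (Fin k) (Fin k) R)
    (i j : Fin k) : bmat a b c N i.succ j.succ = N i j := rfl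

theorem eq_bmat (M : Matrix (Fin (k + 1)) (Fin (k + 1)) R) :
    M = bmat (M 0 0) (fun j => M 0 j.succ) (fun i => M i.succ 0)
      (M.submatrix Fin.succ Fin.succ) := by
  ext i j
  refine Fin.cases ?_ (fun i => ?_) i <;> refine Fin.cases ?_ (fun j => ?_) j <;> simp

theorem bmat_submatrix (a : R) (b c : Fin k → R) (N : Matrix (Fin k) (Fin k) R) :
    (bmat a b c N).submatrix Fin.succ Fin.succ = N := by
  ext i j
  simp

theorem bmat_map {S : Type*} [CommRing S] (f : R →+* S) (a : R) (b c : Fin k → R)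
    (N : Matrix (Fin k) (Fin k) R) :
    (bmat a b c N).map f = bmat (f a) (fun j => f (b j)) (fun i => f (c i)) (N.map f) := by
  ext i j
  refine Fin.cases ?_ (fun i => ?_) i <;> refine Fin.cases ?_ (fun j => ?_) j <;> simp

theorem bmat_mulVec (a : R) (b c : Fin k → R) (N : Matrix (Fin k) (Fin k) R) (γ : R)
    (v : Fin k → R) :
    (bmat a b c N) *ᵥ (Fin.cons γ v : Fin (k + 1) → R) =
      Fin.cons (a * γ + b ⬝ᵥ v) (γ • c + N *ᵥ v) := by
  funext i
  refine Fin.cases ?_ (fun i => ?_) i
  · simp [Matrix.mulVec, dotProduct, Fin.sum_univ_succ]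
  · simp [Matrix.mulVec, dotProduct, Fin.sum_univ_succ, mul_comm]

theorem bmat_mul (a a' : R) (b b' c c' : Fin k → R) (N N' : Matrix (Fin k) (Fin k) R) :
    bmat a b c N * bmat a' b' c' N' =
      bmat (a * a' + b ⬝ᵥ c') (a • b' + b ᵥ* N') (a' • c + N *ᵥ c')
        (vecMulVec c b' + N * N') := by
  ext i j
  refine Fin.cases ?_ (fun i => ?_) i <;> refine Fin.cases ?_ (fun j => ?_) j <;>
    simp [Matrix.mul_apply, Fin.sum_univ_succ, dotProduct, Matrix.vecMul, Matrix.mulVec,
      vecMulVec_apply, mul_comm]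

theorem det_bmat_col_zero (a : R) (b : Fin k → R) (N : Matrix (Fin k) (Fin k) R) :
    (bmat a b 0 N).det = a * N.det := by
  rw [Matrix.det_succ_column_zero, Fin.sum_univ_succ]
  simp [bmat_submatrix]

theorem det_bmat_row_zero (a : R) (c : Fin k → R) (N : Matrix (Fin k) (Fin k) R) :
    (bmat a 0 c N).det = a * N.det := by
  rw [Matrix.det_succ_row_zero, Fin.sum_univ_succ]
  simp [bmat_submatrix]

theorem charmatrix_bmat (a : R) (b c : Fin k → R) (N : Matrix (Fin k) (Fin k) R) :
    charmatrix (bmat a b c N) =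
      bmat (X - C a) (fun j => -C (b j)) (fun i => -C (c i)) (charmatrix N) := by
  ext i j
  refine Fin.cases ?_ (fun i => ?_) i <;> refine Fin.cases ?_ (fun j => ?_) j <;>
    simp [charmatrix_apply, Matrix.diagonal_apply, Fin.succ_ne_zero, (Fin.succ_ne_zero _).symm]

/-- The characteristic polynomial of a block matrix. -/
theorem charpoly_bmat (a : R) (b c : Fin k → R) (N : Matrix (Fin k) (Fin k) R) :
    (bmat a b c N).charpoly = (X - C a) * N.charpoly -
      ∑ j, C (b j) * ((adjugate (charmatrix N)) *ᵥ (fun i => C (c i))) j := by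
  set D := charmatrix N with hD
  set q := (adjugate D) *ᵥ (fun i => C (c i)) with hq
  have hDq : D *ᵥ q = N.charpoly • (fun i => C (c i)) := by
    rw [hq, Matrix.mulVec_mulVec, Matrix.mul_adjugate, Matrix.smul_mulVec, Matrix.one_mulVec]
    rfl
  have h1 : charmatrix (bmat a b c N) * bmat N.charpoly 0 q 1 =
      bmat ((X - C a) * N.charpoly + (fun j => -C (b j)) ⬝ᵥ q) (fun j => -C (b j)) 0 D := by
    rw [charmatrix_bmat, bmat_mul]
    congr 1
    · simp
    · rw [hDq]
      funext i
      simp
    · simp [hD]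
  have h2 := congrArg Matrix.det h1
  rw [Matrix.det_mul, det_bmat_row_zero, Matrix.det_one, mul_one, det_bmat_col_zero] at h2
  have h3 : (charmatrix (bmat a b c N)).det =
      (X - C a) * N.charpoly + (fun j => -C (b j)) ⬝ᵥ q :=
    (Matrix.charpoly_monic N).isRegular.right h2
  rw [Matrix.charpoly, h3]
  simp [dotProduct, sub_eq_add_neg, Finset.sum_neg_distrib]

end Vale.Agent.Lib.P002
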