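import Vale.Agent.Lib.P002.RkBlock

/-!
Cyclic vectors of square matrices over a commutative ring.
-/

namespace Vale.Agent.Lib.P002

open Matrix Polynomial

variable {R : Type*} [CommRing R] {k : ℕ}

/-- The vector c is a cyclic vector of N: every vector is of the form p(N) c. -/
def Cyc (N : Matrix (Fin k) (Fin k) R) (c : Fin k → R) : Prop :=
  ∀ v : Fin k → R, ∃ p : R[X], (aeval N p) *ᵥ c = v

/-- The submodule of all vectors p(N) c. -/
def cycSub (N : Matrix (Fin k) (Fin k) R) (c : Fin k → R) : Submodule R (Fin k → R) where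
  carrier := {v | ∃ p : R[X], (aeval N p) *ᵥ c = v}
  add_mem' := by
    rintro _ _ ⟨p, rfl⟩ ⟨q, rfl⟩
    exact ⟨p + q, by simp [Matrix.add_mulVec]⟩
  zero_mem' := ⟨0, by simp⟩
  smul_mem' := by
    rintro r _ ⟨p, rfl⟩
    refine ⟨C r * p, ?_⟩
    simp [Algebra.algebraMap_eq_smul_one, Matrix.smul_mulVec]

theorem mem_cycSub {N : Matrix (Fin k) (Fin k) R} {c v : Fin k → R} :
    v ∈ cycSub N c ↔ ∃ p : R[X], (aeval N p) *ᵥ c = v := Iff.rfl

theorem cyc_iff {N : Matrix (Fin k) (Fin k) R} {c : Fin k → R} :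
    Cyc N c ↔ cycSub N c = ⊤ := by
  constructor
  · intro h
    exact eq_top_iff.mpr fun v _ => h v
  · intro h v
    have : v ∈ cycSub N c := by rw [h]; trivial
    exact this

theorem self_mem_cycSub (N : Matrix (Fin k) (Fin k) R) (c : Fin k → R) : c ∈ cycSub N c :=
  ⟨1, by simp⟩

theorem mulVec_mem_cycSub {N : Matrix (Fin k) (Fin k) R} {c v : Fin k → R}
    (hv : v ∈ cycSub N c) : N *ᵥ v ∈ cycSub N c := by
  obtain ⟨p, rfl⟩ := hv
  exact ⟨X * p, by simp [Matrix.mulVec_mulVec]⟩

theorem cycSub_le {N : Matrix (Fin k) (Fin k) R} {c : Fin k → R} (W : Submodule R (Fin k → R))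
    (hc : c ∈ W) (hN : ∀ v ∈ W, N *ᵥ v ∈ W) : cycSub N c ≤ W := by
  have hpow : ∀ n : ℕ, (N ^ n) *ᵥ c ∈ W := by
    intro n
    induction n with
    | zero => simpa using hc
    | succ n ih =>
      rw [pow_succ', ← Matrix.mulVec_mulVec]
      exact hN _ ih
  rintro _ ⟨p, rfl⟩
  induction p using Polynomial.induction_on' with
  | add p q hp hq =>
    rw [map_add, Matrix.add_mulVec]
    exact W.add_mem hp hq
  | monomial n a =>
    rw [aeval_monomial, Algebra.algebraMap_eq_smul_one, smul_mul_assoc, one_mul,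
      Matrix.smul_mulVec]
    exact W.smul_mem a (hpow n)

theorem Cyc.eq_top {N : Matrix (Fin k) (Fin k) R} {c : Fin k → R} (h : Cyc N c)
    (W : Submodule R (Fin k → R)) (hc : c ∈ W) (hN : ∀ v ∈ W, N *ᵥ v ∈ W) : W = ⊤ :=
  eq_top_iff.mpr ((cyc_iff.mp h) ▸ cycSub_le W hc hN)

/-- Prepending a zero coordinate, as a linear map. -/
def consZero (R : Type*) [CommRing R] (k : ℕ) : (Fin k → R) →ₗ[R] (Fin (k + 1) → R) where
  toFun v := Fin.cons 0 v
  map_add' v w := by
    funext i
    refine Fin.cases ?_ (fun i => ?_) i <;> simp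
  map_smul' r v := by
    funext i
    refine Fin.cases ?_ (fun i => ?_) i <;> simp

theorem consZero_apply (v : Fin k → R) : consZero R k v = Fin.cons 0 v := rfl

theorem cons_eq (γ : R) (v : Fin k → R) :
    (Fin.cons γ v : Fin (k + 1) → R) = γ • (Fin.cons 1 0 : Fin (k + 1) → R) + Fin.cons 0 v := by
  funext i
  refine Fin.cases ?_ (fun i => ?_) i <;> simp

/-- If c is cyclic for N, the first basis vector is cyclic for any block matrix with first
column c and lower right block N. -/
theorem Cyc.block {N : Matrix (Fin k) (Fin k) R} {c : Fin k → R} (h : Cyc N c) (a : R)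
    (b : Fin k → R) : Cyc (bmat a b c N) (Fin.cons 1 0) := by
  set M := bmat a b c N with hM
  set e : Fin (k + 1) → R := Fin.cons 1 0 with he
  set W := cycSub M e with hW
  have heW : e ∈ W := self_mem_cycSub M e
  have hMe : M *ᵥ e = Fin.cons a c := by
    rw [hM, he, bmat_mulVec]
    simp
  have hstab : ∀ v ∈ W.comap (consZero R k), N *ᵥ v ∈ W.comap (consZero R k) := by
    intro v hv
    rw [Submodule.mem_comap, consZero_apply] at hv ⊢
    have h1 : M *ᵥ (Fin.cons 0 v : Fin (k + 1) → R) = Fin.cons (b ⬝ᵥ v) (N *ᵥ v) := by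
      rw [hM, bmat_mulVec]
      simp
    have h2 : (Fin.cons 0 (N *ᵥ v) : Fin (k + 1) → R) =
        M *ᵥ (Fin.cons 0 v : Fin (k + 1) → R) - (b ⬝ᵥ v) • e := by
      rw [h1, cons_eq (b ⬝ᵥ v) (N *ᵥ v)]
      simp [he]
    rw [h2]
    exact W.sub_mem (mulVec_mem_cycSub hv) (W.smul_mem _ heW)
  have hc : c ∈ W.comap (consZero R k) := by
    rw [Submodule.mem_comap, consZero_apply]
    have h2 : (Fin.cons 0 c : Fin (k + 1) → R) = M *ᵥ e - a • e := by
      rw [hMe, cons_eq a c]
      simp [he]
    rw [h2]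
    exact W.sub_mem (mulVec_mem_cycSub heW) (W.smul_mem _ heW)
  have htop := h.eq_top _ hc hstab
  intro u
  have hu : u = (u 0) • e + Fin.cons 0 (Fin.tail u) := by
    rw [← cons_eq, Fin.cons_self_tail]
  have : u ∈ W := by
    rw [hu]
    refine W.add_mem (W.smul_mem _ heW) ?_
    have : Fin.tail u ∈ W.comap (consZero R k) := by rw [htop]; trivial
    exact this
  exact this

/-- Conversely, if the first basis vector is cyclic for a block matrix, its first column is
cyclic for the lower right block. -/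
theorem Cyc.of_block {N : Matrix (Fin k) (Fin k) R} {c : Fin k → R} {a : R} {b : Fin k → R}
    (h : Cyc (bmat a b c N) (Fin.cons 1 0)) : Cyc N c := by
  set W := cycSub N c with hW
  have hfl : ∀ u : Fin (k + 1) → R, (LinearMap.funLeft R R Fin.succ) u = u ∘ Fin.succ :=
    fun u => rfl
  have hstab : ∀ u ∈ W.comap (LinearMap.funLeft R R Fin.succ),
      (bmat a b c N) *ᵥ u ∈ W.comap (LinearMap.funLeft R R Fin.succ) := by
    intro u hu
    rw [Submodule.mem_comap, hfl] at hu ⊢
    have h1 : (bmat a b c N) *ᵥ u =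
        Fin.cons (a * u 0 + b ⬝ᵥ Fin.tail u) (u 0 • c + N *ᵥ Fin.tail u) := by
      conv_lhs => rw [← Fin.cons_self_tail u]
      rw [bmat_mulVec]
    have h2 : ((bmat a b c N) *ᵥ u) ∘ Fin.succ = u 0 • c + N *ᵥ (u ∘ Fin.succ) := by
      rw [h1]
      funext i
      simp
      rfl
    rw [h2]
    exact W.add_mem (W.smul_mem _ (self_mem_cycSub N c)) (mulVec_mem_cycSub hu)
  have he : (Fin.cons 1 0 : Fin (k + 1) → R) ∈ W.comap (LinearMap.funLeft R R Fin.succ) := by
    rw [Submodule.mem_comap, hfl]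
    have : (Fin.cons 1 0 : Fin (k + 1) → R) ∘ Fin.succ = 0 := by
      funext i
      simp
    rw [this]
    exact W.zero_mem
  have htop := h.eq_top _ he hstab
  intro v
  have : (Fin.cons 0 v : Fin (k + 1) → R) ∈ W.comap (LinearMap.funLeft R R Fin.succ) := by
    rw [htop]; trivial
  rw [Submodule.mem_comap, hfl] at this
  have h3 : (Fin.cons 0 v : Fin (k + 1) → R) ∘ Fin.succ = v := by
    funext i
    simp
  rw [h3] at this
  exact this

/-- If h(M) is invertible by a polynomial in M, then h(M) e is cyclic whenever e is. -/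
theorem Cyc.apply_poly {M : Matrix (Fin k) (Fin k) R} {e : Fin k → R} (h : Cyc M e) (τ q : R[X])
    (hτ : aeval M (τ * q) = 1) : Cyc M ((aeval M q) *ᵥ e) := by
  intro v
  obtain ⟨p, hp⟩ := h v
  refine ⟨p * τ, ?_⟩
  rw [Matrix.mulVec_mulVec, ← map_mul, mul_assoc, map_mul, hτ, mul_one, hp]

theorem Cyc.of_mulVec {N : Matrix (Fin k) (Fin k) R} {l : Fin k → R} (h : Cyc N (N *ᵥ l)) :
    Cyc N l := by
  intro v
  obtain ⟨p, hp⟩ := h v
  refine ⟨p * X, ?_⟩
  rw [map_mul, aeval_X, ← Matrix.mulVec_mulVec, hp]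

section Field

variable {K : Type*} [Field K]

/-- Over a field, a polynomial of degree less than the size which kills a cyclic vector
vanishes. -/
theorem Cyc.eq_zero_of_natDegree_lt {M : Matrix (Fin k) (Fin k) K} {e : Fin k → K}
    (h : Cyc M e) (t : K[X]) (ht : t.natDegree < k) (h0 : (aeval M t) *ᵥ e = 0) : t = 0 := by
  have hexp : ∀ p : K[X], p.natDegree < k →
      (aeval M p) *ᵥ e = ∑ i : Fin k, p.coeff i • ((M ^ (i : ℕ)) *ᵥ e) := by
    intro p hp
    conv_lhs => rw [Polynomial.as_sum_range' p k hp]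
    rw [map_sum, Matrix.sum_mulVec, Finset.sum_range]
    refine Finset.sum_congr rfl fun i _ => ?_
    rw [aeval_monomial, Algebra.algebraMap_eq_smul_one, smul_mul_assoc, one_mul,
      Matrix.smul_mulVec]
  have hχ : M.charpoly ≠ 1 := by
    intro h1
    have := Matrix.charpoly_natDegree_eq_dim M
    rw [h1, natDegree_one, Fintype.card_fin] at this
    omega
  have hspan : ⊤ ≤ Submodule.span K (Set.range fun i : Fin k => (M ^ (i : ℕ)) *ᵥ e) := by
    intro u _
    obtain ⟨p, hp⟩ := h u
    have h1 : (aeval M (p %ₘ M.charpoly)) *ᵥ e = u := by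
      rw [aeval_modByMonic_eq_self_of_root (Matrix.aeval_self_charpoly M), hp]
    have h2 : (p %ₘ M.charpoly).natDegree < k := by
      have := natDegree_modByMonic_lt p (Matrix.charpoly_monic M) hχ
      rwa [Matrix.charpoly_natDegree_eq_dim, Fintype.card_fin] at this
    rw [← h1, hexp _ h2]
    exact Submodule.sum_mem _ fun i _ =>
      Submodule.smul_mem _ _ (Submodule.subset_span ⟨i, rfl⟩)
  have hli := linearIndependent_of_top_le_span_of_card_eq_finrank hspan (by simp)
  rw [hexp t ht] at h0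
  have hc := Fintype.linearIndependent_iff.mp hli (fun i => t.coeff i) h0
  ext n
  by_cases hn : n < k
  · simpa using hc ⟨n, hn⟩
  · simp [coeff_eq_zero_of_natDegree_lt (lt_of_lt_of_le ht (not_lt.mp hn))]

/-- Over a field, two cyclic vectors of the same matrix differ by a polynomial in the matrix
which is prime to the characteristic polynomial. -/
theorem Cyc.isCoprime {M : Matrix (Fin k) (Fin k) K} {e c : Fin k → K} (he : Cyc M e)
    (hc : Cyc M c) (q : K[X]) (hq : (aeval M q) *ᵥ e = c) : IsCoprime M.charpoly q := by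
  rcases Nat.eq_zero_or_pos k with hk | hk
  · subst hk
    have : M.charpoly = 1 := by simp [Matrix.charpoly]
    rw [this]
    exact isCoprime_one_left
  obtain ⟨p, hp⟩ := hc e
  have hχ : M.charpoly ≠ 1 := by
    intro h1
    have := Matrix.charpoly_natDegree_eq_dim M
    rw [h1, natDegree_one, Fintype.card_fin] at this
    omega
  set m := p * q - 1 with hm
  have h1 : (aeval M (m %ₘ M.charpoly)) *ᵥ e = 0 := by
    rw [aeval_modByMonic_eq_self_of_root (Matrix.aeval_self_charpoly M), hm, map_sub, map_mul,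
      map_one, Matrix.sub_mulVec, ← Matrix.mulVec_mulVec, hq, hp, Matrix.one_mulVec, sub_self]
  have h2 : (m %ₘ M.charpoly).natDegree < k := by
    have := natDegree_modByMonic_lt m (Matrix.charpoly_monic M) hχ
    rwa [Matrix.charpoly_natDegree_eq_dim, Fintype.card_fin] at this
  have h3 := he.eq_zero_of_natDegree_lt _ h2 h1
  have h4 := modByMonic_add_div m M.charpoly
  rw [h3, zero_add] at h4
  refine ⟨-(m /ₘ M.charpoly), p, ?_⟩
  rw [neg_mul, mul_comm _ M.charpoly, h4, hm]
  ring

end Field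

end Vale.Agent.Lib.P002
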