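import Vale.Agent.Lib.P002.PantsFam

/-!
The ring of Laurent polynomial functions on the infinite torus (ℂˣ)^(ℂˣ) which depend on
finitely many coordinates and take values in the ring of integers of L at points whose
coordinates are units of that ring.  Evaluation at the tautological point is surjective and
units lift through it.
-/

namespace Vale.Agent.Lib.P002

open MvPolynomial

/-- A Laurent polynomial function on the infinite torus depending on finitely many
coordinates. -/
def FLau (F : (ℂˣ → ℂˣ) → ℂ) : Prop :=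
  ∃ (T : Finset ℂˣ) (G : (T → ℂˣ) → ℂ), IsLaurent G ∧ ∀ s : ℂˣ → ℂˣ, F s = G (fun t => s t)

/-- A Laurent polynomial function on the infinite torus depending on finitely many
coordinates, with integral values at the unit points. -/
def FGood (L : IntermediateField ℚ ℂ) (F : (ℂˣ → ℂˣ) → ℂ) : Prop :=
  ∃ (T : Finset ℂˣ) (G : (T → ℂˣ) → ℂ), Good L G ∧ ∀ s : ℂˣ → ℂˣ, F s = G (fun t => s t)

/-- The inclusion of a finite set of indices into a union, on the left. -/
def inclL (T T' : Finset ℂˣ) : T → ↥(T ∪ T') := fun t => ⟨t.1, Finset.mem_union_left _ t.2⟩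

/-- The inclusion of a finite set of indices into a union, on the right. -/
def inclR (T T' : Finset ℂˣ) : T' → ↥(T ∪ T') := fun t => ⟨t.1, Finset.mem_union_right _ t.2⟩

theorem inclL_injective (T T' : Finset ℂˣ) : Function.Injective (inclL T T') := by
  intro a b h
  exact Subtype.ext (congrArg (fun x : ↥(T ∪ T') => (x : ℂˣ)) h)

theorem inclR_injective (T T' : Finset ℂˣ) : Function.Injective (inclR T T') := by
  intro a b h
  exact Subtype.ext (congrArg (fun x : ↥(T ∪ T') => (x : ℂˣ)) h)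

section FLau

theorem FLau.const (c : ℂ) : FLau (fun _ => c) :=
  ⟨∅, fun _ => c, IsLaurent.const c, fun _ => rfl⟩

theorem FLau.add {F F' : (ℂˣ → ℂˣ) → ℂ} (h : FLau F) (h' : FLau F') :
    FLau (fun s => F s + F' s) := by
  obtain ⟨T, G, hG, hF⟩ := h
  obtain ⟨T', G', hG', hF'⟩ := h'
  refine ⟨T ∪ T', fun s => G (s ∘ inclL T T') + G' (s ∘ inclR T T'), ?_, fun s => ?_⟩
  · exact (hG.comp_injective _ (inclL_injective T T')).add
      (hG'.comp_injective _ (inclR_injective T T'))
  · beta_reduce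
    rw [hF, hF']
    rfl

theorem FLau.mul {F F' : (ℂˣ → ℂˣ) → ℂ} (h : FLau F) (h' : FLau F') :
    FLau (fun s => F s * F' s) := by
  obtain ⟨T, G, hG, hF⟩ := h
  obtain ⟨T', G', hG', hF'⟩ := h'
  refine ⟨T ∪ T', fun s => G (s ∘ inclL T T') * G' (s ∘ inclR T T'), ?_, fun s => ?_⟩
  · exact (hG.comp_injective _ (inclL_injective T T')).mul
      (hG'.comp_injective _ (inclR_injective T T'))
  · beta_reduce
    rw [hF, hF']
    rfl

/-- Composition of a polynomial with such functions. -/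
theorem FLau.eval_comp {κ : Type} (P : MvPolynomial κ ℂ) {G : κ → (ℂˣ → ℂˣ) → ℂ}
    (hG : ∀ a, FLau (G a)) : FLau (fun s => eval (fun a => G a s) P) := by
  induction P using MvPolynomial.induction_on with
  | C c => simpa using FLau.const c
  | add p q hp hq => simpa using hp.add hq
  | mul_X p a hp => simpa using hp.mul (hG a)

/-- Density: such a function vanishing at all points with coordinates in an infinite set
vanishes. -/
theorem FLau.eq_zero_of_infinite {F : (ℂˣ → ℂˣ) → ℂ} (hF : FLau F) (S : Set ℂˣ)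
    (hS : S.Infinite) (h : ∀ s : ℂˣ → ℂˣ, (∀ t, s t ∈ S) → F s = 0) (s : ℂˣ → ℂˣ) :
    F s = 0 := by
  classical
  obtain ⟨T, G, hG, hFG⟩ := hF
  rw [hFG]
  refine hG.eq_zero_of_infinite S hS (fun s' hs' => ?_) _
  obtain ⟨z₀, hz₀⟩ := hS.nonempty
  have h1 := h (fun t => if ht : t ∈ T then s' ⟨t, ht⟩ else z₀) (fun t => by
    by_cases ht : t ∈ T
    · simp only [ht, dif_pos]
      exact hs' _
    · simp only [ht, dif_neg, not_false_eq_true]
      exact hz₀)
  rw [hFG] at h1
  have h2 : (fun t : T => if ht : (t : ℂˣ) ∈ T then s' ⟨t, ht⟩ else z₀) = s' := by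
    funext t
    simp
  rw [h2] at h1
  exact h1

end FLau

section FGood

variable {L : IntermediateField ℚ ℂ}

theorem FGood.flau {F : (ℂˣ → ℂˣ) → ℂ} (h : FGood L F) : FLau F := by
  obtain ⟨T, G, hG, hF⟩ := h
  exact ⟨T, G, hG.1, hF⟩

theorem FGood.const {c : ℂ} (hc : c ∈ ringO L) : FGood L (fun _ => c) :=
  ⟨∅, fun _ => c, Good.const hc, fun _ => rfl⟩

theorem FGood.add {F F' : (ℂˣ → ℂˣ) → ℂ} (h : FGood L F) (h' : FGood L F') :
    FGood L (fun s => F s + F' s) := by
  obtain ⟨T, G, hG, hF⟩ := h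
  obtain ⟨T', G', hG', hF'⟩ := h'
  refine ⟨T ∪ T', fun s => G (s ∘ inclL T T') + G' (s ∘ inclR T T'), ?_, fun s => ?_⟩
  · exact (hG.comp_injective _ (inclL_injective T T')).add
      (hG'.comp_injective _ (inclR_injective T T'))
  · beta_reduce
    rw [hF, hF']
    rfl

theorem FGood.mul {F F' : (ℂˣ → ℂˣ) → ℂ} (h : FGood L F) (h' : FGood L F') :
    FGood L (fun s => F s * F' s) := by
  obtain ⟨T, G, hG, hF⟩ := h
  obtain ⟨T', G', hG', hF'⟩ := h'
  refine ⟨T ∪ T', fun s => G (s ∘ inclL T T') * G' (s ∘ inclR T T'), ?_, fun s => ?_⟩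
  · exact (hG.comp_injective _ (inclL_injective T T')).mul
      (hG'.comp_injective _ (inclR_injective T T'))
  · beta_reduce
    rw [hF, hF']
    rfl

theorem FGood.neg {F : (ℂˣ → ℂˣ) → ℂ} (h : FGood L F) : FGood L (fun s => -F s) := by
  obtain ⟨T, G, hG, hF⟩ := h
  exact ⟨T, fun s => -G s, hG.neg, fun s => by beta_reduce; rw [hF]⟩

theorem FGood.coord (L : IntermediateField ℚ ℂ) (z : ℂˣ) :
    FGood L (fun s : ℂˣ → ℂˣ => (s z : ℂ)) :=
  ⟨{z}, fun s => (s ⟨z, Finset.mem_singleton_self z⟩ : ℂ), Good.coord L _, fun _ => rfl⟩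

theorem FGood.coord_inv (L : IntermediateField ℚ ℂ) (z : ℂˣ) :
    FGood L (fun s : ℂˣ → ℂˣ => (((s z)⁻¹ : ℂˣ) : ℂ)) :=
  ⟨{z}, fun s => (((s ⟨z, Finset.mem_singleton_self z⟩)⁻¹ : ℂˣ) : ℂ), Good.coord_inv L _,
    fun _ => rfl⟩

end FGood

/-- The ring of finitely supported Laurent polynomial functions with integral values at the
unit points. -/
def ringR (L : IntermediateField ℚ ℂ) : Subring ((ℂˣ → ℂˣ) → ℂ) where
  carrier := {F | FGood L F}
  mul_mem' := fun ha hb => ha.mul hb
  one_mem' := FGood.const (Subring.one_mem _)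
  add_mem' := fun ha hb => ha.add hb
  zero_mem' := FGood.const (Subring.zero_mem _)
  neg_mem' := fun ha => ha.neg

section RingR

variable (L : IntermediateField ℚ ℂ)

/-- Evaluation at a point of the infinite torus. -/
def evAt (s : ℂˣ → ℂˣ) : ringR L →+* ℂ :=
  (Pi.evalRingHom (fun _ : ℂˣ → ℂˣ => ℂ) s).comp (ringR L).subtype

theorem evAt_apply (s : ℂˣ → ℂˣ) (F : ringR L) : evAt L s F = F.1 s := rfl

theorem evAt_mem_ringO (s : ℂˣ → ℂˣ) (hs : ∀ t, s t ∈ unitsO L) (F : ringR L) :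
    evAt L s F ∈ ringO L := by
  obtain ⟨T, G, hG, hF⟩ := F.2
  rw [evAt_apply, hF]
  exact hG.2 _ fun t => hs t

theorem flau_evAt (F : ringR L) : FLau (fun s => evAt L s F) := FGood.flau F.2

/-- The tautological point of the infinite torus. -/
def taut : ℂˣ → ℂˣ := fun t => t

theorem evAt_taut_surjective : Function.Surjective (evAt L taut) := by
  intro w
  obtain ⟨z, hz⟩ := exists_unit_sub_inv w
  refine ⟨⟨fun s => (s z : ℂ) + -(((s z)⁻¹ : ℂˣ) : ℂ),
    (FGood.coord L z).add (FGood.coord_inv L z).neg⟩, ?_⟩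
  rw [evAt_apply, ← hz]
  simp [taut, sub_eq_add_neg]

theorem evAt_taut_unit (z : ℂ) (hz : z ≠ 0) : ∃ u : (ringR L)ˣ, evAt L taut u = z := by
  refine ⟨⟨⟨fun s => (s (Units.mk0 z hz) : ℂ), FGood.coord L _⟩,
    ⟨fun s => (((s (Units.mk0 z hz))⁻¹ : ℂˣ) : ℂ), FGood.coord_inv L _⟩, ?_, ?_⟩, ?_⟩
  · apply Subtype.ext
    funext s
    simp
  · apply Subtype.ext
    funext s
    simp
  · rw [evAt_apply]
    simp [taut]

/-- A constant function with an integral value, as an element of the ring. -/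
def constR (c : ℂ) (hc : c ∈ ringO L) : ringR L := ⟨fun _ => c, FGood.const hc⟩

theorem evAt_constR (s : ℂˣ → ℂˣ) (c : ℂ) (hc : c ∈ ringO L) : evAt L s (constR L c hc) = c :=
  rfl

/-- A constant function whose value is a unit of the ring of integers, as a unit. -/
noncomputable def unitR (c : ℂ) (hc : c ∈ ringO L) (hc' : c⁻¹ ∈ ringO L) (h0 : c ≠ 0) : (ringR L)ˣ where
  val := constR L c hc
  inv := constR L c⁻¹ hc'
  val_inv := by
    apply Subtype.ext
    funext s
    exact mul_inv_cancel₀ h0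
  inv_val := by
    apply Subtype.ext
    funext s
    exact inv_mul_cancel₀ h0

theorem evAt_unitR (s : ℂˣ → ℂˣ) (c : ℂ) (hc : c ∈ ringO L) (hc' : c⁻¹ ∈ ringO L)
    (h0 : c ≠ 0) : evAt L s (unitR L c hc hc' h0 : ringR L) = c := rfl

end RingR

/-- The inverses of algebraic integers with product one are algebraic integers. -/
theorem inv_mem_ringO_of_prod_eq_one {L : IntermediateField ℚ ℂ} {n : ℕ} (a : Fin n → ℂ)
    (h1 : ∏ i, a i = 1) (ha : ∀ i, a i ∈ ringO L) (i : Fin n) : (a i)⁻¹ ∈ ringO L := by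
  classical
  have h2 : a i * ∏ j ∈ Finset.univ.erase i, a j = 1 := by
    rw [Finset.mul_prod_erase Finset.univ a (Finset.mem_univ i), h1]
  have h3 : (a i)⁻¹ = ∏ j ∈ Finset.univ.erase i, a j := inv_eq_of_mul_eq_one_right h2
  rw [h3]
  exact Subring.prod_mem _ fun j _ => ha j

end Vale.Agent.Lib.P002
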