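import Vale.Agent.Lib.P002.RkTop
import Vale.Agent.Lib.P002.RkRing

/-!
Density of the integral points among the conjugates of the chart pairs with cyclic vectors on
every level, in every rank.
-/

namespace Vale.Agent.Lib.P002

open Matrix

theorem ne_zero_of_prod_eq_one {n : ℕ} (a : Fin n → ℂ) (h1 : ∏ i, a i = 1) (i : Fin n) :
    a i ≠ 0 := by
  intro h0
  have := Finset.prod_eq_zero (Finset.mem_univ i) h0
  rw [h1] at this
  exact one_ne_zero this

/-- The unit of the ring of functions attached to an algebraic integer from a family with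
product one. -/
noncomputable def famUnit (L : IntermediateField ℚ ℂ) {n : ℕ} (a : Fin n → ℂ)
    (h1 : ∏ i, a i = 1) (ha : ∀ i, a i ∈ ringO L) (i : Fin n) : (ringR L)ˣ :=
  unitR L (a i) (ha i) (inv_mem_ringO_of_prod_eq_one a h1 ha i) (ne_zero_of_prod_eq_one a h1 i)

theorem evAt_famUnit (L : IntermediateField ℚ ℂ) {n : ℕ} (a : Fin n → ℂ)
    (h1 : ∏ i, a i = 1) (ha : ∀ i, a i ∈ ringO L) (i : Fin n) (s : ℂˣ → ℂˣ) :
    evAt L s (famUnit L a h1 ha i : ringR L) = a i := rfl

theorem prod_famUnit (L : IntermediateField ℚ ℂ) {n : ℕ} (a : Fin n → ℂ)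
    (h1 : ∏ i, a i = 1) (ha : ∀ i, a i ∈ ringO L) :
    ∏ i, (famUnit L a h1 ha i : ringR L) = 1 := by
  apply Subtype.ext
  funext s
  change evAt L s (∏ i, (famUnit L a h1 ha i : ringR L)) = evAt L s 1
  rw [map_prod, map_one]
  simp only [evAt_famUnit]
  exact h1

theorem map_prod_famUnit (L : IntermediateField ℚ ℂ) {n : ℕ} (a : Fin n → ℂ)
    (h1 : ∏ i, a i = 1) (ha : ∀ i, a i ∈ ringO L) (s : ℂˣ → ℂˣ) :
    (∏ i, (Polynomial.X - Polynomial.C (famUnit L a h1 ha i : ringR L))).map (evAt L s) =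
      ∏ i, (Polynomial.X - Polynomial.C (a i)) := by
  rw [Polynomial.map_prod]
  simp only [Polynomial.map_sub, Polynomial.map_X, Polynomial.map_C, evAt_famUnit]

/-- A polynomial vanishing at the integral pairs with the prescribed characteristic polynomials
vanishes at the conjugates of the chart pairs which have cyclic vectors on every level. -/
theorem density_nested {L : IntermediateField ℚ ℂ} (hL : sqrtTwo ∈ L) (k : ℕ)
    (α β δ : Fin (k + 1) → ℂ)
    (hα : ∀ i, α i ∈ ringO L) (hβ : ∀ i, β i ∈ ringO L) (hδ : ∀ i, δ i ∈ ringO L)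
    (hα1 : ∏ i, α i = 1) (hβ1 : ∏ i, β i = 1) (hδ1 : ∏ i, δ i = 1)
    (P : MvPolynomial (Fin 2 × Fin (k + 1) × Fin (k + 1)) ℂ)
    (hP : ∀ A B : Matrix (Fin (k + 1)) (Fin (k + 1)) ℂ, (∀ i j, A i j ∈ ringO L) →
      (∀ i j, B i j ∈ ringO L) →
      A.charpoly = ∏ i, (Polynomial.X - Polynomial.C (α i)) →
      B.charpoly = ∏ i, (Polynomial.X - Polynomial.C (β i)) →
      (A * B).charpoly = ∏ i, (Polynomial.X - Polynomial.C (δ i)) →
      MvPolynomial.eval (fun x => ![A, B] x.1 x.2.1 x.2.2) P = 0)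
    (g g' U Lo : Matrix (Fin (k + 1)) (Fin (k + 1)) ℂ) (hg : g * g' = 1)
    (hU0 : ∀ i : Fin k, U i.succ 0 = 0) (hUa : U 0 0 = α 0)
    (hL0 : ∀ j : Fin k, Lo 0 j.succ = 0) (hLb : Lo 0 0 = β 0)
    (hLev : Lev ℂ k (fun i => α i.succ) (fun i => β i.succ) (U.submatrix Fin.succ Fin.succ)
      (Lo.submatrix Fin.succ Fin.succ) (fun i => Lo i.succ 0))
    (hchar : (U * Lo).charpoly = ∏ i, (Polynomial.X - Polynomial.C (δ i))) :
    MvPolynomial.eval (fun x => ![g * U * g', g * Lo * g'] x.1 x.2.1 x.2.2) P = 0 := by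
  have hgdet : g.det ≠ 0 := by
    intro h0
    have := congrArg Matrix.det hg
    rw [Matrix.det_mul, h0, zero_mul, Matrix.det_one] at this
    exact zero_ne_one this
  have hprod : (∏ i, (famUnit L α hα1 hα i : ringR L)) * ∏ i, (famUnit L β hβ1 hβ i : ringR L) =
      ∏ i, (famUnit L δ hδ1 hδ i : ringR L) := by
    rw [prod_famUnit, prod_famUnit, prod_famUnit, mul_one]
  obtain ⟨Ut, Lt, hUt, hLt, hcU, hcL, hcUL⟩ :=
    lift_top (evAt L taut) (evAt_taut_surjective L) (evAt_taut_unit L) k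
      (famUnit L α hα1 hα) (famUnit L β hβ1 hβ) (famUnit L δ hδ1 hδ) hprod U Lo hU0 hUa hL0 hLb
      hLev hchar
  obtain ⟨G, G', hGG', hGmap⟩ := lift_gl (evAt L taut) (evAt_taut_surjective L)
    (evAt_taut_unit L) g hgdet
  have hG'G : G' * G = 1 := mul_eq_one_comm.mp hGG'
  have hG'map : G'.map (evAt L taut) = g' := by
    have h1 := congrArg (fun M => M.map (evAt L taut)) hGG'
    simp only [Matrix.map_mul, hGmap] at h1
    have h2 : (1 : Matrix (Fin (k + 1)) (Fin (k + 1)) (ringR L)).map (evAt L taut) = 1 := by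
      simp
    rw [h2] at h1
    calc G'.map (evAt L taut) = (g' * g) * G'.map (evAt L taut) := by
          rw [mul_eq_one_comm.mp hg, Matrix.one_mul]
      _ = g' * (g * G'.map (evAt L taut)) := Matrix.mul_assoc _ _ _
      _ = g' := by rw [h1, Matrix.mul_one]
  obtain ⟨FA, hFA⟩ : ∃ FA, FA = G * Ut * G' := ⟨_, rfl⟩
  obtain ⟨FB, hFB⟩ : ∃ FB, FB = G * Lt * G' := ⟨_, rfl⟩
  have hcFA : FA.charpoly = ∏ i, (Polynomial.X - Polynomial.C (famUnit L α hα1 hα i : ringR L)) := by
    rw [hFA, charpoly_conj' _ _ _ hG'G, hcU]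
  have hcFB : FB.charpoly = ∏ i, (Polynomial.X - Polynomial.C (famUnit L β hβ1 hβ i : ringR L)) := by
    rw [hFB, charpoly_conj' _ _ _ hG'G, hcL]
  have hcFAB : (FA * FB).charpoly =
      ∏ i, (Polynomial.X - Polynomial.C (famUnit L δ hδ1 hδ i : ringR L)) := by
    have hmul : FA * FB = G * (Ut * Lt) * G' := by
      rw [hFA, hFB]
      calc G * Ut * G' * (G * Lt * G') = G * Ut * (G' * G) * Lt * G' := by
            simp only [Matrix.mul_assoc]
        _ = G * (Ut * Lt) * G' := by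
            rw [hG'G]
            simp only [Matrix.mul_assoc, Matrix.one_mul]
    rw [hmul, charpoly_conj' _ _ _ hG'G, hcUL]
  have hLau : FLau (fun s => MvPolynomial.eval
      (fun x => ![FA.map (evAt L s), FB.map (evAt L s)] x.1 x.2.1 x.2.2) P) := by
    refine FLau.eval_comp P fun x => ?_
    obtain ⟨e, i, j⟩ := x
    fin_cases e
    · exact flau_evAt L (FA i j)
    · exact flau_evAt L (FB i j)
  have hzero : ∀ s : ℂˣ → ℂˣ, (∀ t, s t ∈ Set.range (fun n : ℕ => fundUnit ^ n)) →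
      MvPolynomial.eval (fun x => ![FA.map (evAt L s), FB.map (evAt L s)] x.1 x.2.1 x.2.2) P =
        0 := by
    intro s hs
    have hsU : ∀ t, s t ∈ unitsO L := by
      intro t
      obtain ⟨n, hn⟩ := hs t
      rw [← hn]
      exact (unitsO L).pow_mem (fundUnit_mem_unitsO_of_mem hL) n
    refine hP (FA.map (evAt L s)) (FB.map (evAt L s))
      (fun i j => evAt_mem_ringO L s hsU (FA i j)) (fun i j => evAt_mem_ringO L s hsU (FB i j))
      ?_ ?_ ?_
    · rw [Matrix.charpoly_map, hcFA, map_prod_famUnit]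
    · rw [Matrix.charpoly_map, hcFB, map_prod_famUnit]
    · rw [← Matrix.map_mul, Matrix.charpoly_map, hcFAB, map_prod_famUnit]
  have h0 := hLau.eq_zero_of_infinite _ infinite_powers_fundUnit hzero taut
  have e1 : FA.map (evAt L taut) = g * U * g' := by
    rw [hFA, Matrix.map_mul, Matrix.map_mul, hGmap, hG'map, hUt]
  have e2 : FB.map (evAt L taut) = g * Lo * g' := by
    rw [hFB, Matrix.map_mul, Matrix.map_mul, hGmap, hG'map, hLt]
  rw [e1, e2] at h0
  exact h0

end Vale.Agent.Lib.P002
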