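import Mathlib

/-!
Lifting coprime pairs of polynomials along a surjective ring homomorphism to a field through
which units lift: the lift of the monic polynomial is monic with a prescribed unit constant
term and the lifted pair generates the unit ideal.
-/

namespace Vale.Agent.Lib.P002

open Polynomial

variable {R K : Type*} [CommRing R] [Field K] (ev : R →+* K)

/-- A monic polynomial of positive degree lifts to a monic polynomial of the same degree with a
prescribed lift of its constant term. -/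
theorem monic_lift (hsurj : Function.Surjective ev) (q : K[X]) (hq : q.Monic)
    (hd : 1 ≤ q.natDegree) (b : R) (hb : ev b = q.coeff 0) :
    ∃ Q : R[X], Q.Monic ∧ Q.natDegree = q.natDegree ∧ Q.map ev = q ∧ Q.coeff 0 = b := by
  have hl : q ∈ lifts ev := (mem_lifts q).mpr (map_surjective ev hsurj q)
  obtain ⟨Q1, hQ1, hQ1d, hQ1m⟩ := lifts_and_natDegree_eq_and_monic hl hq
  refine ⟨Q1 + C (b - Q1.coeff 0), ?_, ?_, ?_, ?_⟩
  · refine hQ1m.add_of_left ?_
    refine lt_of_le_of_lt degree_C_le ?_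
    rw [← natDegree_pos_iff_degree_pos]
    omega
  · rw [natDegree_add_C, hQ1d]
  · have h0 : ev (Q1.coeff 0) = q.coeff 0 := by
      rw [← hQ1, coeff_map]
    rw [Polynomial.map_add, hQ1, map_C, map_sub, hb, h0, sub_self, C_0, add_zero]
  · simp

/-- The shape of a lifted coprime pair of monic polynomials. -/
def LiftOK (p p' : K[X]) (P P' : R[X]) : Prop :=
  P.Monic ∧ P'.Monic ∧ P.natDegree = p.natDegree ∧ P'.natDegree = p'.natDegree ∧
    IsCoprime P P' ∧ P.map ev = p ∧ P'.map ev = p'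

/-- One step of the Euclidean algorithm, lifted. -/
theorem liftOK_step {p p' p₂ q : K[X]} {c : K} (hp : p = C c * p₂ + p' * q)
    (hdeg : p₂.natDegree < p'.natDegree) (hqd : q.natDegree + p'.natDegree = p.natDegree)
    {P' P₂ Q : R[X]} (h : LiftOK ev p' p₂ P' P₂) (hQ : Q.Monic) (hQd : Q.natDegree = q.natDegree)
    (hQm : Q.map ev = q) (u : Rˣ) (hu : ev u = c) :
    LiftOK ev p p' (Q * P' + C (u : R) * P₂) P' ∧
      (Q * P' + C (u : R) * P₂).coeff 0 = Q.coeff 0 * P'.coeff 0 + u * P₂.coeff 0 := by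
  obtain ⟨hP'm, hP₂m, hP'd, hP₂d, hcop, hP'map, hP₂map⟩ := h
  have hQP : (Q * P').Monic := hQ.mul hP'm
  have hQPd : (Q * P').natDegree = Q.natDegree + P'.natDegree := hQ.natDegree_mul hP'm
  have hlow : (C (u : R) * P₂).natDegree < (Q * P').natDegree := by
    refine lt_of_le_of_lt (natDegree_C_mul_le _ _) ?_
    rw [hQPd, hP₂d, hP'd]
    omega
  refine ⟨⟨hQP.add_of_left (degree_lt_degree hlow), hP'm, ?_, hP'd, ?_, ?_, hP'map⟩, ?_⟩
  · rw [natDegree_add_eq_left_of_natDegree_lt hlow, hQPd, hQd, hP'd, hqd]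
  · have h1 : IsCoprime (C (u : R) * P₂) P' :=
      (isCoprime_mul_unit_left_left (u.isUnit.map C) P₂ P').mpr hcop.symm
    have h2 := h1.add_mul_right_left Q
    rwa [add_comm] at h2
  · rw [Polynomial.map_add, Polynomial.map_mul, Polynomial.map_mul, hQm, hP'map, map_C, hu,
      hP₂map, hp]
    ring
  · simp [mul_coeff_zero]

theorem not_both_zero {p p' : K[X]} (h : IsCoprime p p') (h1 : p.coeff 0 = 0)
    (h2 : p'.coeff 0 = 0) : False := by
  obtain ⟨a, b, hab⟩ := h
  have := congrArg (fun r => r.coeff 0) hab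
  simp [mul_coeff_zero, h1, h2] at this

/-- Lifting a coprime pair of monic polynomials with control of the constant terms. -/
theorem lift_pair (hsurj : Function.Surjective ev)
    (hunit : ∀ z : K, z ≠ 0 → ∃ u : Rˣ, ev u = z) :
    ∀ (n : ℕ) (p p' : K[X]), p.Monic → p'.Monic → IsCoprime p p' →
      p'.natDegree < p.natDegree → p'.natDegree ≤ n →
      (p'.coeff 0 ≠ 0 → ∀ t : R, ev t = p.coeff 0 → ∃ P P' : R[X],
        LiftOK ev p p' P P' ∧ P.coeff 0 = t ∧ IsUnit (P'.coeff 0)) ∧
      (p'.coeff 0 = 0 → ∀ ε : Rˣ, ev ε = p.coeff 0 → ∃ P P' : R[X],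
        LiftOK ev p p' P P' ∧ P.coeff 0 = ε ∧ P'.coeff 0 = 0) := by
  intro n
  induction n with
  | zero =>
    intro p p' hp hp' hcop hlt hn
    have h1 : p' = 1 := eq_one_of_monic_natDegree_zero hp' (by omega)
    subst h1
    constructor
    · intro _ t ht
      obtain ⟨P, hPm, hPd, hPmap, hP0⟩ := monic_lift ev hsurj p hp (by omega) t ht
      exact ⟨P, 1, ⟨hPm, monic_one, hPd, by simp, isCoprime_one_right, hPmap, by simp⟩, hP0,
        by simp⟩
    · intro h0
      simp at h0
  | succ n ih =>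
    intro p p' hp hp' hcop hlt hn
    rcases Nat.lt_or_ge p'.natDegree (n + 1) with hlt' | hge
    · exact ih p p' hp hp' hcop hlt (by omega)
    have hd' : p'.natDegree = n + 1 := by omega
    have hp'1 : p' ≠ 1 := by
      intro h
      rw [h, natDegree_one] at hd'
      omega
    set q := p /ₘ p' with hq
    set r := p %ₘ p' with hr
    have hdiv : r + p' * q = p := modByMonic_add_div p p'
    have hr0 : r ≠ 0 := by
      intro h
      rw [h, zero_add] at hdiv
      rw [← hdiv] at hcop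
      have h1 : IsCoprime p' p' := hcop.of_mul_left_left
      have h2 := natDegree_eq_zero_of_isUnit (isCoprime_self.mp h1)
      omega
    set c := r.leadingCoeff with hc
    have hc0 : c ≠ 0 := leadingCoeff_ne_zero.mpr hr0
    set p₂ := r * C c⁻¹ with hp₂
    have hp₂m : p₂.Monic := monic_mul_leadingCoeff_inv hr0
    have hp₂d : p₂.natDegree = r.natDegree := natDegree_mul_leadingCoeff_inv r hr0
    have hrd : r.natDegree < p'.natDegree := natDegree_modByMonic_lt p hp' hp'1
    have hrp₂ : r = C c * p₂ := by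
      rw [hp₂, mul_comm r, ← mul_assoc, ← C_mul, mul_inv_cancel₀ hc0, C_1, one_mul]
    have hpeq : p = C c * p₂ + p' * q := by rw [← hrp₂, hdiv]
    have hcop2 : IsCoprime p' p₂ := by
      have h1 : IsCoprime (r + p' * q) p' := by rw [hdiv]; exact hcop
      have h2 : IsCoprime r p' := h1.of_add_mul_left_left
      rw [hrp₂] at h2
      exact h2.of_mul_left_right.symm
    have hqd : q.natDegree + p'.natDegree = p.natDegree := by
      rw [hq, natDegree_divByMonic p hp']
      omega
    have hqm : q.Monic := by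
      have h1 := leadingCoeff_divByMonic_of_monic (p := p) hp' (degree_lt_degree hlt).le
      rw [Monic, ← hq] at *
      rw [h1]
      exact hp
    have hqd1 : 1 ≤ q.natDegree := by omega
    have hval : p.coeff 0 = c * p₂.coeff 0 + p'.coeff 0 * q.coeff 0 := by
      rw [hpeq]
      simp [mul_coeff_zero]
    have hIH := ih p' p₂ hp' hp₂m hcop2 (by omega) (by omega)
    constructor
    · -- p'(0) ≠ 0, arbitrary target t
      intro h0 t ht
      obtain ⟨w, hw⟩ := hunit _ h0
      obtain ⟨u, hu⟩ := hunit c hc0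
      by_cases h2 : p₂.coeff 0 = 0
      · obtain ⟨P', P₂, hOK, hP'0, hP₂0⟩ := hIH.2 h2 w hw
        have hb : ev (t * ((w⁻¹ : Rˣ) : R)) = q.coeff 0 := by
          have hwi : ev ((w⁻¹ : Rˣ) : R) = (p'.coeff 0)⁻¹ := by
            rw [map_units_inv, hw]
          rw [map_mul, ht, hwi, hval, h2, mul_zero, zero_add, mul_comm (p'.coeff 0), mul_assoc,
            mul_inv_cancel₀ h0, mul_one]
        obtain ⟨Q, hQm, hQd, hQmap, hQ0⟩ := monic_lift ev hsurj q hqm hqd1 _ hb
        obtain ⟨hL, hL0⟩ := liftOK_step ev hpeq (by omega) hqd hOK hQm hQd hQmap u hu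
        refine ⟨_, P', hL, ?_, ?_⟩
        · rw [hL0, hQ0, hP'0, hP₂0]
          simp [mul_assoc]
        · rw [hP'0]
          exact w.isUnit
      · obtain ⟨P', P₂, hOK, hP'0, hP₂0⟩ := hIH.1 h2 w hw
        obtain ⟨u₂, hu₂⟩ := hP₂0
        have hu₂ev : ev (u₂ : R) = p₂.coeff 0 := by
          rw [hu₂, ← hOK.2.2.2.2.2.2, coeff_map]
        have hb : ev ((t - u * u₂) * ((w⁻¹ : Rˣ) : R)) = q.coeff 0 := by
          have hwi : ev ((w⁻¹ : Rˣ) : R) = (p'.coeff 0)⁻¹ := by
            rw [map_units_inv, hw]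
          rw [map_mul, map_sub, map_mul, ht, hwi, hu, hu₂ev, hval, add_sub_cancel_left,
            mul_comm (p'.coeff 0), mul_assoc, mul_inv_cancel₀ h0, mul_one]
        obtain ⟨Q, hQm, hQd, hQmap, hQ0⟩ := monic_lift ev hsurj q hqm hqd1 _ hb
        obtain ⟨hL, hL0⟩ := liftOK_step ev hpeq (by omega) hqd hOK hQm hQd hQmap u hu
        refine ⟨_, P', hL, ?_, ?_⟩
        · rw [hL0, hQ0, hP'0, ← hu₂]
          simp [mul_assoc]
        · rw [hP'0]
          exact w.isUnit
    · -- p'(0) = 0, unit target ε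
      intro h0 ε hε
      have h2 : p₂.coeff 0 ≠ 0 := by
        intro h2
        exact not_both_zero hcop2 h0 h2
      obtain ⟨P', P₂, hOK, hP'0, hP₂0⟩ := hIH.1 h2 0 (by rw [map_zero, h0])
      obtain ⟨u₂, hu₂⟩ := hP₂0
      have hu₂ev : ev (u₂ : R) = p₂.coeff 0 := by
        rw [hu₂, ← hOK.2.2.2.2.2.2, coeff_map]
      have hu : ev ((ε * u₂⁻¹ : Rˣ) : R) = c := by
        have hui : ev ((u₂⁻¹ : Rˣ) : R) = (p₂.coeff 0)⁻¹ := by
          rw [map_units_inv, hu₂ev]
        rw [Units.val_mul, map_mul, hε, hui, hval, h0, zero_mul, add_zero, mul_assoc,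
          mul_inv_cancel₀ h2, mul_one]
      obtain ⟨b, hb⟩ := hsurj (q.coeff 0)
      obtain ⟨Q, hQm, hQd, hQmap, hQ0⟩ := monic_lift ev hsurj q hqm hqd1 b hb
      obtain ⟨hL, hL0⟩ := liftOK_step ev hpeq (by omega) hqd hOK hQm hQd hQmap _ hu
      refine ⟨_, P', hL, ?_, hP'0⟩
      rw [hL0, hP'0, ← hu₂]
      simp

/-- Lifting a coprime pair (f, h) with f monic of positive degree: the lift of f is monic of
the same degree with a prescribed unit constant term, the lifted pair generates the unit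
ideal, and the second member lifts the remainder of h modulo f. -/
theorem lift_unimodular (hsurj : Function.Surjective ev)
    (hunit : ∀ z : K, z ≠ 0 → ∃ u : Rˣ, ev u = z) (f h : K[X]) (hf : f.Monic)
    (hfd : 1 ≤ f.natDegree) (hcop : IsCoprime f h) (ε : Rˣ) (hε : ev ε = f.coeff 0) :
    ∃ F H : R[X], F.Monic ∧ F.natDegree = f.natDegree ∧ F.coeff 0 = ε ∧ IsCoprime F H ∧
      F.map ev = f ∧ H.map ev = h %ₘ f := by
  have hf1 : f ≠ 1 := by
    intro h1
    rw [h1, natDegree_one] at hfd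
    omega
  set h' := h %ₘ f with hh'
  have hdiv : h' + f * (h /ₘ f) = h := modByMonic_add_div h f
  have hcop' : IsCoprime f h' := by
    rw [← hdiv] at hcop
    exact hcop.of_add_mul_left_right
  have hh0 : h' ≠ 0 := by
    intro h0
    rw [h0] at hcop'
    have := natDegree_eq_zero_of_isUnit (isCoprime_zero_right.mp hcop')
    omega
  set c := h'.leadingCoeff with hc
  have hc0 : c ≠ 0 := leadingCoeff_ne_zero.mpr hh0
  set h₁ := h' * C c⁻¹ with hh₁
  have hh₁m : h₁.Monic := monic_mul_leadingCoeff_inv hh0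
  have hh₁d : h₁.natDegree = h'.natDegree := natDegree_mul_leadingCoeff_inv h' hh0
  have hh'd : h'.natDegree < f.natDegree := natDegree_modByMonic_lt h hf hf1
  have hh'eq : h' = C c * h₁ := by
    rw [hh₁, mul_comm h', ← mul_assoc, ← C_mul, mul_inv_cancel₀ hc0, C_1, one_mul]
  have hcop₁ : IsCoprime f h₁ := by
    rw [hh'eq] at hcop'
    exact (hcop'.symm.of_mul_left_right).symm
  obtain ⟨u, hu⟩ := hunit c hc0
  have key := lift_pair ev hsurj hunit h₁.natDegree f h₁ hf hh₁m hcop₁ (by omega) le_rfl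
  by_cases h0 : h₁.coeff 0 = 0
  · obtain ⟨F, H₁, hOK, hF0, -⟩ := key.2 h0 ε hε
    obtain ⟨hFm, -, hFd, -, hFcop, hFmap, hHmap⟩ := hOK
    refine ⟨F, C (u : R) * H₁, hFm, hFd, hF0, ?_, hFmap, ?_⟩
    · exact ((isCoprime_mul_unit_left_left (u.isUnit.map C) H₁ F).mpr hFcop.symm).symm
    · rw [Polynomial.map_mul, map_C, hu, hHmap, ← hh'eq]
  · obtain ⟨F, H₁, hOK, hF0, -⟩ := key.1 h0 ε hε
    obtain ⟨hFm, -, hFd, -, hFcop, hFmap, hHmap⟩ := hOK
    refine ⟨F, C (u : R) * H₁, hFm, hFd, hF0, ?_, hFmap, ?_⟩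
    · exact ((isCoprime_mul_unit_left_left (u.isUnit.map C) H₁ F).mpr hFcop.symm).symm
    · rw [Polynomial.map_mul, map_C, hu, hHmap, ← hh'eq]

end Vale.Agent.Lib.P002
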