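import Vale.Agent.Lib.P002.RkCyc

/-!
The extension lemma: a block matrix with prescribed first column, lower right block and
Schur complement has a unique first row for which its characteristic polynomial is a given
monic polynomial with the correct constant term, provided the first column is cyclic.
-/

namespace Vale.Agent.Lib.P002

open Matrix Polynomial

variable {R : Type*} [CommRing R] {k : ℕ}

/-- The coefficient vectors of adj(X - N) c. -/
noncomputable def adjc (N : Matrix (Fin k) (Fin k) R) (c : Fin k → R) (n : ℕ) : Fin k → R :=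
  fun i => ((adjugate (charmatrix N) *ᵥ (fun i => C (c i))) i).coeff n

theorem adjc_key (N : Matrix (Fin k) (Fin k) R) (c : Fin k → R) (i : Fin k) :
    X * ((adjugate (charmatrix N) *ᵥ (fun i => C (c i))) i) -
        ∑ j, C (N i j) * ((adjugate (charmatrix N) *ᵥ (fun i => C (c i))) j) =
      N.charpoly * C (c i) := by
  have h : (charmatrix N) *ᵥ ((adjugate (charmatrix N)) *ᵥ (fun i => C (c i))) =
      N.charpoly • (fun i => C (c i)) := by
    rw [Matrix.mulVec_mulVec, Matrix.mul_adjugate, Matrix.smul_mulVec, Matrix.one_mulVec]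
    rfl
  obtain ⟨q, hq⟩ : ∃ q, q = (adjugate (charmatrix N)) *ᵥ (fun i => C (c i)) := ⟨_, rfl⟩
  rw [← hq] at h ⊢
  have hi := congrFun h i
  rw [Matrix.mulVec, dotProduct] at hi
  simp only [charmatrix_apply, Matrix.diagonal_apply, Pi.smul_apply, smul_eq_mul] at hi
  rw [← hi]
  simp [sub_mul, Finset.sum_sub_distrib, ite_mul]

theorem adjc_rec (N : Matrix (Fin k) (Fin k) R) (c : Fin k → R) (n : ℕ) :
    adjc N c n = N *ᵥ adjc N c (n + 1) + N.charpoly.coeff (n + 1) • c := by
  funext i
  have h := congrArg (fun p => p.coeff (n + 1)) (adjc_key N c i)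
  simp only [coeff_sub, coeff_X_mul, finsetSum_coeff, coeff_C_mul, coeff_mul_C] at h
  rw [Pi.add_apply, Pi.smul_apply, smul_eq_mul]
  change adjc N c n i = ∑ j, N i j * adjc N c (n + 1) j + _
  simp only [adjc]
  linear_combination h

theorem adjc_zero (N : Matrix (Fin k) (Fin k) R) (c : Fin k → R) :
    N *ᵥ adjc N c 0 = -(N.charpoly.coeff 0 • c) := by
  funext i
  have h := congrArg (fun p => p.coeff 0) (adjc_key N c i)
  simp only [coeff_sub, coeff_X_mul_zero, finsetSum_coeff, coeff_C_mul, coeff_mul_C] at h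
  rw [Pi.neg_apply, Pi.smul_apply, smul_eq_mul]
  change ∑ j, N i j * adjc N c 0 j = _
  simp only [adjc]
  linear_combination -h

theorem adjc_of_le (N : Matrix (Fin k) (Fin k) R) (c : Fin k → R) :
    ∀ n, k ≤ n → adjc N c n = 0 := by
  rcases subsingleton_or_nontrivial R with hs | hs
  · intro n _
    exact Subsingleton.elim _ _
  obtain ⟨B, hB⟩ : ∃ B, ∀ n, B ≤ n → adjc N c n = 0 := by
    refine ⟨(Finset.univ.sup fun i =>
      ((adjugate (charmatrix N) *ᵥ (fun i => C (c i))) i).natDegree) + 1, fun n hn => ?_⟩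
    funext i
    refine coeff_eq_zero_of_natDegree_lt (lt_of_le_of_lt ?_ (Nat.lt_of_succ_le hn))
    exact Finset.le_sup (f := fun i =>
      ((adjugate (charmatrix N) *ᵥ (fun i => C (c i))) i).natDegree) (Finset.mem_univ i)
  have hgd : N.charpoly.natDegree = k := by
    rw [Matrix.charpoly_natDegree_eq_dim, Fintype.card_fin]
  have key : ∀ m n, k ≤ n → adjc N c (n + m) = 0 → adjc N c n = 0 := by
    intro m
    induction m with
    | zero => intro n _ h; simpa using h
    | succ m ih =>
      intro n hn h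
      have h1 : adjc N c (n + 1) = 0 := ih (n + 1) (by omega) (by rw [← h]; congr 1; omega)
      rw [adjc_rec, h1, coeff_eq_zero_of_natDegree_lt (by omega)]
      simp
  intro n hn
  exact key B n hn (hB _ (by omega))

/-- The extension lemma. -/
theorem ext_unique_exists (N : Matrix (Fin k) (Fin k) R) (l : Fin k → R) (hN : IsUnit N.det)
    (hcyc : Cyc N l) (μ : R) (f : R[X]) (hf : f.Monic) (hfd : f.natDegree = k + 1)
    (hf0 : f.coeff 0 = -(μ * N.charpoly.coeff 0)) :
    ∃! b : Fin k → R, (bmat (μ + b ⬝ᵥ l) b (N *ᵥ l) N).charpoly = f := by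
  rcases subsingleton_or_nontrivial R with hs | hs
  · exact ⟨0, Subsingleton.elim _ _, fun _ _ => Subsingleton.elim _ _⟩
  set g := N.charpoly with hg
  set c := N *ᵥ l with hc
  let w : ℕ → Fin k → R := fun n => adjc N c n + g.coeff n • l
  have hgm : g.Monic := Matrix.charpoly_monic N
  have hgd : g.natDegree = k := by
    rw [hg, Matrix.charpoly_natDegree_eq_dim, Fintype.card_fin]
  have hw2 : ∀ n, w n = N *ᵥ w (n + 1) + g.coeff n • l := by
    intro n
    have h1 : N *ᵥ w (n + 1) = adjc N c n := by
      change N *ᵥ (adjc N c (n + 1) + g.coeff (n + 1) • l) = _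
      rw [Matrix.mulVec_add, Matrix.mulVec_smul, ← hc, ← adjc_rec]
    rw [h1]
  have hwk : w k = l := by
    change adjc N c k + g.coeff k • l = l
    rw [adjc_of_le N c k le_rfl, zero_add]
    have : g.coeff k = 1 := by
      have := hgm.coeff_natDegree
      rwa [hgd] at this
    rw [this, one_smul]
  have hw_big : ∀ n, k < n → w n = 0 := by
    intro n hn
    change adjc N c n + g.coeff n • l = 0
    rw [adjc_of_le N c n hn.le, coeff_eq_zero_of_natDegree_lt (by omega)]
    simp
  have hw0 : w 0 = 0 := by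
    have h1 : N *ᵥ w 0 = 0 := by
      change N *ᵥ (adjc N c 0 + g.coeff 0 • l) = 0
      rw [Matrix.mulVec_add, Matrix.mulVec_smul, adjc_zero, ← hc]
      exact neg_add_cancel _
    have h2 := congrArg (fun v => N⁻¹ *ᵥ v) h1
    simpa [Matrix.mulVec_mulVec, Matrix.nonsing_inv_mul _ hN] using h2
  have hcoeff : ∀ (b : Fin k → R) (n : ℕ),
      ((bmat (μ + b ⬝ᵥ l) b c N).charpoly).coeff n = ((X - C μ) * g).coeff n - b ⬝ᵥ w n := by
    intro b n
    rw [charpoly_bmat]
    have h1 : (X - C (μ + b ⬝ᵥ l)) * N.charpoly = (X - C μ) * g - C (b ⬝ᵥ l) * g := by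
      rw [C_add]
      ring
    rw [h1]
    simp only [coeff_sub, finsetSum_coeff, coeff_C_mul]
    have h2 : b ⬝ᵥ w n = (b ⬝ᵥ l) * g.coeff n +
        ∑ j, b j * ((adjugate (charmatrix N) *ᵥ (fun i => C (c i))) j).coeff n := by
      change b ⬝ᵥ (adjc N c n + g.coeff n • l) = _
      rw [dotProduct_add, dotProduct_smul, smul_eq_mul]
      simp only [dotProduct, adjc]
      ring
    rw [h2]
    ring
  let Rn : ℕ → R := fun n => ((X - C μ) * g).coeff n - f.coeff n
  have hXg : ((X - C μ) * g).Monic := (monic_X_sub_C μ).mul hgm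
  have hXgd : ((X - C μ) * g).natDegree = k + 1 := by
    rw [(monic_X_sub_C μ).natDegree_mul hgm, natDegree_X_sub_C, hgd]
    omega
  have hR0 : Rn 0 = 0 := by
    change ((X - C μ) * g).coeff 0 - f.coeff 0 = 0
    rw [hf0, mul_coeff_zero]
    simp
  have hRbig : ∀ n, k < n → Rn n = 0 := by
    intro n hn
    change ((X - C μ) * g).coeff n - f.coeff n = 0
    rcases Nat.lt_or_ge (k + 1) n with h | h
    · rw [coeff_eq_zero_of_natDegree_lt (by omega), coeff_eq_zero_of_natDegree_lt (by omega)]
      simp
    · have hn' : n = k + 1 := by omega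
      have h1 := hXg.coeff_natDegree
      have h2 := hf.coeff_natDegree
      rw [hXgd] at h1
      rw [hfd] at h2
      rw [hn', h1, h2, sub_self]
  have hiff : ∀ b : Fin k → R, (bmat (μ + b ⬝ᵥ l) b c N).charpoly = f ↔
      ∀ j : Fin k, b ⬝ᵥ w (j + 1) = Rn (j + 1) := by
    intro b
    constructor
    · intro h j
      have h1 := hcoeff b (j + 1)
      rw [h] at h1
      change b ⬝ᵥ w (j + 1) = ((X - C μ) * g).coeff (j + 1) - f.coeff (j + 1)
      linear_combination h1
    · intro h
      ext n
      rw [hcoeff]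
      rcases n with _ | n
      · rw [hw0]
        have := hR0
        change ((X - C μ) * g).coeff 0 - f.coeff 0 = 0 at this
        simp only [dotProduct_zero]
        linear_combination this
      · by_cases hn : n < k
        · have h1 := h ⟨n, hn⟩
          change b ⬝ᵥ w (n + 1) = ((X - C μ) * g).coeff (n + 1) - f.coeff (n + 1) at h1
          rw [h1]
          ring
        · have h1 : k < n + 1 := by omega
          rw [hw_big _ h1]
          have := hRbig (n + 1) h1
          change ((X - C μ) * g).coeff (n + 1) - f.coeff (n + 1) = 0 at this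
          simp only [dotProduct_zero]
          linear_combination this
  let W : Matrix (Fin k) (Fin k) R := Matrix.of (fun j : Fin k => w (j + 1))
  have hWb : ∀ b : Fin k → R, W *ᵥ b = fun j : Fin k => b ⬝ᵥ w (j + 1) := by
    intro b
    funext j
    simp [W, Matrix.mulVec, dotProduct, mul_comm]
  have hspan : Submodule.span R (Set.range fun j : Fin k => w (j + 1)) = ⊤ := by
    have hl : l ∈ Submodule.span R (Set.range fun j : Fin k => w (j + 1)) := by
      rcases Nat.eq_zero_or_pos k with hk | hk
      · have : IsEmpty (Fin k) := by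
          rw [hk]
          infer_instance
        have : l = 0 := Subsingleton.elim _ _
        rw [this]
        exact Submodule.zero_mem _
      · refine Submodule.subset_span ⟨⟨k - 1, by omega⟩, ?_⟩
        have : k - 1 + 1 = k := by omega
        simp only [this]
        exact hwk
    refine hcyc.eq_top _ hl fun v hv => ?_
    induction hv using Submodule.span_induction with
    | mem x hx =>
      obtain ⟨j, rfl⟩ := hx
      have h1 : N *ᵥ w (j + 1) = w j - g.coeff j • l := by
        rw [hw2 j]
        simp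
      rw [h1]
      refine Submodule.sub_mem _ ?_ (Submodule.smul_mem _ _ hl)
      rcases Nat.eq_zero_or_pos (j : ℕ) with hj | hj
      · rw [hj, hw0]
        exact Submodule.zero_mem _
      · refine Submodule.subset_span ⟨⟨j - 1, by omega⟩, ?_⟩
        have : (j : ℕ) - 1 + 1 = j := by omega
        simp only [this]
    | zero => simp
    | add x y _ _ hx hy =>
      rw [Matrix.mulVec_add]
      exact Submodule.add_mem _ hx hy
    | smul a x _ hx =>
      rw [Matrix.mulVec_smul]
      exact Submodule.smul_mem _ _ hx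
  have hWunit : IsUnit W := by
    rw [← Matrix.vecMul_surjective_iff_isUnit]
    intro v
    have hv : v ∈ Submodule.span R (Set.range fun j : Fin k => w (j + 1)) := by
      rw [hspan]
      trivial
    obtain ⟨x, hx⟩ := (Submodule.mem_span_range_iff_exists_fun R).mp hv
    refine ⟨x, ?_⟩
    rw [← hx]
    funext i
    simp [Matrix.vecMul, dotProduct, W, Finset.sum_apply]
  have hWdet : IsUnit W.det := (Matrix.isUnit_iff_isUnit_det W).mp hWunit
  refine ⟨W⁻¹ *ᵥ (fun j : Fin k => Rn (j + 1)), (hiff _).mpr ?_, ?_⟩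
  · intro j
    have h1 := congrFun (hWb (W⁻¹ *ᵥ (fun j : Fin k => Rn (j + 1)))) j
    rw [Matrix.mulVec_mulVec, Matrix.mul_nonsing_inv _ hWdet, Matrix.one_mulVec] at h1
    exact h1.symm
  · intro b hb
    have h1 := (hiff b).mp hb
    have h2 : W *ᵥ b = fun j : Fin k => Rn (j + 1) := by
      rw [hWb]
      funext j
      exact h1 j
    calc b = W⁻¹ *ᵥ (W *ᵥ b) := by
          rw [Matrix.mulVec_mulVec, Matrix.nonsing_inv_mul _ hWdet, Matrix.one_mulVec]
      _ = _ := by rw [h2]

/-- The extension lemma for the product of an upper and a lower block triangular matrix: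
there is a unique first row of the upper factor for which the product has a given monic
characteristic polynomial with the correct constant term. -/
theorem ext_UL (U L : Matrix (Fin k) (Fin k) R) (lam : Fin k → R) (hU : IsUnit U.det)
    (hL : IsUnit L.det) (hcyc : Cyc (U * L) (U *ᵥ lam)) (a b : R) (f : R[X]) (hf : f.Monic)
    (hfd : f.natDegree = k + 1) (hf0 : f.coeff 0 = -(a * b * (U * L).charpoly.coeff 0)) :
    ∃! ρ : Fin k → R, (bmat a ρ 0 U * bmat b 0 lam L).charpoly = f := by
  have hprod : ∀ ρ : Fin k → R, bmat a ρ 0 U * bmat b 0 lam L =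
      bmat (a * b + (ρ ᵥ* L) ⬝ᵥ (L⁻¹ *ᵥ lam)) (ρ ᵥ* L) ((U * L) *ᵥ (L⁻¹ *ᵥ lam)) (U * L) := by
    intro ρ
    rw [bmat_mul]
    congr 1
    · rw [← Matrix.dotProduct_mulVec, Matrix.mulVec_mulVec, Matrix.mul_nonsing_inv _ hL,
        Matrix.one_mulVec]
    · simp
    · rw [Matrix.mulVec_mulVec, Matrix.mul_assoc, Matrix.mul_nonsing_inv _ hL, Matrix.mul_one]
      simp
    · simp
  have hN : IsUnit (U * L).det := by
    rw [Matrix.det_mul]
    exact hU.mul hL
  have hcyc' : Cyc (U * L) (L⁻¹ *ᵥ lam) := by
    apply Cyc.of_mulVec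
    rw [Matrix.mulVec_mulVec, Matrix.mul_assoc, Matrix.mul_nonsing_inv _ hL, Matrix.mul_one]
    exact hcyc
  obtain ⟨b0, hb0, huniq⟩ :=
    ext_unique_exists (U * L) (L⁻¹ *ᵥ lam) hN hcyc' (a * b) f hf hfd hf0
  refine ⟨b0 ᵥ* L⁻¹, ?_, ?_⟩
  · change (bmat a (b0 ᵥ* L⁻¹) 0 U * bmat b 0 lam L).charpoly = f
    rw [hprod, Matrix.vecMul_vecMul, Matrix.nonsing_inv_mul _ hL, Matrix.vecMul_one]
    exact hb0
  · intro ρ hρ
    rw [hprod] at hρ
    have := huniq (ρ ᵥ* L) hρ
    rw [← this, Matrix.vecMul_vecMul, Matrix.mul_nonsing_inv _ hL, Matrix.vecMul_one]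

end Vale.Agent.Lib.P002
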