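import Vale.Agent.Lib.P002.RkUniv

/-!
From the chart pairs with cyclic vectors on every level to all chart pairs for which the first
basis vector is cyclic for the product: a polynomial identity argument on the affine space of
coordinates, using the ring of fractions in which the Krylov determinant is inverted.
-/

namespace Vale.Agent.Lib.P002

open Matrix

section Univ

variable (k : ℕ) (α' β' : Fin k → ℂ)

/-- The Krylov determinant of the top level, as a polynomial in the coordinates. -/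
noncomputable def univDelta : MvPolynomial (Fin 3 × Fin k × Fin k) ℂ :=
  (kry (triU (fun i => MvPolynomial.C (α' i)) MvPolynomial.X *
      triL (fun i => MvPolynomial.C (β' i)) MvPolynomial.X)
    (triU (fun i => MvPolynomial.C (α' i)) MvPolynomial.X *ᵥ vecL MvPolynomial.X)).det

/-- The product of the Krylov determinants of all levels, as a polynomial in the
coordinates. -/
noncomputable def univLev : MvPolynomial (Fin 3 × Fin k × Fin k) ℂ :=
  levDet k (triU (fun i => MvPolynomial.C (α' i)) MvPolynomial.X)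
    (triL (fun i => MvPolynomial.C (β' i)) MvPolynomial.X) (vecL MvPolynomial.X)

theorem eval_univDelta (y : Fin 3 × Fin k × Fin k → ℂ) :
    MvPolynomial.eval y (univDelta k α' β') =
      (kry (triU α' y * triL β' y) (triU α' y *ᵥ vecL y)).det := by
  rw [univDelta, map_det_kry_tri]
  simp only [MvPolynomial.eval_C, MvPolynomial.eval_X]

theorem eval_univLev (y : Fin 3 × Fin k × Fin k → ℂ) :
    MvPolynomial.eval y (univLev k α' β') = levDet k (triU α' y) (triL β' y) (vecL y) := by
  rw [univLev, map_levDet_tri]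
  simp only [MvPolynomial.eval_C, MvPolynomial.eval_X]

end Univ

/-- Evaluation of a polynomial in the entries of a conjugated pair commutes with ring
homomorphisms back to the complex numbers. -/
theorem eval₂_pair {T : Type*} [CommRing T] {n : ℕ} (φ : ℂ →+* T) (e : T →+* ℂ)
    (hφ : ∀ c, e (φ c) = c) (P : MvPolynomial (Fin 2 × Fin n × Fin n) ℂ)
    (g g' : Matrix (Fin n) (Fin n) ℂ) (Ut Lt : Matrix (Fin n) (Fin n) T) :
    e (MvPolynomial.eval₂ φ (fun p => ![g.map φ * Ut * g'.map φ, g.map φ * Lt * g'.map φ]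
      p.1 p.2.1 p.2.2) P) =
      MvPolynomial.eval (fun p => ![g * Ut.map e * g', g * Lt.map e * g'] p.1 p.2.1 p.2.2) P := by
  have hid : e.comp φ = RingHom.id ℂ := RingHom.ext hφ
  have hg : ∀ M : Matrix (Fin n) (Fin n) ℂ, (M.map φ).map e = M := by
    intro M
    ext i j
    simp [hφ]
  have h1 : (g.map φ * Ut * g'.map φ).map e = g * Ut.map e * g' := by
    rw [Matrix.map_mul, Matrix.map_mul, hg, hg]
  have h2 : (g.map φ * Lt * g'.map φ).map e = g * Lt.map e * g' := by
    rw [Matrix.map_mul, Matrix.map_mul, hg, hg]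
  rw [MvPolynomial.eval₂_comp_left, hid, MvPolynomial.eval₂_id]
  have hfun : (⇑e ∘ fun p : Fin 2 × Fin n × Fin n =>
      ![g.map φ * Ut * g'.map φ, g.map φ * Lt * g'.map φ] p.1 p.2.1 p.2.2) =
      fun p => ![g * Ut.map e * g', g * Lt.map e * g'] p.1 p.2.1 p.2.2 := by
    funext p
    obtain ⟨c, i, j⟩ := p
    fin_cases c
    · exact congrFun (congrFun h1 i) j
    · exact congrFun (congrFun h2 i) j
  rw [hfun]

/-- The polynomial identity argument, for any ring of fractions of the polynomial ring in which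
the Krylov determinant is inverted. -/
theorem top_of_nested_aux {T : Type*} [CommRing T] (k : ℕ) (α β δ : Fin (k + 1) → ℂ)
    (hα0 : ∀ i, α i ≠ 0) (hβ0 : ∀ i, β i ≠ 0) (hprod : (∏ i, α i) * ∏ i, β i = ∏ i, δ i)
    (ι : MvPolynomial (Fin 3 × Fin k × Fin k) ℂ →+* T)
    (h1 : IsUnit (ι (univDelta k (fun i => α i.succ) (fun i => β i.succ))))
    (h2 : ∀ z : T, ∃ (n : ℕ) (a : MvPolynomial (Fin 3 × Fin k × Fin k) ℂ),
      z * ι (univDelta k (fun i => α i.succ) (fun i => β i.succ)) ^ n = ι a)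
    (h3 : ∀ y : Fin 3 × Fin k × Fin k → ℂ,
      MvPolynomial.eval y (univDelta k (fun i => α i.succ) (fun i => β i.succ)) ≠ 0 →
        ∃ e : T →+* ℂ, ∀ a, e (ι a) = MvPolynomial.eval y a)
    (P : MvPolynomial (Fin 2 × Fin (k + 1) × Fin (k + 1)) ℂ)
    (g g' : Matrix (Fin (k + 1)) (Fin (k + 1)) ℂ)
    (H : ∀ U Lo : Matrix (Fin (k + 1)) (Fin (k + 1)) ℂ, (∀ i : Fin k, U i.succ 0 = 0) →
      U 0 0 = α 0 → (∀ j : Fin k, Lo 0 j.succ = 0) → Lo 0 0 = β 0 →
      Lev ℂ k (fun i => α i.succ) (fun i => β i.succ) (U.submatrix Fin.succ Fin.succ)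
        (Lo.submatrix Fin.succ Fin.succ) (fun i => Lo i.succ 0) →
      (U * Lo).charpoly = ∏ i, (Polynomial.X - Polynomial.C (δ i)) →
      MvPolynomial.eval (fun x => ![g * U * g', g * Lo * g'] x.1 x.2.1 x.2.2) P = 0)
    (U Lo : Matrix (Fin (k + 1)) (Fin (k + 1)) ℂ)
    (hU : ∀ i j, j < i → U i j = 0) (hUd : ∀ i, U i i = α i)
    (hL : ∀ i j, i < j → Lo i j = 0) (hLd : ∀ i, Lo i i = β i)
    (hchar : (U * Lo).charpoly = ∏ i, (Polynomial.X - Polynomial.C (δ i)))
    (hcyc : Cyc (U * Lo) (Fin.cons 1 0)) :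
    MvPolynomial.eval (fun x => ![g * U * g', g * Lo * g'] x.1 x.2.1 x.2.2) P = 0 := by
  classical
  have hprod' : α 0 * β 0 * ((∏ i : Fin k, α i.succ) * ∏ i : Fin k, β i.succ) = ∏ i, δ i := by
    rw [← hprod, Fin.prod_univ_succ, Fin.prod_univ_succ]
    ring
  have hαu : IsUnit (∏ i : Fin k, α i.succ) :=
    isUnit_iff_ne_zero.mpr (Finset.prod_ne_zero_iff.mpr fun i _ => hα0 i.succ)
  have hβu : IsUnit (∏ i : Fin k, β i.succ) :=
    isUnit_iff_ne_zero.mpr (Finset.prod_ne_zero_iff.mpr fun i _ => hβ0 i.succ)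
  -- the given point
  obtain ⟨y₁, hy₁⟩ : ∃ y₁, y₁ = coords (U.submatrix Fin.succ Fin.succ)
    (Lo.submatrix Fin.succ Fin.succ) (fun i => Lo i.succ 0) := ⟨_, rfl⟩
  obtain ⟨hUeq, hLeq⟩ := eq_chU_chL α β U Lo hU hUd hL hLd
  rw [← hy₁] at hUeq hLeq
  have hcyc₁ : Cyc (triU (fun i => α i.succ) y₁ * triL (fun i => β i.succ) y₁)
      (triU (fun i => α i.succ) y₁ *ᵥ vecL y₁) := by
    have h : Cyc (chU (α 0) (fun i => α i.succ) (fun j => U 0 j.succ) y₁ *
        chL (β 0) (fun i => β i.succ) y₁) (Fin.cons 1 0) := by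
      rw [← hUeq, ← hLeq]
      exact hcyc
    rw [chU_mul_chL] at h
    exact h.of_block
  have hΔ₁ : MvPolynomial.eval y₁ (univDelta k (fun i => α i.succ) (fun i => β i.succ)) ≠ 0 := by
    rw [eval_univDelta]
    exact hcyc₁.det_kry_ne_zero
  obtain ⟨e₁, he₁⟩ := h3 y₁ hΔ₁
  haveI : Nontrivial T := e₁.domain_nontrivial
  -- the first row over the ring of fractions
  have hΔT : IsUnit (kry (triU (fun i => ι (MvPolynomial.C (α i.succ)))
      (fun p => ι (MvPolynomial.X p)) * triL (fun i => ι (MvPolynomial.C (β i.succ)))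
      (fun p => ι (MvPolynomial.X p))) (triU (fun i => ι (MvPolynomial.C (α i.succ)))
      (fun p => ι (MvPolynomial.X p)) *ᵥ vecL (fun p => ι (MvPolynomial.X p)))).det := by
    have h := h1
    rw [univDelta, map_det_kry_tri] at h
    exact h
  have hαT : IsUnit (∏ i : Fin k, ι (MvPolynomial.C (α i.succ))) := by
    have h : ∏ i : Fin k, ι (MvPolynomial.C (α i.succ)) =
        (ι.comp MvPolynomial.C) (∏ i : Fin k, α i.succ) := by
      rw [map_prod]
      rfl
    rw [h]
    exact hαu.map _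
  have hβT : IsUnit (∏ i : Fin k, ι (MvPolynomial.C (β i.succ))) := by
    have h : ∏ i : Fin k, ι (MvPolynomial.C (β i.succ)) =
        (ι.comp MvPolynomial.C) (∏ i : Fin k, β i.succ) := by
      rw [map_prod]
      rfl
    rw [h]
    exact hβu.map _
  have hprodT : ι (MvPolynomial.C (α 0)) * ι (MvPolynomial.C (β 0)) *
      ((∏ i : Fin k, ι (MvPolynomial.C (α i.succ))) * ∏ i : Fin k, ι (MvPolynomial.C (β i.succ))) =
      ∏ i, ι (MvPolynomial.C (δ i)) := by
    have h := congrArg (ι.comp MvPolynomial.C) hprod'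
    simpa [map_mul, map_prod] using h
  obtain ⟨ρt, hρt, -⟩ := row_exists_unique (ι (MvPolynomial.C (α 0))) (ι (MvPolynomial.C (β 0)))
    (fun i => ι (MvPolynomial.C (α i.succ))) (fun i => ι (MvPolynomial.C (β i.succ)))
    (fun i => ι (MvPolynomial.C (δ i))) (fun p => ι (MvPolynomial.X p)) hαT hβT hprodT hΔT
  -- the value of the polynomial at the pair over the ring of fractions
  obtain ⟨Ψ, hΨ⟩ : ∃ Ψ : T, Ψ = MvPolynomial.eval₂ (ι.comp MvPolynomial.C)
      (fun p => ![g.map (ι.comp MvPolynomial.C) *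
        chU (ι (MvPolynomial.C (α 0))) (fun i => ι (MvPolynomial.C (α i.succ))) ρt
          (fun p => ι (MvPolynomial.X p)) * g'.map (ι.comp MvPolynomial.C),
        g.map (ι.comp MvPolynomial.C) *
        chL (ι (MvPolynomial.C (β 0))) (fun i => ι (MvPolynomial.C (β i.succ)))
          (fun p => ι (MvPolynomial.X p)) * g'.map (ι.comp MvPolynomial.C)] p.1 p.2.1 p.2.2) P :=
    ⟨_, rfl⟩
  obtain ⟨N, Q, hQ⟩ := h2 Ψ
  -- evaluation at a point
  have key : ∀ (y : Fin 3 × Fin k × Fin k → ℂ) (e : T →+* ℂ),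
      (∀ a, e (ι a) = MvPolynomial.eval y a) →
      (chU (α 0) (fun i => α i.succ) (fun j => e (ρt j)) y *
        chL (β 0) (fun i => β i.succ) y).charpoly =
          ∏ i, (Polynomial.X - Polynomial.C (δ i)) ∧
      e Ψ = MvPolynomial.eval (fun p => ![g * chU (α 0) (fun i => α i.succ)
          (fun j => e (ρt j)) y * g', g * chL (β 0) (fun i => β i.succ) y * g']
            p.1 p.2.1 p.2.2) P ∧
      MvPolynomial.eval y Q = e Ψ *
        (MvPolynomial.eval y (univDelta k (fun i => α i.succ) (fun i => β i.succ))) ^ N := by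
    intro y e he
    have hφ : ∀ c, e ((ι.comp MvPolynomial.C) c) = c := fun c => by
      rw [RingHom.comp_apply, he, MvPolynomial.eval_C]
    have hUm : (chU (ι (MvPolynomial.C (α 0))) (fun i => ι (MvPolynomial.C (α i.succ))) ρt
        (fun p => ι (MvPolynomial.X p))).map e =
        chU (α 0) (fun i => α i.succ) (fun j => e (ρt j)) y := by
      rw [chU_map]
      simp only [he, MvPolynomial.eval_C, MvPolynomial.eval_X]
    have hLm : (chL (ι (MvPolynomial.C (β 0))) (fun i => ι (MvPolynomial.C (β i.succ)))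
        (fun p => ι (MvPolynomial.X p))).map e = chL (β 0) (fun i => β i.succ) y := by
      rw [chL_map]
      simp only [he, MvPolynomial.eval_C, MvPolynomial.eval_X]
    refine ⟨?_, ?_, ?_⟩
    · have h := congrArg (Polynomial.map e) hρt
      rw [← Matrix.charpoly_map, Matrix.map_mul, hUm, hLm, Polynomial.map_prod] at h
      simpa [he] using h
    · rw [hΨ, eval₂_pair (ι.comp MvPolynomial.C) e hφ, hUm, hLm]
    · have h := congrArg e hQ
      rw [map_mul, map_pow, he, he] at h
      exact h.symm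
  -- the polynomial identity
  have hQD : Q * (univDelta k (fun i => α i.succ) (fun i => β i.succ) *
      univLev k (fun i => α i.succ) (fun i => β i.succ)) = 0 := by
    apply MvPolynomial.funext
    intro y
    rw [map_mul, map_zero]
    by_cases hy : MvPolynomial.eval y (univDelta k (fun i => α i.succ) (fun i => β i.succ) *
        univLev k (fun i => α i.succ) (fun i => β i.succ)) = 0
    · rw [hy, mul_zero]
    · rw [map_mul] at hy
      have hyΔ := left_ne_zero_of_mul hy
      have hyD := right_ne_zero_of_mul hy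
      obtain ⟨e, he⟩ := h3 y hyΔ
      obtain ⟨hc, hΨe, hQe⟩ := key y e he
      have hLev : Lev ℂ k (fun i => α i.succ) (fun i => β i.succ) (triU (fun i => α i.succ) y)
          (triL (fun i => β i.succ) y) (vecL y) := by
        rw [eval_univLev] at hyD
        exact lev_of_levDet k _ _ _ _ _ (triU_shape _ y).1 (triU_shape _ y).2
          (triL_shape _ y).1 (triL_shape _ y).2 hyD
      have h0 := H (chU (α 0) (fun i => α i.succ) (fun j => e (ρt j)) y)
        (chL (β 0) (fun i => β i.succ) y) (fun i => rfl) rfl (fun j => rfl) rfl (by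
          rw [chU, chL, bmat_submatrix, bmat_submatrix]
          exact hLev) hc
      rw [hQe, hΨe, h0, zero_mul, zero_mul]
  have hD0 : univDelta k (fun i => α i.succ) (fun i => β i.succ) *
      univLev k (fun i => α i.succ) (fun i => β i.succ) ≠ 0 := by
    obtain ⟨Us, Ls, lams, hs⟩ := exists_lev k (fun i => α i.succ) (fun i => β i.succ)
      (fun i => hα0 i.succ) (fun i => hβ0 i.succ)
    obtain ⟨t1, t2, t3, t4⟩ := lev_tri hs
    intro h0
    have h := congrArg (MvPolynomial.eval (coords Us Ls lams)) h0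
    rw [map_mul, map_zero, eval_univDelta, eval_univLev, triU_coords _ Us Ls lams t1 t2,
      triL_coords _ Us Ls lams t3 t4, vecL_coords] at h
    exact mul_ne_zero (lev_cyc hs).det_kry_ne_zero (lev_levDet_ne_zero hs) h
  have hQ0 : Q = 0 := (mul_eq_zero.mp hQD).resolve_right hD0
  -- conclusion at the given point
  obtain ⟨hc₁, hΨ₁, hQ₁⟩ := key y₁ e₁ he₁
  have hΔℂ : IsUnit (kry (triU (fun i => α i.succ) y₁ * triL (fun i => β i.succ) y₁)
      (triU (fun i => α i.succ) y₁ *ᵥ vecL y₁)).det :=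
    isUnit_iff_ne_zero.mpr hcyc₁.det_kry_ne_zero
  obtain ⟨ρ₀, -, huniq⟩ := row_exists_unique (α 0) (β 0) (fun i => α i.succ)
    (fun i => β i.succ) δ y₁ hαu hβu hprod' hΔℂ
  have hρ1 : (fun j => e₁ (ρt j)) = ρ₀ := huniq _ hc₁
  have hρ2 : (fun j => U 0 j.succ) = ρ₀ := huniq _ (by
    beta_reduce
    rw [← hUeq, ← hLeq]
    exact hchar)
  rw [hρ1, ← hρ2, ← hUeq, ← hLeq] at hΨ₁
  rw [hQ0, map_zero] at hQ₁
  rw [← hΨ₁]
  exact (mul_eq_zero.mp hQ₁.symm).resolve_right (pow_ne_zero _ hΔ₁)

end Vale.Agent.Lib.P002
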