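import Vale.Agent.Lib.P002.RkTop

/-!
Krylov matrices: a vector is cyclic as soon as the determinant of its Krylov matrix is a unit,
and over a field the converse holds.  The product of the Krylov determinants of all levels of a
nested pair of triangular matrices, and the existence of nested pairs over a field.
-/

namespace Vale.Agent.Lib.P002

open Matrix Polynomial

section Kry

variable {S : Type*} [CommRing S] {k : ℕ}

/-- The Krylov matrix with columns c, N c, N^2 c, ... -/
def kry (N : Matrix (Fin k) (Fin k) S) (c : Fin k → S) : Matrix (Fin k) (Fin k) S :=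
  Matrix.of fun i j => ((N ^ (j : ℕ)) *ᵥ c) i

theorem kry_mulVec (N : Matrix (Fin k) (Fin k) S) (c w : Fin k → S) :
    kry N c *ᵥ w = (aeval N (∑ j : Fin k, monomial (j : ℕ) (w j))) *ᵥ c := by
  have h : ∀ j : Fin k, (aeval N (monomial (j : ℕ) (w j))) *ᵥ c = w j • ((N ^ (j : ℕ)) *ᵥ c) := by
    intro j
    rw [aeval_monomial, Algebra.algebraMap_eq_smul_one, smul_mul_assoc, one_mul,
      Matrix.smul_mulVec]
  rw [map_sum, Matrix.sum_mulVec]
  funext i
  rw [Finset.sum_apply]
  simp only [h]
  simp [Matrix.mulVec, dotProduct, kry, mul_comm]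

theorem cyc_of_isUnit_det_kry {N : Matrix (Fin k) (Fin k) S} {c : Fin k → S}
    (h : IsUnit (kry N c).det) : Cyc N c := by
  intro v
  refine ⟨∑ j : Fin k, monomial (j : ℕ) (((kry N c)⁻¹ *ᵥ v) j), ?_⟩
  rw [← kry_mulVec, Matrix.mulVec_mulVec, Matrix.mul_nonsing_inv _ h, Matrix.one_mulVec]

theorem kry_map {T : Type*} [CommRing T] (f : S →+* T) (N : Matrix (Fin k) (Fin k) S)
    (c : Fin k → S) : (kry N c).map f = kry (N.map f) (fun i => f (c i)) := by
  ext i j
  have h1 : (N ^ (j : ℕ)).map f = (N.map f) ^ (j : ℕ) := by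
    have := map_pow (f.mapMatrix) N (j : ℕ)
    simpa [RingHom.mapMatrix_apply] using this
  simp only [kry, Matrix.map_apply, Matrix.of_apply]
  rw [← h1]
  exact RingHom.map_mulVec f _ c i

theorem Cyc.det_kry_ne_zero {K : Type*} [Field K] {N : Matrix (Fin k) (Fin k) K}
    {c : Fin k → K} (h : Cyc N c) : (kry N c).det ≠ 0 := by
  classical
  intro h0
  obtain ⟨w, hw, hw0⟩ := Matrix.exists_mulVec_eq_zero_iff.mpr h0
  rw [kry_mulVec, ← Polynomial.ofFn_eq_sum_monomial] at hw0
  have hk : 1 ≤ k := by
    rcases Nat.eq_zero_or_pos k with rfl | hk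
    · exact absurd (Subsingleton.elim w 0) hw
    · exact hk
  have h1 := h.eq_zero_of_natDegree_lt _ (Polynomial.ofFn_natDegree_lt hk w) hw0
  apply hw
  apply Polynomial.injective_ofFn k
  rw [h1, Polynomial.ofFn_zero]

/-- The product of the Krylov determinants of all levels. -/
def levDet : (k : ℕ) → Matrix (Fin k) (Fin k) S → Matrix (Fin k) (Fin k) S → (Fin k → S) → S
  | 0, _, _, _ => 1
  | k + 1, U, L, lam => (kry (U * L) (U *ᵥ lam)).det *
      levDet k (U.submatrix Fin.succ Fin.succ) (L.submatrix Fin.succ Fin.succ)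
        (fun i => L i.succ 0)

theorem map_levDet {T : Type*} [CommRing T] (f : S →+* T) :
    ∀ (k : ℕ) (U L : Matrix (Fin k) (Fin k) S) (lam : Fin k → S),
      f (levDet k U L lam) = levDet k (U.map f) (L.map f) (fun i => f (lam i)) := by
  intro k
  induction k with
  | zero =>
    intro U L lam
    simp [levDet]
  | succ k ih =>
    intro U L lam
    simp only [levDet]
    rw [map_mul, ih, RingHom.map_det, RingHom.mapMatrix_apply, kry_map, Matrix.map_mul,
      map_mulVec']
    rfl

/-- The triangular shape of a nested pair. -/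
theorem lev_tri : ∀ {k : ℕ} {α β : Fin k → S} {U L : Matrix (Fin k) (Fin k) S}
    {lam : Fin k → S}, Lev S k α β U L lam →
      (∀ i j, j < i → U i j = 0) ∧ (∀ i, U i i = α i) ∧ (∀ i j, i < j → L i j = 0) ∧
        (∀ i, L i i = β i) := by
  intro k
  induction k with
  | zero =>
    intro α β U L lam _
    exact ⟨fun i => i.elim0, fun i => i.elim0, fun i => i.elim0, fun i => i.elim0⟩
  | succ k ih =>
    intro α β U L lam h
    obtain ⟨hU0, hUa, hL0, hLb, -, h'⟩ := h
    obtain ⟨h1, h2, h3, h4⟩ := ih h'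
    refine ⟨fun i j hij => ?_, fun i => ?_, fun i j hij => ?_, fun i => ?_⟩
    · induction i using Fin.cases with
      | zero => exact absurd hij (Fin.not_lt_zero j)
      | succ i =>
        induction j using Fin.cases with
        | zero => exact hU0 i
        | succ j => exact h1 i j (Fin.succ_lt_succ_iff.mp hij)
    · induction i using Fin.cases with
      | zero => exact hUa
      | succ i => exact h2 i
    · induction j using Fin.cases with
      | zero => exact absurd hij (Fin.not_lt_zero i)
      | succ j =>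
        induction i using Fin.cases with
        | zero => exact hL0 j
        | succ i => exact h3 i j (Fin.succ_lt_succ_iff.mp hij)
    · induction i using Fin.cases with
      | zero => exact hLb
      | succ i => exact h4 i

end Kry

section Field

variable {K : Type*} [Field K]

theorem lev_levDet_ne_zero : ∀ {k : ℕ} {α β : Fin k → K} {U L : Matrix (Fin k) (Fin k) K}
    {lam : Fin k → K}, Lev K k α β U L lam → levDet k U L lam ≠ 0 := by
  intro k
  induction k with
  | zero =>
    intro α β U L lam _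
    simp [levDet]
  | succ k ih =>
    intro α β U L lam h
    simp only [levDet]
    exact mul_ne_zero h.2.2.2.2.1.det_kry_ne_zero (ih h.2.2.2.2.2)

theorem lev_of_levDet : ∀ (k : ℕ) (α β : Fin k → K) (U L : Matrix (Fin k) (Fin k) K)
    (lam : Fin k → K), (∀ i j, j < i → U i j = 0) → (∀ i, U i i = α i) →
      (∀ i j, i < j → L i j = 0) → (∀ i, L i i = β i) → levDet k U L lam ≠ 0 →
      Lev K k α β U L lam := by
  intro k
  induction k with
  | zero =>
    intro α β U L lam _ _ _ _ _
    trivial
  | succ k ih =>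
    intro α β U L lam hU hUd hL hLd h
    simp only [levDet] at h
    refine ⟨fun i => hU i.succ 0 (Fin.succ_pos i), hUd 0, fun j => hL 0 j.succ (Fin.succ_pos j),
      hLd 0, cyc_of_isUnit_det_kry (isUnit_iff_ne_zero.mpr (left_ne_zero_of_mul h)), ?_⟩
    exact ih _ _ _ _ _ (fun i j hij => hU i.succ j.succ (Fin.succ_lt_succ_iff.mpr hij))
      (fun i => hUd i.succ) (fun i j hij => hL i.succ j.succ (Fin.succ_lt_succ_iff.mpr hij))
      (fun i => hLd i.succ) (right_ne_zero_of_mul h)

/-- Nested pairs exist over a field. -/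
theorem exists_lev : ∀ (k : ℕ) (α β : Fin k → K), (∀ i, α i ≠ 0) → (∀ i, β i ≠ 0) →
    ∃ (U L : Matrix (Fin k) (Fin k) K) (lam : Fin k → K), Lev K k α β U L lam := by
  intro k
  induction k with
  | zero =>
    intro α β _ _
    exact ⟨0, 0, 0, trivial⟩
  | succ k ih =>
    intro α β hα hβ
    obtain ⟨U, L, lam, h⟩ := ih (fun i => α i.succ) (fun i => β i.succ) (fun i => hα i.succ)
      (fun i => hβ i.succ)
    have hdet : IsUnit (bmat (α 0) 0 0 U).det := by
      rw [det_bmat_col_zero, (lev_det h).1, isUnit_iff_ne_zero]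
      exact mul_ne_zero (hα 0) (Finset.prod_ne_zero_iff.mpr fun i _ => hα i.succ)
    refine ⟨bmat (α 0) 0 0 U, bmat (β 0) 0 lam L,
      (bmat (α 0) 0 0 U)⁻¹ *ᵥ (Fin.cons 1 0), lev_bmat h ?_⟩
    rw [Matrix.mulVec_mulVec, Matrix.mul_nonsing_inv _ hdet, Matrix.one_mulVec, bmat_mul]
    have hc := (lev_cyc h).block (α 0 * β 0 + (0 : Fin k → K) ⬝ᵥ lam)
      (α 0 • (0 : Fin k → K) + (0 : Fin k → K) ᵥ* L)
    convert hc using 2 <;> simp

end Field

end Vale.Agent.Lib.P002
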