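import Vale.Agent.Lib.P002.RkExt
import Vale.Agent.Lib.P002.RkEuclid

/-!
Nested pairs of an upper and a lower triangular matrix with prescribed diagonals and cyclic
vectors on every level, and their lifting along a surjective ring homomorphism to a field
through which units lift.
-/

namespace Vale.Agent.Lib.P002

open Matrix Polynomial

/-- The pair (U, L) consists of an upper triangular matrix with diagonal α and a lower
triangular matrix with diagonal β, the vector U lam is cyclic for U L, and recursively the same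
holds for the lower right blocks of U and L with the first column of L below the diagonal in
place of lam. -/
def Lev (S : Type*) [CommRing S] : (k : ℕ) → (Fin k → S) → (Fin k → S) →
    Matrix (Fin k) (Fin k) S → Matrix (Fin k) (Fin k) S → (Fin k → S) → Prop
  | 0, _, _, _, _, _ => True
  | k + 1, α, β, U, L, lam =>
      (∀ i : Fin k, U i.succ 0 = 0) ∧ U 0 0 = α 0 ∧ (∀ j : Fin k, L 0 j.succ = 0) ∧
      L 0 0 = β 0 ∧ Cyc (U * L) (U *ᵥ lam) ∧
      Lev S k (fun i => α i.succ) (fun i => β i.succ) (U.submatrix Fin.succ Fin.succ)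
        (L.submatrix Fin.succ Fin.succ) (fun i => L i.succ 0)

section Basic

variable {S : Type*} [CommRing S]

theorem lev_eq_bmat {k : ℕ} {α β : Fin (k + 1) → S} {U L : Matrix (Fin (k + 1)) (Fin (k + 1)) S}
    {lam : Fin (k + 1) → S} (h : Lev S (k + 1) α β U L lam) :
    U = bmat (α 0) (fun j => U 0 j.succ) 0 (U.submatrix Fin.succ Fin.succ) ∧
      L = bmat (β 0) 0 (fun i => L i.succ 0) (L.submatrix Fin.succ Fin.succ) := by
  obtain ⟨hU0, hUa, hL0, hLb, -, -⟩ := h
  constructor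
  · conv_lhs => rw [eq_bmat U]
    rw [hUa]
    congr 1
    funext i
    exact hU0 i
  · conv_lhs => rw [eq_bmat L]
    rw [hLb]
    congr 1
    funext j
    exact hL0 j

theorem lev_bmat {k : ℕ} {α β : Fin (k + 1) → S} {U L : Matrix (Fin k) (Fin k) S}
    {lam ρ : Fin k → S} {lam' : Fin (k + 1) → S}
    (h : Lev S k (fun i => α i.succ) (fun i => β i.succ) U L lam)
    (hc : Cyc (bmat (α 0) ρ 0 U * bmat (β 0) 0 lam L) (bmat (α 0) ρ 0 U *ᵥ lam')) :
    Lev S (k + 1) α β (bmat (α 0) ρ 0 U) (bmat (β 0) 0 lam L) lam' := by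
  refine ⟨fun i => rfl, rfl, fun j => rfl, rfl, hc, ?_⟩
  rw [bmat_submatrix, bmat_submatrix]
  exact h

theorem lev_det : ∀ {k : ℕ} {α β : Fin k → S} {U L : Matrix (Fin k) (Fin k) S}
    {lam : Fin k → S}, Lev S k α β U L lam → U.det = ∏ i, α i ∧ L.det = ∏ i, β i := by
  intro k
  induction k with
  | zero =>
    intro α β U L lam _
    simp
  | succ k ih =>
    intro α β U L lam h
    obtain ⟨hU, hL⟩ := lev_eq_bmat h
    obtain ⟨h1, h2⟩ := ih h.2.2.2.2.2
    constructor
    · rw [hU, det_bmat_col_zero, h1, Fin.prod_univ_succ]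
    · rw [hL, det_bmat_row_zero, h2, Fin.prod_univ_succ]

theorem lev_cyc {k : ℕ} {α β : Fin k → S} {U L : Matrix (Fin k) (Fin k) S}
    {lam : Fin k → S} (h : Lev S k α β U L lam) : Cyc (U * L) (U *ᵥ lam) := by
  cases k with
  | zero =>
    intro v
    exact ⟨0, Subsingleton.elim _ _⟩
  | succ k => exact h.2.2.2.2.1

theorem coeff_zero_charpoly {k : ℕ} (N : Matrix (Fin k) (Fin k) S) :
    N.charpoly.coeff 0 = (-1) ^ k * N.det := by
  have h := Matrix.det_eq_sign_charpoly_coeff N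
  rw [Fintype.card_fin] at h
  rw [h, ← mul_assoc, ← mul_pow]
  simp

theorem map_aeval {T : Type*} [CommRing T] (f : S →+* T) {k : ℕ} (M : Matrix (Fin k) (Fin k) S)
    (p : S[X]) : (aeval M p).map f = aeval (M.map f) (p.map f) := by
  induction p using Polynomial.induction_on' with
  | add p q hp hq =>
    rw [map_add, Polynomial.map_add, map_add, ← hp, ← hq, Matrix.map_add]
    · exact map_add f
  | monomial n a =>
    rw [aeval_monomial, Polynomial.map_monomial, aeval_monomial, Algebra.algebraMap_eq_smul_one,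
      Algebra.algebraMap_eq_smul_one, smul_mul_assoc, smul_mul_assoc, one_mul, one_mul]
    have h1 : (M ^ n).map f = (M.map f) ^ n := by
      have := map_pow (f.mapMatrix) M n
      simpa [RingHom.mapMatrix_apply] using this
    rw [← h1]
    ext i j
    simp

theorem map_mulVec' {T : Type*} [CommRing T] (f : S →+* T) {k : ℕ}
    (M : Matrix (Fin k) (Fin k) S) (v : Fin k → S) :
    (fun i => f ((M *ᵥ v) i)) = (M.map f) *ᵥ (fun i => f (v i)) := by
  funext i
  exact RingHom.map_mulVec f M v i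

end Basic

section Lift

variable {R K : Type*} [CommRing R] [Field K] (ev : R →+* K)

/-- Lifting the first row of the upper factor: if the lower right blocks and the first column
of the lower factor are lifted, and F is a monic lift of the characteristic polynomial of the
product with the correct constant term, then the first row lifts in such a way that the
product of the lifted factors has characteristic polynomial F. -/
theorem lift_row (k : ℕ) (a b : Rˣ) (Ut Lt : Matrix (Fin k) (Fin k) R) (lamt : Fin k → R)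
    (hUt : IsUnit Ut.det) (hLt : IsUnit Lt.det) (hcyc : Cyc (Ut * Lt) (Ut *ᵥ lamt))
    (hcycK : Cyc (Ut.map ev * Lt.map ev) (Ut.map ev *ᵥ fun i => ev (lamt i))) (ρ : Fin k → K)
    (F : R[X]) (hFm : F.Monic) (hFd : F.natDegree = k + 1)
    (hF0 : F.coeff 0 = -((a : R) * (b : R) * (Ut * Lt).charpoly.coeff 0))
    (hFmap : F.map ev = (bmat (ev a) ρ 0 (Ut.map ev) *
      bmat (ev b) 0 (fun i => ev (lamt i)) (Lt.map ev)).charpoly) :
    ∃ ρt : Fin k → R, (bmat (a : R) ρt 0 Ut * bmat (b : R) 0 lamt Lt).charpoly = F ∧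
      (fun j => ev (ρt j)) = ρ := by
  obtain ⟨ρt, hρt, -⟩ := ext_UL Ut Lt lamt hUt hLt hcyc (a : R) (b : R) F hFm hFd hF0
  have hUK : IsUnit (Ut.map ev).det := by
    have : (Ut.map ev).det = ev Ut.det := (RingHom.map_det ev Ut).symm
    rw [this]
    exact hUt.map ev
  have hLK : IsUnit (Lt.map ev).det := by
    have : (Lt.map ev).det = ev Lt.det := (RingHom.map_det ev Lt).symm
    rw [this]
    exact hLt.map ev
  have hc0 : (F.map ev).coeff 0 =
      -(ev a * ev b * (Ut.map ev * Lt.map ev).charpoly.coeff 0) := by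
    rw [coeff_map, hF0, ← Matrix.map_mul, Matrix.charpoly_map, coeff_map]
    simp
  obtain ⟨ρ0, -, huniq⟩ := ext_UL (Ut.map ev) (Lt.map ev) (fun i => ev (lamt i)) hUK hLK hcycK
    (ev a) (ev b) (F.map ev) (hFm.map ev) (by rw [hFm.natDegree_map, hFd]) hc0
  have h1 : ρ = ρ0 := huniq ρ hFmap.symm
  have h2 : (fun j => ev (ρt j)) = ρ0 := by
    apply huniq
    have hmapprod : (bmat (a : R) ρt 0 Ut * bmat (b : R) 0 lamt Lt).map ev =
        bmat (ev a) (fun j => ev (ρt j)) 0 (Ut.map ev) *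
          bmat (ev b) 0 (fun i => ev (lamt i)) (Lt.map ev) := by
      rw [Matrix.map_mul, bmat_map, bmat_map]
      congr 2 <;> funext i <;> simp
    rw [← hmapprod, Matrix.charpoly_map, hρt]
  exact ⟨ρt, hρt, by rw [h2, h1]⟩

/-- The image of the new cyclic vector. -/
theorem ev_new_vec {k : ℕ} (Upt Mt : Matrix (Fin (k + 1)) (Fin (k + 1)) R) (H : R[X])
    (hdet : IsUnit Upt.det) :
    (Upt.map ev) *ᵥ (fun i => ev ((Upt⁻¹ *ᵥ ((aeval Mt H) *ᵥ (Fin.cons 1 0))) i)) =
      (aeval (Mt.map ev) (H.map ev)) *ᵥ (Fin.cons 1 0) := by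
  rw [← map_mulVec', Matrix.mulVec_mulVec, Matrix.mul_nonsing_inv _ hdet, Matrix.one_mulVec,
    map_mulVec', map_aeval]
  congr 1
  funext i
  refine Fin.cases ?_ (fun i => ?_) i <;> simp

/-- The image of the lifted new vector is the given vector. -/
theorem ev_new_vec' {k : ℕ} (Upt Mt : Matrix (Fin (k + 1)) (Fin (k + 1)) R) (H : R[X])
    (hdet : IsUnit Upt.det) (Up M : Matrix (Fin (k + 1)) (Fin (k + 1)) K) (h : K[X])
    (lamp : Fin (k + 1) → K) (hUp : Upt.map ev = Up) (hMt : Mt.map ev = M)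
    (hH : H.map ev = h %ₘ M.charpoly) (hh : aeval M h *ᵥ Fin.cons 1 0 = Up *ᵥ lamp) :
    (fun i => ev ((Upt⁻¹ *ᵥ ((aeval Mt H) *ᵥ (Fin.cons 1 0))) i)) = lamp := by
  have hUpu : IsUnit Up.det := by
    rw [← hUp]
    have : (Upt.map ev).det = ev Upt.det := (RingHom.map_det ev _).symm
    rw [this]
    exact hdet.map ev
  have h1 := ev_new_vec ev Upt Mt H hdet
  rw [hUp, hMt, hH, aeval_modByMonic_eq_self_of_root (Matrix.aeval_self_charpoly M), hh] at h1
  have h2 := congrArg (fun v => Up⁻¹ *ᵥ v) h1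
  simpa [Matrix.mulVec_mulVec, Matrix.nonsing_inv_mul _ hUpu] using h2

/-- One step of the lifting theorem for nested pairs. -/
theorem lift_step (hsurj : Function.Surjective ev)
    (hunit : ∀ z : K, z ≠ 0 → ∃ u : Rˣ, ev u = z) (k : ℕ) (α β : Fin (k + 1) → Rˣ)
    (Up Lp : Matrix (Fin (k + 1)) (Fin (k + 1)) K) (lamp : Fin (k + 1) → K)
    (hLev : Lev K (k + 1) (fun i => ev (α i)) (fun i => ev (β i)) Up Lp lamp)
    (Ut Lt : Matrix (Fin k) (Fin k) R) (lamt : Fin k → R)
    (hLevR : Lev R k (fun i => (α i.succ : R)) (fun i => (β i.succ : R)) Ut Lt lamt)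
    (hUmap : Ut.map ev = Up.submatrix Fin.succ Fin.succ)
    (hLmap : Lt.map ev = Lp.submatrix Fin.succ Fin.succ)
    (hlam : (fun i => ev (lamt i)) = fun i => Lp i.succ 0) :
    ∃ (U' L' : Matrix (Fin (k + 1)) (Fin (k + 1)) R) (lam' : Fin (k + 1) → R),
      Lev R (k + 1) (fun i => (α i : R)) (fun i => (β i : R)) U' L' lam' ∧
        U'.map ev = Up ∧ L'.map ev = Lp ∧ (fun i => ev (lam' i)) = lamp := by
  obtain ⟨hUeq, hLeq⟩ := lev_eq_bmat hLev
  have hcycp := hLev.2.2.2.2.1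
  have hLev' := hLev.2.2.2.2.2
  rw [← hUmap, ← hLmap, ← hlam] at hLev'
  rw [← hUmap] at hUeq
  rw [← hLmap, ← hlam] at hLeq
  obtain ⟨ρ, hρ⟩ : ∃ ρ : Fin k → K, ρ = fun j => Up 0 j.succ := ⟨_, rfl⟩
  rw [← hρ] at hUeq
  -- determinants
  have hdetUt : Ut.det = ((∏ i : Fin k, α i.succ : Rˣ) : R) := by
    rw [(lev_det hLevR).1, Units.coe_prod]
  have hdetLt : Lt.det = ((∏ i : Fin k, β i.succ : Rˣ) : R) := by
    rw [(lev_det hLevR).2, Units.coe_prod]
  have hUtu : IsUnit Ut.det := hdetUt ▸ Units.isUnit _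
  have hLtu : IsUnit Lt.det := hdetLt ▸ Units.isUnit _
  have hdetU : (Ut.map ev).det = ev ((∏ i : Fin k, α i.succ : Rˣ) : R) := by
    rw [(lev_det hLev').1, Units.coe_prod, map_prod]
  have hdetL : (Lt.map ev).det = ev ((∏ i : Fin k, β i.succ : Rˣ) : R) := by
    rw [(lev_det hLev').2, Units.coe_prod, map_prod]
  -- the product over K
  have hcycK : Cyc (Ut.map ev * Lt.map ev) (Ut.map ev *ᵥ fun i => ev (lamt i)) := lev_cyc hLev'
  have hM : Up * Lp = bmat (ev (α 0) * ev (β 0) + ρ ⬝ᵥ fun i => ev (lamt i))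
      (ρ ᵥ* Lt.map ev) (Ut.map ev *ᵥ fun i => ev (lamt i)) (Ut.map ev * Lt.map ev) := by
    conv_lhs => rw [hUeq, hLeq]
    rw [bmat_mul]
    congr 1 <;> simp
  have hcyce : Cyc (Up * Lp) (Fin.cons 1 0) := by
    rw [hM]
    exact hcycK.block _ _
  obtain ⟨h, hh⟩ := hcyce (Up *ᵥ lamp)
  have hcop : IsCoprime (Up * Lp).charpoly h := hcyce.isCoprime hcycp h hh
  have hχd : (Up * Lp).charpoly.natDegree = k + 1 := by
    rw [Matrix.charpoly_natDegree_eq_dim, Fintype.card_fin]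
  -- the constant term
  have hKc0 : (Up * Lp).charpoly.coeff 0 =
      -(ev (α 0) * ev (β 0) * (Ut.map ev * Lt.map ev).charpoly.coeff 0) := by
    rw [coeff_zero_charpoly, coeff_zero_charpoly, Matrix.det_mul, Matrix.det_mul]
    conv_lhs => rw [hUeq, hLeq]
    rw [det_bmat_col_zero, det_bmat_row_zero]
    ring
  obtain ⟨ε, hεdef⟩ : ∃ ε : Rˣ, ε =
      -(α 0 * β 0 * ((-1) ^ k * ((∏ i : Fin k, α i.succ) * ∏ i : Fin k, β i.succ))) := ⟨_, rfl⟩
  have hε1 : (ε : R) = -((α 0 : R) * (β 0 : R) * (Ut * Lt).charpoly.coeff 0) := by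
    rw [coeff_zero_charpoly, Matrix.det_mul, hdetUt, hdetLt, hεdef]
    simp
  have hε2 : ev (ε : R) = (Up * Lp).charpoly.coeff 0 := by
    rw [hKc0, coeff_zero_charpoly, Matrix.det_mul, hdetU, hdetL, hεdef]
    simp
  obtain ⟨F, H, hFm, hFd, hF0, hFH, hFmap, hHmap⟩ :=
    lift_unimodular ev hsurj hunit (Up * Lp).charpoly h (Matrix.charpoly_monic _)
      (by omega) hcop ε hε2
  -- the new row
  obtain ⟨ρt, hρt, hρmap⟩ := lift_row ev k (α 0) (β 0) Ut Lt lamt hUtu hLtu (lev_cyc hLevR)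
    hcycK ρ F hFm (by rw [hFd, hχd]) (by rw [hF0, hε1]) (by rw [hFmap, hUeq, hLeq])
  have hUpmap : (bmat (α 0 : R) ρt 0 Ut).map ev = Up := by
    rw [bmat_map, hρmap]
    conv_rhs => rw [hUeq]
    congr 1
    funext i
    simp
  have hLpmap : (bmat (β 0 : R) 0 lamt Lt).map ev = Lp := by
    rw [bmat_map]
    conv_rhs => rw [hLeq]
    congr 1
    funext i
    simp
  -- the new cyclic vector
  obtain ⟨Mt, hMt⟩ : ∃ Mt, Mt = bmat (α 0 : R) ρt 0 Ut * bmat (β 0 : R) 0 lamt Lt := ⟨_, rfl⟩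
  rw [← hMt] at hρt
  have hMtb : Mt = bmat ((α 0 : R) * (β 0 : R) + ρt ⬝ᵥ lamt) (ρt ᵥ* Lt) (Ut *ᵥ lamt)
      (Ut * Lt) := by
    rw [hMt, bmat_mul]
    congr 1 <;> simp
  have hMtmap : Mt.map ev = Up * Lp := by
    rw [hMt, Matrix.map_mul, hUpmap, hLpmap]
  have hcycet : Cyc Mt (Fin.cons 1 0) := by
    rw [hMtb]
    exact (lev_cyc hLevR).block _ _
  obtain ⟨σ, τ, hστ⟩ := hFH
  have hτ : aeval Mt (τ * H) = 1 := by
    have h1 := congrArg (aeval Mt) hστ
    rw [map_add, map_mul, map_one, ← hρt, Matrix.aeval_self_charpoly, mul_zero, zero_add] at h1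
    exact h1
  have hcyct := hcycet.apply_poly τ H hτ
  have hdetUp : IsUnit (bmat (α 0 : R) ρt 0 Ut).det := by
    rw [det_bmat_col_zero]
    exact (α 0).isUnit.mul hUtu
  refine ⟨bmat (α 0 : R) ρt 0 Ut, bmat (β 0 : R) 0 lamt Lt,
    (bmat (α 0 : R) ρt 0 Ut)⁻¹ *ᵥ ((aeval Mt H) *ᵥ (Fin.cons 1 0)), ?_, hUpmap, hLpmap, ?_⟩
  · refine lev_bmat hLevR ?_
    rw [Matrix.mulVec_mulVec, Matrix.mul_nonsing_inv _ hdetUp, Matrix.one_mulVec, ← hMt]
    exact hcyct
  · exact ev_new_vec' ev (bmat (α 0 : R) ρt 0 Ut) Mt H hdetUp Up (Up * Lp) h lamp hUpmap hMtmap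
      hHmap hh

/-- The lifting theorem for nested pairs. -/
theorem lift_lev (hsurj : Function.Surjective ev)
    (hunit : ∀ z : K, z ≠ 0 → ∃ u : Rˣ, ev u = z) :
    ∀ (k : ℕ) (α β : Fin k → Rˣ) (U L : Matrix (Fin k) (Fin k) K) (lam : Fin k → K),
      Lev K k (fun i => ev (α i)) (fun i => ev (β i)) U L lam →
      ∃ (U' L' : Matrix (Fin k) (Fin k) R) (lam' : Fin k → R),
        Lev R k (fun i => (α i : R)) (fun i => (β i : R)) U' L' lam' ∧
          U'.map ev = U ∧ L'.map ev = L ∧ (fun i => ev (lam' i)) = lam := by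
  intro k
  induction k with
  | zero =>
    intro α β U L lam _
    exact ⟨0, 0, 0, trivial, Subsingleton.elim _ _, Subsingleton.elim _ _,
      Subsingleton.elim _ _⟩
  | succ k ih =>
    intro α β Up Lp lamp hLev
    obtain ⟨Ut, Lt, lamt, hLevR, hUmap, hLmap, hlam⟩ :=
      ih (fun i => α i.succ) (fun i => β i.succ) _ _ _ hLev.2.2.2.2.2
    exact lift_step ev hsurj hunit k α β Up Lp lamp hLev Ut Lt lamt hLevR hUmap hLmap hlam

end Lift

end Vale.Agent.Lib.P002
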