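import Vale.Agent.Lib.P002.RkGen
import Vale.Agent.Lib.P002.RkDense

/-!
Pairs of matrices of any size with prescribed eigenvalues of the two matrices and of their
product: density of the integral points among the conjugates of the pairs of an upper and a
lower triangular matrix for which the first basis vector is cyclic for the product.
-/

namespace Vale.Agent.Lib.P002

open Matrix

/-- The polynomial identity argument. -/
theorem top_of_nested (k : ℕ) (α β δ : Fin (k + 1) → ℂ)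
    (hα0 : ∀ i, α i ≠ 0) (hβ0 : ∀ i, β i ≠ 0) (hprod : (∏ i, α i) * ∏ i, β i = ∏ i, δ i)
    (P : MvPolynomial (Fin 2 × Fin (k + 1) × Fin (k + 1)) ℂ)
    (g g' : Matrix (Fin (k + 1)) (Fin (k + 1)) ℂ)
    (H : ∀ U Lo : Matrix (Fin (k + 1)) (Fin (k + 1)) ℂ, (∀ i : Fin k, U i.succ 0 = 0) →
      U 0 0 = α 0 → (∀ j : Fin k, Lo 0 j.succ = 0) → Lo 0 0 = β 0 →
      Lev ℂ k (fun i => α i.succ) (fun i => β i.succ) (U.submatrix Fin.succ Fin.succ)
        (Lo.submatrix Fin.succ Fin.succ) (fun i => Lo i.succ 0) →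
      (U * Lo).charpoly = ∏ i, (Polynomial.X - Polynomial.C (δ i)) →
      MvPolynomial.eval (fun x => ![g * U * g', g * Lo * g'] x.1 x.2.1 x.2.2) P = 0)
    (U Lo : Matrix (Fin (k + 1)) (Fin (k + 1)) ℂ)
    (hU : ∀ i j, j < i → U i j = 0) (hUd : ∀ i, U i i = α i)
    (hL : ∀ i j, i < j → Lo i j = 0) (hLd : ∀ i, Lo i i = β i)
    (hchar : (U * Lo).charpoly = ∏ i, (Polynomial.X - Polynomial.C (δ i)))
    (hcyc : Cyc (U * Lo) (Fin.cons 1 0)) :
    MvPolynomial.eval (fun x => ![g * U * g', g * Lo * g'] x.1 x.2.1 x.2.2) P = 0 :=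
  top_of_nested_aux
    (T := Localization.Away (univDelta k (fun i => α i.succ) (fun i => β i.succ))) k α β δ
    hα0 hβ0 hprod (algebraMap _ _) (IsLocalization.Away.algebraMap_isUnit _)
    (fun z => IsLocalization.Away.surj _ z)
    (fun y hy => ⟨IsLocalization.Away.lift (univDelta k (fun i => α i.succ) (fun i => β i.succ))
      (g := MvPolynomial.eval y) (isUnit_iff_ne_zero.mpr hy),
      fun a => IsLocalization.Away.lift_eq _ _ a⟩)
    P g g' H U Lo hU hUd hL hLd hchar hcyc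

theorem single_eq_cons {S : Type*} [CommRing S] (k : ℕ) :
    (Pi.single 0 1 : Fin (k + 1) → S) = Fin.cons 1 0 := by
  funext i
  refine Fin.cases ?_ (fun i => ?_) i <;> simp [Fin.succ_ne_zero]

theorem chU_shape {S : Type*} [CommRing S] {k : ℕ} (α : Fin (k + 1) → S) (ρ : Fin k → S)
    (x : Fin 3 × Fin k × Fin k → S) :
    (∀ i j, j < i → chU (α 0) (fun i => α i.succ) ρ x i j = 0) ∧
      ∀ i, chU (α 0) (fun i => α i.succ) ρ x i i = α i := by
  constructor
  · intro i j hij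
    induction i using Fin.cases with
    | zero => exact absurd hij (Fin.not_lt_zero j)
    | succ i =>
      induction j using Fin.cases with
      | zero => rfl
      | succ j => exact (triU_shape (fun i => α i.succ) x).1 i j (Fin.succ_lt_succ_iff.mp hij)
  · intro i
    induction i using Fin.cases with
    | zero => rfl
    | succ i => exact (triU_shape (fun i => α i.succ) x).2 i

theorem chL_shape {S : Type*} [CommRing S] {k : ℕ} (β : Fin (k + 1) → S)
    (x : Fin 3 × Fin k × Fin k → S) :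
    (∀ i j, i < j → chL (β 0) (fun i => β i.succ) x i j = 0) ∧
      ∀ i, chL (β 0) (fun i => β i.succ) x i i = β i := by
  constructor
  · intro i j hij
    induction j using Fin.cases with
    | zero => exact absurd hij (Fin.not_lt_zero i)
    | succ j =>
      induction i using Fin.cases with
      | zero => rfl
      | succ i => exact (triL_shape (fun i => β i.succ) x).1 i j (Fin.succ_lt_succ_iff.mp hij)
  · intro i
    induction i using Fin.cases with
    | zero => rfl
    | succ i => exact (triL_shape (fun i => β i.succ) x).2 i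

/-- Existence of a chart pair for which the first basis vector is cyclic for the product. -/
theorem exists_chart_pair (k : ℕ) (α β δ : Fin (k + 1) → ℂ)
    (hα0 : ∀ i, α i ≠ 0) (hβ0 : ∀ i, β i ≠ 0) (hprod : (∏ i, α i) * ∏ i, β i = ∏ i, δ i) :
    ∃ U Lo : Matrix (Fin (k + 1)) (Fin (k + 1)) ℂ,
      (∀ i j, j < i → U i j = 0) ∧ (∀ i, U i i = α i) ∧
      (∀ i j, i < j → Lo i j = 0) ∧ (∀ i, Lo i i = β i) ∧
      (U * Lo).charpoly = ∏ i, (Polynomial.X - Polynomial.C (δ i)) ∧
      ∀ v : Fin (k + 1) → ℂ, ∃ p : Polynomial ℂ,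
        (Polynomial.aeval (U * Lo) p) *ᵥ (Pi.single 0 1) = v := by
  obtain ⟨Us, Ls, lams, hs⟩ := exists_lev k (fun i => α i.succ) (fun i => β i.succ)
    (fun i => hα0 i.succ) (fun i => hβ0 i.succ)
  obtain ⟨t1, t2, t3, t4⟩ := lev_tri hs
  have hprod' : α 0 * β 0 * ((∏ i : Fin k, α i.succ) * ∏ i : Fin k, β i.succ) = ∏ i, δ i := by
    rw [← hprod, Fin.prod_univ_succ, Fin.prod_univ_succ]
    ring
  have hαu : IsUnit (∏ i : Fin k, α i.succ) :=
    isUnit_iff_ne_zero.mpr (Finset.prod_ne_zero_iff.mpr fun i _ => hα0 i.succ)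
  have hβu : IsUnit (∏ i : Fin k, β i.succ) :=
    isUnit_iff_ne_zero.mpr (Finset.prod_ne_zero_iff.mpr fun i _ => hβ0 i.succ)
  have hΔ : IsUnit (kry (triU (fun i => α i.succ) (coords Us Ls lams) *
      triL (fun i => β i.succ) (coords Us Ls lams))
      (triU (fun i => α i.succ) (coords Us Ls lams) *ᵥ vecL (coords Us Ls lams))).det := by
    rw [triU_coords _ Us Ls lams t1 t2, triL_coords _ Us Ls lams t3 t4, vecL_coords]
    exact isUnit_iff_ne_zero.mpr (lev_cyc hs).det_kry_ne_zero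
  obtain ⟨ρ, hρ, -⟩ := row_exists_unique (α 0) (β 0) (fun i => α i.succ) (fun i => β i.succ) δ
    (coords Us Ls lams) hαu hβu hprod' hΔ
  refine ⟨chU (α 0) (fun i => α i.succ) ρ (coords Us Ls lams),
    chL (β 0) (fun i => β i.succ) (coords Us Ls lams), (chU_shape α ρ _).1, (chU_shape α ρ _).2,
    (chL_shape β _).1, (chL_shape β _).2, hρ, ?_⟩
  rw [single_eq_cons, chU_mul_chL]
  exact (cyc_of_isUnit_det_kry hΔ).block _ _

/-- The number field generated by the square root of two and the eigenvalue data. -/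
noncomputable def fieldP {n : ℕ} (α β δ : Fin n → ℂ) : IntermediateField ℚ ℂ :=
  IntermediateField.adjoin ℚ ({sqrtTwo} ∪ Set.range α ∪ Set.range β ∪ Set.range δ)

theorem fieldP_finiteDimensional {n : ℕ} (α β δ : Fin n → ℂ)
    (hα : ∀ i, IsIntegral ℤ (α i)) (hβ : ∀ i, IsIntegral ℤ (β i)) (hδ : ∀ i, IsIntegral ℤ (δ i)) :
    FiniteDimensional ℚ (fieldP α β δ) := by
  unfold fieldP
  refine IntermediateField.finiteDimensional_adjoin ?_
  rintro x (((hx | ⟨i, rfl⟩) | ⟨i, rfl⟩) | ⟨i, rfl⟩)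
  · rw [Set.mem_singleton_iff.mp hx]
    exact isIntegral_sqrtTwo.tower_top
  · exact (hα i).tower_top
  · exact (hβ i).tower_top
  · exact (hδ i).tower_top

theorem sqrtTwo_mem_fieldP {n : ℕ} (α β δ : Fin n → ℂ) : sqrtTwo ∈ fieldP α β δ :=
  IntermediateField.subset_adjoin ℚ _ (by simp)

/-- Density of the integral points among the conjugates of the chart pairs for which the
first basis vector is cyclic for the product, in every rank, and existence of such chart
pairs. -/
theorem pants_all (n : ℕ) (α β δ : Fin (n + 1) → ℂ)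
    (hα : ∀ i, IsIntegral ℤ (α i)) (hβ : ∀ i, IsIntegral ℤ (β i)) (hδ : ∀ i, IsIntegral ℤ (δ i))
    (hα1 : ∏ i, α i = 1) (hβ1 : ∏ i, β i = 1) (hδ1 : ∏ i, δ i = 1) :
    (∃ U Lo : Matrix (Fin (n + 1)) (Fin (n + 1)) ℂ,
      (∀ i j, j < i → U i j = 0) ∧ (∀ i, U i i = α i) ∧
      (∀ i j, i < j → Lo i j = 0) ∧ (∀ i, Lo i i = β i) ∧
      (U * Lo).charpoly = ∏ i, (Polynomial.X - Polynomial.C (δ i)) ∧
      ∀ v : Fin (n + 1) → ℂ, ∃ p : Polynomial ℂ,
        (Polynomial.aeval (U * Lo) p) *ᵥ (Pi.single 0 1) = v) ∧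
    ∃ L : IntermediateField ℚ ℂ, FiniteDimensional ℚ L ∧
      ∀ P : MvPolynomial (Fin 2 × Fin (n + 1) × Fin (n + 1)) ℂ,
        (∀ A B : Matrix (Fin (n + 1)) (Fin (n + 1)) ℂ,
          (∀ i j, A i j ∈ L ∧ IsIntegral ℤ (A i j)) →
          (∀ i j, B i j ∈ L ∧ IsIntegral ℤ (B i j)) →
          A.charpoly = ∏ i, (Polynomial.X - Polynomial.C (α i)) →
          B.charpoly = ∏ i, (Polynomial.X - Polynomial.C (β i)) →
          (A * B).charpoly = ∏ i, (Polynomial.X - Polynomial.C (δ i)) →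
          MvPolynomial.eval (fun x => ![A, B] x.1 x.2.1 x.2.2) P = 0) →
        ∀ g g' U Lo : Matrix (Fin (n + 1)) (Fin (n + 1)) ℂ, g * g' = 1 →
          (∀ i j, j < i → U i j = 0) → (∀ i, U i i = α i) →
          (∀ i j, i < j → Lo i j = 0) → (∀ i, Lo i i = β i) →
          (U * Lo).charpoly = ∏ i, (Polynomial.X - Polynomial.C (δ i)) →
          (∀ v : Fin (n + 1) → ℂ, ∃ p : Polynomial ℂ,
            (Polynomial.aeval (U * Lo) p) *ᵥ (Pi.single 0 1) = v) →
          MvPolynomial.eval (fun x => ![g * U * g', g * Lo * g'] x.1 x.2.1 x.2.2) P = 0 := by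
  have hα0 := ne_zero_of_prod_eq_one α hα1
  have hβ0 := ne_zero_of_prod_eq_one β hβ1
  have hprod : (∏ i, α i) * ∏ i, β i = ∏ i, δ i := by rw [hα1, hβ1, hδ1, mul_one]
  refine ⟨exists_chart_pair n α β δ hα0 hβ0 hprod, fieldP α β δ,
    fieldP_finiteDimensional α β δ hα hβ hδ, ?_⟩
  intro P hP g g' U Lo hg hU hUd hL hLd hchar hcyc
  have hαL : ∀ i, α i ∈ ringO (fieldP α β δ) := fun i =>
    ⟨IntermediateField.subset_adjoin ℚ _ (by simp), hα i⟩
  have hβL : ∀ i, β i ∈ ringO (fieldP α β δ) := fun i =>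
    ⟨IntermediateField.subset_adjoin ℚ _ (by simp), hβ i⟩
  have hδL : ∀ i, δ i ∈ ringO (fieldP α β δ) := fun i =>
    ⟨IntermediateField.subset_adjoin ℚ _ (by simp), hδ i⟩
  refine top_of_nested n α β δ hα0 hβ0 hprod P g g' ?_ U Lo hU hUd hL hLd hchar ?_
  · intro U' Lo' h1 h2 h3 h4 hLev hc
    exact density_nested (sqrtTwo_mem_fieldP α β δ) n α β δ hαL hβL hδL hα1 hβ1 hδ1 P
      (fun A B hA hB => hP A B hA hB) g g' U' Lo' hg h1 h2 h3 h4 hLev hc
  · rw [← single_eq_cons]
    exact hcyc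

end Vale.Agent.Lib.P002
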