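import Vale.Agent.Lib.P002.RkLift

/-!
The top level of the lifting theorem: a pair of an upper and a lower triangular matrix over a
field whose product has a prescribed characteristic polynomial lifts, together with the three
characteristic polynomials, along a surjective ring homomorphism through which units lift.
Invertible matrices lift as well.
-/

namespace Vale.Agent.Lib.P002

open Matrix Polynomial

section Charpoly

variable {S : Type*} [CommRing S]

theorem charpoly_bmat_col_zero {k : ℕ} (a : S) (b : Fin k → S) (N : Matrix (Fin k) (Fin k) S) :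
    (bmat a b 0 N).charpoly = (X - C a) * N.charpoly := by
  rw [charpoly_bmat]
  have h0 : (fun i => C ((0 : Fin k → S) i)) = (0 : Fin k → S[X]) := by
    funext i
    simp
  rw [h0, Matrix.mulVec_zero]
  simp

theorem charpoly_bmat_row_zero {k : ℕ} (a : S) (c : Fin k → S) (N : Matrix (Fin k) (Fin k) S) :
    (bmat a 0 c N).charpoly = (X - C a) * N.charpoly := by
  rw [charpoly_bmat]
  simp

theorem lev_charpoly : ∀ {k : ℕ} {α β : Fin k → S} {U L : Matrix (Fin k) (Fin k) S}
    {lam : Fin k → S}, Lev S k α β U L lam →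
      U.charpoly = ∏ i, (X - C (α i)) ∧ L.charpoly = ∏ i, (X - C (β i)) := by
  intro k
  induction k with
  | zero =>
    intro α β U L lam _
    simp [Matrix.charpoly]
  | succ k ih =>
    intro α β U L lam h
    obtain ⟨hU, hL⟩ := lev_eq_bmat h
    obtain ⟨h1, h2⟩ := ih h.2.2.2.2.2
    constructor
    · rw [hU, charpoly_bmat_col_zero, h1, Fin.prod_univ_succ]
    · rw [hL, charpoly_bmat_row_zero, h2, Fin.prod_univ_succ]

theorem charpoly_conj' {n : ℕ} (G G' M : Matrix (Fin n) (Fin n) S) (h : G' * G = 1) :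
    (G * M * G').charpoly = M.charpoly := by
  rw [Matrix.mul_assoc, Matrix.charpoly_mul_comm, Matrix.mul_assoc, h, Matrix.mul_one]

theorem coeff_zero_prod_X_sub_C {n : ℕ} (δ : Fin n → S) :
    (∏ i, (X - C (δ i))).coeff 0 = (-1) ^ n * ∏ i, δ i := by
  rw [Polynomial.coeff_zero_eq_eval_zero, Polynomial.eval_prod]
  simp only [eval_sub, eval_X, eval_C, zero_sub]
  rw [Finset.prod_neg]
  simp

end Charpoly

section Top

variable {R K : Type*} [CommRing R] [Field K] (ev : R →+* K)

/-- The lifting theorem at the top level. -/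
theorem lift_top (hsurj : Function.Surjective ev)
    (hunit : ∀ z : K, z ≠ 0 → ∃ u : Rˣ, ev u = z) (k : ℕ) (α β δ : Fin (k + 1) → Rˣ)
    (hprod : (∏ i, (α i : R)) * ∏ i, (β i : R) = ∏ i, (δ i : R))
    (U L : Matrix (Fin (k + 1)) (Fin (k + 1)) K)
    (hU0 : ∀ i : Fin k, U i.succ 0 = 0) (hUa : U 0 0 = ev (α 0))
    (hL0 : ∀ j : Fin k, L 0 j.succ = 0) (hLb : L 0 0 = ev (β 0))
    (hLev : Lev K k (fun i => ev (α i.succ)) (fun i => ev (β i.succ))
      (U.submatrix Fin.succ Fin.succ) (L.submatrix Fin.succ Fin.succ) (fun i => L i.succ 0))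
    (hchar : (U * L).charpoly = ∏ i, (X - C (ev (δ i)))) :
    ∃ U' L' : Matrix (Fin (k + 1)) (Fin (k + 1)) R, U'.map ev = U ∧ L'.map ev = L ∧
      U'.charpoly = ∏ i, (X - C (α i : R)) ∧ L'.charpoly = ∏ i, (X - C (β i : R)) ∧
      (U' * L').charpoly = ∏ i, (X - C (δ i : R)) := by
  obtain ⟨Ut, Lt, lamt, hLevR, hUmap, hLmap, hlam⟩ :=
    lift_lev ev hsurj hunit k (fun i => α i.succ) (fun i => β i.succ) _ _ _ hLev
  have hUeq : U = bmat (ev (α 0)) (fun j => U 0 j.succ) 0 (Ut.map ev) := by
    conv_lhs => rw [eq_bmat U]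
    rw [hUa, hUmap]
    congr 1
    funext i
    exact hU0 i
  have hLeq : L = bmat (ev (β 0)) 0 (fun i => ev (lamt i)) (Lt.map ev) := by
    conv_lhs => rw [eq_bmat L]
    rw [hLb, hLmap, hlam]
    congr 1
    funext j
    exact hL0 j
  have hLev' : Lev K k (fun i => ev (α i.succ)) (fun i => ev (β i.succ)) (Ut.map ev)
      (Lt.map ev) (fun i => ev (lamt i)) := by
    rw [hUmap, hLmap, hlam]
    exact hLev
  have hdetUt : Ut.det = ((∏ i : Fin k, α i.succ : Rˣ) : R) := by
    rw [(lev_det hLevR).1, Units.coe_prod]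
  have hdetLt : Lt.det = ((∏ i : Fin k, β i.succ : Rˣ) : R) := by
    rw [(lev_det hLevR).2, Units.coe_prod]
  have hUtu : IsUnit Ut.det := hdetUt ▸ Units.isUnit _
  have hLtu : IsUnit Lt.det := hdetLt ▸ Units.isUnit _
  obtain ⟨F, hF⟩ : ∃ F : R[X], F = ∏ i, (X - C (δ i : R)) := ⟨_, rfl⟩
  have hFm : F.Monic := by
    rw [hF]
    exact Polynomial.monic_prod_of_monic _ _ fun i _ => Polynomial.monic_X_sub_C _
  have hFd : F.natDegree = k + 1 := by
    haveI : Nontrivial R := ev.domain_nontrivial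
    rw [hF, Polynomial.natDegree_prod_of_monic _ _ fun i _ => Polynomial.monic_X_sub_C _]
    simp
  have hF0 : F.coeff 0 = -((α 0 : R) * (β 0 : R) * (Ut * Lt).charpoly.coeff 0) := by
    rw [hF, coeff_zero_prod_X_sub_C, ← hprod, coeff_zero_charpoly, Matrix.det_mul,
      (lev_det hLevR).1, (lev_det hLevR).2, Fin.prod_univ_succ, Fin.prod_univ_succ]
    ring
  have hFmap : F.map ev = (bmat (ev (α 0)) (fun j => U 0 j.succ) 0 (Ut.map ev) *
      bmat (ev (β 0)) 0 (fun i => ev (lamt i)) (Lt.map ev)).charpoly := by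
    rw [← hUeq, ← hLeq, hchar, hF, Polynomial.map_prod]
    simp
  obtain ⟨ρt, hρt, hρmap⟩ := lift_row ev k (α 0) (β 0) Ut Lt lamt hUtu hLtu (lev_cyc hLevR)
    (lev_cyc hLev') (fun j => U 0 j.succ) F hFm hFd hF0 hFmap
  refine ⟨bmat (α 0 : R) ρt 0 Ut, bmat (β 0 : R) 0 lamt Lt, ?_, ?_, ?_, ?_, ?_⟩
  · rw [bmat_map, hρmap]
    conv_rhs => rw [hUeq]
    congr 1
    funext i
    simp
  · rw [bmat_map]
    conv_rhs => rw [hLeq]
    congr 1
    funext i
    simp
  · rw [charpoly_bmat_col_zero, (lev_charpoly hLevR).1, Fin.prod_univ_succ]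
  · rw [charpoly_bmat_row_zero, (lev_charpoly hLevR).2, Fin.prod_univ_succ]
  · rw [hρt, hF]

end Top

section Inv

variable {R K : Type*} [CommRing R] [Field K] (ev : R →+* K)

/-- A matrix over K which lifts to an invertible matrix over R. -/
def Liftable {n : ℕ} (g : Matrix (Fin n) (Fin n) K) : Prop :=
  ∃ G G' : Matrix (Fin n) (Fin n) R, G * G' = 1 ∧ G.map ev = g

theorem Liftable.one (n : ℕ) : Liftable ev (1 : Matrix (Fin n) (Fin n) K) :=
  ⟨1, 1, Matrix.one_mul 1, by simp⟩

theorem Liftable.mul {n : ℕ} {g h : Matrix (Fin n) (Fin n) K} (hg : Liftable ev g)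
    (hh : Liftable ev h) : Liftable ev (g * h) := by
  obtain ⟨G, G', hG, hGm⟩ := hg
  obtain ⟨H, H', hH, hHm⟩ := hh
  refine ⟨G * H, H' * G', ?_, ?_⟩
  · calc G * H * (H' * G') = G * (H * H') * G' := by simp only [Matrix.mul_assoc]
      _ = 1 := by rw [hH, Matrix.mul_one, hG]
  · rw [Matrix.map_mul, hGm, hHm]

theorem Liftable.transvection (hsurj : Function.Surjective ev) {n : ℕ} (i j : Fin n)
    (hij : i ≠ j) (c : K) : Liftable ev (Matrix.transvection i j c) := by
  obtain ⟨c', hc'⟩ := hsurj c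
  refine ⟨Matrix.transvection i j c', Matrix.transvection i j (-c'), ?_, ?_⟩
  · rw [Matrix.transvection_mul_transvection_same i j hij c' (-c'), add_neg_cancel,
      Matrix.transvection_zero]
  · rw [← hc']
    ext a b
    simp only [Matrix.transvection, Matrix.map_apply, Matrix.add_apply, Matrix.one_apply,
      Matrix.single_apply, map_add]
    congr 1
    · split_ifs <;> simp
    · split_ifs <;> simp

theorem Liftable.diagonal (hunit : ∀ z : K, z ≠ 0 → ∃ u : Rˣ, ev u = z) {n : ℕ}
    (D : Fin n → K) (hD : ∀ a, D a ≠ 0) : Liftable ev (Matrix.diagonal D) := by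
  choose d hd using fun a => hunit (D a) (hD a)
  refine ⟨Matrix.diagonal (fun a => (d a : R)), Matrix.diagonal (fun a => ((d a)⁻¹ : Rˣ)),
    ?_, ?_⟩
  · rw [Matrix.diagonal_mul_diagonal]
    simp
  · rw [Matrix.diagonal_map (map_zero ev)]
    congr 1
    funext a
    exact hd a

theorem Liftable.transvectionList (hsurj : Function.Surjective ev) {n : ℕ}
    (l : List (Matrix.TransvectionStruct (Fin n) K)) :
    Liftable ev (l.map Matrix.TransvectionStruct.toMatrix).prod := by
  induction l with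
  | nil => simpa using Liftable.one ev n
  | cons t l ih =>
    rw [List.map_cons, List.prod_cons]
    exact (Liftable.transvection ev hsurj t.i t.j t.hij t.c).mul ev ih

/-- Every invertible matrix over K lifts to an invertible matrix over R. -/
theorem lift_gl (hsurj : Function.Surjective ev) (hunit : ∀ z : K, z ≠ 0 → ∃ u : Rˣ, ev u = z)
    {n : ℕ} (g : Matrix (Fin n) (Fin n) K) (hg : g.det ≠ 0) : Liftable ev g := by
  obtain ⟨l, l', D, hD⟩ := Matrix.Pivot.exists_list_transvec_mul_diagonal_mul_list_transvec g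
  have hdet : ∏ a, D a = g.det := by
    have := congrArg Matrix.det hD
    rw [Matrix.det_mul, Matrix.det_mul, Matrix.TransvectionStruct.det_toMatrix_prod,
      Matrix.TransvectionStruct.det_toMatrix_prod, Matrix.det_diagonal, one_mul, mul_one] at this
    exact this.symm
  have hD0 : ∀ a, D a ≠ 0 := by
    intro a ha
    have := Finset.prod_eq_zero (Finset.mem_univ a) ha
    rw [hdet] at this
    exact hg this
  rw [hD]
  exact ((Liftable.transvectionList ev hsurj l).mul ev (Liftable.diagonal ev hunit D hD0)).mul ev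
    (Liftable.transvectionList ev hsurj l')

end Inv

end Vale.Agent.Lib.P002
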