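import Vale.Agent.Lib.P002.RkKry

/-!
Coordinates on the space of triangular pairs, and the first row of the upper factor as a
function of the remaining coordinates: existence and uniqueness over any ring in which the
Krylov determinant is a unit, and compatibility with ring homomorphisms.
-/

namespace Vale.Agent.Lib.P002

open Matrix Polynomial

section Tri

variable {S : Type*} [CommRing S] {k : ℕ}

/-- The upper triangular matrix with diagonal α and the coordinates x above the diagonal. -/
def triU (α : Fin k → S) (x : Fin 3 × Fin k × Fin k → S) : Matrix (Fin k) (Fin k) S :=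
  Matrix.of fun i j => if i < j then x (0, i, j) else if i = j then α i else 0

/-- The lower triangular matrix with diagonal β and the coordinates x below the diagonal. -/
def triL (β : Fin k → S) (x : Fin 3 × Fin k × Fin k → S) : Matrix (Fin k) (Fin k) S :=
  Matrix.of fun i j => if j < i then x (1, i, j) else if i = j then β i else 0

/-- The vector of the remaining coordinates. -/
def vecL (x : Fin 3 × Fin k × Fin k → S) : Fin k → S := fun i => x (2, i, i)

/-- The coordinates of two matrices and a vector. -/
def coords (U L : Matrix (Fin k) (Fin k) S) (lam : Fin k → S) : Fin 3 × Fin k × Fin k → S :=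
  fun p => ![U p.2.1 p.2.2, L p.2.1 p.2.2, lam p.2.1] p.1

theorem triU_coords (α : Fin k → S) (U L : Matrix (Fin k) (Fin k) S) (lam : Fin k → S)
    (hU : ∀ i j, j < i → U i j = 0) (hUd : ∀ i, U i i = α i) :
    triU α (coords U L lam) = U := by
  ext i j
  simp only [triU, coords, Matrix.of_apply]
  split_ifs with h1 h2
  · simp
  · subst h2
    exact (hUd i).symm
  · exact (hU i j (lt_of_le_of_ne (not_lt.mp h1) (Ne.symm h2))).symm

theorem triL_coords (β : Fin k → S) (U L : Matrix (Fin k) (Fin k) S) (lam : Fin k → S)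
    (hL : ∀ i j, i < j → L i j = 0) (hLd : ∀ i, L i i = β i) :
    triL β (coords U L lam) = L := by
  ext i j
  simp only [triL, coords, Matrix.of_apply]
  split_ifs with h1 h2
  · simp
  · subst h2
    exact (hLd i).symm
  · exact (hL i j (lt_of_le_of_ne (not_lt.mp h1) h2)).symm

theorem vecL_coords (U L : Matrix (Fin k) (Fin k) S) (lam : Fin k → S) :
    vecL (coords U L lam) = lam := by
  funext i
  simp [vecL, coords]

theorem triU_map {T : Type*} [CommRing T] (f : S →+* T) (α : Fin k → S)
    (x : Fin 3 × Fin k × Fin k → S) :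
    (triU α x).map f = triU (fun i => f (α i)) (fun p => f (x p)) := by
  ext i j
  simp only [triU, Matrix.map_apply, Matrix.of_apply]
  split_ifs <;> simp

theorem triL_map {T : Type*} [CommRing T] (f : S →+* T) (β : Fin k → S)
    (x : Fin 3 × Fin k × Fin k → S) :
    (triL β x).map f = triL (fun i => f (β i)) (fun p => f (x p)) := by
  ext i j
  simp only [triL, Matrix.map_apply, Matrix.of_apply]
  split_ifs <;> simp

theorem triU_shape (α : Fin k → S) (x : Fin 3 × Fin k × Fin k → S) :
    (∀ i j, j < i → triU α x i j = 0) ∧ ∀ i, triU α x i i = α i := by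
  constructor
  · intro i j hij
    simp [triU, not_lt.mpr hij.le, hij.ne']
  · intro i
    simp [triU]

theorem triL_shape (β : Fin k → S) (x : Fin 3 × Fin k × Fin k → S) :
    (∀ i j, i < j → triL β x i j = 0) ∧ ∀ i, triL β x i i = β i := by
  constructor
  · intro i j hij
    simp [triL, not_lt.mpr hij.le, hij.ne]
  · intro i
    simp [triL]

theorem det_triU (α : Fin k → S) (x : Fin 3 × Fin k × Fin k → S) :
    (triU α x).det = ∏ i, α i := by
  rw [Matrix.det_of_upperTriangular]
  · exact Finset.prod_congr rfl fun i _ => (triU_shape α x).2 i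
  · intro i j hij
    exact (triU_shape α x).1 i j hij

theorem det_triL (β : Fin k → S) (x : Fin 3 × Fin k × Fin k → S) :
    (triL β x).det = ∏ i, β i := by
  rw [Matrix.det_of_lowerTriangular]
  · exact Finset.prod_congr rfl fun i _ => (triL_shape β x).2 i
  · intro i j hij
    exact (triL_shape β x).1 i j hij

/-- The upper factor of a chart pair. -/
def chU (a : S) (α ρ : Fin k → S) (x : Fin 3 × Fin k × Fin k → S) :
    Matrix (Fin (k + 1)) (Fin (k + 1)) S :=
  bmat a ρ 0 (triU α x)

/-- The lower factor of a chart pair. -/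
def chL (b : S) (β : Fin k → S) (x : Fin 3 × Fin k × Fin k → S) :
    Matrix (Fin (k + 1)) (Fin (k + 1)) S :=
  bmat b 0 (vecL x) (triL β x)

theorem chU_map {T : Type*} [CommRing T] (f : S →+* T) (a : S) (α ρ : Fin k → S)
    (x : Fin 3 × Fin k × Fin k → S) :
    (chU a α ρ x).map f = chU (f a) (fun i => f (α i)) (fun i => f (ρ i)) (fun p => f (x p)) := by
  rw [chU, bmat_map, triU_map, chU]
  congr 1
  funext i
  simp

theorem chL_map {T : Type*} [CommRing T] (f : S →+* T) (b : S) (β : Fin k → S)
    (x : Fin 3 × Fin k × Fin k → S) :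
    (chL b β x).map f = chL (f b) (fun i => f (β i)) (fun p => f (x p)) := by
  rw [chL, bmat_map, triL_map, chL]
  congr 1
  funext i
  simp

theorem chU_mul_chL (a b : S) (α β ρ : Fin k → S) (x : Fin 3 × Fin k × Fin k → S) :
    chU a α ρ x * chL b β x = bmat (a * b + ρ ⬝ᵥ vecL x) (ρ ᵥ* triL β x)
      (triU α x *ᵥ vecL x) (triU α x * triL β x) := by
  rw [chU, chL, bmat_mul]
  congr 1 <;> simp

/-- A pair of triangular matrices is the chart pair of its coordinates. -/
theorem eq_chU_chL (α β : Fin (k + 1) → S) (U L : Matrix (Fin (k + 1)) (Fin (k + 1)) S)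
    (hU : ∀ i j, j < i → U i j = 0) (hUd : ∀ i, U i i = α i)
    (hL : ∀ i j, i < j → L i j = 0) (hLd : ∀ i, L i i = β i) :
    U = chU (α 0) (fun i => α i.succ) (fun j => U 0 j.succ)
        (coords (U.submatrix Fin.succ Fin.succ) (L.submatrix Fin.succ Fin.succ)
          (fun i => L i.succ 0)) ∧
      L = chL (β 0) (fun i => β i.succ)
        (coords (U.submatrix Fin.succ Fin.succ) (L.submatrix Fin.succ Fin.succ)
          (fun i => L i.succ 0)) := by
  constructor
  · rw [chU, triU_coords (fun i => α i.succ) (U.submatrix Fin.succ Fin.succ)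
      (L.submatrix Fin.succ Fin.succ) (fun i => L i.succ 0)
      (fun i j hij => hU i.succ j.succ (Fin.succ_lt_succ_iff.mpr hij)) (fun i => hUd i.succ)]
    conv_lhs => rw [eq_bmat U]
    rw [hUd 0]
    congr 1
    funext i
    exact hU i.succ 0 (Fin.succ_pos i)
  · rw [chL, triL_coords (fun i => β i.succ) (U.submatrix Fin.succ Fin.succ)
      (L.submatrix Fin.succ Fin.succ) (fun i => L i.succ 0)
      (fun i j hij => hL i.succ j.succ (Fin.succ_lt_succ_iff.mpr hij)) (fun i => hLd i.succ),
      vecL_coords]
    conv_lhs => rw [eq_bmat L]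
    rw [hLd 0]
    congr 1
    funext j
    exact hL 0 j.succ (Fin.succ_pos j)

theorem map_det_kry_tri {T : Type*} [CommRing T] (f : S →+* T) (α β : Fin k → S)
    (x : Fin 3 × Fin k × Fin k → S) :
    f (kry (triU α x * triL β x) (triU α x *ᵥ vecL x)).det =
      (kry (triU (fun i => f (α i)) (fun p => f (x p)) * triL (fun i => f (β i)) (fun p => f (x p)))
        (triU (fun i => f (α i)) (fun p => f (x p)) *ᵥ vecL (fun p => f (x p)))).det := by
  rw [RingHom.map_det, RingHom.mapMatrix_apply, kry_map, Matrix.map_mul, map_mulVec', triU_map,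
    triL_map]
  rfl

theorem map_levDet_tri {T : Type*} [CommRing T] (f : S →+* T) (α β : Fin k → S)
    (x : Fin 3 × Fin k × Fin k → S) :
    f (levDet k (triU α x) (triL β x) (vecL x)) =
      levDet k (triU (fun i => f (α i)) (fun p => f (x p)))
        (triL (fun i => f (β i)) (fun p => f (x p))) (vecL (fun p => f (x p))) := by
  rw [map_levDet, triU_map, triL_map]
  rfl

/-- Existence and uniqueness of the first row of the upper factor. -/
theorem row_exists_unique [Nontrivial S] (a b : S) (α β : Fin k → S) (δ : Fin (k + 1) → S)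
    (x : Fin 3 × Fin k × Fin k → S) (hα : IsUnit (∏ i, α i)) (hβ : IsUnit (∏ i, β i))
    (hprod : a * b * ((∏ i, α i) * ∏ i, β i) = ∏ i, δ i)
    (hΔ : IsUnit (kry (triU α x * triL β x) (triU α x *ᵥ vecL x)).det) :
    ∃! ρ : Fin k → S, (chU a α ρ x * chL b β x).charpoly = ∏ i, (X - C (δ i)) := by
  refine ext_UL (triU α x) (triL β x) (vecL x) (by rw [det_triU]; exact hα)
    (by rw [det_triL]; exact hβ) (cyc_of_isUnit_det_kry hΔ) a b _
    (Polynomial.monic_prod_of_monic _ _ fun i _ => Polynomial.monic_X_sub_C _) ?_ ?_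
  · rw [Polynomial.natDegree_prod_of_monic _ _ fun i _ => Polynomial.monic_X_sub_C _]
    simp
  · rw [coeff_zero_prod_X_sub_C, ← hprod, coeff_zero_charpoly, Matrix.det_mul, det_triU, det_triL]
    ring

end Tri

end Vale.Agent.Lib.P002
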