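import Vale.Agent.Lib.P002.RwNormal

/-!
Tuples of scaled pseudo-reflections, transvections included, with prescribed characteristic
polynomial of the ordered product: existence of chart pairs all of whose members differ from
scalars, and density of the integral points in a nonempty open set.
-/

namespace Vale.Agent.Lib.P002

open Matrix

/-- Powers of a matrix one of whose rows is a multiple of a coordinate functional. -/
theorem pow_row {n : ℕ} (N : Matrix (Fin n) (Fin n) ℂ) (i : Fin n) (a : ℂ)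
    (h : ∀ j, N i j = if j = i then a else 0) :
    ∀ (m : ℕ) (j : Fin n), (N ^ m) i j = if j = i then a ^ m else 0 := by
  intro m
  induction m with
  | zero =>
    intro j
    rw [pow_zero, pow_zero, Matrix.one_apply]
    by_cases hji : j = i
    · subst hji
      simp
    · rw [if_neg hji, if_neg fun e => hji e.symm]
  | succ m ih =>
    intro j
    rw [pow_succ, Matrix.mul_apply, Finset.sum_eq_single i]
    · rw [ih i, if_pos rfl, h j]
      by_cases hji : j = i
      · rw [if_pos hji, if_pos hji, pow_succ]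
      · rw [if_neg hji, if_neg hji, mul_zero]
    · intro l _ hl
      rw [ih l, if_neg hl, zero_mul]
    · intro h'
      exact absurd (Finset.mem_univ i) h'

/-- Polynomials in a matrix one of whose rows is a multiple of a coordinate functional. -/
theorem aeval_row {n : ℕ} (N : Matrix (Fin n) (Fin n) ℂ) (i : Fin n) (a : ℂ)
    (h : ∀ j, N i j = if j = i then a else 0) (p : Polynomial ℂ) (x : Fin n → ℂ) :
    ((Polynomial.aeval N p) *ᵥ x) i = p.eval a * x i := by
  induction p using Polynomial.induction_on' with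
  | add p q hp hq =>
    rw [map_add, Matrix.add_mulVec, Pi.add_apply, hp, hq, Polynomial.eval_add, add_mul]
  | monomial m c =>
    rw [Polynomial.aeval_monomial, Polynomial.eval_monomial, Algebra.algebraMap_eq_smul_one,
      smul_mul_assoc, one_mul, Matrix.smul_mulVec, Pi.smul_apply, smul_eq_mul, Matrix.mulVec,
      dotProduct, Finset.sum_eq_single i]
    · rw [pow_row N i a h m i, if_pos rfl]
      ring
    · intro l _ hl
      rw [pow_row N i a h m l, if_neg hl, zero_mul]
    · intro h'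
      exact absurd (Finset.mem_univ i) h'

/-- If a row of the matrix G of a chart pair vanishes, the same rows of U and of U L are
multiples of the coordinate functional. -/
theorem rfG_row_zero {n : ℕ} (c : ℂ) (hc0 : c ≠ 0) (U L : Matrix (Fin n) (Fin n) ℂ)
    (hU : ∀ i j, j < i → U i j = 0) (hU1 : ∀ i, U i i = 1) (hL : ∀ i j, i < j → L i j = 0)
    (i : Fin n) (hrow : rfG c U L i = 0) :
    (∀ j, U i j = if j = i then 1 else 0) ∧
      (∀ j, (U * L) i j = if j = i then L i i else 0) := by
  have hdet : U.det = 1 := by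
    rw [det_ut hU]
    simp [hU1]
  have hV := ut_adjugate hU hdet
  have hV1 : ∀ i, U.adjugate i i = 1 := fun i => by
    have h := ut_adjugate_diag hU hdet i
    rwa [hU1, mul_one] at h
  have hG : ∀ j, c * L i j = U.adjugate i j := by
    intro j
    have h := congrFun hrow j
    simp only [rfG, Matrix.sub_apply, Matrix.smul_apply, smul_eq_mul, Pi.zero_apply] at h
    exact sub_eq_zero.mp h
  have hVrow : ∀ j, U.adjugate i j = if j = i then 1 else 0 := by
    intro j
    rcases lt_trichotomy j i with h | h | h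
    · rw [hV i j h, if_neg h.ne]
    · subst h
      rw [hV1, if_pos rfl]
    · rw [← hG j, hL i j h, mul_zero, if_neg h.ne']
  have hUrow : ∀ j, U i j = if j = i then 1 else 0 := by
    intro j
    have h := congrFun (congrFun (adjugate_mul_of_det hdet) i) j
    rw [Matrix.mul_apply, Finset.sum_eq_single i] at h
    · rw [hVrow i, if_pos rfl, one_mul] at h
      rw [h, Matrix.one_apply]
      by_cases hji : j = i
      · subst hji
        simp
      · rw [if_neg hji, if_neg fun e => hji e.symm]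
    · intro l _ hl
      rw [hVrow l, if_neg hl, zero_mul]
    · intro h'
      exact absurd (Finset.mem_univ i) h'
  have hLrow : ∀ j, L i j = if j = i then L i i else 0 := by
    intro j
    rcases lt_trichotomy j i with h | h | h
    · have h2 := hG j
      rw [hV i j h] at h2
      rw [if_neg h.ne]
      exact (mul_eq_zero.mp h2).resolve_left hc0
    · subst h
      rw [if_pos rfl]
    · rw [hL i j h, if_neg h.ne']
  refine ⟨hUrow, fun j => ?_⟩
  rw [Matrix.mul_apply, Finset.sum_eq_single i]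
  · rw [hUrow i, if_pos rfl, one_mul, hLrow j]
  · intro l _ hl
    rw [hUrow l, if_neg hl, zero_mul]
  · intro h'
    exact absurd (Finset.mem_univ i) h'

/-- The rows of G other than the first do not vanish if the first basis vector is cyclic for
the product of the pair. -/
theorem rfG_row_ne_zero_of_cyc {k : ℕ} (c : ℂ) (hc0 : c ≠ 0)
    (U L : Matrix (Fin (k + 1)) (Fin (k + 1)) ℂ)
    (hU : ∀ i j, j < i → U i j = 0) (hU1 : ∀ i, U i i = 1) (hL : ∀ i j, i < j → L i j = 0)
    (hcyc : Cyc (U * L) (Fin.cons 1 0)) (i : Fin (k + 1)) (hi : i ≠ 0) : rfG c U L i ≠ 0 := by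
  intro hrow
  obtain ⟨-, hN⟩ := rfG_row_zero c hc0 U L hU hU1 hL i hrow
  obtain ⟨p, hp⟩ := hcyc (Pi.single i 1)
  have h := congrFun hp i
  rw [aeval_row (U * L) i (L i i) hN p] at h
  have h0 : (Fin.cons 1 0 : Fin (k + 1) → ℂ) i = 0 := by
    rw [← single_eq_cons]
    simp [Pi.single_apply, hi]
  rw [h0, mul_zero, Pi.single_eq_same] at h
  exact zero_ne_one h

/-- The rows of G other than the last do not vanish if U has a cyclic vector. -/
theorem rfG_row_ne_zero_of_reg {k : ℕ} (c : ℂ) (hc0 : c ≠ 0)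
    (U L : Matrix (Fin (k + 1)) (Fin (k + 1)) ℂ)
    (hU : ∀ i j, j < i → U i j = 0) (hU1 : ∀ i, U i i = 1) (hL : ∀ i j, i < j → L i j = 0)
    (v : Fin (k + 1) → ℂ) (hreg : Cyc U v) (i : Fin (k + 1)) (hi : i ≠ Fin.last k) :
    rfG c U L i ≠ 0 := by
  intro hrow
  obtain ⟨hUrow, -⟩ := rfG_row_zero c hc0 U L hU hU1 hL i hrow
  have hlast : ∀ j, U (Fin.last k) j = if j = Fin.last k then 1 else 0 := by
    intro j
    by_cases hj : j = Fin.last k
    · subst hj
      rw [hU1, if_pos rfl]
    · rw [if_neg hj]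
      exact hU _ _ (lt_of_le_of_ne (Fin.le_last j) hj)
  obtain ⟨p1, hp1⟩ := hreg (Pi.single i 1)
  obtain ⟨p2, hp2⟩ := hreg (Pi.single (Fin.last k) 1)
  have a1 := congrFun hp1 i
  have a2 := congrFun hp1 (Fin.last k)
  have a3 := congrFun hp2 (Fin.last k)
  rw [aeval_row U i 1 hUrow, Pi.single_eq_same] at a1
  rw [aeval_row U (Fin.last k) 1 hlast, Pi.single_apply, if_neg fun e => hi e.symm] at a2
  rw [aeval_row U (Fin.last k) 1 hlast, Pi.single_eq_same] at a3
  have hp10 : p1.eval 1 ≠ 0 := fun h0 => by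
    rw [h0, zero_mul] at a1
    exact zero_ne_one a1
  have hv : v (Fin.last k) = 0 := (mul_eq_zero.mp a2).resolve_left hp10
  rw [hv, mul_zero] at a3
  exact zero_ne_one a3

/-- A vector which is orthogonal to none of finitely many nonzero vectors. -/
theorem exists_not_orthogonal {n : ℕ} (G : Matrix (Fin n) (Fin n) ℂ) (hG : ∀ i, G i ≠ 0) :
    ∃ w : Fin n → ℂ, ∀ i, G i ⬝ᵥ w ≠ 0 := by
  let f : Fin n → Module.Dual ℂ (Fin n → ℂ) := fun i =>
    { toFun := fun w => G i ⬝ᵥ w
      map_add' := fun x y => dotProduct_add _ _ _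
      map_smul' := fun a x => by simp [dotProduct_smul] }
  have h : ∀ i, ∃ x, f i x ≠ 0 := by
    intro i
    obtain ⟨j, hj⟩ : ∃ j, G i j ≠ 0 := by
      by_contra hcon
      push_neg at hcon
      exact hG i (funext hcon)
    refine ⟨Pi.single j 1, ?_⟩
    change G i ⬝ᵥ Pi.single j 1 ≠ 0
    rw [dotProduct_single, mul_one]
    exact hj
  obtain ⟨x, hx⟩ := Module.Dual.exists_forall_ne_zero_of_forall_exists f h
  exact ⟨x, hx⟩

/-- Existence of a chart pair all of whose attached pseudo-reflections differ from scalars. -/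
theorem exists_rf_chart (k : ℕ) (lam b δ : Fin (k + 1) → ℂ) (c : ℂ) (hc0 : c ≠ 0)
    (hcb : ∀ i, c * b i = lam i) (hb1 : ∏ i, b i = 1) (hδ1 : ∏ i, δ i = 1)
    (h : (∀ i, lam i ≠ 1) ∨ 2 ≤ k) :
    ∃ U L : Matrix (Fin (k + 1)) (Fin (k + 1)) ℂ, TopOK k (fun _ => 1) b δ U L ∧
      ∀ i, rfG c U L i ≠ 0 := by
  have hb0 := ne_zero_of_prod_eq_one b hb1
  rcases h with h | h
  · obtain ⟨U, Lo, h1, h2, h3, h4, h5, h6⟩ := exists_chart_pair k (fun _ => 1) b δ
      (fun _ => one_ne_zero) hb0 (by rw [hb1, hδ1]; simp)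
    refine ⟨U, Lo, ⟨h1, h2, h3, h4, h5, by
      rw [← single_eq_cons]
      exact h6⟩, fun i hrow => ?_⟩
    have hdet : U.det = 1 := by
      rw [det_ut h1]
      simp [h2]
    have hV1 : U.adjugate i i = 1 := by
      have h' := ut_adjugate_diag h1 hdet i
      rwa [h2, mul_one] at h'
    have h0 := congrFun hrow i
    simp only [rfG, Matrix.sub_apply, Matrix.smul_apply, smul_eq_mul, Pi.zero_apply, h4, hV1,
      hcb] at h0
    exact h i (sub_eq_zero.mp h0)
  · obtain ⟨n, rfl⟩ : ∃ n, k = n + 2 := ⟨k - 2, by omega⟩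
    obtain ⟨A, B, Z, v, w, hch, hdA, -⟩ := exists_regular_chart_pants n (fun _ => 1) b δ
      (fun l => Fin.elim0 l) (by simp) hb1 hδ1 (fun i j l _ _ _ => rfl)
    obtain ⟨c1, c2, c3, c4, -, c6, -, -, c9⟩ := hch
    have hprod : A * (List.ofFn Z).prod * B = A * B := by simp
    rw [hprod] at c6 c9
    have hreg : Cyc A v := cyc_of_det_jorU _ A v hdA
    refine ⟨A, B, ⟨c1, c2, c3, c4, c6, c9⟩, fun i => ?_⟩
    by_cases hi : i = Fin.last (n + 2)
    · subst hi
      exact rfG_row_ne_zero_of_cyc c hc0 A B c1 c2 c3 c9 _ (Fin.last_pos.ne')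
    · exact rfG_row_ne_zero_of_reg c hc0 A B c1 c2 c3 v hreg i hi

/-- Let lam, mu and δ be families of k + 1 algebraic integers with mu_i ^ (k + 1) * lam_i = 1
and δ of product one; assume that no lam_i is 1, or that k + 1 is at least three.  Let V be
the set of tuples (R_0, ..., R_k) of complex matrices of size k + 1 such that every R_i is
mu_i (1 + u v^T) with v^T u = lam_i - 1, and the ordered product R_0 ... R_k has
characteristic polynomial with roots δ.  There is a polynomial F in the entries of the tuple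
which does not vanish identically on V, such that at every point of V at which F does not
vanish: no R_i is the scalar mu_i, the product R_0 ... R_k has a cyclic vector, and for every
subfield L of the complex numbers containing a square root of two and all lam_i, mu_i, δ_i,
every polynomial P which vanishes at all points of V with entries in the ring of integers of L
at which F does not vanish, vanishes at the point.  Such a field L of finite degree exists. -/
theorem reflections_dense_all (k : ℕ) (lam mu δ : Fin (k + 1) → ℂ)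
    (hlam : ∀ i, IsIntegral ℤ (lam i)) (hmu : ∀ i, IsIntegral ℤ (mu i))
    (hδ : ∀ i, IsIntegral ℤ (δ i)) (hml : ∀ i, mu i ^ (k + 1) * lam i = 1)
    (h13 : (∀ i, lam i ≠ 1) ∨ 2 ≤ k) (hδ1 : ∏ i, δ i = 1) :
    (∃ F : MvPolynomial (Fin (k + 1) × Fin (k + 1) × Fin (k + 1)) ℂ,
      (∃ R : Fin (k + 1) → Matrix (Fin (k + 1)) (Fin (k + 1)) ℂ,
        (∀ i, ∃ u v : Fin (k + 1) → ℂ, v ⬝ᵥ u = lam i - 1 ∧
          R i = mu i • (1 + Matrix.vecMulVec u v)) ∧
        (List.ofFn R).prod.charpoly = ∏ i, (Polynomial.X - Polynomial.C (δ i)) ∧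
        MvPolynomial.eval (fun x => R x.1 x.2.1 x.2.2) F ≠ 0) ∧
      ∀ R : Fin (k + 1) → Matrix (Fin (k + 1)) (Fin (k + 1)) ℂ,
        (∀ i, ∃ u v : Fin (k + 1) → ℂ, v ⬝ᵥ u = lam i - 1 ∧
          R i = mu i • (1 + Matrix.vecMulVec u v)) →
        (List.ofFn R).prod.charpoly = ∏ i, (Polynomial.X - Polynomial.C (δ i)) →
        MvPolynomial.eval (fun x => R x.1 x.2.1 x.2.2) F ≠ 0 →
        (∀ i, R i ≠ mu i • 1) ∧
        (∃ w : Fin (k + 1) → ℂ, ∀ y : Fin (k + 1) → ℂ, ∃ p : Polynomial ℂ,
          Matrix.mulVec (Polynomial.aeval (List.ofFn R).prod p) w = y) ∧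
        ∀ L : IntermediateField ℚ ℂ, (∃ s ∈ L, s ^ 2 = 2) → (∀ i, lam i ∈ L) →
          (∀ i, mu i ∈ L) → (∀ i, δ i ∈ L) →
          ∀ P : MvPolynomial (Fin (k + 1) × Fin (k + 1) × Fin (k + 1)) ℂ,
            (∀ R' : Fin (k + 1) → Matrix (Fin (k + 1)) (Fin (k + 1)) ℂ,
              (∀ i a a', R' i a a' ∈ L ∧ IsIntegral ℤ (R' i a a')) →
              (∀ i, ∃ u v : Fin (k + 1) → ℂ, v ⬝ᵥ u = lam i - 1 ∧
                R' i = mu i • (1 + Matrix.vecMulVec u v)) →
              (List.ofFn R').prod.charpoly = ∏ i, (Polynomial.X - Polynomial.C (δ i)) →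
              MvPolynomial.eval (fun x => R' x.1 x.2.1 x.2.2) F ≠ 0 →
              MvPolynomial.eval (fun x => R' x.1 x.2.1 x.2.2) P = 0) →
            MvPolynomial.eval (fun x => R x.1 x.2.1 x.2.2) P = 0) ∧
    ∃ L : IntermediateField ℚ ℂ, FiniteDimensional ℚ L ∧ (∃ s ∈ L, s ^ 2 = 2) ∧
      (∀ i, lam i ∈ L) ∧ (∀ i, mu i ∈ L) ∧ ∀ i, δ i ∈ L := by
  have hmu0 : ∀ i, mu i ≠ 0 := by
    intro i h0
    have h := hml i
    rw [h0, zero_pow (Nat.succ_ne_zero k), zero_mul] at h
    exact zero_ne_one h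
  obtain ⟨c, hcdef⟩ : ∃ c, c = ∏ i, (mu i ^ k * lam i) := ⟨_, rfl⟩
  have hc : (∏ i, mu i) * c = 1 := by
    rw [hcdef, ← Finset.prod_mul_distrib]
    refine Finset.prod_eq_one fun i _ => ?_
    rw [← hml i]
    ring
  have hc0 : c ≠ 0 := right_ne_zero_of_mul_eq_one hc
  obtain ⟨b, hbdef⟩ : ∃ b : Fin (k + 1) → ℂ, b = fun i => (∏ j, mu j) * lam i := ⟨_, rfl⟩
  have hb1 : ∏ i, b i = 1 := by
    rw [hbdef, Finset.prod_mul_distrib, Finset.prod_const, Finset.card_univ, Fintype.card_fin,
      ← Finset.prod_pow, ← Finset.prod_mul_distrib]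
    exact Finset.prod_eq_one fun i _ => hml i
  have hcb : ∀ i, c * b i = lam i := by
    intro i
    rw [hbdef]
    linear_combination lam i * hc
  obtain ⟨U0, L0, hTop0, hrows⟩ := exists_rf_chart k lam b δ c hc0 hcb hb1 hδ1 h13
  obtain ⟨w, hw⟩ := exists_not_orthogonal (rfG c U0 L0) hrows
  constructor
  · refine ⟨polyRw k mu w, ?_, ?_⟩
    · obtain ⟨h1, h2, h3, h4, h5, h6⟩ := hTop0
      obtain ⟨t1, -⟩ := rfT_tuple lam mu b c hc hcb 1 1 U0 L0 (Matrix.one_mul 1)
        (Matrix.one_mul 1) h1 h2 h3 h4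
      refine ⟨rfT mu c U0 L0, fun i => ?_, ?_, ?_⟩
      · obtain ⟨u, v, e1, e2⟩ := t1 i
        rw [Matrix.one_mul, Matrix.mul_one] at e2
        exact ⟨u, v, e1, e2⟩
      · rw [prod_rfT mu c U0 L0 h1 h2 h3 hc, h5]
      · rw [eval_polyRw]
        exact rwGen_chart_ne_zero k mu w c hmu0 hc U0 L0 h1 h2 h3 h6 hw
    · intro R hR hchar hF
      have hF0 := hF
      rw [eval_polyRw] at hF
      refine ⟨fun i hi => ?_,
        ⟨_, cyc_of_isUnit_det_kry (isUnit_iff_ne_zero.mpr (right_ne_zero_of_mul hF))⟩, ?_⟩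
      · apply left_ne_zero_of_mul hF
        refine Matrix.det_eq_zero_of_column_eq_zero i fun a => ?_
        simp [rwCol, hi, Matrix.smul_mulVec]
      intro L hs hlamL hmuL hδL P hP
      obtain ⟨s, hsL, hs2⟩ := hs
      have hsq : sqrtTwo ∈ L := by
        have h0 : (s - sqrtTwo) * (s + sqrtTwo) = 0 := by
          linear_combination hs2 - sqrtTwo_mul_self
        rcases mul_eq_zero.mp h0 with h | h
        · have e : s = sqrtTwo := sub_eq_zero.mp h
          rw [← e]
          exact hsL
        · have e : sqrtTwo = -s := by linear_combination h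
          rw [e]
          exact L.neg_mem hsL
      have hmuO : ∀ i, mu i ∈ ringO L := fun i => ⟨hmuL i, hmu i⟩
      have hlamO : ∀ i, lam i ∈ ringO L := fun i => ⟨hlamL i, hlam i⟩
      have hδO : ∀ i, δ i ∈ ringO L := fun i => ⟨hδL i, hδ i⟩
      have hcO : c ∈ ringO L := by
        rw [hcdef]
        exact Subring.prod_mem _ fun i _ =>
          Subring.mul_mem _ (Subring.pow_mem _ (hmuO i) k) (hlamO i)
      have hbO : ∀ i, b i ∈ ringO L := by
        intro i
        rw [hbdef]
        exact Subring.mul_mem _ (Subring.prod_mem _ fun j _ => hmuO j) (hlamO i)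
      have hPF : ∀ R' : Fin (k + 1) → Matrix (Fin (k + 1)) (Fin (k + 1)) ℂ,
          (∀ i a a', R' i a a' ∈ ringO L) →
          (∀ i, ∃ u v : Fin (k + 1) → ℂ, v ⬝ᵥ u = lam i - 1 ∧
            R' i = mu i • (1 + Matrix.vecMulVec u v)) →
          (List.ofFn R').prod.charpoly = ∏ i, (Polynomial.X - Polynomial.C (δ i)) →
          MvPolynomial.eval (fun x => R' x.1 x.2.1 x.2.2) (P * polyRw k mu w) = 0 := by
        intro R' hR' c1 c2
        rw [map_mul]
        by_cases hF' : MvPolynomial.eval (fun x => R' x.1 x.2.1 x.2.2) (polyRw k mu w) = 0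
        · rw [hF', mul_zero]
        · rw [hP R' hR' c1 c2 hF', zero_mul]
      obtain ⟨g, g', U, Lo, hgg, hTop, hRi⟩ :=
        refl_normal_form_w k lam mu w δ c hmu0 hc R hR hchar hF
      have hTop' : TopOK k (fun _ => 1) b δ U Lo := by
        rw [hbdef]
        exact hTop
      have key := refl_density_top hsq k lam mu b δ c hmuO hcO hbO hδO hb1 hδ1 hc hcb
        (P * polyRw k mu w) hPF g g' U Lo hgg hTop'
      have e : (fun x : Fin (k + 1) × Fin (k + 1) × Fin (k + 1) =>
          (g * rfT mu c U Lo x.1 * g') x.2.1 x.2.2) = fun x => R x.1 x.2.1 x.2.2 := by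
        funext x
        rw [hRi]
      rw [e, map_mul] at key
      exact (mul_eq_zero.mp key).resolve_right hF0
  · refine ⟨fieldQ lam mu δ (fun (_ : Fin 0) _ => 0),
      fieldQ_finiteDimensional lam mu δ _ hlam hmu hδ (fun l => l.elim0),
      ⟨sqrtTwo, sqrtTwo_mem_fieldQ _ _ _ _, by rw [pow_two, sqrtTwo_mul_self]⟩,
      fun i => IntermediateField.subset_adjoin ℚ _ (by simp),
      fun i => IntermediateField.subset_adjoin ℚ _ (by simp),
      fun i => IntermediateField.subset_adjoin ℚ _ (by simp)⟩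

end Vale.Agent.Lib.P002
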