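import Vale.Agent.Lib.P002.RfMain

/-!
Tuples of scaled pseudo-reflections, including transvections: the genericity function with
respect to a vector w (the vectors (R_i - mu_i) w are linearly independent and the first of
them is a cyclic vector for the product), and the normal form of a generic tuple as a
simultaneous conjugate of the tuple attached to a chart pair.
-/

namespace Vale.Agent.Lib.P002

open Matrix

section GenW

variable {S : Type*} [CommRing S]

/-- The matrix whose i-th column is (R_i - mu_i) w. -/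
def rwCol {n : ℕ} (mu w : Fin n → S) (R : Fin n → Matrix (Fin n) (Fin n) S) :
    Matrix (Fin n) (Fin n) S :=
  Matrix.of fun a i => (R i *ᵥ w) a - mu i * w a

/-- The genericity function of a tuple of scaled pseudo-reflections with respect to w. -/
noncomputable def rwGen {k : ℕ} (mu w : Fin (k + 1) → S)
    (R : Fin (k + 1) → Matrix (Fin (k + 1)) (Fin (k + 1)) S) : S :=
  (rwCol mu w R).det * (kry (List.ofFn R).prod (fun a => rwCol mu w R a 0)).det

variable {T : Type*} [CommRing T] (f : S →+* T)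

theorem map_rwCol {n : ℕ} (mu w : Fin n → S) (R : Fin n → Matrix (Fin n) (Fin n) S) :
    (rwCol mu w R).map f =
      rwCol (fun i => f (mu i)) (fun i => f (w i)) (fun i => (R i).map f) := by
  ext a i
  simp only [rwCol, Matrix.map_apply, Matrix.of_apply, map_sub, map_mul]
  rw [RingHom.map_mulVec]
  rfl

theorem map_rwGen {k : ℕ} (mu w : Fin (k + 1) → S)
    (R : Fin (k + 1) → Matrix (Fin (k + 1)) (Fin (k + 1)) S) :
    f (rwGen mu w R) =
      rwGen (fun i => f (mu i)) (fun i => f (w i)) (fun i => (R i).map f) := by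
  have e : (fun a => f (rwCol mu w R a 0)) =
      fun a => rwCol (fun i => f (mu i)) (fun i => f (w i)) (fun i => (R i).map f) a 0 := by
    funext a
    exact congrFun (congrFun (map_rwCol f mu w R) a) 0
  unfold rwGen
  rw [map_mul, map_det', map_det', kry_map, map_rwCol, map_prod_ofFn, e]

/-- The columns at a tuple of scaled rank one perturbations of the identity. -/
theorem rwCol_apply {n : ℕ} (mu w : Fin n → S) (R : Fin n → Matrix (Fin n) (Fin n) S)
    (u v : Fin n → Fin n → S) (hR : ∀ i, R i = mu i • (1 + Matrix.vecMulVec (u i) (v i)))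
    (a i : Fin n) : rwCol mu w R a i = mu i * u i a * (v i ⬝ᵥ w) := by
  simp only [rwCol, Matrix.of_apply, hR i, Matrix.smul_mulVec, Matrix.add_mulVec,
    Matrix.one_mulVec, Pi.smul_apply, Pi.add_apply, smul_eq_mul]
  have h : (Matrix.vecMulVec (u i) (v i) *ᵥ w) a = u i a * (v i ⬝ᵥ w) := by
    simp [Matrix.mulVec, dotProduct, Matrix.vecMulVec_apply, Finset.mul_sum, mul_assoc]
  rw [h]
  ring

end GenW

/-- The genericity polynomial of tuples of scaled pseudo-reflections with respect to w. -/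
noncomputable def polyRw (k : ℕ) (mu w : Fin (k + 1) → ℂ) :
    MvPolynomial (Fin (k + 1) × Fin (k + 1) × Fin (k + 1)) ℂ :=
  rwGen (fun i => MvPolynomial.C (mu i)) (fun i => MvPolynomial.C (w i)) (uRf k)

theorem eval_polyRw (k : ℕ) (mu w : Fin (k + 1) → ℂ)
    (R : Fin (k + 1) → Matrix (Fin (k + 1)) (Fin (k + 1)) ℂ) :
    MvPolynomial.eval (fun x => R x.1 x.2.1 x.2.2) (polyRw k mu w) = rwGen mu w R := by
  rw [polyRw, map_rwGen]
  have h : (fun i => (uRf k i).map (MvPolynomial.eval
      fun x : Fin (k + 1) × Fin (k + 1) × Fin (k + 1) => R x.1 x.2.1 x.2.2)) = R := by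
    funext i
    ext a b
    simp [uRf]
  rw [h]
  simp only [MvPolynomial.eval_C]

/-- The genericity function does not vanish at the tuple attached to a chart pair, if no row
of the matrix G is orthogonal to w. -/
theorem rwGen_chart_ne_zero (k : ℕ) (mu w : Fin (k + 1) → ℂ) (c : ℂ)
    (hmu : ∀ i, mu i ≠ 0) (hc : (∏ i, mu i) * c = 1)
    (U L : Matrix (Fin (k + 1)) (Fin (k + 1)) ℂ)
    (hU : ∀ i j, j < i → U i j = 0) (hU1 : ∀ i, U i i = 1) (hL : ∀ i j, i < j → L i j = 0)
    (hcyc : Cyc (U * L) (Fin.cons 1 0)) (hw : ∀ i, rfG c U L i ⬝ᵥ w ≠ 0) :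
    rwGen mu w (rfT mu c U L) ≠ 0 := by
  have hcol : rwCol mu w (rfT mu c U L) =
      Matrix.diagonal fun i => mu i * (rfG c U L i ⬝ᵥ w) := by
    ext a i
    have h := rwCol_apply mu w (rfT mu c U L) (fun i => Pi.single i 1) (fun i => rfG c U L i)
      (fun i => by rw [rfT, rowSel_eq_vecMulVec]) a i
    rw [h]
    by_cases hai : a = i
    · subst hai
      simp
    · simp [Matrix.diagonal_apply, hai, Pi.single_apply]
  have hne : ∀ i, mu i * (rfG c U L i ⬝ᵥ w) ≠ 0 := fun i => mul_ne_zero (hmu i) (hw i)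
  unfold rwGen
  refine mul_ne_zero ?_ ?_
  · rw [hcol, Matrix.det_diagonal]
    exact Finset.prod_ne_zero_iff.mpr fun i _ => hne i
  · rw [prod_rfT mu c U L hU hU1 hL hc]
    have hvec : (fun a => rwCol mu w (rfT mu c U L) a 0) =
        (mu 0 * (rfG c U L 0 ⬝ᵥ w)) • (Fin.cons 1 0 : Fin (k + 1) → ℂ) := by
      rw [hcol, ← single_eq_cons]
      funext a
      by_cases ha : a = 0
      · subst ha
        simp
      · simp [Matrix.diagonal_apply, ha, Pi.single_apply]
    rw [hvec]
    exact (hcyc.smul_vec (hne 0)).det_kry_ne_zero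

/-- The normal form of a generic tuple of scaled pseudo-reflections. -/
theorem refl_normal_form_w (k : ℕ) (lam mu w δ : Fin (k + 1) → ℂ) (c : ℂ)
    (hmu : ∀ i, mu i ≠ 0) (hc : (∏ i, mu i) * c = 1)
    (R : Fin (k + 1) → Matrix (Fin (k + 1)) (Fin (k + 1)) ℂ)
    (hR : ∀ i, ∃ u v : Fin (k + 1) → ℂ, v ⬝ᵥ u = lam i - 1 ∧
      R i = mu i • (1 + Matrix.vecMulVec u v))
    (hchar : (List.ofFn R).prod.charpoly = ∏ i, (Polynomial.X - Polynomial.C (δ i)))
    (hF : rwGen mu w R ≠ 0) :
    ∃ g g' U L : Matrix (Fin (k + 1)) (Fin (k + 1)) ℂ, g * g' = 1 ∧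
      TopOK k (fun _ => 1) (fun i => (∏ j, mu j) * lam i) δ U L ∧
      ∀ i, R i = g * rfT mu c U L i * g' := by
  choose u v huv hRi using hR
  obtain ⟨g, hgdef⟩ : ∃ g, g = rwCol mu w R := ⟨_, rfl⟩
  have hdet : g.det ≠ 0 := by
    rw [hgdef]
    exact left_ne_zero_of_mul hF
  have hkry : (kry (List.ofFn R).prod (fun a => g a 0)).det ≠ 0 := by
    rw [hgdef]
    exact right_ne_zero_of_mul hF
  have hgg' : g * g⁻¹ = 1 := Matrix.mul_nonsing_inv g (isUnit_iff_ne_zero.mpr hdet)
  have hg'g : g⁻¹ * g = 1 := Matrix.nonsing_inv_mul g (isUnit_iff_ne_zero.mpr hdet)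
  obtain ⟨nu, hnu⟩ : ∃ nu : Fin (k + 1) → ℂ, nu = fun i => v i ⬝ᵥ w := ⟨_, rfl⟩
  have hcolg : ∀ a i, g a i = mu i * u i a * nu i := by
    intro a i
    rw [hgdef, hnu]
    exact rwCol_apply mu w R u v hRi a i
  have hvi : ∀ i, nu i ≠ 0 := by
    intro i h0
    apply hdet
    refine Matrix.det_eq_zero_of_column_eq_zero i fun a => ?_
    rw [hcolg, h0, mul_zero]
  obtain ⟨G, hGdef⟩ : ∃ G : Matrix (Fin (k + 1)) (Fin (k + 1)) ℂ,
      G = Matrix.of fun i j => (mu i * nu i)⁻¹ * (v i ᵥ* g) j := ⟨_, rfl⟩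
  have hGrow : ∀ i, G i = (mu i * nu i)⁻¹ • (v i ᵥ* g) := by
    intro i
    rw [hGdef]
    rfl
  have hGdiag : ∀ i, G i i = lam i - 1 := by
    intro i
    rw [hGrow, ← huv i]
    simp only [Pi.smul_apply, smul_eq_mul, Matrix.vecMul, dotProduct, hcolg]
    rw [Finset.mul_sum]
    refine Finset.sum_congr rfl fun a _ => ?_
    field_simp [hmu i, hvi i]
  -- conjugation of the members
  have hconj : ∀ i, R i * g = g * (mu i • (1 + rowSel i G)) := by
    intro i
    have h1 : g * rowSel i G = Matrix.vecMulVec (u i) (v i ᵥ* g) := by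
      rw [rowSel_eq_vecMulVec, Matrix.mul_vecMulVec, hGrow]
      ext a b
      simp only [Matrix.vecMulVec_apply, Matrix.mulVec, dotProduct, Pi.single_apply, mul_ite,
        mul_one, mul_zero, Finset.sum_ite_eq', Finset.mem_univ, if_true, Pi.smul_apply,
        smul_eq_mul, hcolg]
      field_simp [hmu i, hvi i]
    rw [Matrix.mul_smul, Matrix.mul_add, Matrix.mul_one, h1, hRi i, Matrix.smul_mul,
      Matrix.add_mul, Matrix.one_mul, Matrix.vecMulVec_mul]
  have hRg : ∀ i, R i = g * (mu i • (1 + rowSel i G)) * g⁻¹ := by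
    intro i
    rw [← hconj i, Matrix.mul_assoc, hgg', Matrix.mul_one]
  -- the chart pair
  obtain ⟨M, hM⟩ : ∃ M, M = ∏ j, mu j := ⟨_, rfl⟩
  obtain ⟨V, hVdef⟩ : ∃ V : Matrix (Fin (k + 1)) (Fin (k + 1)) ℂ,
      V = Matrix.of fun i j => if i < j then -G i j else if i = j then 1 else 0 := ⟨_, rfl⟩
  obtain ⟨Lm, hLdef⟩ : ∃ Lm : Matrix (Fin (k + 1)) (Fin (k + 1)) ℂ,
      Lm = Matrix.of fun i j => if j < i then M * G i j else if j = i then M * (G i i + 1)
        else 0 := ⟨_, rfl⟩
  have hVut : ∀ i j, j < i → V i j = 0 := by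
    intro i j hji
    rw [hVdef]
    simp [not_lt.mpr hji.le, hji.ne']
  have hV1 : ∀ i, V i i = 1 := by
    intro i
    rw [hVdef]
    simp
  have hVdet : V.det = 1 := by
    rw [det_ut hVut]
    simp [hV1]
  have hUut := ut_adjugate hVut hVdet
  have hU1 : ∀ i, V.adjugate i i = 1 := fun i => by
    have h := ut_adjugate_diag hVut hVdet i
    rwa [hV1, mul_one] at h
  have hUadj : V.adjugate.adjugate = V := by
    have hUdet : V.adjugate.det = 1 := by
      rw [det_ut hUut]
      simp [hU1]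
    rw [adjugate_eq_inv hUdet, adjugate_eq_inv hVdet,
      Matrix.nonsing_inv_nonsing_inv V (by rw [hVdet]; exact isUnit_one)]
  have hLlt : ∀ i j, i < j → Lm i j = 0 := by
    intro i j hij
    rw [hLdef]
    simp [not_lt.mpr hij.le, hij.ne']
  have hLd : ∀ i, Lm i i = M * lam i := by
    intro i
    rw [hLdef]
    simp [hGdiag]
  have hG : rfG c V.adjugate Lm = G := by
    have hMc : M * c = 1 := by rw [hM]; exact hc
    ext i j
    rw [rfG, hUadj, hVdef, hLdef]
    rcases lt_trichotomy i j with h | h | h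
    · simp [h, not_lt.mpr h.le, h.ne']
    · subst h
      simp
      linear_combination (G i i + 1) * hMc
    · simp [h, not_lt.mpr h.le, h.ne']
      linear_combination G i j * hMc
  have hT : ∀ i, rfT mu c V.adjugate Lm i = mu i • (1 + rowSel i G) := by
    intro i
    rw [rfT, hG]
  have hprod : V.adjugate * Lm = g⁻¹ * (List.ofFn R).prod * g := by
    have hfun : rfT mu c V.adjugate Lm = fun l => g⁻¹ * R l * g := by
      funext i
      rw [hT, hRg i]
      simp only [Matrix.mul_assoc]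
      rw [hg'g, Matrix.mul_one, ← Matrix.mul_assoc, hg'g, Matrix.one_mul]
    rw [← prod_rfT mu c V.adjugate Lm hUut hU1 hLlt hc, ← prod_ofFn_conj' g⁻¹ g hg'g hgg', hfun]
  refine ⟨g, g⁻¹, V.adjugate, Lm, hgg', ⟨hUut, hU1, hLlt, ?_, ?_, ?_⟩, fun i => ?_⟩
  · intro i
    rw [hLd, hM]
  · rw [hprod, charpoly_conj' _ _ _ hgg', hchar]
  · rw [hprod]
    have h := (cyc_of_isUnit_det_kry (isUnit_iff_ne_zero.mpr hkry)).conj g g⁻¹ hgg'
    have hvec : g⁻¹ *ᵥ (fun a => g a 0) = (Fin.cons 1 0 : Fin (k + 1) → ℂ) := by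
      rw [← single_eq_cons]
      funext b
      have h2 := congrFun (congrFun hg'g b) 0
      rw [Matrix.mul_apply] at h2
      rw [Matrix.mulVec, dotProduct, h2, Matrix.one_apply, Pi.single_apply]
    rw [hvec] at h
    exact h
  · rw [hT, hRg i]

end Vale.Agent.Lib.P002
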