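import Vale.Agent.Lib.P002.SkPoly

/-!
Chart tuples (A, Z_1, ..., Z_m, B): A upper triangular, B lower triangular, every tail product
Z_l ... Z_m B a product of an upper triangular matrix with unit diagonal and a lower triangular
matrix, and the first basis vector cyclic for every Z_l and for A Z_1 ... Z_m B.  Such tuples
are exactly the tuples attached to families of chart pairs.
-/

namespace Vale.Agent.Lib.P002

open Matrix

/-- Chart tuples. -/
def ChartY (k m : ℕ) (α β δ : Fin (k + 1) → ℂ) (γ : Fin m → Fin (k + 1) → ℂ)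
    (A B : Matrix (Fin (k + 1)) (Fin (k + 1)) ℂ)
    (Z : Fin m → Matrix (Fin (k + 1)) (Fin (k + 1)) ℂ) : Prop :=
  (∀ i j, j < i → A i j = 0) ∧ (∀ i, A i i = α i) ∧ (∀ i j, i < j → B i j = 0) ∧
    (∀ i, B i i = β i) ∧
    (∀ l, (Z l).charpoly = ∏ i, (Polynomial.X - Polynomial.C (γ l i))) ∧
    (A * (List.ofFn Z).prod * B).charpoly = ∏ i, (Polynomial.X - Polynomial.C (δ i)) ∧
    (∀ l : Fin m, ∃ V T : Matrix (Fin (k + 1)) (Fin (k + 1)) ℂ, (∀ i j, j < i → V i j = 0) ∧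
      (∀ i, V i i = 1) ∧ (∀ i j, i < j → T i j = 0) ∧
      ((List.ofFn Z).drop l).prod * B = V * T) ∧
    (∀ l, Cyc (Z l) (Fin.cons 1 0)) ∧ Cyc (A * (List.ofFn Z).prod * B) (Fin.cons 1 0)

theorem det_of_charpoly {n : ℕ} (M : Matrix (Fin n) (Fin n) ℂ) (c : Fin n → ℂ)
    (h : M.charpoly = ∏ i, (Polynomial.X - Polynomial.C (c i))) : M.det = ∏ i, c i := by
  have h1 := Matrix.det_eq_sign_charpoly_coeff M
  rw [Fintype.card_fin, h, coeff_zero_prod_X_sub_C, ← mul_assoc, ← mul_pow] at h1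
  simpa using h1

theorem det_ut_unit {n : ℕ} {V : Matrix (Fin n) (Fin n) ℂ} (hV : ∀ i j, j < i → V i j = 0)
    (hV1 : ∀ i, V i i = 1) : V.det = 1 := by
  rw [det_ut hV]
  simp [hV1]

theorem lt_inv {n : ℕ} {T : Matrix (Fin n) (Fin n) ℂ} (hT : ∀ i j, i < j → T i j = 0)
    (hdet : T.det ≠ 0) : ∀ i j, i < j → T⁻¹ i j = 0 := by
  haveI : Invertible T := Matrix.invertibleOfIsUnitDet T (isUnit_iff_ne_zero.mpr hdet)
  have hB : T.BlockTriangular OrderDual.toDual := fun i j h => hT i j h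
  have h := Matrix.blockTriangular_inv_of_blockTriangular hB
  intro i j hij
  exact h hij

/-- The decomposition of a tuple into pairs. -/
theorem decomp_core (k : ℕ) : ∀ (m : ℕ) (Z : Fin m → Matrix (Fin (k + 1)) (Fin (k + 1)) ℂ)
    (B : Matrix (Fin (k + 1)) (Fin (k + 1)) ℂ), (∀ i j, i < j → B i j = 0) → B.det ≠ 0 →
    (∀ l, (Z l).det = 1) →
    (∀ l : Fin m, ∃ V T : Matrix (Fin (k + 1)) (Fin (k + 1)) ℂ, (∀ i j, j < i → V i j = 0) ∧
      (∀ i, V i i = 1) ∧ (∀ i j, i < j → T i j = 0) ∧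
      ((List.ofFn Z).drop l).prod * B = V * T) →
    ∃ W D : Fin m → Matrix (Fin (k + 1)) (Fin (k + 1)) ℂ,
      (∀ j, ∀ i l, l < i → W j i l = 0) ∧ (∀ j i, W j i i = 1) ∧
      (∀ j, ∀ i l, i < l → D j i l = 0) ∧ (∀ j, (D j).det = 1) ∧ zOfF m W D = Z ∧
      ∀ j, ∃ V : Matrix (Fin (k + 1)) (Fin (k + 1)) ℂ, (∀ i l, l < i → V i l = 0) ∧
        (∀ i, V i i = 1) ∧ W j * D j = V.adjugate * Z j * V := by
  intro m
  induction m with
  | zero =>
    intro Z B _ _ _ _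
    refine ⟨fun i => i.elim0, fun i => i.elim0, fun j => j.elim0, fun j => j.elim0,
      fun j => j.elim0, fun j => j.elim0, ?_, fun j => j.elim0⟩
    funext i
    exact i.elim0
  | succ m ih =>
    intro Z B hB hBdet hZdet hdec
    have hdec' : ∀ l : Fin m, ∃ V T : Matrix (Fin (k + 1)) (Fin (k + 1)) ℂ,
        (∀ i j, j < i → V i j = 0) ∧ (∀ i, V i i = 1) ∧ (∀ i j, i < j → T i j = 0) ∧
        ((List.ofFn fun i => Z i.succ).drop l).prod * B = V * T := by
      intro l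
      obtain ⟨V, T, h1, h2, h3, h4⟩ := hdec l.succ
      refine ⟨V, T, h1, h2, h3, ?_⟩
      rw [← h4, List.ofFn_succ, Fin.val_succ, List.drop_succ_cons]
    obtain ⟨W', D', hW', hW'1, hD', hD'det, hZ', hconj'⟩ :=
      ih (fun i => Z i.succ) B hB hBdet (fun l => hZdet l.succ) hdec'
    obtain ⟨hV'1, hV'2⟩ := ut_vOfF m W' hW' hW'1
    have hV'det : (vOfF m W').det = 1 := det_ut_unit hV'1 hV'2
    have hW'det : ∀ j, (W' j).det = 1 := fun j => det_ut_unit (hW' j) (hW'1 j)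
    obtain ⟨hDt1, -⟩ := lt_dOfF m D' hD'
    have hDtdet := det_dOfF m D' hD'det
    obtain ⟨T', hT'⟩ : ∃ T', T' = dOfF m D' * B := ⟨_, rfl⟩
    have hT'lt : ∀ i j, i < j → T' i j = 0 := by
      rw [hT']
      exact lt_mul hDt1 hB
    have hT'det : T'.det ≠ 0 := by
      rw [hT', Matrix.det_mul, hDtdet, one_mul]
      exact hBdet
    have hT'u : IsUnit T'.det := isUnit_iff_ne_zero.mpr hT'det
    have hM' : (List.ofFn fun i => Z i.succ).prod * B = vOfF m W' * T' := by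
      rw [← hZ', prod_zOfF m W' D' hW'det, hT', Matrix.mul_assoc]
    obtain ⟨V, T, hV1, hV2, hT1, hVT⟩ := hdec 0
    have hVdet : V.det = 1 := det_ut_unit hV1 hV2
    have hVT' : Z 0 * (vOfF m W' * T') = V * T := by
      rw [← hVT, ← hM', List.ofFn_succ]
      simp [Matrix.mul_assoc]
    have hTdet : T.det = T'.det := by
      have h := congrArg Matrix.det hVT'
      rw [Matrix.det_mul, Matrix.det_mul, Matrix.det_mul, hZdet 0, hV'det, hVdet, one_mul,
        one_mul, one_mul] at h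
      exact h.symm
    obtain ⟨W₀, hW₀⟩ : ∃ W₀, W₀ = (vOfF m W').adjugate * V := ⟨_, rfl⟩
    obtain ⟨D₀, hD₀⟩ : ∃ D₀, D₀ = T * T'⁻¹ := ⟨_, rfl⟩
    have hadj := ut_adjugate hV'1 hV'det
    have hadjd : ∀ i, (vOfF m W').adjugate i i = 1 := by
      intro i
      have h := ut_adjugate_diag hV'1 hV'det i
      rw [hV'2, mul_one] at h
      exact h
    have hW₀D₀ : W₀ * D₀ = (vOfF m W').adjugate * Z 0 * vOfF m W' := by
      rw [hW₀, hD₀]
      calc (vOfF m W').adjugate * V * (T * T'⁻¹) = (vOfF m W').adjugate * (V * T) * T'⁻¹ := by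
            simp only [Matrix.mul_assoc]
        _ = (vOfF m W').adjugate * Z 0 * vOfF m W' * (T' * T'⁻¹) := by
            rw [← hVT']
            simp only [Matrix.mul_assoc]
        _ = (vOfF m W').adjugate * Z 0 * vOfF m W' := by
            rw [Matrix.mul_nonsing_inv _ hT'u, Matrix.mul_one]
    refine ⟨Fin.cons W₀ W', Fin.cons D₀ D', ?_, ?_, ?_, ?_, ?_, ?_⟩
    · intro j
      refine Fin.cases ?_ (fun j => ?_) j
      · rw [Fin.cons_zero, hW₀]
        exact ut_mul hadj hV1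
      · rw [Fin.cons_succ]
        exact hW' j
    · intro j
      refine Fin.cases ?_ (fun j => ?_) j
      · intro i
        rw [Fin.cons_zero, hW₀, ut_mul_diag hadj hV1, hadjd, hV2, mul_one]
      · rw [Fin.cons_succ]
        exact hW'1 j
    · intro j
      refine Fin.cases ?_ (fun j => ?_) j
      · rw [Fin.cons_zero, hD₀]
        exact lt_mul hT1 (lt_inv hT'lt hT'det)
      · rw [Fin.cons_succ]
        exact hD' j
    · intro j
      refine Fin.cases ?_ (fun j => ?_) j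
      · rw [Fin.cons_zero, hD₀, Matrix.det_mul, Matrix.det_nonsing_inv, hTdet,
          Ring.mul_inverse_cancel _ hT'u]
      · rw [Fin.cons_succ]
        exact hD'det j
    · simp only [zOfF, Fin.cons_zero, Fin.cons_succ]
      rw [hZ', hW₀D₀]
      have h1 : vOfF m W' * ((vOfF m W').adjugate * Z 0 * vOfF m W') * (vOfF m W').adjugate =
          Z 0 := by
        calc vOfF m W' * ((vOfF m W').adjugate * Z 0 * vOfF m W') * (vOfF m W').adjugate =
            (vOfF m W' * (vOfF m W').adjugate) * Z 0 *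
              (vOfF m W' * (vOfF m W').adjugate) := by simp only [Matrix.mul_assoc]
          _ = Z 0 := by rw [mul_adjugate_of_det hV'det, Matrix.one_mul, Matrix.mul_one]
      rw [h1]
      exact Fin.cons_self_tail Z
    · intro j
      refine Fin.cases ?_ (fun j => ?_) j
      · refine ⟨vOfF m W', hV'1, hV'2, ?_⟩
        rw [Fin.cons_zero, Fin.cons_zero]
        exact hW₀D₀
      · obtain ⟨Vj, h1, h2, h3⟩ := hconj' j
        refine ⟨Vj, h1, h2, ?_⟩
        rw [Fin.cons_succ, Fin.cons_succ]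
        exact h3

theorem adjugate_ut_mulVec_cons {k : ℕ} {V : Matrix (Fin (k + 1)) (Fin (k + 1)) ℂ}
    (hV : ∀ i j, j < i → V i j = 0) (hV1 : ∀ i, V i i = 1) :
    V.adjugate *ᵥ (Fin.cons 1 0 : Fin (k + 1) → ℂ) = Fin.cons 1 0 := by
  have hdet := det_ut_unit hV hV1
  refine ut_mulVec_cons (ut_adjugate hV hdet) ?_
  have h := ut_adjugate_diag hV hdet 0
  rw [hV1, mul_one] at h
  exact h

/-- A chart tuple is the tuple attached to a family of chart pairs. -/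
theorem chartY_data (k m : ℕ) (α β δ : Fin (k + 1) → ℂ) (γ : Fin m → Fin (k + 1) → ℂ)
    (hβ1 : ∏ i, β i = 1) (hγ1 : ∀ j, ∏ i, γ j i = 1)
    (A B : Matrix (Fin (k + 1)) (Fin (k + 1)) ℂ)
    (Z : Fin m → Matrix (Fin (k + 1)) (Fin (k + 1)) ℂ) (h : ChartY k m α β δ γ A B Z) :
    ∃ (d : Fin m → Fin (k + 1) → ℂ) (W D : Fin m → Matrix (Fin (k + 1)) (Fin (k + 1)) ℂ)
      (Uh Lh : Matrix (Fin (k + 1)) (Fin (k + 1)) ℂ), (∀ j, ∏ i, d j i = 1) ∧
      (∀ j, TopOK k (fun _ => 1) (d j) (γ j) (W j) (D j)) ∧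
      TopOK k α (fun i => (∏ j, d j i) * β i) δ Uh Lh ∧ tA m W Uh = A ∧ tB m D Lh = B ∧
      zOfF m W D = Z := by
  obtain ⟨c1, c2, c3, c4, c5, c6, c7, c8, c9⟩ := h
  have hBdet : B.det = 1 := by
    rw [det_lt c3]
    simp only [c4]
    exact hβ1
  have hZdet : ∀ l, (Z l).det = 1 := fun l => by rw [det_of_charpoly _ _ (c5 l), hγ1]
  obtain ⟨W, D, hW, hW1, hD, hDdet, hZ, hconj⟩ :=
    decomp_core k m Z B c3 (by rw [hBdet]; exact one_ne_zero) hZdet c7
  have hWdet : ∀ j, (W j).det = 1 := fun j => det_ut_unit (hW j) (hW1 j)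
  obtain ⟨hV1, hV2⟩ := ut_vOfF m W hW hW1
  have hVdet : (vOfF m W).det = 1 := det_ut_unit hV1 hV2
  obtain ⟨hDt1, hDt2⟩ := lt_dOfF m D hD
  have hDtdet := det_dOfF m D hDdet
  have hprod : A * vOfF m W * (dOfF m D * B) = A * (List.ofFn Z).prod * B := by
    rw [← hZ, prod_zOfF m W D hWdet]
    simp only [Matrix.mul_assoc]
  refine ⟨fun j i => D j i i, W, D, A * vOfF m W, dOfF m D * B, fun j => ?_, fun j => ?_, ?_, ?_,
    ?_, hZ⟩
  · rw [← det_lt (hD j)]
    exact hDdet j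
  · obtain ⟨V, hVa, hVb, hVc⟩ := hconj j
    have hVd := det_ut_unit hVa hVb
    refine ⟨hW j, hW1 j, hD j, fun i => rfl, ?_, ?_⟩
    · rw [hVc, charpoly_conj' _ _ _ (mul_adjugate_of_det hVd), c5]
    · rw [hVc]
      have h := (c8 j).conj V V.adjugate (mul_adjugate_of_det hVd)
      rw [adjugate_ut_mulVec_cons hVa hVb] at h
      exact h
  · refine ⟨ut_mul c1 hV1, fun i => ?_, lt_mul hDt1 c3, fun i => ?_, ?_, ?_⟩
    · rw [ut_mul_diag c1 hV1, c2, hV2, mul_one]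
    · rw [lt_mul_diag hDt1 c3, hDt2, c4]
    · rw [hprod]
      exact c6
    · rw [hprod]
      exact c9
  · rw [tA, Matrix.mul_assoc, mul_adjugate_of_det hVdet, Matrix.mul_one]
  · rw [tB, ← Matrix.mul_assoc, adjugate_mul_of_det hDtdet, Matrix.one_mul]

/-- The tail products of the tuple attached to a family of pairs. -/
theorem drop_prod_zOfF (k : ℕ) : ∀ (m : ℕ) (W D : Fin m → Matrix (Fin (k + 1)) (Fin (k + 1)) ℂ),
    (∀ j, ∀ i l, l < i → W j i l = 0) → (∀ j i, W j i i = 1) →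
    (∀ j, ∀ i l, i < l → D j i l = 0) → ∀ l : ℕ, l ≤ m →
    ∃ V T : Matrix (Fin (k + 1)) (Fin (k + 1)) ℂ, (∀ i j, j < i → V i j = 0) ∧
      (∀ i, V i i = 1) ∧ (∀ i j, i < j → T i j = 0) ∧
      ((List.ofFn (zOfF m W D)).drop l).prod = V * T := by
  intro m
  induction m with
  | zero =>
    intro W D _ _ _ l _
    refine ⟨1, 1, fun i j hij => Matrix.one_apply_ne hij.ne', fun i => Matrix.one_apply_eq i,
      fun i j hij => Matrix.one_apply_ne hij.ne, ?_⟩
    simp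
  | succ m ih =>
    intro W D hW hW1 hD l hl
    cases l with
    | zero =>
      obtain ⟨h1, h2⟩ := ut_vOfF (m + 1) W hW hW1
      obtain ⟨h3, -⟩ := lt_dOfF (m + 1) D hD
      refine ⟨vOfF (m + 1) W, dOfF (m + 1) D, h1, h2, h3, ?_⟩
      rw [List.drop_zero, prod_zOfF (m + 1) W D fun j => det_ut_unit (hW j) (hW1 j)]
    | succ l =>
      obtain ⟨V, T, h1, h2, h3, h4⟩ := ih (fun i => W i.succ) (fun i => D i.succ)
        (fun j => hW j.succ) (fun j => hW1 j.succ) (fun j => hD j.succ) l (Nat.le_of_succ_le_succ hl)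
      refine ⟨V, T, h1, h2, h3, ?_⟩
      rw [← h4, List.ofFn_succ, List.drop_succ_cons]
      simp only [zOfF, Fin.cons_succ]

/-- The tuple attached to a family of chart pairs is a chart tuple. -/
theorem chartY_of_data (k m : ℕ) (α β δ : Fin (k + 1) → ℂ) (γ d : Fin m → Fin (k + 1) → ℂ)
    (hd1 : ∀ j, ∏ i, d j i = 1) (W D : Fin m → Matrix (Fin (k + 1)) (Fin (k + 1)) ℂ)
    (Uh Lh : Matrix (Fin (k + 1)) (Fin (k + 1)) ℂ)
    (hpair : ∀ j, TopOK k (fun _ => 1) (d j) (γ j) (W j) (D j))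
    (hlast : TopOK k α (fun i => (∏ j, d j i) * β i) δ Uh Lh) :
    ChartY k m α β δ γ (tA m W Uh) (tB m D Lh) (zOfF m W D) := by
  have hW : ∀ j, ∀ i l, l < i → W j i l = 0 := fun j => (hpair j).1
  have hW1 : ∀ j i, W j i i = 1 := fun j => (hpair j).2.1
  have hD : ∀ j, ∀ i l, i < l → D j i l = 0 := fun j => (hpair j).2.2.1
  have hDd : ∀ j i, D j i i = d j i := fun j => (hpair j).2.2.2.1
  have hWdet : ∀ j, (W j).det = 1 := fun j => det_ut_unit (hW j) (hW1 j)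
  have hDdet : ∀ j, (D j).det = 1 := by
    intro j
    rw [det_lt (hD j)]
    simp only [hDd]
    exact hd1 j
  obtain ⟨u1, u2, u3, u4, u5, u6⟩ := hlast
  have hLd : ∀ i, Lh i i = (∏ j, D j i i) * β i := by
    intro i
    rw [u4]
    simp only [hDd]
  obtain ⟨hA1, hA2⟩ := tA_shape m W Uh hW hW1 u1
  obtain ⟨hB1, hB2⟩ := tB_shape m D Lh β hD hDdet u3 hLd
  obtain ⟨-, -, hcZ, hcN⟩ := tuple_charpolys m α β δ γ W D Uh Lh hW hW1 hD hDdet
    (fun j => (hpair j).2.2.2.2.1) u1 u2 u3 hLd u5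
  refine ⟨hA1, fun i => by rw [hA2, u2], hB1, hB2, hcZ, hcN, fun l => ?_, fun l => ?_, ?_⟩
  · obtain ⟨V, T, h1, h2, h3, h4⟩ := drop_prod_zOfF k m W D hW hW1 hD l l.2.le
    refine ⟨V, T * tB m D Lh, h1, h2, lt_mul h3 hB1, ?_⟩
    rw [h4, Matrix.mul_assoc]
  · obtain ⟨V, hVa, hVb, hVd, hVc⟩ := zOfF_conj m W D hW hW1 l
    rw [hVc]
    have h := ((hpair l).2.2.2.2.2).conj V.adjugate V (adjugate_mul_of_det hVd)
    rw [ut_mulVec_cons hVa (hVb 0)] at h
    exact h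
  · rw [tA_mul_prod_mul_tB m W D Uh Lh hWdet hDdet]
    exact u6

/-- Chart tuples exist. -/
theorem exists_chartY (k m : ℕ) (α β δ : Fin (k + 1) → ℂ) (γ : Fin m → Fin (k + 1) → ℂ)
    (hα1 : ∏ i, α i = 1) (hβ1 : ∏ i, β i = 1) (hδ1 : ∏ i, δ i = 1)
    (hγ1 : ∀ j, ∏ i, γ j i = 1) :
    ∃ (A B : Matrix (Fin (k + 1)) (Fin (k + 1)) ℂ)
      (Z : Fin m → Matrix (Fin (k + 1)) (Fin (k + 1)) ℂ), ChartY k m α β δ γ A B Z := by
  have hp : ∀ j : Fin m, ∃ U Lo : Matrix (Fin (k + 1)) (Fin (k + 1)) ℂ,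
      TopOK k (fun _ => 1) (fun _ => 1) (γ j) U Lo := by
    intro j
    obtain ⟨U, Lo, h1, h2, h3, h4, h5, h6⟩ := exists_chart_pair k (fun _ => 1) (fun _ => 1) (γ j)
      (fun _ => one_ne_zero) (fun _ => one_ne_zero) (by rw [hγ1]; simp)
    refine ⟨U, Lo, h1, h2, h3, h4, h5, ?_⟩
    rw [← single_eq_cons]
    exact h6
  choose W D hWD using hp
  obtain ⟨Uh, Lh, h1, h2, h3, h4, h5, h6⟩ := exists_chart_pair k α β δ
    (ne_zero_of_prod_eq_one α hα1) (ne_zero_of_prod_eq_one β hβ1)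
    (by rw [hα1, hβ1, hδ1, mul_one])
  refine ⟨tA m W Uh, tB m D Lh, zOfF m W D,
    chartY_of_data k m α β δ γ (fun _ _ => 1) (fun j => by simp) W D Uh Lh hWD
      ⟨h1, h2, h3, fun i => ?_, h5, ?_⟩⟩
  · rw [h4]
    simp
  · rw [← single_eq_cons]
    exact h6

end Vale.Agent.Lib.P002
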