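import Vale.Agent.Lib.P002.SkLift

/-!
Tuples (A, Z_1, ..., Z_m, B) of matrices of any size with prescribed eigenvalues of the members
and of the product: density of the integral points among the conjugates of the tuples attached
to nested chart pairs.
-/

namespace Vale.Agent.Lib.P002

open Matrix

section General

variable {S : Type*} [CommRing S] {n : ℕ}

theorem prod_ofFn_conj' (G G' : Matrix (Fin n) (Fin n) S) (h : G * G' = 1) (h' : G' * G = 1) :
    ∀ (m : ℕ) (Z : Fin m → Matrix (Fin n) (Fin n) S),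
      (List.ofFn fun l => G * Z l * G').prod = G * (List.ofFn Z).prod * G' := by
  intro m
  induction m with
  | zero =>
    intro Z
    simp [h]
  | succ m ih =>
    intro Z
    rw [List.ofFn_succ, List.prod_cons, ih, List.ofFn_succ, List.prod_cons]
    simp only [Matrix.mul_assoc]
    rw [← Matrix.mul_assoc G' G, h', Matrix.one_mul]

theorem map_prod_ofFn {T : Type*} [CommRing T] (f : S →+* T) :
    ∀ (m : ℕ) (Z : Fin m → Matrix (Fin n) (Fin n) S),
      ((List.ofFn Z).prod).map f = (List.ofFn fun l => (Z l).map f).prod := by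
  intro m
  induction m with
  | zero =>
    intro Z
    simp
  | succ m ih =>
    intro Z
    rw [List.ofFn_succ, List.prod_cons, List.ofFn_succ, List.prod_cons, Matrix.map_mul, ih]

end General

section LiftInv

variable {R K : Type*} [CommRing R] [Field K] (ev : R →+* K)

/-- Lifting an invertible matrix together with its inverse. -/
theorem lift_gl_inv (hsurj : Function.Surjective ev)
    (hunit : ∀ z : K, z ≠ 0 → ∃ u : Rˣ, ev u = z) {n : ℕ} (g g' : Matrix (Fin n) (Fin n) K)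
    (hg : g * g' = 1) :
    ∃ G G' : Matrix (Fin n) (Fin n) R, G * G' = 1 ∧ G' * G = 1 ∧ G.map ev = g ∧
      G'.map ev = g' := by
  have hgdet : g.det ≠ 0 := by
    intro h0
    have := congrArg Matrix.det hg
    rw [Matrix.det_mul, h0, zero_mul, Matrix.det_one] at this
    exact zero_ne_one this
  obtain ⟨G, G', hGG', hGmap⟩ := lift_gl ev hsurj hunit g hgdet
  refine ⟨G, G', hGG', mul_eq_one_comm.mp hGG', hGmap, ?_⟩
  have h1 := congrArg (fun M => M.map ev) hGG'
  simp only [Matrix.map_mul, hGmap] at h1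
  have h2 : (1 : Matrix (Fin n) (Fin n) R).map ev = 1 := by simp
  rw [h2] at h1
  calc G'.map ev = (g' * g) * G'.map ev := by rw [mul_eq_one_comm.mp hg, Matrix.one_mul]
    _ = g' * (g * G'.map ev) := Matrix.mul_assoc _ _ _
    _ = g' := by rw [h1, Matrix.mul_one]

end LiftInv

/-- A polynomial vanishing at the integral tuples with the prescribed characteristic
polynomials vanishes at the conjugates of the tuples attached to nested chart pairs. -/
theorem sk_density_nested {L : IntermediateField ℚ ℂ} (hL : sqrtTwo ∈ L) (k m : ℕ)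
    (α β δ : Fin (k + 1) → ℂ) (γ d : Fin m → Fin (k + 1) → ℂ)
    (hα : ∀ i, α i ∈ ringO L) (hβ : ∀ i, β i ∈ ringO L) (hδ : ∀ i, δ i ∈ ringO L)
    (hγ : ∀ j i, γ j i ∈ ringO L)
    (hα1 : ∏ i, α i = 1) (hβ1 : ∏ i, β i = 1) (hδ1 : ∏ i, δ i = 1) (hγ1 : ∀ j, ∏ i, γ j i = 1)
    (hd1 : ∀ j, ∏ i, d j i = 1)
    (P : MvPolynomial ((Fin 2 ⊕ Fin m) × Fin (k + 1) × Fin (k + 1)) ℂ)
    (hP : ∀ (A B : Matrix (Fin (k + 1)) (Fin (k + 1)) ℂ)
      (Z : Fin m → Matrix (Fin (k + 1)) (Fin (k + 1)) ℂ),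
      (∀ i j, A i j ∈ ringO L) → (∀ i j, B i j ∈ ringO L) → (∀ l i j, Z l i j ∈ ringO L) →
      A.charpoly = ∏ i, (Polynomial.X - Polynomial.C (α i)) →
      B.charpoly = ∏ i, (Polynomial.X - Polynomial.C (β i)) →
      (∀ l, (Z l).charpoly = ∏ i, (Polynomial.X - Polynomial.C (γ l i))) →
      (A * (List.ofFn Z).prod * B).charpoly = ∏ i, (Polynomial.X - Polynomial.C (δ i)) →
      MvPolynomial.eval (fun x => Sum.elim ![A, B] Z x.1 x.2.1 x.2.2) P = 0)
    (g g' : Matrix (Fin (k + 1)) (Fin (k + 1)) ℂ) (hg : g * g' = 1)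
    (W D : Fin m → Matrix (Fin (k + 1)) (Fin (k + 1)) ℂ)
    (Uh Lh : Matrix (Fin (k + 1)) (Fin (k + 1)) ℂ)
    (hpair : ∀ j, NestOK ℂ k (fun _ => 1) (d j) (γ j) (W j) (D j))
    (hlast : NestOK ℂ k α (fun i => (∏ j, d j i) * β i) δ Uh Lh) :
    MvPolynomial.eval (fun x => Sum.elim ![g * tA m W Uh * g', g * tB m D Lh * g']
      (fun j => g * zOfF m W D j * g') x.1 x.2.1 x.2.2) P = 0 := by
  have hsurj := evAt_taut_surjective L
  have hunit := evAt_taut_unit L
  choose dt hdt hdt1 using fun j => exists_unit_lifts (evAt L taut) hunit k (d j) (hd1 j)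
  -- the pairs
  have hpl : ∀ j, ∃ U' L' : Matrix (Fin (k + 1)) (Fin (k + 1)) (ringR L),
      U'.map (evAt L taut) = W j ∧ L'.map (evAt L taut) = D j ∧
      (∀ i l, l < i → U' i l = 0) ∧ (∀ i, U' i i = 1) ∧
      (∀ i l, i < l → L' i l = 0) ∧ (∀ i, L' i i = (dt j i : ringR L)) ∧
      (U' * L').charpoly =
        ∏ i, (Polynomial.X - Polynomial.C (famUnit L (γ j) (hγ1 j) (hγ j) i : ringR L)) := by
    intro j
    obtain ⟨U', L', h1, h2, h3, h4, h5, h6, h7⟩ := lift_pair_tri (evAt L taut) hsurj hunit k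
      (fun _ => 1) (d j) (γ j) (fun _ => 1) (dt j) (famUnit L (γ j) (hγ1 j) (hγ j))
      (fun i => by simp) (hdt j) (fun i => evAt_famUnit L (γ j) (hγ1 j) (hγ j) i taut)
      (by rw [hdt1 j, prod_famUnit]; simp) (W j) (D j) (hpair j)
    exact ⟨U', L', h1, h2, h3, fun i => by rw [h4 i, Units.val_one], h5, h6, h7⟩
  choose Wt Dt hWm hDm hWt hWt1 hDt hDtd hWDt using hpl
  -- the last pair
  have hlam : ∀ i, evAt L taut ((((∏ j, dt j i) * famUnit L β hβ1 hβ i : (ringR L)ˣ)) : ringR L) =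
      (∏ j, d j i) * β i := by
    intro i
    rw [Units.val_mul, map_mul, Units.coe_prod, map_prod, evAt_famUnit]
    congr 1
    exact Finset.prod_congr rfl fun j _ => hdt j i
  have hprodl : (∏ i, (famUnit L α hα1 hα i : ringR L)) *
      ∏ i, ((((∏ j, dt j i) * famUnit L β hβ1 hβ i : (ringR L)ˣ)) : ringR L) =
      ∏ i, (famUnit L δ hδ1 hδ i : ringR L) := by
    rw [prod_famUnit, prod_famUnit, one_mul]
    simp only [Units.val_mul, Units.coe_prod]
    rw [Finset.prod_mul_distrib, prod_famUnit, mul_one, Finset.prod_comm]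
    exact Finset.prod_eq_one fun j _ => hdt1 j
  obtain ⟨Uht, Lht, hUm, hLm, hUt, hUtd, hLt, hLtd, hULt⟩ := lift_pair_tri (evAt L taut) hsurj
    hunit k α (fun i => (∏ j, d j i) * β i) δ (famUnit L α hα1 hα)
    (fun i => (∏ j, dt j i) * famUnit L β hβ1 hβ i) (famUnit L δ hδ1 hδ)
    (fun i => evAt_famUnit L α hα1 hα i taut) hlam (fun i => evAt_famUnit L δ hδ1 hδ i taut)
    hprodl Uh Lh hlast
  -- the tuple over the ring
  have hDdet : ∀ j, (Dt j).det = 1 := by
    intro j
    rw [det_lt (hDt j)]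
    simp only [hDtd]
    exact hdt1 j
  have hLd : ∀ i, Lht i i = (∏ j, Dt j i i) * (famUnit L β hβ1 hβ i : ringR L) := by
    intro i
    rw [hLtd, Units.val_mul, Units.coe_prod]
    congr 1
    exact Finset.prod_congr rfl fun j _ => (hDtd j i).symm
  obtain ⟨hcA, hcB, hcZ, hcN⟩ := tuple_charpolys m (fun i => (famUnit L α hα1 hα i : ringR L))
    (fun i => (famUnit L β hβ1 hβ i : ringR L)) (fun i => (famUnit L δ hδ1 hδ i : ringR L))
    (fun j i => (famUnit L (γ j) (hγ1 j) (hγ j) i : ringR L)) Wt Dt Uht Lht hWt hWt1 hDt hDdet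
    hWDt hUt hUtd hLt hLd hULt
  obtain ⟨G, G', hGG', hG'G, hGmap, hG'map⟩ := lift_gl_inv (evAt L taut) hsurj hunit g g' hg
  obtain ⟨FA, hFA⟩ : ∃ FA, FA = G * tA m Wt Uht * G' := ⟨_, rfl⟩
  obtain ⟨FB, hFB⟩ : ∃ FB, FB = G * tB m Dt Lht * G' := ⟨_, rfl⟩
  obtain ⟨FZ, hFZ⟩ : ∃ FZ : Fin m → Matrix (Fin (k + 1)) (Fin (k + 1)) (ringR L),
    FZ = fun j => G * zOfF m Wt Dt j * G' := ⟨_, rfl⟩
  have hcFA : FA.charpoly =
      ∏ i, (Polynomial.X - Polynomial.C (famUnit L α hα1 hα i : ringR L)) := by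
    rw [hFA, charpoly_conj' _ _ _ hG'G, hcA]
  have hcFB : FB.charpoly =
      ∏ i, (Polynomial.X - Polynomial.C (famUnit L β hβ1 hβ i : ringR L)) := by
    rw [hFB, charpoly_conj' _ _ _ hG'G, hcB]
  have hcFZ : ∀ j, (FZ j).charpoly =
      ∏ i, (Polynomial.X - Polynomial.C (famUnit L (γ j) (hγ1 j) (hγ j) i : ringR L)) := by
    intro j
    rw [hFZ, charpoly_conj' _ _ _ hG'G, hcZ]
  have hcFN : (FA * (List.ofFn FZ).prod * FB).charpoly =
      ∏ i, (Polynomial.X - Polynomial.C (famUnit L δ hδ1 hδ i : ringR L)) := by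
    have hmul : FA * (List.ofFn FZ).prod * FB =
        G * (tA m Wt Uht * (List.ofFn (zOfF m Wt Dt)).prod * tB m Dt Lht) * G' := by
      rw [hFA, hFB, hFZ, prod_ofFn_conj' G G' hGG' hG'G]
      calc G * tA m Wt Uht * G' * (G * (List.ofFn (zOfF m Wt Dt)).prod * G') *
            (G * tB m Dt Lht * G') =
          G * tA m Wt Uht * (G' * G) * (List.ofFn (zOfF m Wt Dt)).prod * (G' * G) *
            tB m Dt Lht * G' := by simp only [Matrix.mul_assoc]
        _ = G * (tA m Wt Uht * (List.ofFn (zOfF m Wt Dt)).prod * tB m Dt Lht) * G' := by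
            rw [hG'G]
            simp only [Matrix.mul_assoc, Matrix.one_mul]
    rw [hmul, charpoly_conj' _ _ _ hG'G, hcN]
  have hLau : FLau (fun s => MvPolynomial.eval
      (fun x => Sum.elim ![FA.map (evAt L s), FB.map (evAt L s)]
        (fun j => (FZ j).map (evAt L s)) x.1 x.2.1 x.2.2) P) := by
    refine FLau.eval_comp P fun x => ?_
    obtain ⟨e, i, j⟩ := x
    rcases e with e | l
    · fin_cases e
      · exact flau_evAt L (FA i j)
      · exact flau_evAt L (FB i j)
    · exact flau_evAt L (FZ l i j)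
  have hzero : ∀ s : ℂˣ → ℂˣ, (∀ t, s t ∈ Set.range (fun n : ℕ => fundUnit ^ n)) →
      MvPolynomial.eval (fun x => Sum.elim ![FA.map (evAt L s), FB.map (evAt L s)]
        (fun j => (FZ j).map (evAt L s)) x.1 x.2.1 x.2.2) P = 0 := by
    intro s hs
    have hsU : ∀ t, s t ∈ unitsO L := by
      intro t
      obtain ⟨n, hn⟩ := hs t
      rw [← hn]
      exact (unitsO L).pow_mem (fundUnit_mem_unitsO_of_mem hL) n
    refine hP (FA.map (evAt L s)) (FB.map (evAt L s)) (fun j => (FZ j).map (evAt L s))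
      (fun i j => evAt_mem_ringO L s hsU (FA i j)) (fun i j => evAt_mem_ringO L s hsU (FB i j))
      (fun l i j => evAt_mem_ringO L s hsU (FZ l i j)) ?_ ?_ (fun l => ?_) ?_
    · rw [Matrix.charpoly_map, hcFA, map_prod_famUnit]
    · rw [Matrix.charpoly_map, hcFB, map_prod_famUnit]
    · rw [Matrix.charpoly_map, hcFZ, map_prod_famUnit]
    · rw [← map_prod_ofFn, ← Matrix.map_mul, ← Matrix.map_mul, Matrix.charpoly_map, hcFN,
        map_prod_famUnit]
  have h0 := hLau.eq_zero_of_infinite _ infinite_powers_fundUnit hzero taut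
  have e1 : FA.map (evAt L taut) = g * tA m W Uh * g' := by
    rw [hFA, Matrix.map_mul, Matrix.map_mul, hGmap, hG'map, map_tA, hUm,
      (funext hWm : (fun j => (Wt j).map (evAt L taut)) = W)]
  have e2 : FB.map (evAt L taut) = g * tB m D Lh * g' := by
    rw [hFB, Matrix.map_mul, Matrix.map_mul, hGmap, hG'map, map_tB, hLm,
      (funext hDm : (fun j => (Dt j).map (evAt L taut)) = D)]
  have e3 : (fun j => (FZ j).map (evAt L taut)) = fun j => g * zOfF m W D j * g' := by
    funext j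
    rw [hFZ, Matrix.map_mul, Matrix.map_mul, hGmap, hG'map, map_zOfF,
      (funext hWm : (fun j => (Wt j).map (evAt L taut)) = W),
      (funext hDm : (fun j => (Dt j).map (evAt L taut)) = D)]
  rw [e1, e2, e3] at h0
  exact h0

end Vale.Agent.Lib.P002
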