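import Vale.Agent.Lib.P002.SkTuple

/-!
Characteristic polynomials of the tuple attached to pairs of triangular matrices, and the
lifting theorem for a nested pair with the triangular shape of the lifted pair.
-/

namespace Vale.Agent.Lib.P002

open Matrix Polynomial

section Shapes

variable {S : Type*} [CommRing S] {n : ℕ}

theorem tA_shape (m : ℕ) (W : Fin m → Matrix (Fin n) (Fin n) S) (Uh : Matrix (Fin n) (Fin n) S)
    (hW : ∀ j, ∀ i l, l < i → W j i l = 0) (hW1 : ∀ j i, W j i i = 1)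
    (hU : ∀ i l, l < i → Uh i l = 0) :
    (∀ i l, l < i → tA m W Uh i l = 0) ∧ ∀ i, tA m W Uh i i = Uh i i := by
  obtain ⟨h1, h2⟩ := ut_vOfF m W hW hW1
  have hdet : (vOfF m W).det = 1 := by
    rw [det_ut h1]
    simp [h2]
  have h3 := ut_adjugate h1 hdet
  refine ⟨ut_mul hU h3, fun i => ?_⟩
  have h4 := ut_adjugate_diag h1 hdet i
  rw [h2, mul_one] at h4
  rw [tA, ut_mul_diag hU h3, h4, mul_one]

theorem tB_shape (m : ℕ) (D : Fin m → Matrix (Fin n) (Fin n) S) (Lh : Matrix (Fin n) (Fin n) S)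
    (b : Fin n → S) (hD : ∀ j, ∀ i l, i < l → D j i l = 0) (hDdet : ∀ j, (D j).det = 1)
    (hL : ∀ i l, i < l → Lh i l = 0) (hLd : ∀ i, Lh i i = (∏ j, D j i i) * b i) :
    (∀ i l, i < l → tB m D Lh i l = 0) ∧ ∀ i, tB m D Lh i i = b i := by
  obtain ⟨h1, h2⟩ := lt_dOfF m D hD
  have hdet := det_dOfF m D hDdet
  have h3 := lt_adjugate h1 hdet
  refine ⟨lt_mul h3 hL, fun i => ?_⟩
  have h4 := lt_adjugate_diag h1 hdet i
  rw [tB, lt_mul_diag h3 hL, hLd, ← h2, ← mul_assoc, h4, one_mul]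

/-- The characteristic polynomials of the members of the tuple and of their product. -/
theorem tuple_charpolys (m : ℕ) (a b c : Fin n → S) (g : Fin m → Fin n → S)
    (W D : Fin m → Matrix (Fin n) (Fin n) S) (Uh Lh : Matrix (Fin n) (Fin n) S)
    (hW : ∀ j, ∀ i l, l < i → W j i l = 0) (hW1 : ∀ j i, W j i i = 1)
    (hD : ∀ j, ∀ i l, i < l → D j i l = 0) (hDdet : ∀ j, (D j).det = 1)
    (hWD : ∀ j, (W j * D j).charpoly = ∏ i, (X - C (g j i)))
    (hU : ∀ i l, l < i → Uh i l = 0) (hUd : ∀ i, Uh i i = a i)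
    (hL : ∀ i l, i < l → Lh i l = 0) (hLd : ∀ i, Lh i i = (∏ j, D j i i) * b i)
    (hUL : (Uh * Lh).charpoly = ∏ i, (X - C (c i))) :
    (tA m W Uh).charpoly = ∏ i, (X - C (a i)) ∧ (tB m D Lh).charpoly = ∏ i, (X - C (b i)) ∧
      (∀ j, (zOfF m W D j).charpoly = ∏ i, (X - C (g j i))) ∧
      (tA m W Uh * (List.ofFn (zOfF m W D)).prod * tB m D Lh).charpoly =
        ∏ i, (X - C (c i)) := by
  have hWdet : ∀ j, (W j).det = 1 := by
    intro j
    rw [det_ut (hW j)]
    simp [hW1 j]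
  obtain ⟨hA1, hA2⟩ := tA_shape m W Uh hW hW1 hU
  obtain ⟨hB1, hB2⟩ := tB_shape m D Lh b hD hDdet hL hLd
  refine ⟨?_, ?_, fun j => ?_, ?_⟩
  · rw [charpoly_ut hA1]
    exact Finset.prod_congr rfl fun i _ => by rw [hA2, hUd]
  · rw [charpoly_lt hB1]
    exact Finset.prod_congr rfl fun i _ => by rw [hB2]
  · obtain ⟨V, -, -, hV3, hV4⟩ := zOfF_conj m W D hW hW1 j
    rw [hV4, charpoly_conj' _ _ _ (adjugate_mul_of_det hV3), hWD]
  · rw [tA_mul_prod_mul_tB m W D Uh Lh hWdet hDdet, hUL]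

theorem bmat_ut {k : ℕ} (ρ : Fin k → S) (N : Matrix (Fin k) (Fin k) S) (α : Fin (k + 1) → S)
    (hN : ∀ i j, j < i → N i j = 0) (hNd : ∀ i, N i i = α i.succ) :
    (∀ i j, j < i → bmat (α 0) ρ 0 N i j = 0) ∧ ∀ i, bmat (α 0) ρ 0 N i i = α i := by
  constructor
  · intro i j hij
    induction i using Fin.cases with
    | zero => exact absurd hij (Fin.not_lt_zero j)
    | succ i =>
      induction j using Fin.cases with
      | zero => rfl
      | succ j => exact hN i j (Fin.succ_lt_succ_iff.mp hij)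
  · intro i
    induction i using Fin.cases with
    | zero => rfl
    | succ i => exact hNd i

theorem bmat_lt {k : ℕ} (lam : Fin k → S) (N : Matrix (Fin k) (Fin k) S) (β : Fin (k + 1) → S)
    (hN : ∀ i j, i < j → N i j = 0) (hNd : ∀ i, N i i = β i.succ) :
    (∀ i j, i < j → bmat (β 0) 0 lam N i j = 0) ∧ ∀ i, bmat (β 0) 0 lam N i i = β i := by
  constructor
  · intro i j hij
    induction j using Fin.cases with
    | zero => exact absurd hij (Fin.not_lt_zero i)
    | succ j =>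
      induction i using Fin.cases with
      | zero => rfl
      | succ i => exact hN i j (Fin.succ_lt_succ_iff.mp hij)
  · intro i
    induction i using Fin.cases with
    | zero => rfl
    | succ i => exact hNd i

end Shapes

/-- A nested chart pair over a field: an upper triangular matrix with diagonal a and a lower
triangular matrix with diagonal b whose product has characteristic polynomial with roots c,
with cyclic vectors on every level. -/
def NestOK (K : Type*) [Field K] (k : ℕ) (a b c : Fin (k + 1) → K)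
    (U L : Matrix (Fin (k + 1)) (Fin (k + 1)) K) : Prop :=
  (∀ i : Fin k, U i.succ 0 = 0) ∧ U 0 0 = a 0 ∧ (∀ j : Fin k, L 0 j.succ = 0) ∧ L 0 0 = b 0 ∧
    Lev K k (fun i => a i.succ) (fun i => b i.succ) (U.submatrix Fin.succ Fin.succ)
      (L.submatrix Fin.succ Fin.succ) (fun i => L i.succ 0) ∧
    (U * L).charpoly = ∏ i, (X - C (c i))

section Lift

variable {R K : Type*} [CommRing R] [Field K] (ev : R →+* K)

/-- The lifting theorem for a nested chart pair, with the triangular shape of the lift. -/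
theorem lift_pair_tri (hsurj : Function.Surjective ev)
    (hunit : ∀ z : K, z ≠ 0 → ∃ u : Rˣ, ev u = z) (k : ℕ) (a b c : Fin (k + 1) → K)
    (α β δ : Fin (k + 1) → Rˣ) (hα : ∀ i, ev (α i) = a i) (hβ : ∀ i, ev (β i) = b i)
    (hδ : ∀ i, ev (δ i) = c i)
    (hprod : (∏ i, (α i : R)) * ∏ i, (β i : R) = ∏ i, (δ i : R))
    (U L : Matrix (Fin (k + 1)) (Fin (k + 1)) K) (h : NestOK K k a b c U L) :
    ∃ U' L' : Matrix (Fin (k + 1)) (Fin (k + 1)) R, U'.map ev = U ∧ L'.map ev = L ∧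
      (∀ i j, j < i → U' i j = 0) ∧ (∀ i, U' i i = (α i : R)) ∧
      (∀ i j, i < j → L' i j = 0) ∧ (∀ i, L' i i = (β i : R)) ∧
      (U' * L').charpoly = ∏ i, (X - C (δ i : R)) := by
  obtain rfl : a = fun i => ev (α i) := funext fun i => (hα i).symm
  obtain rfl : b = fun i => ev (β i) := funext fun i => (hβ i).symm
  obtain rfl : c = fun i => ev (δ i) := funext fun i => (hδ i).symm
  obtain ⟨hU0, hUa, hL0, hLb, hLev, hchar⟩ := h
  obtain ⟨Ut, Lt, lamt, hLevR, hUmap, hLmap, hlam⟩ :=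
    lift_lev ev hsurj hunit k (fun i => α i.succ) (fun i => β i.succ) _ _ _ hLev
  have hUeq : U = bmat (ev (α 0)) (fun j => U 0 j.succ) 0 (Ut.map ev) := by
    conv_lhs => rw [eq_bmat U]
    rw [hUa, hUmap]
    congr 1
    funext i
    exact hU0 i
  have hLeq : L = bmat (ev (β 0)) 0 (fun i => ev (lamt i)) (Lt.map ev) := by
    conv_lhs => rw [eq_bmat L]
    rw [hLb, hLmap, hlam]
    congr 1
    funext j
    exact hL0 j
  have hLev' : Lev K k (fun i => ev (α i.succ)) (fun i => ev (β i.succ)) (Ut.map ev)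
      (Lt.map ev) (fun i => ev (lamt i)) := by
    rw [hUmap, hLmap, hlam]
    exact hLev
  have hdetUt : Ut.det = ((∏ i : Fin k, α i.succ : Rˣ) : R) := by
    rw [(lev_det hLevR).1, Units.coe_prod]
  have hdetLt : Lt.det = ((∏ i : Fin k, β i.succ : Rˣ) : R) := by
    rw [(lev_det hLevR).2, Units.coe_prod]
  have hUtu : IsUnit Ut.det := hdetUt ▸ Units.isUnit _
  have hLtu : IsUnit Lt.det := hdetLt ▸ Units.isUnit _
  obtain ⟨F, hF⟩ : ∃ F : R[X], F = ∏ i, (X - C (δ i : R)) := ⟨_, rfl⟩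
  have hFm : F.Monic := by
    rw [hF]
    exact Polynomial.monic_prod_of_monic _ _ fun i _ => Polynomial.monic_X_sub_C _
  have hFd : F.natDegree = k + 1 := by
    haveI : Nontrivial R := ev.domain_nontrivial
    rw [hF, Polynomial.natDegree_prod_of_monic _ _ fun i _ => Polynomial.monic_X_sub_C _]
    simp
  have hF0 : F.coeff 0 = -((α 0 : R) * (β 0 : R) * (Ut * Lt).charpoly.coeff 0) := by
    rw [hF, coeff_zero_prod_X_sub_C, ← hprod, coeff_zero_charpoly, Matrix.det_mul,
      (lev_det hLevR).1, (lev_det hLevR).2, Fin.prod_univ_succ, Fin.prod_univ_succ]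
    ring
  have hFmap : F.map ev = (bmat (ev (α 0)) (fun j => U 0 j.succ) 0 (Ut.map ev) *
      bmat (ev (β 0)) 0 (fun i => ev (lamt i)) (Lt.map ev)).charpoly := by
    rw [← hUeq, ← hLeq, hchar, hF, Polynomial.map_prod]
    simp
  obtain ⟨ρt, hρt, hρmap⟩ := lift_row ev k (α 0) (β 0) Ut Lt lamt hUtu hLtu (lev_cyc hLevR)
    (lev_cyc hLev') (fun j => U 0 j.succ) F hFm hFd hF0 hFmap
  obtain ⟨t1, t2, t3, t4⟩ := lev_tri hLevR
  refine ⟨bmat (α 0 : R) ρt 0 Ut, bmat (β 0 : R) 0 lamt Lt, ?_, ?_,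
    (bmat_ut ρt Ut (fun i => (α i : R)) t1 t2).1, (bmat_ut ρt Ut (fun i => (α i : R)) t1 t2).2,
    (bmat_lt lamt Lt (fun i => (β i : R)) t3 t4).1, (bmat_lt lamt Lt (fun i => (β i : R)) t3 t4).2,
    ?_⟩
  · rw [bmat_map, hρmap]
    conv_rhs => rw [hUeq]
    congr 1
    funext i
    simp
  · rw [bmat_map]
    conv_rhs => rw [hLeq]
    congr 1
    funext i
    simp
  · rw [hρt, hF]

/-- Units lifting given nonzero elements with product one, with product one. -/
theorem exists_unit_lifts (hunit : ∀ z : K, z ≠ 0 → ∃ u : Rˣ, ev u = z) (k : ℕ)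
    (d : Fin (k + 1) → K) (hd : ∏ i, d i = 1) :
    ∃ t : Fin (k + 1) → Rˣ, (∀ i, ev (t i) = d i) ∧ ∏ i, (t i : R) = 1 := by
  have hd0 : ∀ i, d i ≠ 0 := by
    intro i h0
    have := Finset.prod_eq_zero (Finset.mem_univ i) h0
    rw [hd] at this
    exact one_ne_zero this
  choose u hu using fun i : Fin k => hunit (d i.succ) (hd0 i.succ)
  refine ⟨Fin.cons (∏ i, u i)⁻¹ u, fun i => ?_, ?_⟩
  · refine Fin.cases ?_ (fun i => ?_) i
    · rw [Fin.cons_zero]
      have h1 : ev ((∏ i, u i : Rˣ) : R) = ∏ i : Fin k, d i.succ := by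
        rw [Units.coe_prod, map_prod]
        exact Finset.prod_congr rfl fun i _ => hu i
      have h2 : ev (((∏ i, u i)⁻¹ : Rˣ) : R) * ev ((∏ i, u i : Rˣ) : R) = 1 := by
        rw [← map_mul, ← Units.val_mul, inv_mul_cancel, Units.val_one, map_one]
      rw [h1] at h2
      rw [Fin.prod_univ_succ] at hd
      have h3 : (∏ i : Fin k, d i.succ) ≠ 0 := Finset.prod_ne_zero_iff.mpr fun i _ => hd0 i.succ
      exact mul_right_cancel₀ h3 (h2.trans hd.symm)
    · rw [Fin.cons_succ]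
      exact hu i
  · rw [Fin.prod_univ_succ]
    simp only [Fin.cons_zero, Fin.cons_succ]
    rw [← Units.coe_prod, ← Units.val_mul, inv_mul_cancel, Units.val_one]

end Lift

end Vale.Agent.Lib.P002
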