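import Vale.Agent.Lib.P002.SkChart

/-!
Tuples (A, Z_1, ..., Z_m, B) of matrices of any size with prescribed eigenvalues of the members
and of the product: density of the integral points among the conjugates of the chart tuples,
and existence of chart tuples.
-/

namespace Vale.Agent.Lib.P002

open Matrix

/-- The number field generated by the square root of two and the eigenvalue data. -/
noncomputable def fieldQ {n m : ℕ} (α β δ : Fin n → ℂ) (γ : Fin m → Fin n → ℂ) :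
    IntermediateField ℚ ℂ :=
  IntermediateField.adjoin ℚ ({sqrtTwo} ∪ Set.range α ∪ Set.range β ∪ Set.range δ ∪
    Set.range (fun x : Fin m × Fin n => γ x.1 x.2))

theorem fieldQ_finiteDimensional {n m : ℕ} (α β δ : Fin n → ℂ) (γ : Fin m → Fin n → ℂ)
    (hα : ∀ i, IsIntegral ℤ (α i)) (hβ : ∀ i, IsIntegral ℤ (β i)) (hδ : ∀ i, IsIntegral ℤ (δ i))
    (hγ : ∀ l i, IsIntegral ℤ (γ l i)) : FiniteDimensional ℚ (fieldQ α β δ γ) := by
  unfold fieldQ
  refine IntermediateField.finiteDimensional_adjoin ?_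
  rintro x ((((hx | ⟨i, rfl⟩) | ⟨i, rfl⟩) | ⟨i, rfl⟩) | ⟨i, rfl⟩)
  · rw [Set.mem_singleton_iff.mp hx]
    exact isIntegral_sqrtTwo.tower_top
  · exact (hα i).tower_top
  · exact (hβ i).tower_top
  · exact (hδ i).tower_top
  · exact (hγ i.1 i.2).tower_top

theorem sqrtTwo_mem_fieldQ {n m : ℕ} (α β δ : Fin n → ℂ) (γ : Fin m → Fin n → ℂ) :
    sqrtTwo ∈ fieldQ α β δ γ :=
  IntermediateField.subset_adjoin ℚ _ (by simp)

theorem gamma_mem_fieldQ {n m : ℕ} (α β δ : Fin n → ℂ) (γ : Fin m → Fin n → ℂ) (l : Fin m)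
    (i : Fin n) : γ l i ∈ fieldQ α β δ γ :=
  IntermediateField.subset_adjoin ℚ _ (Or.inr ⟨(l, i), rfl⟩)

/-- Density of the integral points among the conjugates of the chart tuples, in every rank and
for every number of matrices, and existence of chart tuples. -/
theorem spheres_all (n m : ℕ) (α β δ : Fin (n + 1) → ℂ) (γ : Fin m → Fin (n + 1) → ℂ)
    (hα : ∀ i, IsIntegral ℤ (α i)) (hβ : ∀ i, IsIntegral ℤ (β i)) (hδ : ∀ i, IsIntegral ℤ (δ i))
    (hγ : ∀ l i, IsIntegral ℤ (γ l i))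
    (hα1 : ∏ i, α i = 1) (hβ1 : ∏ i, β i = 1) (hδ1 : ∏ i, δ i = 1)
    (hγ1 : ∀ l, ∏ i, γ l i = 1) :
    (∃ (A B : Matrix (Fin (n + 1)) (Fin (n + 1)) ℂ)
      (Z : Fin m → Matrix (Fin (n + 1)) (Fin (n + 1)) ℂ),
      (∀ i j, j < i → A i j = 0) ∧ (∀ i, A i i = α i) ∧
      (∀ i j, i < j → B i j = 0) ∧ (∀ i, B i i = β i) ∧
      (∀ l, (Z l).charpoly = ∏ i, (Polynomial.X - Polynomial.C (γ l i))) ∧
      (A * (List.ofFn Z).prod * B).charpoly = ∏ i, (Polynomial.X - Polynomial.C (δ i)) ∧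
      (∀ l : Fin m, ∃ V T : Matrix (Fin (n + 1)) (Fin (n + 1)) ℂ,
        (∀ i j, j < i → V i j = 0) ∧ (∀ i, V i i = 1) ∧ (∀ i j, i < j → T i j = 0) ∧
        ((List.ofFn Z).drop (l : ℕ)).prod * B = V * T) ∧
      (∀ l, ∀ v : Fin (n + 1) → ℂ, ∃ p : Polynomial ℂ,
        Matrix.mulVec (Polynomial.aeval (Z l) p) (Pi.single 0 1) = v) ∧
      (∀ v : Fin (n + 1) → ℂ, ∃ p : Polynomial ℂ,
        Matrix.mulVec (Polynomial.aeval (A * (List.ofFn Z).prod * B) p) (Pi.single 0 1) = v)) ∧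
    ∃ L : IntermediateField ℚ ℂ, FiniteDimensional ℚ L ∧
      ∀ P : MvPolynomial ((Fin 2 ⊕ Fin m) × Fin (n + 1) × Fin (n + 1)) ℂ,
        (∀ (A B : Matrix (Fin (n + 1)) (Fin (n + 1)) ℂ)
          (Z : Fin m → Matrix (Fin (n + 1)) (Fin (n + 1)) ℂ),
          (∀ i j, A i j ∈ L ∧ IsIntegral ℤ (A i j)) →
          (∀ i j, B i j ∈ L ∧ IsIntegral ℤ (B i j)) →
          (∀ l i j, Z l i j ∈ L ∧ IsIntegral ℤ (Z l i j)) →
          A.charpoly = ∏ i, (Polynomial.X - Polynomial.C (α i)) →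
          B.charpoly = ∏ i, (Polynomial.X - Polynomial.C (β i)) →
          (∀ l, (Z l).charpoly = ∏ i, (Polynomial.X - Polynomial.C (γ l i))) →
          (A * (List.ofFn Z).prod * B).charpoly = ∏ i, (Polynomial.X - Polynomial.C (δ i)) →
          MvPolynomial.eval (fun x => Sum.elim ![A, B] Z x.1 x.2.1 x.2.2) P = 0) →
        ∀ (g g' A B : Matrix (Fin (n + 1)) (Fin (n + 1)) ℂ)
          (Z : Fin m → Matrix (Fin (n + 1)) (Fin (n + 1)) ℂ), g * g' = 1 →
          (∀ i j, j < i → A i j = 0) → (∀ i, A i i = α i) →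
          (∀ i j, i < j → B i j = 0) → (∀ i, B i i = β i) →
          (∀ l, (Z l).charpoly = ∏ i, (Polynomial.X - Polynomial.C (γ l i))) →
          (A * (List.ofFn Z).prod * B).charpoly = ∏ i, (Polynomial.X - Polynomial.C (δ i)) →
          (∀ l : Fin m, ∃ V T : Matrix (Fin (n + 1)) (Fin (n + 1)) ℂ,
            (∀ i j, j < i → V i j = 0) ∧ (∀ i, V i i = 1) ∧ (∀ i j, i < j → T i j = 0) ∧
            ((List.ofFn Z).drop (l : ℕ)).prod * B = V * T) →
          (∀ l, ∀ v : Fin (n + 1) → ℂ, ∃ p : Polynomial ℂ,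
            Matrix.mulVec (Polynomial.aeval (Z l) p) (Pi.single 0 1) = v) →
          (∀ v : Fin (n + 1) → ℂ, ∃ p : Polynomial ℂ,
            Matrix.mulVec (Polynomial.aeval (A * (List.ofFn Z).prod * B) p) (Pi.single 0 1) =
              v) →
          MvPolynomial.eval (fun x => Sum.elim ![g * A * g', g * B * g']
            (fun l => g * Z l * g') x.1 x.2.1 x.2.2) P = 0 := by
  have hα0 := ne_zero_of_prod_eq_one α hα1
  have hβ0 := ne_zero_of_prod_eq_one β hβ1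
  constructor
  · obtain ⟨A, B, Z, c1, c2, c3, c4, c5, c6, c7, c8, c9⟩ :=
      exists_chartY n m α β δ γ hα1 hβ1 hδ1 hγ1
    refine ⟨A, B, Z, c1, c2, c3, c4, c5, c6, c7, fun l => ?_, ?_⟩
    · rw [single_eq_cons]
      exact c8 l
    · rw [single_eq_cons]
      exact c9
  · refine ⟨fieldQ α β δ γ, fieldQ_finiteDimensional α β δ γ hα hβ hδ hγ, ?_⟩
    intro P hP g g' A B Z hg c1 c2 c3 c4 c5 c6 c7 c8 c9
    have hch : ChartY n m α β δ γ A B Z := by
      refine ⟨c1, c2, c3, c4, c5, c6, c7, fun l => ?_, ?_⟩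
      · rw [← single_eq_cons]
        exact c8 l
      · rw [← single_eq_cons]
        exact c9
    obtain ⟨d, W, D, Uh, Lh, hd1, hpair, hlast, hA, hB, hZ⟩ :=
      chartY_data n m α β δ γ hβ1 hγ1 A B Z hch
    have hαL : ∀ i, α i ∈ ringO (fieldQ α β δ γ) := fun i =>
      ⟨IntermediateField.subset_adjoin ℚ _ (by simp), hα i⟩
    have hβL : ∀ i, β i ∈ ringO (fieldQ α β δ γ) := fun i =>
      ⟨IntermediateField.subset_adjoin ℚ _ (by simp), hβ i⟩
    have hδL : ∀ i, δ i ∈ ringO (fieldQ α β δ γ) := fun i =>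
      ⟨IntermediateField.subset_adjoin ℚ _ (by simp), hδ i⟩
    have hγL : ∀ l i, γ l i ∈ ringO (fieldQ α β δ γ) := fun l i =>
      ⟨gamma_mem_fieldQ α β δ γ l i, hγ l i⟩
    have hd0 : ∀ j i, d j i ≠ 0 := fun j => ne_zero_of_prod_eq_one (d j) (hd1 j)
    have hprod : (∏ i, α i) * ∏ i, ((∏ j, d j i) * β i) = ∏ i, δ i := by
      rw [Finset.prod_mul_distrib, Finset.prod_comm, hα1, hβ1, hδ1]
      simp [hd1]
    have key := sk_upgrade n m α (fun i => (∏ j, d j i) * β i) δ γ d hα0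
      (fun i => mul_ne_zero (Finset.prod_ne_zero_iff.mpr fun j _ => hd0 j i) (hβ0 i)) hprod hd1
      hγ1 P g g' (fun W' D' Uh' Lh' hp hl =>
        sk_density_nested (sqrtTwo_mem_fieldQ α β δ γ) n m α β δ γ d hαL hβL hδL hγL hα1 hβ1 hδ1
          hγ1 hd1 P (fun A' B' Z' hA' hB' hZ' => hP A' B' Z' hA' hB' hZ') g g' hg W' D' Uh' Lh'
          hp hl) W D Uh Lh hpair hlast
    rw [skVal, hA, hB, hZ] at key
    exact key

end Vale.Agent.Lib.P002
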