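import Vale.Agent.Lib.P002.SkDense

/-!
From nested chart pairs to chart pairs for which the first basis vector is cyclic for the
product, one pair at a time: the value of a polynomial at the tuple attached to a family of
pairs is a polynomial in the entries of each single pair.
-/

namespace Vale.Agent.Lib.P002

open Matrix

/-- A chart pair: an upper triangular matrix with diagonal a and a lower triangular matrix with
diagonal b whose product has characteristic polynomial with roots c and has the first basis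
vector as a cyclic vector. -/
def TopOK (k : ℕ) (a b c : Fin (k + 1) → ℂ) (U L : Matrix (Fin (k + 1)) (Fin (k + 1)) ℂ) :
    Prop :=
  (∀ i j, j < i → U i j = 0) ∧ (∀ i, U i i = a i) ∧ (∀ i j, i < j → L i j = 0) ∧
    (∀ i, L i i = b i) ∧ (U * L).charpoly = ∏ i, (Polynomial.X - Polynomial.C (c i)) ∧
    Cyc (U * L) (Fin.cons 1 0)

/-- The polynomial identity argument for a single pair. -/
theorem topOK_of_nest (k : ℕ) (a b c : Fin (k + 1) → ℂ) (ha0 : ∀ i, a i ≠ 0)
    (hb0 : ∀ i, b i ≠ 0) (hprod : (∏ i, a i) * ∏ i, b i = ∏ i, c i)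
    (P' : MvPolynomial (Fin 2 × Fin (k + 1) × Fin (k + 1)) ℂ)
    (H : ∀ U L, NestOK ℂ k a b c U L →
      MvPolynomial.eval (fun x => ![U, L] x.1 x.2.1 x.2.2) P' = 0)
    (U L : Matrix (Fin (k + 1)) (Fin (k + 1)) ℂ) (h : TopOK k a b c U L) :
    MvPolynomial.eval (fun x => ![U, L] x.1 x.2.1 x.2.2) P' = 0 := by
  obtain ⟨h1, h2, h3, h4, h5, h6⟩ := h
  have key := top_of_nested k a b c ha0 hb0 hprod P' 1 1 (fun U' L' t1 t2 t3 t4 t5 t6 => by
    rw [Matrix.one_mul, Matrix.mul_one, Matrix.one_mul, Matrix.mul_one]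
    exact H U' L' ⟨t1, t2, t3, t4, t5, t6⟩) U L h1 h2 h3 h4 h5 h6
  rw [Matrix.one_mul, Matrix.mul_one, Matrix.one_mul, Matrix.mul_one] at key
  exact key

/-- Evaluation of a polynomial in the entries of a conjugated tuple commutes with ring
homomorphisms back to the complex numbers. -/
theorem eval₂_tuple {T : Type*} [CommRing T] {n m : ℕ} (φ : ℂ →+* T) (e : T →+* ℂ)
    (hφ : ∀ c, e (φ c) = c) (P : MvPolynomial ((Fin 2 ⊕ Fin m) × Fin n × Fin n) ℂ)
    (g g' : Matrix (Fin n) (Fin n) ℂ) (At Bt : Matrix (Fin n) (Fin n) T)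
    (Zt : Fin m → Matrix (Fin n) (Fin n) T) :
    e (MvPolynomial.eval₂ φ (fun x => Sum.elim ![g.map φ * At * g'.map φ, g.map φ * Bt * g'.map φ]
      (fun j => g.map φ * Zt j * g'.map φ) x.1 x.2.1 x.2.2) P) =
      MvPolynomial.eval (fun x => Sum.elim ![g * At.map e * g', g * Bt.map e * g']
        (fun j => g * (Zt j).map e * g') x.1 x.2.1 x.2.2) P := by
  have hid : e.comp φ = RingHom.id ℂ := RingHom.ext hφ
  have hg : ∀ M : Matrix (Fin n) (Fin n) ℂ, (M.map φ).map e = M := by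
    intro M
    ext i j
    simp [hφ]
  have h1 : ∀ Mt : Matrix (Fin n) (Fin n) T,
      (g.map φ * Mt * g'.map φ).map e = g * Mt.map e * g' := by
    intro Mt
    rw [Matrix.map_mul, Matrix.map_mul, hg, hg]
  rw [MvPolynomial.eval₂_comp_left, hid, MvPolynomial.eval₂_id]
  have hfun : (⇑e ∘ fun x : (Fin 2 ⊕ Fin m) × Fin n × Fin n =>
      Sum.elim ![g.map φ * At * g'.map φ, g.map φ * Bt * g'.map φ]
        (fun j => g.map φ * Zt j * g'.map φ) x.1 x.2.1 x.2.2) =
      fun x => Sum.elim ![g * At.map e * g', g * Bt.map e * g']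
        (fun j => g * (Zt j).map e * g') x.1 x.2.1 x.2.2 := by
    funext x
    obtain ⟨c, i, j⟩ := x
    rcases c with c | l
    · fin_cases c
      · exact congrFun (congrFun (h1 At) i) j
      · exact congrFun (congrFun (h1 Bt) i) j
    · exact congrFun (congrFun (h1 (Zt l)) i) j
  rw [hfun]

/-- The value of a polynomial at the conjugated tuple attached to a family of pairs. -/
noncomputable def skVal {k m : ℕ} (P : MvPolynomial ((Fin 2 ⊕ Fin m) × Fin (k + 1) × Fin (k + 1)) ℂ)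
    (g g' : Matrix (Fin (k + 1)) (Fin (k + 1)) ℂ)
    (W D : Fin m → Matrix (Fin (k + 1)) (Fin (k + 1)) ℂ)
    (Uh Lh : Matrix (Fin (k + 1)) (Fin (k + 1)) ℂ) : ℂ :=
  MvPolynomial.eval (fun x => Sum.elim ![g * tA m W Uh * g', g * tB m D Lh * g']
    (fun j => g * zOfF m W D j * g') x.1 x.2.1 x.2.2) P

/-- The value is a polynomial in any polynomial family of pairs. -/
theorem skVal_poly {k m : ℕ} (P : MvPolynomial ((Fin 2 ⊕ Fin m) × Fin (k + 1) × Fin (k + 1)) ℂ)
    (g g' : Matrix (Fin (k + 1)) (Fin (k + 1)) ℂ) {σ : Type}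
    (Wc Dc : Fin m → Matrix (Fin (k + 1)) (Fin (k + 1)) (MvPolynomial σ ℂ))
    (Uc Lc : Matrix (Fin (k + 1)) (Fin (k + 1)) (MvPolynomial σ ℂ)) :
    ∃ P' : MvPolynomial σ ℂ, ∀ y : σ → ℂ, MvPolynomial.eval y P' =
      skVal P g g' (fun j => (Wc j).map (MvPolynomial.eval y))
        (fun j => (Dc j).map (MvPolynomial.eval y)) (Uc.map (MvPolynomial.eval y))
        (Lc.map (MvPolynomial.eval y)) := by
  refine ⟨MvPolynomial.eval₂ MvPolynomial.C
    (fun x : (Fin 2 ⊕ Fin m) × Fin (k + 1) × Fin (k + 1) =>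
      Sum.elim (![g.map MvPolynomial.C * tA m Wc Uc * g'.map MvPolynomial.C,
        g.map MvPolynomial.C * tB m Dc Lc * g'.map MvPolynomial.C] :
          Fin 2 → Matrix (Fin (k + 1)) (Fin (k + 1)) (MvPolynomial σ ℂ))
      (fun j => g.map MvPolynomial.C * zOfF m Wc Dc j * g'.map MvPolynomial.C) x.1 x.2.1 x.2.2) P,
    fun y => ?_⟩
  rw [eval₂_tuple MvPolynomial.C (MvPolynomial.eval y) (fun c => MvPolynomial.eval_C c), skVal,
    map_tA, map_tB]
  simp only [map_zOfF]

/-- The pair of matrices of indeterminates. -/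
noncomputable def univU (k : ℕ) :
    Matrix (Fin (k + 1)) (Fin (k + 1)) (MvPolynomial (Fin 2 × Fin (k + 1) × Fin (k + 1)) ℂ) :=
  Matrix.of fun i j => MvPolynomial.X (0, i, j)

/-- The second matrix of indeterminates. -/
noncomputable def univL (k : ℕ) :
    Matrix (Fin (k + 1)) (Fin (k + 1)) (MvPolynomial (Fin 2 × Fin (k + 1) × Fin (k + 1)) ℂ) :=
  Matrix.of fun i j => MvPolynomial.X (1, i, j)

theorem univU_map {k : ℕ} (U L : Matrix (Fin (k + 1)) (Fin (k + 1)) ℂ) :
    (univU k).map (MvPolynomial.eval (fun x => ![U, L] x.1 x.2.1 x.2.2)) = U := by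
  ext i j
  simp [univU]

theorem univL_map {k : ℕ} (U L : Matrix (Fin (k + 1)) (Fin (k + 1)) ℂ) :
    (univL k).map (MvPolynomial.eval (fun x => ![U, L] x.1 x.2.1 x.2.2)) = L := by
  ext i j
  simp [univL]

theorem const_map {k : ℕ} {σ : Type} (M : Matrix (Fin (k + 1)) (Fin (k + 1)) ℂ) (y : σ → ℂ) :
    (M.map (MvPolynomial.C (σ := σ))).map (MvPolynomial.eval y) = M := by
  ext i j
  simp

theorem update_map {k m : ℕ} {σ : Type} (W : Fin m → Matrix (Fin (k + 1)) (Fin (k + 1)) ℂ)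
    (q : Fin m) (Uc : Matrix (Fin (k + 1)) (Fin (k + 1)) (MvPolynomial σ ℂ)) (y : σ → ℂ) :
    (fun j => (Function.update (fun j => (W j).map (MvPolynomial.C (σ := σ))) q Uc j).map
      (MvPolynomial.eval y)) = Function.update W q (Uc.map (MvPolynomial.eval y)) := by
  funext j
  by_cases h : j = q
  · subst h
    simp
  · rw [Function.update_of_ne h, Function.update_of_ne h, const_map]

/-- From nested chart pairs to chart pairs. -/
theorem sk_upgrade (k m : ℕ) (α lam δ : Fin (k + 1) → ℂ) (γ d : Fin m → Fin (k + 1) → ℂ)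
    (hα0 : ∀ i, α i ≠ 0) (hlam0 : ∀ i, lam i ≠ 0)
    (hprod : (∏ i, α i) * ∏ i, lam i = ∏ i, δ i)
    (hd1 : ∀ j, ∏ i, d j i = 1) (hγ1 : ∀ j, ∏ i, γ j i = 1)
    (P : MvPolynomial ((Fin 2 ⊕ Fin m) × Fin (k + 1) × Fin (k + 1)) ℂ)
    (g g' : Matrix (Fin (k + 1)) (Fin (k + 1)) ℂ)
    (Hnest : ∀ (W D : Fin m → Matrix (Fin (k + 1)) (Fin (k + 1)) ℂ)
      (Uh Lh : Matrix (Fin (k + 1)) (Fin (k + 1)) ℂ),
      (∀ j, NestOK ℂ k (fun _ => 1) (d j) (γ j) (W j) (D j)) → NestOK ℂ k α lam δ Uh Lh →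
      skVal P g g' W D Uh Lh = 0)
    (W D : Fin m → Matrix (Fin (k + 1)) (Fin (k + 1)) ℂ)
    (Uh Lh : Matrix (Fin (k + 1)) (Fin (k + 1)) ℂ)
    (hpair : ∀ j, TopOK k (fun _ => 1) (d j) (γ j) (W j) (D j))
    (hlast : TopOK k α lam δ Uh Lh) : skVal P g g' W D Uh Lh = 0 := by
  have hd0 : ∀ j i, d j i ≠ 0 := fun j => ne_zero_of_prod_eq_one (d j) (hd1 j)
  -- the pairs, one at a time
  have step : ∀ q : ℕ, q ≤ m → ∀ (W D : Fin m → Matrix (Fin (k + 1)) (Fin (k + 1)) ℂ)
      (Uh Lh : Matrix (Fin (k + 1)) (Fin (k + 1)) ℂ),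
      (∀ j : Fin m, (j : ℕ) < q → TopOK k (fun _ => 1) (d j) (γ j) (W j) (D j)) →
      (∀ j : Fin m, q ≤ (j : ℕ) → NestOK ℂ k (fun _ => 1) (d j) (γ j) (W j) (D j)) →
      NestOK ℂ k α lam δ Uh Lh → skVal P g g' W D Uh Lh = 0 := by
    intro q
    induction q with
    | zero =>
      intro _ W D Uh Lh _ hN hl
      exact Hnest W D Uh Lh (fun j => hN j (Nat.zero_le _)) hl
    | succ q ih =>
      intro hq W D Uh Lh hT hN hl
      obtain ⟨P', hP'⟩ := skVal_poly P g g'
        (Function.update (fun j => (W j).map MvPolynomial.C) ⟨q, hq⟩ (univU k))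
        (Function.update (fun j => (D j).map MvPolynomial.C) ⟨q, hq⟩ (univL k))
        (Uh.map MvPolynomial.C) (Lh.map MvPolynomial.C)
      have hP'' : ∀ U L : Matrix (Fin (k + 1)) (Fin (k + 1)) ℂ,
          MvPolynomial.eval (fun x => ![U, L] x.1 x.2.1 x.2.2) P' =
            skVal P g g' (Function.update W ⟨q, hq⟩ U) (Function.update D ⟨q, hq⟩ L) Uh Lh := by
        intro U L
        rw [hP', update_map, update_map, univU_map, univL_map, const_map, const_map]
      have h0 := topOK_of_nest k (fun _ => 1) (d ⟨q, hq⟩) (γ ⟨q, hq⟩) (fun _ => one_ne_zero)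
        (hd0 ⟨q, hq⟩) (by rw [hd1, hγ1]; simp) P' (fun U L hUL => by
          rw [hP'']
          refine ih (Nat.le_of_succ_le hq) _ _ Uh Lh (fun j hj => ?_) (fun j hj => ?_) hl
          · have hne : j ≠ ⟨q, hq⟩ := fun h => by
              rw [h] at hj
              exact lt_irrefl _ hj
            rw [Function.update_of_ne hne, Function.update_of_ne hne]
            exact hT j (Nat.lt_succ_of_lt hj)
          · by_cases hne : j = ⟨q, hq⟩
            · subst hne
              rw [Function.update_self, Function.update_self]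
              exact hUL
            · rw [Function.update_of_ne hne, Function.update_of_ne hne]
              refine hN j (Nat.succ_le_of_lt (lt_of_le_of_ne hj fun h => hne ?_))
              exact Fin.ext h.symm)
        (W ⟨q, hq⟩) (D ⟨q, hq⟩) (hT ⟨q, hq⟩ (Nat.lt_succ_self q))
      rw [hP'', Function.update_eq_self, Function.update_eq_self] at h0
      exact h0
  -- the last pair
  obtain ⟨P', hP'⟩ := skVal_poly P g g' (fun j => (W j).map MvPolynomial.C)
    (fun j => (D j).map MvPolynomial.C) (univU k) (univL k)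
  have hP'' : ∀ U L : Matrix (Fin (k + 1)) (Fin (k + 1)) ℂ,
      MvPolynomial.eval (fun x => ![U, L] x.1 x.2.1 x.2.2) P' = skVal P g g' W D U L := by
    intro U L
    rw [hP', univU_map, univL_map]
    simp only [const_map]
  have h0 := topOK_of_nest k α lam δ hα0 hlam0 hprod P' (fun U L hUL => by
    rw [hP'']
    exact step m le_rfl W D U L (fun j _ => hpair j) (fun j hj => absurd j.2 (not_lt.mpr hj)) hUL)
    Uh Lh hlast
  rw [hP''] at h0
  exact h0

end Vale.Agent.Lib.P002
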