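import Vale.Agent.Lib.P002.RkMain

/-!
Triangular matrices over a commutative ring: products, adjugates of triangular matrices of
determinant one, diagonals and characteristic polynomials; conjugation of cyclic vectors.
-/

namespace Vale.Agent.Lib.P002

open Matrix

section Tri

variable {S : Type*} [CommRing S] {n : ℕ}

theorem ut_mul {M N : Matrix (Fin n) (Fin n) S} (hM : ∀ i j, j < i → M i j = 0)
    (hN : ∀ i j, j < i → N i j = 0) : ∀ i j, j < i → (M * N) i j = 0 := by
  intro i j hij
  rw [Matrix.mul_apply]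
  refine Finset.sum_eq_zero fun l _ => ?_
  by_cases hl : l < i
  · rw [hM i l hl, zero_mul]
  · rw [hN l j (lt_of_lt_of_le hij (not_lt.mp hl)), mul_zero]

theorem ut_mul_diag {M N : Matrix (Fin n) (Fin n) S} (hM : ∀ i j, j < i → M i j = 0)
    (hN : ∀ i j, j < i → N i j = 0) (i : Fin n) : (M * N) i i = M i i * N i i := by
  rw [Matrix.mul_apply]
  refine Finset.sum_eq_single i (fun l _ hl => ?_) (fun h => absurd (Finset.mem_univ i) h)
  rcases lt_or_gt_of_ne hl with h | h
  · rw [hM i l h, zero_mul]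
  · rw [hN l i h, mul_zero]

theorem lt_mul {M N : Matrix (Fin n) (Fin n) S} (hM : ∀ i j, i < j → M i j = 0)
    (hN : ∀ i j, i < j → N i j = 0) : ∀ i j, i < j → (M * N) i j = 0 := by
  intro i j hij
  rw [Matrix.mul_apply]
  refine Finset.sum_eq_zero fun l _ => ?_
  by_cases hl : i < l
  · rw [hM i l hl, zero_mul]
  · rw [hN l j (lt_of_le_of_lt (not_lt.mp hl) hij), mul_zero]

theorem lt_mul_diag {M N : Matrix (Fin n) (Fin n) S} (hM : ∀ i j, i < j → M i j = 0)
    (hN : ∀ i j, i < j → N i j = 0) (i : Fin n) : (M * N) i i = M i i * N i i := by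
  rw [Matrix.mul_apply]
  refine Finset.sum_eq_single i (fun l _ hl => ?_) (fun h => absurd (Finset.mem_univ i) h)
  rcases lt_or_gt_of_ne hl with h | h
  · rw [hN l i h, mul_zero]
  · rw [hM i l h, zero_mul]

theorem adjugate_eq_inv {M : Matrix (Fin n) (Fin n) S} (hdet : M.det = 1) :
    M.adjugate = M⁻¹ := by
  rw [Matrix.inv_def, hdet, Ring.inverse_one, one_smul]

theorem mul_adjugate_of_det {M : Matrix (Fin n) (Fin n) S} (hdet : M.det = 1) :
    M * M.adjugate = 1 := by
  rw [Matrix.mul_adjugate, hdet, one_smul]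

theorem adjugate_mul_of_det {M : Matrix (Fin n) (Fin n) S} (hdet : M.det = 1) :
    M.adjugate * M = 1 := by
  rw [Matrix.adjugate_mul, hdet, one_smul]

theorem ut_adjugate {M : Matrix (Fin n) (Fin n) S} (hM : ∀ i j, j < i → M i j = 0)
    (hdet : M.det = 1) : ∀ i j, j < i → M.adjugate i j = 0 := by
  have hu : IsUnit M.det := by
    rw [hdet]
    exact isUnit_one
  haveI : Invertible M := Matrix.invertibleOfIsUnitDet M hu
  have hB : M.BlockTriangular id := fun i j h => hM i j h
  have h := Matrix.blockTriangular_inv_of_blockTriangular hB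
  rw [← adjugate_eq_inv hdet] at h
  intro i j hij
  exact h hij

theorem lt_adjugate {M : Matrix (Fin n) (Fin n) S} (hM : ∀ i j, i < j → M i j = 0)
    (hdet : M.det = 1) : ∀ i j, i < j → M.adjugate i j = 0 := by
  have h := ut_adjugate (M := Mᵀ) (fun i j hij => hM j i hij) (by rw [Matrix.det_transpose, hdet])
  intro i j hij
  have h2 := h j i hij
  rw [← Matrix.adjugate_transpose] at h2
  exact h2

theorem ut_adjugate_diag {M : Matrix (Fin n) (Fin n) S} (hM : ∀ i j, j < i → M i j = 0)
    (hdet : M.det = 1) (i : Fin n) : M.adjugate i i * M i i = 1 := by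
  rw [← ut_mul_diag (ut_adjugate hM hdet) hM, adjugate_mul_of_det hdet, Matrix.one_apply_eq]

theorem lt_adjugate_diag {M : Matrix (Fin n) (Fin n) S} (hM : ∀ i j, i < j → M i j = 0)
    (hdet : M.det = 1) (i : Fin n) : M.adjugate i i * M i i = 1 := by
  rw [← lt_mul_diag (lt_adjugate hM hdet) hM, adjugate_mul_of_det hdet, Matrix.one_apply_eq]

theorem det_ut {M : Matrix (Fin n) (Fin n) S} (hM : ∀ i j, j < i → M i j = 0) :
    M.det = ∏ i, M i i :=
  Matrix.det_of_isUpperTriangular fun i j h => hM i j h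

theorem det_lt {M : Matrix (Fin n) (Fin n) S} (hM : ∀ i j, i < j → M i j = 0) :
    M.det = ∏ i, M i i :=
  Matrix.det_of_isLowerTriangular M fun i j h => hM i j h

theorem charpoly_ut {M : Matrix (Fin n) (Fin n) S} (hM : ∀ i j, j < i → M i j = 0) :
    M.charpoly = ∏ i, (Polynomial.X - Polynomial.C (M i i)) :=
  Matrix.charpoly_of_isUpperTriangular M fun i j h => hM i j h

theorem charpoly_lt {M : Matrix (Fin n) (Fin n) S} (hM : ∀ i j, i < j → M i j = 0) :
    M.charpoly = ∏ i, (Polynomial.X - Polynomial.C (M i i)) := by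
  rw [← Matrix.charpoly_transpose]
  exact charpoly_ut (M := Mᵀ) fun i j hij => hM j i hij

end Tri

section CycConj

variable {S : Type*} [CommRing S] {n : ℕ}

theorem aeval_conj (G G' N : Matrix (Fin n) (Fin n) S) (h : G * G' = 1) (p : Polynomial S) :
    Polynomial.aeval (G' * N * G) p = G' * Polynomial.aeval N p * G := by
  have h' : G' * G = 1 := mul_eq_one_comm.mp h
  have hpow : ∀ l : ℕ, (G' * N * G) ^ l = G' * N ^ l * G := by
    intro l
    induction l with
    | zero => simp [h']
    | succ l ih =>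
      rw [pow_succ, ih, pow_succ]
      calc G' * N ^ l * G * (G' * N * G) = G' * N ^ l * (G * G') * N * G := by
            simp only [Matrix.mul_assoc]
        _ = G' * (N ^ l * N) * G := by
            rw [h]
            simp only [Matrix.mul_assoc, Matrix.one_mul]
  induction p using Polynomial.induction_on' with
  | add p q hp hq => rw [map_add, map_add, hp, hq, Matrix.mul_add, Matrix.add_mul]
  | monomial l a =>
    rw [Polynomial.aeval_monomial, Polynomial.aeval_monomial, hpow,
      Algebra.algebraMap_eq_smul_one, smul_mul_assoc, smul_mul_assoc, one_mul, one_mul,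
      Matrix.mul_smul, Matrix.smul_mul]

/-- Conjugation of a cyclic vector. -/
theorem Cyc.conj {N : Matrix (Fin n) (Fin n) S} {c : Fin n → S} (hc : Cyc N c)
    (G G' : Matrix (Fin n) (Fin n) S) (h : G * G' = 1) : Cyc (G' * N * G) (G' *ᵥ c) := by
  have h' : G' * G = 1 := mul_eq_one_comm.mp h
  intro v
  obtain ⟨p, hp⟩ := hc (G *ᵥ v)
  refine ⟨p, ?_⟩
  rw [aeval_conj G G' N h, Matrix.mulVec_mulVec]
  calc (G' * Polynomial.aeval N p * G * G') *ᵥ c = G' *ᵥ ((Polynomial.aeval N p) *ᵥ c) := by
        rw [Matrix.mul_assoc, h, Matrix.mul_one, Matrix.mulVec_mulVec]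
    _ = v := by rw [hp, Matrix.mulVec_mulVec, h', Matrix.one_mulVec]

/-- An upper triangular matrix with unit diagonal fixes the first basis vector. -/
theorem ut_mulVec_cons {k : ℕ} {M : Matrix (Fin (k + 1)) (Fin (k + 1)) S}
    (hM : ∀ i j, j < i → M i j = 0) (h0 : M 0 0 = 1) :
    M *ᵥ (Fin.cons 1 0 : Fin (k + 1) → S) = Fin.cons 1 0 := by
  rw [← single_eq_cons]
  funext i
  rw [Matrix.mulVec_single_one]
  refine Fin.cases ?_ (fun i => ?_) i
  · simp [h0]
  · simp [hM i.succ 0 (Fin.succ_pos i), Fin.succ_ne_zero]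

end CycConj

end Vale.Agent.Lib.P002
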