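import Vale.Agent.Lib.P002.SkTri

/-!
From pairs of triangular matrices to tuples of matrices: with V_m = 1, V_j = V_(j+1) W_j,
the tuple is A = Uh adj(V_0), Z_j = V_j D_j adj(V_(j+1)), B = adj(D_0 ... D_(m-1)) Lh.
Then A Z_0 ... Z_(m-1) B = Uh Lh and Z_j is conjugate to W_j D_j.
-/

namespace Vale.Agent.Lib.P002

open Matrix

section Defs

variable {S : Type*} [CommRing S] {n : ℕ}

/-- The product W_(m-1) ... W_0. -/
def vOfF : (m : ℕ) → (Fin m → Matrix (Fin n) (Fin n) S) → Matrix (Fin n) (Fin n) S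
  | 0, _ => 1
  | m + 1, W => vOfF m (fun i => W i.succ) * W 0

/-- The product D_0 ... D_(m-1). -/
def dOfF : (m : ℕ) → (Fin m → Matrix (Fin n) (Fin n) S) → Matrix (Fin n) (Fin n) S
  | 0, _ => 1
  | m + 1, D => D 0 * dOfF m (fun i => D i.succ)

/-- The matrices Z_j = V_j D_j adj(V_(j+1)). -/
def zOfF : (m : ℕ) → (Fin m → Matrix (Fin n) (Fin n) S) → (Fin m → Matrix (Fin n) (Fin n) S) →
    Fin m → Matrix (Fin n) (Fin n) S
  | 0, _, _ => fun i => i.elim0
  | m + 1, W, D => Fin.cons
      (vOfF m (fun i => W i.succ) * (W 0 * D 0) * (vOfF m (fun i => W i.succ)).adjugate)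
      (zOfF m (fun i => W i.succ) (fun i => D i.succ))

/-- The first matrix of the tuple. -/
def tA (m : ℕ) (W : Fin m → Matrix (Fin n) (Fin n) S) (Uh : Matrix (Fin n) (Fin n) S) :
    Matrix (Fin n) (Fin n) S :=
  Uh * (vOfF m W).adjugate

/-- The last matrix of the tuple. -/
def tB (m : ℕ) (D : Fin m → Matrix (Fin n) (Fin n) S) (Lh : Matrix (Fin n) (Fin n) S) :
    Matrix (Fin n) (Fin n) S :=
  (dOfF m D).adjugate * Lh

theorem det_vOfF : ∀ (m : ℕ) (W : Fin m → Matrix (Fin n) (Fin n) S), (∀ j, (W j).det = 1) →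
    (vOfF m W).det = 1 := by
  intro m
  induction m with
  | zero =>
    intro W _
    simp [vOfF]
  | succ m ih =>
    intro W hW
    simp only [vOfF]
    rw [Matrix.det_mul, ih _ (fun j => hW j.succ), hW 0, one_mul]

theorem det_dOfF : ∀ (m : ℕ) (D : Fin m → Matrix (Fin n) (Fin n) S), (∀ j, (D j).det = 1) →
    (dOfF m D).det = 1 := by
  intro m
  induction m with
  | zero =>
    intro D _
    simp [dOfF]
  | succ m ih =>
    intro D hD
    simp only [dOfF]
    rw [Matrix.det_mul, ih _ (fun j => hD j.succ), hD 0, one_mul]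

theorem ut_vOfF : ∀ (m : ℕ) (W : Fin m → Matrix (Fin n) (Fin n) S),
    (∀ j, ∀ i l, l < i → W j i l = 0) → (∀ j i, W j i i = 1) →
    (∀ i l, l < i → vOfF m W i l = 0) ∧ ∀ i, vOfF m W i i = 1 := by
  intro m
  induction m with
  | zero =>
    intro W _ _
    constructor
    · intro i l hil
      simp [vOfF, Matrix.one_apply_ne hil.ne']
    · intro i
      simp [vOfF]
  | succ m ih =>
    intro W hW hW1
    obtain ⟨h1, h2⟩ := ih (fun i => W i.succ) (fun j => hW j.succ) (fun j => hW1 j.succ)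
    simp only [vOfF]
    refine ⟨ut_mul h1 (hW 0), fun i => ?_⟩
    rw [ut_mul_diag h1 (hW 0), h2, hW1, mul_one]

theorem lt_dOfF : ∀ (m : ℕ) (D : Fin m → Matrix (Fin n) (Fin n) S),
    (∀ j, ∀ i l, i < l → D j i l = 0) →
    (∀ i l, i < l → dOfF m D i l = 0) ∧ ∀ i, dOfF m D i i = ∏ j, D j i i := by
  intro m
  induction m with
  | zero =>
    intro D _
    constructor
    · intro i l hil
      simp [dOfF, Matrix.one_apply_ne hil.ne]
    · intro i
      simp [dOfF]
  | succ m ih =>
    intro D hD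
    obtain ⟨h1, h2⟩ := ih (fun i => D i.succ) (fun j => hD j.succ)
    simp only [dOfF]
    refine ⟨lt_mul (hD 0) h1, fun i => ?_⟩
    rw [lt_mul_diag (hD 0) h1, h2, Fin.prod_univ_succ]

/-- The product of the Z_j. -/
theorem prod_zOfF : ∀ (m : ℕ) (W D : Fin m → Matrix (Fin n) (Fin n) S), (∀ j, (W j).det = 1) →
    (List.ofFn (zOfF m W D)).prod = vOfF m W * dOfF m D := by
  intro m
  induction m with
  | zero =>
    intro W D _
    simp [vOfF, dOfF]
  | succ m ih =>
    intro W D hW
    have hdet := det_vOfF m (fun i => W i.succ) (fun j => hW j.succ)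
    rw [List.ofFn_succ, List.prod_cons]
    simp only [zOfF, Fin.cons_zero, Fin.cons_succ, vOfF, dOfF]
    rw [ih _ _ (fun j => hW j.succ)]
    calc vOfF m (fun i => W i.succ) * (W 0 * D 0) * (vOfF m fun i => W i.succ).adjugate *
          (vOfF m (fun i => W i.succ) * dOfF m fun i => D i.succ) =
        vOfF m (fun i => W i.succ) * (W 0 * D 0) * ((vOfF m fun i => W i.succ).adjugate *
          vOfF m (fun i => W i.succ)) * dOfF m fun i => D i.succ := by
          simp only [Matrix.mul_assoc]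
      _ = vOfF m (fun i => W i.succ) * W 0 * (D 0 * dOfF m fun i => D i.succ) := by
          rw [adjugate_mul_of_det hdet]
          simp only [Matrix.mul_assoc, Matrix.mul_one]

/-- Each Z_j is conjugate to W_j D_j by an upper triangular matrix with unit diagonal. -/
theorem zOfF_conj : ∀ (m : ℕ) (W D : Fin m → Matrix (Fin n) (Fin n) S),
    (∀ j, ∀ i l, l < i → W j i l = 0) → (∀ j i, W j i i = 1) →
    ∀ j, ∃ V : Matrix (Fin n) (Fin n) S, (∀ i l, l < i → V i l = 0) ∧ (∀ i, V i i = 1) ∧
      V.det = 1 ∧ zOfF m W D j = V * (W j * D j) * V.adjugate := by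
  intro m
  induction m with
  | zero =>
    intro W D _ _ j
    exact j.elim0
  | succ m ih =>
    intro W D hW hW1 j
    refine Fin.cases ?_ (fun j => ?_) j
    · obtain ⟨h1, h2⟩ := ut_vOfF m (fun i => W i.succ) (fun j => hW j.succ) (fun j => hW1 j.succ)
      refine ⟨vOfF m (fun i => W i.succ), h1, h2, ?_, ?_⟩
      · rw [det_ut h1]
        simp [h2]
      · simp [zOfF]
    · obtain ⟨V, hV1, hV2, hV3, hV4⟩ :=
        ih (fun i => W i.succ) (fun i => D i.succ) (fun j => hW j.succ) (fun j => hW1 j.succ) j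
      refine ⟨V, hV1, hV2, hV3, ?_⟩
      simp only [zOfF, Fin.cons_succ]
      exact hV4

theorem tA_mul_prod_mul_tB (m : ℕ) (W D : Fin m → Matrix (Fin n) (Fin n) S)
    (Uh Lh : Matrix (Fin n) (Fin n) S) (hW : ∀ j, (W j).det = 1) (hD : ∀ j, (D j).det = 1) :
    tA m W Uh * (List.ofFn (zOfF m W D)).prod * tB m D Lh = Uh * Lh := by
  rw [prod_zOfF m W D hW, tA, tB]
  calc Uh * (vOfF m W).adjugate * (vOfF m W * dOfF m D) * ((dOfF m D).adjugate * Lh) =
      Uh * ((vOfF m W).adjugate * vOfF m W) * (dOfF m D * (dOfF m D).adjugate) * Lh := by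
        simp only [Matrix.mul_assoc]
    _ = Uh * Lh := by
        rw [adjugate_mul_of_det (det_vOfF m W hW), mul_adjugate_of_det (det_dOfF m D hD),
          Matrix.mul_one, Matrix.mul_one]

end Defs

section Maps

variable {S T : Type*} [CommRing S] [CommRing T] {n : ℕ} (f : S →+* T)

theorem map_adjugate' (M : Matrix (Fin n) (Fin n) S) : M.adjugate.map f = (M.map f).adjugate := by
  have h := RingHom.map_adjugate f M
  simpa [RingHom.mapMatrix_apply] using h

theorem map_vOfF : ∀ (m : ℕ) (W : Fin m → Matrix (Fin n) (Fin n) S),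
    (vOfF m W).map f = vOfF m (fun j => (W j).map f) := by
  intro m
  induction m with
  | zero =>
    intro W
    simp [vOfF]
  | succ m ih =>
    intro W
    simp only [vOfF]
    rw [Matrix.map_mul, ih]

theorem map_dOfF : ∀ (m : ℕ) (D : Fin m → Matrix (Fin n) (Fin n) S),
    (dOfF m D).map f = dOfF m (fun j => (D j).map f) := by
  intro m
  induction m with
  | zero =>
    intro D
    simp [dOfF]
  | succ m ih =>
    intro D
    simp only [dOfF]
    rw [Matrix.map_mul, ih]

theorem map_zOfF : ∀ (m : ℕ) (W D : Fin m → Matrix (Fin n) (Fin n) S) (j : Fin m),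
    (zOfF m W D j).map f = zOfF m (fun j => (W j).map f) (fun j => (D j).map f) j := by
  intro m
  induction m with
  | zero =>
    intro W D j
    exact j.elim0
  | succ m ih =>
    intro W D j
    refine Fin.cases ?_ (fun j => ?_) j
    · simp only [zOfF, Fin.cons_zero]
      rw [Matrix.map_mul, Matrix.map_mul, Matrix.map_mul, map_adjugate', map_vOfF]
    · simp only [zOfF, Fin.cons_succ]
      exact ih _ _ j

theorem map_tA (m : ℕ) (W : Fin m → Matrix (Fin n) (Fin n) S) (Uh : Matrix (Fin n) (Fin n) S) :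
    (tA m W Uh).map f = tA m (fun j => (W j).map f) (Uh.map f) := by
  rw [tA, tA, Matrix.map_mul, map_adjugate', map_vOfF]

theorem map_tB (m : ℕ) (D : Fin m → Matrix (Fin n) (Fin n) S) (Lh : Matrix (Fin n) (Fin n) S) :
    (tB m D Lh).map f = tB m (fun j => (D j).map f) (Lh.map f) := by
  rw [tB, tB, Matrix.map_mul, map_adjugate', map_dOfF]

end Maps

end Vale.Agent.Lib.P002
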