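import Vale.Agent.Lib.P002.SkMain

/-!
Eigenvector matrices: for a matrix A whose characteristic polynomial is the product of the
X - α_i, the i-th column of the product of the A - α_l, l ≠ i, is an eigenvector for α_i.
Polynomials in triangular matrices.
-/

namespace Vale.Agent.Lib.P002

open Matrix Polynomial

section Eig

variable {S : Type*} [CommRing S] {n : ℕ}

/-- The matrix whose i-th column is the i-th column of the product of the A - α_l, l ≠ i. -/
noncomputable def eigM (α : Fin n → S) (A : Matrix (Fin n) (Fin n) S) :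
    Matrix (Fin n) (Fin n) S :=
  Matrix.of fun k i => (aeval A (∏ l ∈ Finset.univ.erase i, (X - C (α l)))) k i

theorem eigM_map {T : Type*} [CommRing T] (f : S →+* T) (α : Fin n → S)
    (A : Matrix (Fin n) (Fin n) S) :
    (eigM α A).map f = eigM (fun i => f (α i)) (A.map f) := by
  ext k i
  simp only [eigM, Matrix.map_apply, Matrix.of_apply]
  have h := map_aeval f A (∏ l ∈ Finset.univ.erase i, (X - C (α l)))
  have h2 : (∏ l ∈ Finset.univ.erase i, (X - C (α l))).map f =
      ∏ l ∈ Finset.univ.erase i, (X - C (f (α l))) := by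
    rw [Polynomial.map_prod]
    simp
  rw [h2] at h
  rw [← h]
  rfl

/-- The columns of the eigenvector matrix are eigenvectors. -/
theorem mul_eigM (α : Fin n → S) (A : Matrix (Fin n) (Fin n) S)
    (h : A.charpoly = ∏ i, (X - C (α i))) : A * eigM α A = eigM α A * Matrix.diagonal α := by
  ext k i
  rw [Matrix.mul_diagonal]
  have h0 : aeval A ((X - C (α i)) * ∏ l ∈ Finset.univ.erase i, (X - C (α l))) = 0 := by
    rw [Finset.mul_prod_erase Finset.univ (fun l => X - C (α l)) (Finset.mem_univ i), ← h]
    exact Matrix.aeval_self_charpoly A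
  have h1 : A * aeval A (∏ l ∈ Finset.univ.erase i, (X - C (α l))) =
      α i • aeval A (∏ l ∈ Finset.univ.erase i, (X - C (α l))) := by
    rw [map_mul, map_sub, aeval_X, aeval_C, sub_mul, Algebra.algebraMap_eq_smul_one,
      smul_mul_assoc, one_mul] at h0
    exact sub_eq_zero.mp h0
  have h2 : (A * eigM α A) k i =
      (A * aeval A (∏ l ∈ Finset.univ.erase i, (X - C (α l)))) k i := by
    simp [Matrix.mul_apply, eigM]
  rw [h2, h1, Matrix.smul_apply, smul_eq_mul, mul_comm]
  rfl

theorem ut_pow {M : Matrix (Fin n) (Fin n) S} (hM : ∀ i j, j < i → M i j = 0) (l : ℕ) :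
    (∀ i j, j < i → (M ^ l) i j = 0) ∧ ∀ i, (M ^ l) i i = (M i i) ^ l := by
  induction l with
  | zero =>
    constructor
    · intro i j hij
      simp [Matrix.one_apply_ne hij.ne']
    · intro i
      simp
  | succ l ih =>
    rw [pow_succ]
    refine ⟨ut_mul ih.1 hM, fun i => ?_⟩
    rw [ut_mul_diag ih.1 hM, ih.2, pow_succ]

theorem lt_pow {M : Matrix (Fin n) (Fin n) S} (hM : ∀ i j, i < j → M i j = 0) (l : ℕ) :
    (∀ i j, i < j → (M ^ l) i j = 0) ∧ ∀ i, (M ^ l) i i = (M i i) ^ l := by
  induction l with
  | zero =>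
    constructor
    · intro i j hij
      simp [Matrix.one_apply_ne hij.ne]
    · intro i
      simp
  | succ l ih =>
    rw [pow_succ]
    refine ⟨lt_mul ih.1 hM, fun i => ?_⟩
    rw [lt_mul_diag ih.1 hM, ih.2, pow_succ]

/-- A polynomial in an upper triangular matrix. -/
theorem ut_aeval {M : Matrix (Fin n) (Fin n) S} (hM : ∀ i j, j < i → M i j = 0) (p : S[X]) :
    (∀ i j, j < i → (aeval M p) i j = 0) ∧ ∀ i, (aeval M p) i i = p.eval (M i i) := by
  induction p using Polynomial.induction_on' with
  | add p q hp hq =>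
    constructor
    · intro i j hij
      rw [map_add, Matrix.add_apply, hp.1 i j hij, hq.1 i j hij, add_zero]
    · intro i
      rw [map_add, Matrix.add_apply, hp.2, hq.2, eval_add]
  | monomial l a =>
    rw [aeval_monomial, Algebra.algebraMap_eq_smul_one, smul_mul_assoc, one_mul]
    constructor
    · intro i j hij
      rw [Matrix.smul_apply, (ut_pow hM l).1 i j hij, smul_zero]
    · intro i
      rw [Matrix.smul_apply, (ut_pow hM l).2, eval_monomial, smul_eq_mul]

/-- A polynomial in a lower triangular matrix. -/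
theorem lt_aeval {M : Matrix (Fin n) (Fin n) S} (hM : ∀ i j, i < j → M i j = 0) (p : S[X]) :
    (∀ i j, i < j → (aeval M p) i j = 0) ∧ ∀ i, (aeval M p) i i = p.eval (M i i) := by
  induction p using Polynomial.induction_on' with
  | add p q hp hq =>
    constructor
    · intro i j hij
      rw [map_add, Matrix.add_apply, hp.1 i j hij, hq.1 i j hij, add_zero]
    · intro i
      rw [map_add, Matrix.add_apply, hp.2, hq.2, eval_add]
  | monomial l a =>
    rw [aeval_monomial, Algebra.algebraMap_eq_smul_one, smul_mul_assoc, one_mul]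
    constructor
    · intro i j hij
      rw [Matrix.smul_apply, (lt_pow hM l).1 i j hij, smul_zero]
    · intro i
      rw [Matrix.smul_apply, (lt_pow hM l).2, eval_monomial, smul_eq_mul]

theorem eigM_ut (α : Fin n → S) {U : Matrix (Fin n) (Fin n) S} (hU : ∀ i j, j < i → U i j = 0)
    (hUd : ∀ i, U i i = α i) :
    (∀ i j, j < i → eigM α U i j = 0) ∧
      ∀ i, eigM α U i i = ∏ l ∈ Finset.univ.erase i, (α i - α l) := by
  constructor
  · intro i j hij
    exact (ut_aeval hU _).1 i j hij
  · intro i
    have h := (ut_aeval hU (∏ l ∈ Finset.univ.erase i, (X - C (α l)))).2 i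
    rw [hUd, eval_prod] at h
    have h' : (aeval U (∏ l ∈ Finset.univ.erase i, (X - C (α l)))) i i =
        ∏ l ∈ Finset.univ.erase i, (α i - α l) := by simpa using h
    exact h'

theorem eigM_lt (β : Fin n → S) {L : Matrix (Fin n) (Fin n) S} (hL : ∀ i j, i < j → L i j = 0)
    (hLd : ∀ i, L i i = β i) :
    (∀ i j, i < j → eigM β L i j = 0) ∧
      ∀ i, eigM β L i i = ∏ l ∈ Finset.univ.erase i, (β i - β l) := by
  constructor
  · intro i j hij
    exact (lt_aeval hL _).1 i j hij
  · intro i
    have h := (lt_aeval hL (∏ l ∈ Finset.univ.erase i, (X - C (β l)))).2 i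
    rw [hLd, eval_prod] at h
    have h' : (aeval L (∏ l ∈ Finset.univ.erase i, (X - C (β l)))) i i =
        ∏ l ∈ Finset.univ.erase i, (β i - β l) := by simpa using h
    exact h'

end Eig

theorem prod_erase_sub_ne_zero {n : ℕ} (α : Fin n → ℂ) (hα : Function.Injective α) (i : Fin n) :
    ∏ l ∈ Finset.univ.erase i, (α i - α l) ≠ 0 := by
  refine Finset.prod_ne_zero_iff.mpr fun l hl => ?_
  have hne : l ≠ i := Finset.ne_of_mem_erase hl
  exact sub_ne_zero.mpr fun h => hne (hα h).symm

end Vale.Agent.Lib.P002
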