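import Vale.Agent.Lib.P002.SoTrail

/-!
A tuple whose eigenvector matrices are in general position is a simultaneous conjugate of a
chart tuple.
-/

namespace Vale.Agent.Lib.P002

open Matrix

section ListConj

variable {S : Type*} [CommRing S] {n : ℕ}

theorem conj_mul (G G' M N : Matrix (Fin n) (Fin n) S) (h : G' * G = 1) :
    G * M * G' * (G * N * G') = G * (M * N) * G' := by
  calc G * M * G' * (G * N * G') = G * M * (G' * G) * N * G' := by
        simp only [Matrix.mul_assoc]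
    _ = G * (M * N) * G' := by
        rw [h, Matrix.mul_one]
        simp only [Matrix.mul_assoc]

theorem conj_back (G G' M : Matrix (Fin n) (Fin n) S) (h : G * G' = 1) :
    M = G * (G' * M * G) * G' := by
  simp only [Matrix.mul_assoc]
  rw [h, Matrix.mul_one, ← Matrix.mul_assoc, h, Matrix.one_mul]

theorem list_prod_conj (G G' : Matrix (Fin n) (Fin n) S) (h : G * G' = 1) (h' : G' * G = 1) :
    ∀ L : List (Matrix (Fin n) (Fin n) S),
      (L.map fun M => G * M * G').prod = G * L.prod * G' := by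
  intro L
  induction L with
  | nil => simp [h]
  | cons M L ih =>
    rw [List.map_cons, List.prod_cons, ih, List.prod_cons, conj_mul G G' M L.prod h']

theorem drop_prod_conj (G G' : Matrix (Fin n) (Fin n) S) (h : G * G' = 1) (h' : G' * G = 1)
    (m : ℕ) (Z : Fin m → Matrix (Fin n) (Fin n) S) (l : ℕ) :
    ((List.ofFn fun j => G * Z j * G').drop l).prod = G * ((List.ofFn Z).drop l).prod * G' := by
  have h1 : (List.ofFn fun j => G * Z j * G') = (List.ofFn Z).map fun M => G * M * G' := by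
    rw [List.map_ofFn]
    rfl
  rw [h1, ← List.map_drop, list_prod_conj G G' h h']

end ListConj

/-- A tuple in general position is a simultaneous conjugate of a chart tuple. -/
theorem chart_of_generic (k m : ℕ) (α β δ : Fin (k + 1) → ℂ) (γ : Fin m → Fin (k + 1) → ℂ)
    (A B : Matrix (Fin (k + 1)) (Fin (k + 1)) ℂ)
    (Z : Fin m → Matrix (Fin (k + 1)) (Fin (k + 1)) ℂ)
    (a b : Matrix (Fin (k + 1)) (Fin (k + 1)) ℂ) (ha : a = eigM α A) (hb : b = eigM β B)
    (hA : A.charpoly = ∏ i, (Polynomial.X - Polynomial.C (α i)))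
    (hB : B.charpoly = ∏ i, (Polynomial.X - Polynomial.C (β i)))
    (hZ : ∀ l, (Z l).charpoly = ∏ i, (Polynomial.X - Polynomial.C (γ l i)))
    (hN : (A * (List.ofFn Z).prod * B).charpoly = ∏ i, (Polynomial.X - Polynomial.C (δ i)))
    (g1 : a.det ≠ 0)
    (g2 : trailDet (k + 1) (a.adjugate * b) ≠ 0)
    (g3 : ∀ l : Fin m, trailDet (k + 1)
      (a.adjugate * (((List.ofFn Z).drop l).prod * B) * b) ≠ 0)
    (g4 : ∀ l, (kry (Z l) (fun i => a i 0)).det ≠ 0)
    (g5 : (kry (A * (List.ofFn Z).prod * B) (fun i => a i 0)).det ≠ 0) :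
    ∃ (g g' A' B' : Matrix (Fin (k + 1)) (Fin (k + 1)) ℂ)
      (Z' : Fin m → Matrix (Fin (k + 1)) (Fin (k + 1)) ℂ), g * g' = 1 ∧
      ChartY k m α β δ γ A' B' Z' ∧ A = g * A' * g' ∧ B = g * B' * g' ∧
      ∀ l, Z l = g * Z' l * g' := by
  have hau : IsUnit a.det := isUnit_iff_ne_zero.mpr g1
  have hainv : a⁻¹ = (a.det)⁻¹ • a.adjugate := by
    rw [Matrix.inv_def, Ring.inverse_eq_inv']
  have haa : a * a⁻¹ = 1 := Matrix.mul_nonsing_inv a hau
  have haa' : a⁻¹ * a = 1 := Matrix.nonsing_inv_mul a hau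
  have hc0 : trailDet (k + 1) (a⁻¹ * b) ≠ 0 := by
    rw [hainv, Matrix.smul_mul]
    exact trailDet_smul_ne_zero _ _ (inv_ne_zero g1) _ g2
  obtain ⟨V, T, hV, hV1, hT, hVT⟩ := exists_ul (k + 1) _ hc0
  have hVdet : V.det = 1 := det_ut_unit hV hV1
  have hTdet : T.det ≠ 0 := by
    have h := trailDet_ne_zero_det (k + 1) _ hc0
    rw [hVT, Matrix.det_mul, hVdet, one_mul] at h
    exact h
  have hTu : IsUnit T.det := isUnit_iff_ne_zero.mpr hTdet
  have hTT : T * T⁻¹ = 1 := Matrix.mul_nonsing_inv T hTu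
  have hTT' : T⁻¹ * T = 1 := Matrix.nonsing_inv_mul T hTu
  have hTi : ∀ i j, i < j → T⁻¹ i j = 0 := lt_inv hT hTdet
  have hTid : ∀ i, T⁻¹ i i * T i i = 1 := by
    intro i
    rw [← lt_mul_diag hTi hT, hTT', Matrix.one_apply_eq]
  have hVa : ∀ i j, j < i → V.adjugate i j = 0 := ut_adjugate hV hVdet
  have hVad : ∀ i, V.adjugate i i = 1 := by
    intro i
    have h := ut_adjugate_diag hV hVdet i
    rw [hV1, mul_one] at h
    exact h
  obtain ⟨g, hg⟩ : ∃ g, g = a * V := ⟨_, rfl⟩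
  obtain ⟨g', hg'⟩ : ∃ g', g' = V.adjugate * a⁻¹ := ⟨_, rfl⟩
  have hgg : g * g' = 1 := by
    rw [hg, hg']
    calc a * V * (V.adjugate * a⁻¹) = a * (V * V.adjugate) * a⁻¹ := by
          simp only [Matrix.mul_assoc]
      _ = 1 := by rw [mul_adjugate_of_det hVdet, Matrix.mul_one, haa]
  have hgg' : g' * g = 1 := mul_eq_one_comm.mp hgg
  have hbg : b = g * T := by
    rw [hg, Matrix.mul_assoc, ← hVT, ← Matrix.mul_assoc, haa, Matrix.one_mul]
  have hgb : g = b * T⁻¹ := by
    rw [hbg, Matrix.mul_assoc, hTT, Matrix.mul_one]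
  have hA' : g' * A * g = V.adjugate * Matrix.diagonal α * V := by
    have h1 := mul_eigM α A hA
    rw [← ha] at h1
    rw [hg, hg']
    calc V.adjugate * a⁻¹ * A * (a * V) = V.adjugate * (a⁻¹ * (A * a)) * V := by
          simp only [Matrix.mul_assoc]
      _ = V.adjugate * Matrix.diagonal α * V := by
          rw [h1, ← Matrix.mul_assoc a⁻¹, haa', Matrix.one_mul]
  have hB' : g' * B * g = T * Matrix.diagonal β * T⁻¹ := by
    have h1 := mul_eigM β B hB
    rw [← hb] at h1
    calc g' * B * g = g' * (B * b) * T⁻¹ := by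
          rw [hgb]
          simp only [Matrix.mul_assoc]
      _ = g' * g * T * Matrix.diagonal β * T⁻¹ := by
          rw [h1, hbg]
          simp only [Matrix.mul_assoc]
      _ = T * Matrix.diagonal β * T⁻¹ := by rw [hgg', Matrix.one_mul]
  have hdα : ∀ i j, j < i → Matrix.diagonal α i j = 0 := fun i j hij =>
    Matrix.diagonal_apply_ne α hij.ne'
  have hdβ : ∀ i j, i < j → Matrix.diagonal β i j = 0 := fun i j hij =>
    Matrix.diagonal_apply_ne β hij.ne
  have hprod : (List.ofFn fun l => g' * Z l * g).prod = g' * (List.ofFn Z).prod * g :=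
    prod_ofFn_conj' g' g hgg' hgg m Z
  have hNconj : g' * A * g * (List.ofFn fun l => g' * Z l * g).prod * (g' * B * g) =
      g' * (A * (List.ofFn Z).prod * B) * g := by
    rw [hprod, conj_mul g' g _ _ hgg, conj_mul g' g _ _ hgg]
  have he0 : g' *ᵥ (fun i => a i 0) = (Fin.cons 1 0 : Fin (k + 1) → ℂ) := by
    have h1 : (fun i => a i 0) = a *ᵥ (Fin.cons 1 0 : Fin (k + 1) → ℂ) := by
      rw [← single_eq_cons, Matrix.mulVec_single_one]
      rfl
    rw [h1, Matrix.mulVec_mulVec, hg', Matrix.mul_assoc, haa', Matrix.mul_one]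
    exact adjugate_ut_mulVec_cons hV hV1
  refine ⟨g, g', g' * A * g, g' * B * g, fun l => g' * Z l * g, hgg,
    ⟨?_, ?_, ?_, ?_, ?_, ?_, ?_, ?_, ?_⟩, conj_back g g' A hgg, conj_back g g' B hgg,
    fun l => conj_back g g' (Z l) hgg⟩
  · rw [hA']
    exact ut_mul (ut_mul hVa hdα) hV
  · intro i
    rw [hA', ut_mul_diag (ut_mul hVa hdα) hV, ut_mul_diag hVa hdα, hVad, hV1,
      Matrix.diagonal_apply_eq, one_mul, mul_one]
  · rw [hB']
    exact lt_mul (lt_mul hT hdβ) hTi
  · intro i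
    rw [hB', lt_mul_diag (lt_mul hT hdβ) hTi, lt_mul_diag hT hdβ, Matrix.diagonal_apply_eq,
      mul_comm (T i i), mul_assoc, mul_comm (T i i), hTid, mul_one]
  · intro l
    rw [charpoly_conj' g' g (Z l) hgg]
    exact hZ l
  · rw [hNconj, charpoly_conj' g' g _ hgg]
    exact hN
  · intro l
    have h1 : ((List.ofFn fun j => g' * Z j * g).drop (l : ℕ)).prod * (g' * B * g) =
        g' * (((List.ofFn Z).drop (l : ℕ)).prod * B) * g := by
      rw [drop_prod_conj g' g hgg' hgg m Z l, conj_mul g' g _ _ hgg]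
    have h2 : g' * (((List.ofFn Z).drop (l : ℕ)).prod * B) * g =
        ((a.det)⁻¹ • V.adjugate) * (a.adjugate * (((List.ofFn Z).drop (l : ℕ)).prod * B) * b) *
          T⁻¹ := by
      rw [hg', hainv, hgb]
      simp only [Matrix.mul_smul, Matrix.smul_mul, Matrix.mul_assoc]
    have h3 : trailDet (k + 1) (g' * (((List.ofFn Z).drop (l : ℕ)).prod * B) * g) ≠ 0 := by
      rw [h2]
      refine trailDet_conj_ne_zero (k + 1) _ _ _ ?_ ?_ hTi ?_ (g3 l)
      · intro i j hij
        rw [Matrix.smul_apply, hVa i j hij, smul_zero]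
      · intro i
        rw [Matrix.smul_apply, hVad, smul_eq_mul, mul_one]
        exact inv_ne_zero g1
      · intro i
        exact left_ne_zero_of_mul_eq_one (hTid i)
    obtain ⟨Vl, Tl, q1, q2, q3, q4⟩ := exists_ul (k + 1) _ h3
    exact ⟨Vl, Tl, q1, q2, q3, h1.trans q4⟩
  · intro l
    have h := (cyc_of_isUnit_det_kry (isUnit_iff_ne_zero.mpr (g4 l))).conj g g' hgg
    rw [he0] at h
    exact h
  · have h := (cyc_of_isUnit_det_kry (isUnit_iff_ne_zero.mpr g5)).conj g g' hgg
    rw [he0] at h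
    rw [hNconj]
    exact h

end Vale.Agent.Lib.P002
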