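import Vale.Agent.Lib.P002.SoPoly

/-!
Density of the integral points in an explicit nonempty Zariski open subset of the variety of
tuples with prescribed characteristic polynomials, in every rank and for every number of
matrices, when the eigenvalues of the first two matrices are pairwise distinct.
-/

namespace Vale.Agent.Lib.P002

open Matrix

theorem ut_inv {n : ℕ} {M : Matrix (Fin n) (Fin n) ℂ} (hM : ∀ i j, j < i → M i j = 0)
    (hdet : M.det ≠ 0) : ∀ i j, j < i → M⁻¹ i j = 0 := by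
  intro i j hij
  have h := lt_inv (T := Mᵀ) (fun i j hij => hM j i hij) (by rw [Matrix.det_transpose]; exact hdet)
    j i hij
  rw [← Matrix.transpose_nonsing_inv] at h
  exact h

/-- The adjugate of an upper triangular matrix with nonzero diagonal. -/
theorem ut_adjugate_ne {n : ℕ} {M : Matrix (Fin n) (Fin n) ℂ} (hM : ∀ i j, j < i → M i j = 0)
    (hM0 : ∀ i, M i i ≠ 0) :
    (∀ i j, j < i → M.adjugate i j = 0) ∧ ∀ i, M.adjugate i i ≠ 0 := by
  have hdet : M.det ≠ 0 := by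
    rw [det_ut hM]
    exact Finset.prod_ne_zero_iff.mpr fun i _ => hM0 i
  have hu : IsUnit M.det := isUnit_iff_ne_zero.mpr hdet
  have hadj : M.adjugate = M.det • M⁻¹ := by
    rw [Matrix.inv_def, Ring.inverse_eq_inv', smul_smul, mul_inv_cancel₀ hdet, one_smul]
  have hi := ut_inv hM hdet
  have hid : ∀ i, M⁻¹ i i * M i i = 1 := by
    intro i
    rw [← ut_mul_diag hi hM, Matrix.nonsing_inv_mul M hu, Matrix.one_apply_eq]
  constructor
  · intro i j hij
    rw [hadj, Matrix.smul_apply, hi i j hij, smul_zero]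
  · intro i
    rw [hadj, Matrix.smul_apply, smul_eq_mul]
    exact mul_ne_zero hdet (left_ne_zero_of_mul_eq_one (hid i))

theorem det_list_prod_ne_zero {n : ℕ} : ∀ L : List (Matrix (Fin n) (Fin n) ℂ),
    (∀ M ∈ L, M.det ≠ 0) → L.prod.det ≠ 0 := by
  intro L
  induction L with
  | nil =>
    intro _
    simp
  | cons M L ih =>
    intro h
    rw [List.prod_cons, Matrix.det_mul]
    exact mul_ne_zero (h M List.mem_cons_self) (ih fun N hN => h N (List.mem_cons_of_mem M hN))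

theorem Cyc.smul_vec {n : ℕ} {N : Matrix (Fin n) (Fin n) ℂ} {e : Fin n → ℂ} (h : Cyc N e)
    {c : ℂ} (hc : c ≠ 0) : Cyc N (c • e) := by
  intro v
  obtain ⟨p, hp⟩ := h (c⁻¹ • v)
  refine ⟨p, ?_⟩
  rw [Matrix.mulVec_smul, hp, smul_smul, mul_inv_cancel₀ hc, one_smul]

theorem col_zero_ut {k : ℕ} {a : Matrix (Fin (k + 1)) (Fin (k + 1)) ℂ}
    (ha : ∀ i j, j < i → a i j = 0) :
    (fun i => a i 0) = a 0 0 • (Fin.cons 1 0 : Fin (k + 1) → ℂ) := by
  funext i
  refine Fin.cases ?_ (fun i => ?_) i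
  · simp
  · simp [ha i.succ 0 (Fin.succ_pos i)]

/-- The genericity function does not vanish at chart tuples. -/
theorem genF_chart_ne_zero (k m : ℕ) (α β δ : Fin (k + 1) → ℂ) (γ : Fin m → Fin (k + 1) → ℂ)
    (hαi : Function.Injective α) (hβi : Function.Injective β)
    (hβ1 : ∏ i, β i = 1) (hγ1 : ∀ l, ∏ i, γ l i = 1)
    (A B : Matrix (Fin (k + 1)) (Fin (k + 1)) ℂ)
    (Z : Fin m → Matrix (Fin (k + 1)) (Fin (k + 1)) ℂ) (h : ChartY k m α β δ γ A B Z) :
    genF k m α β A B Z ≠ 0 := by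
  obtain ⟨c1, c2, c3, c4, c5, c6, c7, c8, c9⟩ := h
  obtain ⟨a, ha⟩ : ∃ a, a = eigM α A := ⟨_, rfl⟩
  obtain ⟨b, hb⟩ : ∃ b, b = eigM β B := ⟨_, rfl⟩
  have hau : ∀ i j, j < i → a i j = 0 := by
    rw [ha]
    exact (eigM_ut α c1 c2).1
  have had : ∀ i, a i i ≠ 0 := by
    intro i
    rw [ha, (eigM_ut α c1 c2).2]
    exact prod_erase_sub_ne_zero α hαi i
  have hbl : ∀ i j, i < j → b i j = 0 := by
    rw [hb]
    exact (eigM_lt β c3 c4).1
  have hbd : ∀ i, b i i ≠ 0 := by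
    intro i
    rw [hb, (eigM_lt β c3 c4).2]
    exact prod_erase_sub_ne_zero β hβi i
  obtain ⟨hadj, hadjd⟩ := ut_adjugate_ne hau had
  have hBdet : B.det ≠ 0 := by
    rw [det_lt c3]
    simp only [c4]
    rw [hβ1]
    exact one_ne_zero
  have hZdet : ∀ l, (Z l).det ≠ 0 := by
    intro l
    rw [det_of_charpoly _ _ (c5 l), hγ1]
    exact one_ne_zero
  have ha0 : (fun i => a i 0) = a 0 0 • (Fin.cons 1 0 : Fin (k + 1) → ℂ) := col_zero_ut hau
  unfold genF
  rw [← ha, ← hb]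
  refine mul_ne_zero (mul_ne_zero (mul_ne_zero (mul_ne_zero ?_ ?_) ?_) ?_) ?_
  · rw [det_ut hau]
    exact Finset.prod_ne_zero_iff.mpr fun i _ => had i
  · exact trailDet_ut_mul_lt_ne_zero (k + 1) _ _ hadj hadjd hbl hbd
  · refine Finset.prod_ne_zero_iff.mpr fun l _ => ?_
    obtain ⟨V, T, hV, hV1, hT, hVT⟩ := c7 l
    have hdet : (((List.ofFn Z).drop (l : ℕ)).prod * B).det ≠ 0 := by
      rw [Matrix.det_mul]
      refine mul_ne_zero (det_list_prod_ne_zero _ fun M hM => ?_) hBdet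
      obtain ⟨j, rfl⟩ := (List.mem_ofFn' Z M).mp (List.mem_of_mem_drop hM)
      exact hZdet j
    have hTd : ∀ i, T i i ≠ 0 := by
      rw [hVT, Matrix.det_mul, det_ut_unit hV hV1, one_mul, det_lt hT] at hdet
      intro i
      exact Finset.prod_ne_zero_iff.mp hdet i (Finset.mem_univ i)
    have e : a.adjugate * (((List.ofFn Z).drop (l : ℕ)).prod * B) * b =
        a.adjugate * V * (T * b) := by
      rw [hVT]
      simp only [Matrix.mul_assoc]
    rw [e]
    refine trailDet_ut_mul_lt_ne_zero (k + 1) _ _ (ut_mul hadj hV) (fun i => ?_)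
      (lt_mul hT hbl) (fun i => ?_)
    · rw [ut_mul_diag hadj hV, hV1, mul_one]
      exact hadjd i
    · rw [lt_mul_diag hT hbl]
      exact mul_ne_zero (hTd i) (hbd i)
  · refine Finset.prod_ne_zero_iff.mpr fun l _ => ?_
    rw [ha0]
    exact ((c8 l).smul_vec (had 0)).det_kry_ne_zero
  · rw [ha0]
    exact (c9.smul_vec (had 0)).det_kry_ne_zero

/-- Density of the integral points in a nonempty Zariski open subset, in every rank and for
every number of matrices. -/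
theorem spheres_open (n m : ℕ) (α β δ : Fin (n + 1) → ℂ) (γ : Fin m → Fin (n + 1) → ℂ)
    (hα : ∀ i, IsIntegral ℤ (α i)) (hβ : ∀ i, IsIntegral ℤ (β i)) (hδ : ∀ i, IsIntegral ℤ (δ i))
    (hγ : ∀ l i, IsIntegral ℤ (γ l i))
    (hαi : Function.Injective α) (hβi : Function.Injective β)
    (hα1 : ∏ i, α i = 1) (hβ1 : ∏ i, β i = 1) (hδ1 : ∏ i, δ i = 1)
    (hγ1 : ∀ l, ∏ i, γ l i = 1) :
    ∃ L : IntermediateField ℚ ℂ, FiniteDimensional ℚ L ∧
      ∃ F : MvPolynomial ((Fin 2 ⊕ Fin m) × Fin (n + 1) × Fin (n + 1)) ℂ,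
        (∃ (A B : Matrix (Fin (n + 1)) (Fin (n + 1)) ℂ)
          (Z : Fin m → Matrix (Fin (n + 1)) (Fin (n + 1)) ℂ),
          A.charpoly = ∏ i, (Polynomial.X - Polynomial.C (α i)) ∧
          B.charpoly = ∏ i, (Polynomial.X - Polynomial.C (β i)) ∧
          (∀ l, (Z l).charpoly = ∏ i, (Polynomial.X - Polynomial.C (γ l i))) ∧
          (A * (List.ofFn Z).prod * B).charpoly = ∏ i, (Polynomial.X - Polynomial.C (δ i)) ∧
          MvPolynomial.eval (fun x => Sum.elim ![A, B] Z x.1 x.2.1 x.2.2) F ≠ 0) ∧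
        ∀ P : MvPolynomial ((Fin 2 ⊕ Fin m) × Fin (n + 1) × Fin (n + 1)) ℂ,
          (∀ (A B : Matrix (Fin (n + 1)) (Fin (n + 1)) ℂ)
            (Z : Fin m → Matrix (Fin (n + 1)) (Fin (n + 1)) ℂ),
            (∀ i j, A i j ∈ L ∧ IsIntegral ℤ (A i j)) →
            (∀ i j, B i j ∈ L ∧ IsIntegral ℤ (B i j)) →
            (∀ l i j, Z l i j ∈ L ∧ IsIntegral ℤ (Z l i j)) →
            A.charpoly = ∏ i, (Polynomial.X - Polynomial.C (α i)) →
            B.charpoly = ∏ i, (Polynomial.X - Polynomial.C (β i)) →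
            (∀ l, (Z l).charpoly = ∏ i, (Polynomial.X - Polynomial.C (γ l i))) →
            (A * (List.ofFn Z).prod * B).charpoly = ∏ i, (Polynomial.X - Polynomial.C (δ i)) →
            MvPolynomial.eval (fun x => Sum.elim ![A, B] Z x.1 x.2.1 x.2.2) P = 0) →
          ∀ (A B : Matrix (Fin (n + 1)) (Fin (n + 1)) ℂ)
            (Z : Fin m → Matrix (Fin (n + 1)) (Fin (n + 1)) ℂ),
            A.charpoly = ∏ i, (Polynomial.X - Polynomial.C (α i)) →
            B.charpoly = ∏ i, (Polynomial.X - Polynomial.C (β i)) →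
            (∀ l, (Z l).charpoly = ∏ i, (Polynomial.X - Polynomial.C (γ l i))) →
            (A * (List.ofFn Z).prod * B).charpoly = ∏ i, (Polynomial.X - Polynomial.C (δ i)) →
            MvPolynomial.eval (fun x => Sum.elim ![A, B] Z x.1 x.2.1 x.2.2) F ≠ 0 →
            MvPolynomial.eval (fun x => Sum.elim ![A, B] Z x.1 x.2.1 x.2.2) P = 0 := by
  obtain ⟨-, L, hfin, hdens⟩ := spheres_all n m α β δ γ hα hβ hδ hγ hα1 hβ1 hδ1 hγ1
  refine ⟨L, hfin, polyF n m α β, ?_, ?_⟩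
  · obtain ⟨A, B, Z, hch⟩ := exists_chartY n m α β δ γ hα1 hβ1 hδ1 hγ1
    have hne := genF_chart_ne_zero n m α β δ γ hαi hβi hβ1 hγ1 A B Z hch
    obtain ⟨c1, c2, c3, c4, c5, c6, -, -, -⟩ := hch
    refine ⟨A, B, Z, ?_, ?_, c5, c6, ?_⟩
    · rw [charpoly_ut c1]
      simp only [c2]
    · rw [charpoly_lt c3]
      simp only [c4]
    · rw [eval_polyF]
      exact hne
  · intro P hP A B Z hA hB hZ hN hF
    rw [eval_polyF] at hF
    unfold genF at hF
    have g5 := right_ne_zero_of_mul hF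
    have hF4 := left_ne_zero_of_mul hF
    have g4 := right_ne_zero_of_mul hF4
    have hF3 := left_ne_zero_of_mul hF4
    have g3 := right_ne_zero_of_mul hF3
    have hF2 := left_ne_zero_of_mul hF3
    have g2 := right_ne_zero_of_mul hF2
    have g1 := left_ne_zero_of_mul hF2
    obtain ⟨g, g', A', B', Z', hgg, hch, eA, eB, eZ⟩ :=
      chart_of_generic n m α β δ γ A B Z (eigM α A) (eigM β B) rfl rfl hA hB hZ hN g1 g2
        (fun l => Finset.prod_ne_zero_iff.mp g3 l (Finset.mem_univ l))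
        (fun l => Finset.prod_ne_zero_iff.mp g4 l (Finset.mem_univ l)) g5
    obtain ⟨c1, c2, c3, c4, c5, c6, c7, c8, c9⟩ := hch
    have key := hdens P hP g g' A' B' Z' hgg c1 c2 c3 c4 c5 c6 c7
      (fun l => by rw [single_eq_cons]; exact c8 l) (by rw [single_eq_cons]; exact c9)
    have eZ' : (fun l => g * Z' l * g') = Z := by
      funext l
      exact (eZ l).symm
    rw [← eA, ← eB, eZ'] at key
    exact key

/-- If the vanishing ideal of the variety of tuples with the prescribed characteristic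
polynomials is prime, the integral points are Zariski dense in it. -/
theorem spheres_dense_of_prime (n m : ℕ) (α β δ : Fin (n + 1) → ℂ) (γ : Fin m → Fin (n + 1) → ℂ)
    (hα : ∀ i, IsIntegral ℤ (α i)) (hβ : ∀ i, IsIntegral ℤ (β i)) (hδ : ∀ i, IsIntegral ℤ (δ i))
    (hγ : ∀ l i, IsIntegral ℤ (γ l i))
    (hαi : Function.Injective α) (hβi : Function.Injective β)
    (hα1 : ∏ i, α i = 1) (hβ1 : ∏ i, β i = 1) (hδ1 : ∏ i, δ i = 1)
    (hγ1 : ∀ l, ∏ i, γ l i = 1)
    (hirr : ∀ P Q : MvPolynomial ((Fin 2 ⊕ Fin m) × Fin (n + 1) × Fin (n + 1)) ℂ,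
      (∀ (A B : Matrix (Fin (n + 1)) (Fin (n + 1)) ℂ)
        (Z : Fin m → Matrix (Fin (n + 1)) (Fin (n + 1)) ℂ),
        A.charpoly = ∏ i, (Polynomial.X - Polynomial.C (α i)) →
        B.charpoly = ∏ i, (Polynomial.X - Polynomial.C (β i)) →
        (∀ l, (Z l).charpoly = ∏ i, (Polynomial.X - Polynomial.C (γ l i))) →
        (A * (List.ofFn Z).prod * B).charpoly = ∏ i, (Polynomial.X - Polynomial.C (δ i)) →
        MvPolynomial.eval (fun x => Sum.elim ![A, B] Z x.1 x.2.1 x.2.2) (P * Q) = 0) →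
      (∀ (A B : Matrix (Fin (n + 1)) (Fin (n + 1)) ℂ)
        (Z : Fin m → Matrix (Fin (n + 1)) (Fin (n + 1)) ℂ),
        A.charpoly = ∏ i, (Polynomial.X - Polynomial.C (α i)) →
        B.charpoly = ∏ i, (Polynomial.X - Polynomial.C (β i)) →
        (∀ l, (Z l).charpoly = ∏ i, (Polynomial.X - Polynomial.C (γ l i))) →
        (A * (List.ofFn Z).prod * B).charpoly = ∏ i, (Polynomial.X - Polynomial.C (δ i)) →
        MvPolynomial.eval (fun x => Sum.elim ![A, B] Z x.1 x.2.1 x.2.2) P = 0) ∨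
      (∀ (A B : Matrix (Fin (n + 1)) (Fin (n + 1)) ℂ)
        (Z : Fin m → Matrix (Fin (n + 1)) (Fin (n + 1)) ℂ),
        A.charpoly = ∏ i, (Polynomial.X - Polynomial.C (α i)) →
        B.charpoly = ∏ i, (Polynomial.X - Polynomial.C (β i)) →
        (∀ l, (Z l).charpoly = ∏ i, (Polynomial.X - Polynomial.C (γ l i))) →
        (A * (List.ofFn Z).prod * B).charpoly = ∏ i, (Polynomial.X - Polynomial.C (δ i)) →
        MvPolynomial.eval (fun x => Sum.elim ![A, B] Z x.1 x.2.1 x.2.2) Q = 0)) :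
    ∃ L : IntermediateField ℚ ℂ, FiniteDimensional ℚ L ∧
      ∀ P : MvPolynomial ((Fin 2 ⊕ Fin m) × Fin (n + 1) × Fin (n + 1)) ℂ,
        (∀ (A B : Matrix (Fin (n + 1)) (Fin (n + 1)) ℂ)
          (Z : Fin m → Matrix (Fin (n + 1)) (Fin (n + 1)) ℂ),
          (∀ i j, A i j ∈ L ∧ IsIntegral ℤ (A i j)) →
          (∀ i j, B i j ∈ L ∧ IsIntegral ℤ (B i j)) →
          (∀ l i j, Z l i j ∈ L ∧ IsIntegral ℤ (Z l i j)) →
          A.charpoly = ∏ i, (Polynomial.X - Polynomial.C (α i)) →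
          B.charpoly = ∏ i, (Polynomial.X - Polynomial.C (β i)) →
          (∀ l, (Z l).charpoly = ∏ i, (Polynomial.X - Polynomial.C (γ l i))) →
          (A * (List.ofFn Z).prod * B).charpoly = ∏ i, (Polynomial.X - Polynomial.C (δ i)) →
          MvPolynomial.eval (fun x => Sum.elim ![A, B] Z x.1 x.2.1 x.2.2) P = 0) →
        ∀ (A B : Matrix (Fin (n + 1)) (Fin (n + 1)) ℂ)
          (Z : Fin m → Matrix (Fin (n + 1)) (Fin (n + 1)) ℂ),
          A.charpoly = ∏ i, (Polynomial.X - Polynomial.C (α i)) →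
          B.charpoly = ∏ i, (Polynomial.X - Polynomial.C (β i)) →
          (∀ l, (Z l).charpoly = ∏ i, (Polynomial.X - Polynomial.C (γ l i))) →
          (A * (List.ofFn Z).prod * B).charpoly = ∏ i, (Polynomial.X - Polynomial.C (δ i)) →
          MvPolynomial.eval (fun x => Sum.elim ![A, B] Z x.1 x.2.1 x.2.2) P = 0 := by
  obtain ⟨L, hfin, F, ⟨A₀, B₀, Z₀, a1, a2, a3, a4, hF₀⟩, hdens⟩ :=
    spheres_open n m α β δ γ hα hβ hδ hγ hαi hβi hα1 hβ1 hδ1 hγ1
  refine ⟨L, hfin, fun P hP => ?_⟩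
  rcases hirr P F (fun A B Z hA hB hZ hN => by
    rw [map_mul]
    by_cases hF : MvPolynomial.eval (fun x => Sum.elim ![A, B] Z x.1 x.2.1 x.2.2) F = 0
    · rw [hF, mul_zero]
    · rw [hdens P hP A B Z hA hB hZ hN hF, zero_mul]) with h | h
  · exact h
  · exact absurd (h A₀ B₀ Z₀ a1 a2 a3 a4) hF₀

end Vale.Agent.Lib.P002
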