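import Vale.Agent.Lib.P002.SoFrame

/-!
The genericity function of a tuple of matrices: a polynomial expression in the entries whose
nonvanishing makes the tuple a simultaneous conjugate of a chart tuple.
-/

namespace Vale.Agent.Lib.P002

open Matrix

section Gen

variable {S : Type*} [CommRing S]

/-- The genericity function of a tuple (A, B, Z). -/
noncomputable def genF (k m : ℕ) (α β : Fin (k + 1) → S)
    (A B : Matrix (Fin (k + 1)) (Fin (k + 1)) S)
    (Z : Fin m → Matrix (Fin (k + 1)) (Fin (k + 1)) S) : S :=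
  (eigM α A).det * trailDet (k + 1) ((eigM α A).adjugate * eigM β B) *
    (∏ l : Fin m, trailDet (k + 1)
      ((eigM α A).adjugate * (((List.ofFn Z).drop (l : ℕ)).prod * B) * eigM β B)) *
    (∏ l : Fin m, (kry (Z l) (fun i => eigM α A i 0)).det) *
    (kry (A * (List.ofFn Z).prod * B) (fun i => eigM α A i 0)).det

variable {T : Type*} [CommRing T] (f : S →+* T) {n : ℕ}

theorem map_list_prod' : ∀ L : List (Matrix (Fin n) (Fin n) S),
    (L.prod).map f = (L.map fun M => M.map f).prod := by
  intro L
  induction L with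
  | nil => simp
  | cons M L ih => rw [List.prod_cons, Matrix.map_mul, ih, List.map_cons, List.prod_cons]

theorem map_drop_prod (m : ℕ) (Z : Fin m → Matrix (Fin n) (Fin n) S) (l : ℕ) :
    (((List.ofFn Z).drop l).prod).map f = ((List.ofFn fun j => (Z j).map f).drop l).prod := by
  have h1 : (List.ofFn fun j => (Z j).map f) = (List.ofFn Z).map fun M => M.map f := by
    rw [List.map_ofFn]
    rfl
  rw [h1, ← List.map_drop, map_list_prod']

theorem map_det' (M : Matrix (Fin n) (Fin n) S) : f M.det = (M.map f).det := by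
  rw [RingHom.map_det]
  rfl

/-- The genericity function commutes with ring homomorphisms. -/
theorem map_genF (k m : ℕ) (α β : Fin (k + 1) → S)
    (A B : Matrix (Fin (k + 1)) (Fin (k + 1)) S)
    (Z : Fin m → Matrix (Fin (k + 1)) (Fin (k + 1)) S) :
    f (genF k m α β A B Z) =
      genF k m (fun i => f (α i)) (fun i => f (β i)) (A.map f) (B.map f)
        (fun l => (Z l).map f) := by
  have e1 : (eigM α A).map f = eigM (fun i => f (α i)) (A.map f) := eigM_map f α A
  have e2 : (eigM β B).map f = eigM (fun i => f (β i)) (B.map f) := eigM_map f β B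
  have e3 : (fun i => f (eigM α A i 0)) = fun i => eigM (fun i => f (α i)) (A.map f) i 0 := by
    funext i
    rw [← e1]
    rfl
  have t1 : f (eigM α A).det = (eigM (fun i => f (α i)) (A.map f)).det := by
    rw [map_det', e1]
  have t2 : f (trailDet (k + 1) ((eigM α A).adjugate * eigM β B)) =
      trailDet (k + 1) ((eigM (fun i => f (α i)) (A.map f)).adjugate *
        eigM (fun i => f (β i)) (B.map f)) := by
    rw [map_trailDet, Matrix.map_mul, map_adjugate', e1, e2]
  have t3 : ∀ l : Fin m, f (trailDet (k + 1)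
      ((eigM α A).adjugate * (((List.ofFn Z).drop (l : ℕ)).prod * B) * eigM β B)) =
      trailDet (k + 1) ((eigM (fun i => f (α i)) (A.map f)).adjugate *
        (((List.ofFn fun j => (Z j).map f).drop (l : ℕ)).prod * B.map f) *
        eigM (fun i => f (β i)) (B.map f)) := by
    intro l
    rw [map_trailDet, Matrix.map_mul, Matrix.map_mul, Matrix.map_mul, map_adjugate', e1, e2,
      map_drop_prod]
  have t4 : ∀ l : Fin m, f (kry (Z l) (fun i => eigM α A i 0)).det =
      (kry ((Z l).map f) (fun i => eigM (fun i => f (α i)) (A.map f) i 0)).det := by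
    intro l
    rw [map_det', kry_map, e3]
  have t5 : f (kry (A * (List.ofFn Z).prod * B) (fun i => eigM α A i 0)).det =
      (kry (A.map f * (List.ofFn fun l => (Z l).map f).prod * B.map f)
        (fun i => eigM (fun i => f (α i)) (A.map f) i 0)).det := by
    rw [map_det', kry_map, e3, Matrix.map_mul, Matrix.map_mul, map_prod_ofFn]
  unfold genF
  rw [map_mul, map_mul, map_mul, map_mul, map_prod, map_prod, t1, t2, t5]
  simp only [t3, t4]

end Gen

/-- The universal matrix with index c. -/
noncomputable def uMat (k m : ℕ) (c : Fin 2 ⊕ Fin m) :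
    Matrix (Fin (k + 1)) (Fin (k + 1))
      (MvPolynomial ((Fin 2 ⊕ Fin m) × Fin (k + 1) × Fin (k + 1)) ℂ) :=
  Matrix.of fun i j => MvPolynomial.X (c, i, j)

/-- The genericity polynomial. -/
noncomputable def polyF (k m : ℕ) (α β : Fin (k + 1) → ℂ) :
    MvPolynomial ((Fin 2 ⊕ Fin m) × Fin (k + 1) × Fin (k + 1)) ℂ :=
  genF k m (fun i => MvPolynomial.C (α i)) (fun i => MvPolynomial.C (β i))
    (uMat k m (Sum.inl 0)) (uMat k m (Sum.inl 1)) (fun l => uMat k m (Sum.inr l))

/-- The value of the genericity polynomial at a tuple is the genericity function. -/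
theorem eval_polyF (k m : ℕ) (α β : Fin (k + 1) → ℂ)
    (A B : Matrix (Fin (k + 1)) (Fin (k + 1)) ℂ)
    (Z : Fin m → Matrix (Fin (k + 1)) (Fin (k + 1)) ℂ) :
    MvPolynomial.eval (fun x => Sum.elim ![A, B] Z x.1 x.2.1 x.2.2) (polyF k m α β) =
      genF k m α β A B Z := by
  rw [polyF, map_genF]
  have h1 : (fun i => MvPolynomial.eval
      (fun x : (Fin 2 ⊕ Fin m) × Fin (k + 1) × Fin (k + 1) => Sum.elim ![A, B] Z x.1 x.2.1 x.2.2)
      (MvPolynomial.C (α i))) = α := by
    funext i
    rw [MvPolynomial.eval_C]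
  have h2 : (fun i => MvPolynomial.eval
      (fun x : (Fin 2 ⊕ Fin m) × Fin (k + 1) × Fin (k + 1) => Sum.elim ![A, B] Z x.1 x.2.1 x.2.2)
      (MvPolynomial.C (β i))) = β := by
    funext i
    rw [MvPolynomial.eval_C]
  have h3 : (uMat k m (Sum.inl 0)).map (MvPolynomial.eval
      (fun x : (Fin 2 ⊕ Fin m) × Fin (k + 1) × Fin (k + 1) =>
        Sum.elim ![A, B] Z x.1 x.2.1 x.2.2)) = A := by
    ext i j
    simp [uMat]
  have h4 : (uMat k m (Sum.inl 1)).map (MvPolynomial.eval
      (fun x : (Fin 2 ⊕ Fin m) × Fin (k + 1) × Fin (k + 1) =>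
        Sum.elim ![A, B] Z x.1 x.2.1 x.2.2)) = B := by
    ext i j
    simp [uMat]
  have h5 : (fun l => (uMat k m (Sum.inr l)).map (MvPolynomial.eval
      (fun x : (Fin 2 ⊕ Fin m) × Fin (k + 1) × Fin (k + 1) =>
        Sum.elim ![A, B] Z x.1 x.2.1 x.2.2))) = Z := by
    funext l
    ext i j
    simp [uMat]
  rw [h1, h2, h3, h4, h5]

end Vale.Agent.Lib.P002
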