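import Vale.Agent.Lib.P002.SoEig

/-!
The product of the determinants of the trailing square blocks of a matrix, and the
factorization of a matrix with nonzero trailing determinants as a product of an upper triangular
matrix with unit diagonal and a lower triangular matrix.
-/

namespace Vale.Agent.Lib.P002

open Matrix

section Trail

variable {S : Type*} [CommRing S]

/-- The product of the determinants of the trailing square blocks. -/
def trailDet : (k : ℕ) → Matrix (Fin k) (Fin k) S → S
  | 0, _ => 1
  | k + 1, M => M.det * trailDet k (M.submatrix Fin.succ Fin.succ)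

theorem trailDet_zero (M : Matrix (Fin 0) (Fin 0) S) : trailDet 0 M = 1 := rfl

theorem trailDet_succ (k : ℕ) (M : Matrix (Fin (k + 1)) (Fin (k + 1)) S) :
    trailDet (k + 1) M = M.det * trailDet k (M.submatrix Fin.succ Fin.succ) := rfl

theorem map_trailDet {T : Type*} [CommRing T] (f : S →+* T) :
    ∀ (k : ℕ) (M : Matrix (Fin k) (Fin k) S), f (trailDet k M) = trailDet k (M.map f) := by
  intro k
  induction k with
  | zero =>
    intro M
    rw [trailDet_zero, trailDet_zero, map_one]
  | succ k ih =>
    intro M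
    rw [trailDet_succ, trailDet_succ, map_mul, ih, RingHom.map_det]
    rfl

theorem submatrix_ut_mul {k : ℕ} {X : Matrix (Fin (k + 1)) (Fin (k + 1)) S}
    (hX : ∀ i j, j < i → X i j = 0) (M : Matrix (Fin (k + 1)) (Fin (k + 1)) S) :
    (X * M).submatrix Fin.succ Fin.succ =
      X.submatrix Fin.succ Fin.succ * M.submatrix Fin.succ Fin.succ := by
  ext i j
  rw [Matrix.submatrix_apply, Matrix.mul_apply, Matrix.mul_apply, Fin.sum_univ_succ,
    hX i.succ 0 (Fin.succ_pos i), zero_mul, zero_add]
  rfl

theorem submatrix_mul_lt {k : ℕ} {Y : Matrix (Fin (k + 1)) (Fin (k + 1)) S}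
    (hY : ∀ i j, i < j → Y i j = 0) (M : Matrix (Fin (k + 1)) (Fin (k + 1)) S) :
    (M * Y).submatrix Fin.succ Fin.succ =
      M.submatrix Fin.succ Fin.succ * Y.submatrix Fin.succ Fin.succ := by
  ext i j
  rw [Matrix.submatrix_apply, Matrix.mul_apply, Matrix.mul_apply, Fin.sum_univ_succ,
    hY 0 j.succ (Fin.succ_pos j), mul_zero, zero_add]
  rfl

/-- The trailing determinants are multiplicative for products with triangular matrices. -/
theorem trailDet_mul_ut_lt : ∀ (k : ℕ) (X M Y : Matrix (Fin k) (Fin k) S),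
    (∀ i j, j < i → X i j = 0) → (∀ i j, i < j → Y i j = 0) →
    trailDet k (X * M * Y) = trailDet k X * trailDet k M * trailDet k Y := by
  intro k
  induction k with
  | zero =>
    intro X M Y _ _
    simp [trailDet_zero]
  | succ k ih =>
    intro X M Y hX hY
    rw [trailDet_succ, trailDet_succ, trailDet_succ, trailDet_succ, submatrix_mul_lt hY,
      submatrix_ut_mul hX, ih (X.submatrix Fin.succ Fin.succ) (M.submatrix Fin.succ Fin.succ)
        (Y.submatrix Fin.succ Fin.succ)
        (fun i j hij => hX i.succ j.succ (Fin.succ_lt_succ_iff.mpr hij))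
        (fun i j hij => hY i.succ j.succ (Fin.succ_lt_succ_iff.mpr hij)),
      Matrix.det_mul, Matrix.det_mul]
    ring

theorem trailDet_ut_ne_zero [IsDomain S] : ∀ (k : ℕ) (X : Matrix (Fin k) (Fin k) S),
    (∀ i j, j < i → X i j = 0) → (∀ i, X i i ≠ 0) → trailDet k X ≠ 0 := by
  intro k
  induction k with
  | zero =>
    intro X _ _
    rw [trailDet_zero]
    exact one_ne_zero
  | succ k ih =>
    intro X hX hX0
    rw [trailDet_succ]
    refine mul_ne_zero ?_ (ih _ (fun i j hij => hX i.succ j.succ (Fin.succ_lt_succ_iff.mpr hij))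
      fun i => hX0 i.succ)
    rw [det_ut hX]
    exact Finset.prod_ne_zero_iff.mpr fun i _ => hX0 i

theorem trailDet_lt_ne_zero [IsDomain S] : ∀ (k : ℕ) (Y : Matrix (Fin k) (Fin k) S),
    (∀ i j, i < j → Y i j = 0) → (∀ i, Y i i ≠ 0) → trailDet k Y ≠ 0 := by
  intro k
  induction k with
  | zero =>
    intro Y _ _
    rw [trailDet_zero]
    exact one_ne_zero
  | succ k ih =>
    intro Y hY hY0
    rw [trailDet_succ]
    refine mul_ne_zero ?_ (ih _ (fun i j hij => hY i.succ j.succ (Fin.succ_lt_succ_iff.mpr hij))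
      fun i => hY0 i.succ)
    rw [det_lt hY]
    exact Finset.prod_ne_zero_iff.mpr fun i _ => hY0 i

/-- Multiplying by triangular matrices with nonzero diagonals preserves the nonvanishing of
the trailing determinants. -/
theorem trailDet_conj_ne_zero [IsDomain S] (k : ℕ) (X M Y : Matrix (Fin k) (Fin k) S)
    (hX : ∀ i j, j < i → X i j = 0) (hX0 : ∀ i, X i i ≠ 0) (hY : ∀ i j, i < j → Y i j = 0)
    (hY0 : ∀ i, Y i i ≠ 0) (hM : trailDet k M ≠ 0) : trailDet k (X * M * Y) ≠ 0 := by
  rw [trailDet_mul_ut_lt k X M Y hX hY]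
  exact mul_ne_zero (mul_ne_zero (trailDet_ut_ne_zero k X hX hX0) hM)
    (trailDet_lt_ne_zero k Y hY hY0)

theorem trailDet_ut_mul_lt_ne_zero [IsDomain S] (k : ℕ) (X Y : Matrix (Fin k) (Fin k) S)
    (hX : ∀ i j, j < i → X i j = 0) (hX0 : ∀ i, X i i ≠ 0) (hY : ∀ i j, i < j → Y i j = 0)
    (hY0 : ∀ i, Y i i ≠ 0) : trailDet k (X * Y) ≠ 0 := by
  have h := trailDet_conj_ne_zero k X 1 Y hX hX0 hY hY0
    (trailDet_ut_ne_zero k 1 (fun i j hij => Matrix.one_apply_ne hij.ne')
      fun i => by rw [Matrix.one_apply_eq]; exact one_ne_zero)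
  rw [Matrix.mul_one] at h
  exact h

theorem trailDet_smul_ne_zero [IsDomain S] (k : ℕ) (c : S) (hc : c ≠ 0)
    (M : Matrix (Fin k) (Fin k) S) (hM : trailDet k M ≠ 0) : trailDet k (c • M) ≠ 0 := by
  have h := trailDet_conj_ne_zero k (c • (1 : Matrix (Fin k) (Fin k) S)) M 1
    (fun i j hij => by rw [Matrix.smul_apply, Matrix.one_apply_ne hij.ne', smul_zero])
    (fun i => by rw [Matrix.smul_apply, Matrix.one_apply_eq, smul_eq_mul, mul_one]; exact hc)
    (fun i j hij => Matrix.one_apply_ne hij.ne)
    (fun i => by rw [Matrix.one_apply_eq]; exact one_ne_zero) hM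
  rw [Matrix.mul_one, Matrix.smul_mul, Matrix.one_mul] at h
  exact h

theorem trailDet_ne_zero_det : ∀ (k : ℕ) (M : Matrix (Fin k) (Fin k) S) [Nontrivial S],
    trailDet k M ≠ 0 → M.det ≠ 0 := by
  intro k
  cases k with
  | zero =>
    intro M _ _
    rw [Matrix.det_fin_zero]
    exact one_ne_zero
  | succ k =>
    intro M _ h
    rw [trailDet_succ] at h
    exact left_ne_zero_of_mul h

end Trail

/-- A matrix with nonzero trailing determinants is the product of an upper triangular matrix
with unit diagonal and a lower triangular matrix. -/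
theorem exists_ul {K : Type*} [Field K] : ∀ (k : ℕ) (M : Matrix (Fin k) (Fin k) K),
    trailDet k M ≠ 0 → ∃ V T : Matrix (Fin k) (Fin k) K, (∀ i j, j < i → V i j = 0) ∧
      (∀ i, V i i = 1) ∧ (∀ i j, i < j → T i j = 0) ∧ M = V * T := by
  intro k
  induction k with
  | zero =>
    intro M _
    refine ⟨1, 1, fun i => i.elim0, fun i => i.elim0, fun i => i.elim0, ?_⟩
    ext i
    exact i.elim0
  | succ k ih =>
    intro M hM
    rw [trailDet_succ] at hM
    obtain ⟨V, T, hV, hV1, hT, hVT⟩ := ih _ (right_ne_zero_of_mul hM)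
    have hdetM : (M.submatrix Fin.succ Fin.succ).det ≠ 0 :=
      trailDet_ne_zero_det k _ (right_ne_zero_of_mul hM)
    have hVdet : V.det = 1 := by
      rw [det_ut hV]
      simp [hV1]
    have hTdet : T.det ≠ 0 := by
      rw [hVT, Matrix.det_mul, hVdet, one_mul] at hdetM
      exact hdetM
    have hTu : IsUnit T.det := isUnit_iff_ne_zero.mpr hTdet
    set y : Fin k → K := fun j => M 0 j.succ with hy
    set z : Fin k → K := fun i => M i.succ 0 with hz
    set ρ : Fin k → K := y ᵥ* T⁻¹ with hρ
    set c : Fin k → K := V.adjugate *ᵥ z with hc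
    refine ⟨bmat 1 ρ 0 V, bmat (M 0 0 - ρ ⬝ᵥ c) 0 c T, ?_, ?_, ?_, ?_⟩
    · intro i j
      refine Fin.cases ?_ (fun i => ?_) i <;> refine Fin.cases ?_ (fun j => ?_) j
      · intro h
        exact absurd h (lt_irrefl _)
      · intro h
        exact absurd h (Fin.not_lt_zero _)
      · intro _
        simp
      · intro h
        rw [bmat_succ_succ]
        exact hV i j (Fin.succ_lt_succ_iff.mp h)
    · intro i
      refine Fin.cases ?_ (fun i => ?_) i
      · simp
      · rw [bmat_succ_succ]
        exact hV1 i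
    · intro i j
      refine Fin.cases ?_ (fun i => ?_) i <;> refine Fin.cases ?_ (fun j => ?_) j
      · intro h
        exact absurd h (lt_irrefl _)
      · intro _
        simp
      · intro h
        exact absurd h (Fin.not_lt_zero _)
      · intro h
        rw [bmat_succ_succ]
        exact hT i j (Fin.succ_lt_succ_iff.mp h)
    · rw [bmat_mul]
      conv_lhs => rw [eq_bmat M]
      congr 1
      · ring
      · rw [hρ, smul_zero, zero_add, Matrix.vecMul_vecMul, Matrix.nonsing_inv_mul _ hTu,
          Matrix.vecMul_one]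
      · rw [hc, smul_zero, zero_add, Matrix.mulVec_mulVec, mul_adjugate_of_det hVdet,
          Matrix.one_mulVec]
      · rw [hVT]
        simp

end Vale.Agent.Lib.P002
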