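import Vale.Agent.Lib.P002.SphFam

/-!
Chains of pairs: Laurent families of tuples of 3 x 3 matrices with prescribed characteristic
polynomials whose partial products are factored as upper triangular times lower unitriangular.
-/

namespace Vale.Agent.Lib.P002

open Matrix

section

variable {L : IntermediateField ℚ ℂ}

/-- The diagonal of a product of upper triangular matrices. -/
theorem IsUT.mul_diag {U V : Matrix (Fin 3) (Fin 3) ℂ} (hU : IsUT U) (hV : IsUT V) (i : Fin 3) :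
    (U * V) i i = U i i * V i i := by
  obtain ⟨a, b, c⟩ := hU
  obtain ⟨d, e, f⟩ := hV
  fin_cases i <;> simp [Matrix.mul_apply, Fin.sum_univ_three, a, b, c, d, e, f]

/-- One step of the chain: a new matrix Y is absorbed into the factored partial product. -/
theorem chain_step {ι : Type} [Fintype ι] (Uf Lf : (ι → ℂˣ) → Matrix (Fin 3) (Fin 3) ℂ)
    (s₀ : ι → ℂˣ) (hU : GoodM L Uf) (hL : GoodM L Lf)
    (hUT : ∀ s, IsUT (Uf s) ∧ (Uf s).det = 1) (hLU : ∀ s, IsLU (Lf s))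
    (Y : Matrix (Fin 3) (Fin 3) ℂ) (c : Fin 3 → ℂ) (hc : ∀ i, c i ∈ ringO L)
    (hc1 : c 0 * c 1 * c 2 = 1)
    (hchar : Y.charpoly = ∏ i, (Polynomial.X - Polynomial.C (c i)))
    (hcor : cornerNZ Y) (hne : noEigPlane Y) (htr : trailNZ (Uf s₀ * Lf s₀ * Y)) :
    ∃ (Yf Uf' Lf' : ((ι ⊕ Fin 2) ⊕ Fin 4 → ℂˣ) → Matrix (Fin 3) (Fin 3) ℂ)
      (s₁ : (ι ⊕ Fin 2) ⊕ Fin 4 → ℂˣ),
      (s₁ ∘ Sum.inl) ∘ Sum.inl = s₀ ∧ GoodM L Yf ∧ GoodM L Uf' ∧ GoodM L Lf' ∧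
      (∀ s, IsUT (Uf' s) ∧ (Uf' s).det = 1) ∧ (∀ s, IsLU (Lf' s)) ∧
      (∀ s, Uf ((s ∘ Sum.inl) ∘ Sum.inl) * Lf ((s ∘ Sum.inl) ∘ Sum.inl) * Yf s =
        Uf' s * Lf' s) ∧
      (∀ s, (Yf s).charpoly = ∏ i, (Polynomial.X - Polynomial.C (c i))) ∧ Yf s₁ = Y := by
  obtain ⟨hU0, hU0d⟩ := hUT s₀
  have hL0 := hLU s₀
  have hYdet : Y.det = 1 := by rw [(of_charpoly_eq_prod Y c hchar).2.2, hc1]
  have hKdet : (Uf s₀ * Lf s₀ * Y).det = 1 := by
    rw [Matrix.det_mul, Matrix.det_mul, hU0d, hL0.det, hYdet]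
    norm_num
  obtain ⟨U', L', hU', hU'd, hL', hK⟩ := exists_UL _ hKdet htr
  -- the pair
  obtain ⟨P, hPdef⟩ : ∃ P, P = (Uf s₀).adjugate * U' := ⟨_, rfl⟩
  obtain ⟨Q, hQdef⟩ : ∃ Q, Q = L' * (Lf s₀).adjugate := ⟨_, rfl⟩
  have hP : IsUT P := by
    rw [hPdef]
    exact hU0.adjugate.mul hU'
  have hQ : IsLU Q := by
    rw [hQdef]
    exact hL'.mul hL0.adjugate
  have hPdet : P.det = 1 := by
    rw [hPdef, Matrix.det_mul, Matrix.det_adjugate, hU0d, hU'd]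
    norm_num
  have hPQ : P * Q = Lf s₀ * Y * (Lf s₀).adjugate := by
    calc P * Q = (Uf s₀).adjugate * (U' * L') * (Lf s₀).adjugate := by
          simp only [hPdef, hQdef, Matrix.mul_assoc]
      _ = ((Uf s₀).adjugate * Uf s₀) * (Lf s₀ * Y) * (Lf s₀).adjugate := by
          rw [← hK]
          simp only [Matrix.mul_assoc]
      _ = Lf s₀ * Y * (Lf s₀).adjugate := by
          rw [adjugate_mul_of_det hU0d, Matrix.one_mul]
  have hPd3 : P 0 0 * P 1 1 * P 2 2 = 1 := by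
    rw [← hP.det]
    exact hPdet
  have h00 : P 0 0 ≠ 0 := by
    intro h
    rw [h] at hPd3
    simp at hPd3
  have h11 : P 1 1 ≠ 0 := by
    intro h
    rw [h] at hPd3
    simp at hPd3
  -- the diagonal family
  obtain ⟨af, haf_def⟩ : ∃ af : (ι ⊕ Fin 2 → ℂˣ) → Fin 3 → ℂ, af = fun s =>
      ![(s (Sum.inr 0) : ℂ), (s (Sum.inr 1) : ℂ),
        (((s (Sum.inr 0))⁻¹ : ℂˣ) : ℂ) * (((s (Sum.inr 1))⁻¹ : ℂˣ) : ℂ)] := ⟨_, rfl⟩
  obtain ⟨aif, haif_def⟩ : ∃ aif : (ι ⊕ Fin 2 → ℂˣ) → Fin 3 → ℂ, aif = fun s =>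
      ![(((s (Sum.inr 0))⁻¹ : ℂˣ) : ℂ), (((s (Sum.inr 1))⁻¹ : ℂˣ) : ℂ),
        (s (Sum.inr 0) : ℂ) * (s (Sum.inr 1) : ℂ)] := ⟨_, rfl⟩
  have haf : ∀ i, Good L (fun s => af s i) := by
    intro i
    rw [haf_def]
    fin_cases i
    · exact Good.coord L (Sum.inr 0)
    · exact Good.coord L (Sum.inr 1)
    · exact (Good.coord_inv L (Sum.inr 0)).mul (Good.coord_inv L (Sum.inr 1))
  have haif : ∀ i, Good L (fun s => aif s i) := by
    intro i
    rw [haif_def]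
    fin_cases i
    · exact Good.coord_inv L (Sum.inr 0)
    · exact Good.coord_inv L (Sum.inr 1)
    · exact (Good.coord L (Sum.inr 0)).mul (Good.coord L (Sum.inr 1))
  have hinv : ∀ s i, af s i * aif s i = 1 := by
    intro s i
    rw [haf_def, haif_def]
    fin_cases i
    · simp
    · simp
    · simp
      field_simp
  have hprod : ∀ s, af s 0 * af s 1 * af s 2 = 1 := by
    intro s
    rw [haf_def]
    simp
    field_simp
  obtain ⟨s', hs'0, hs'1, hs'2⟩ : ∃ s' : ι ⊕ Fin 2 → ℂˣ, s' ∘ Sum.inl = s₀ ∧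
      s' (Sum.inr 0) = Units.mk0 _ h00 ∧ s' (Sum.inr 1) = Units.mk0 _ h11 :=
    ⟨Sum.elim s₀ ![Units.mk0 _ h00, Units.mk0 _ h11], rfl, rfl, rfl⟩
  have hPd : ∀ i, P i i = af s' i := by
    intro i
    rw [haf_def]
    fin_cases i
    · simp [hs'1]
    · simp [hs'2]
    · simp [hs'1, hs'2]
      field_simp
      linear_combination hPd3
  have hcorP : cornerNZ P := by
    have e1 : P = P * Q * Q.adjugate := by
      rw [Matrix.mul_assoc, mul_adjugate_of_det hQ.det, Matrix.mul_one]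
    rw [e1, cornerNZ_mul_right hQ.adjugate, hPQ, cornerNZ_mul_right hL0.adjugate,
      cornerNZ_mul_left hL0]
    exact hcor
  have hcharPQ : (P * Q).charpoly = ∏ i, (Polynomial.X - Polynomial.C (c i)) := by
    rw [hPQ, charpoly_conj _ _ _ (adjugate_mul_of_det hL0.det)]
    exact hchar
  have hnePQ : noEigPlane (P * Q) := by
    rw [hPQ]
    exact noEigPlane_conj hL0 hne
  obtain ⟨Pf, Qf, hPf, hQf, hPUT, hQLT, hPQchar, s₁, hs₁, hPs₁, hQs₁⟩ :=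
    exists_pair_family af aif haf haif hinv hprod (fun _ => 1) c
      (fun _ => Subring.one_mem _) hc (by norm_num) hc1 s' P Q hP hPd
      ⟨hQ.1, hQ.2.1, hQ.2.2.1⟩
      (fun i => by
        fin_cases i
        · exact hQ.2.2.2.1
        · exact hQ.2.2.2.2.1
        · exact hQ.2.2.2.2.2) hcorP hcharPQ hnePQ
  have hinj : Function.Injective (Sum.inl ∘ Sum.inl : ι → (ι ⊕ Fin 2) ⊕ Fin 4) :=
    Sum.inl_injective.comp Sum.inl_injective
  have hUe : GoodM L (fun s : (ι ⊕ Fin 2) ⊕ Fin 4 → ℂˣ => Uf ((s ∘ Sum.inl) ∘ Sum.inl)) :=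
    hU.comp_injective _ hinj
  have hLe : GoodM L (fun s : (ι ⊕ Fin 2) ⊕ Fin 4 → ℂˣ => Lf ((s ∘ Sum.inl) ∘ Sum.inl)) :=
    hL.comp_injective _ hinj
  have hbase : (s₁ ∘ Sum.inl) ∘ Sum.inl = s₀ := by
    rw [hs₁]
    exact hs'0
  refine ⟨fun s => (Lf ((s ∘ Sum.inl) ∘ Sum.inl)).adjugate * Pf s * Qf s *
      Lf ((s ∘ Sum.inl) ∘ Sum.inl),
    fun s => Uf ((s ∘ Sum.inl) ∘ Sum.inl) * Pf s,
    fun s => Qf s * Lf ((s ∘ Sum.inl) ∘ Sum.inl), s₁, hbase, ?_, ?_, ?_, ?_, ?_, ?_, ?_, ?_⟩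
  · exact ((hLe.adjugate.mul hPf).mul hQf).mul hLe
  · exact hUe.mul hPf
  · exact hQf.mul hLe
  · intro s
    refine ⟨(hUT _).1.mul (hPUT s).1, ?_⟩
    rw [Matrix.det_mul, (hUT _).2, one_mul, (hPUT s).1.det, (hPUT s).2 0, (hPUT s).2 1,
      (hPUT s).2 2]
    exact hprod _
  · intro s
    have h := hQLT s
    exact IsLU.mul ⟨h.1.1, h.1.2.1, h.1.2.2, h.2 0, h.2 1, h.2 2⟩ (hLU _)
  · intro s
    simp only [Matrix.mul_assoc]
    rw [← Matrix.mul_assoc (Lf ((s ∘ Sum.inl) ∘ Sum.inl)) (Lf ((s ∘ Sum.inl) ∘ Sum.inl)).adjugate,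
      mul_adjugate_of_det (hLU _).det, Matrix.one_mul]
  · intro s
    have e1 : (Lf ((s ∘ Sum.inl) ∘ Sum.inl)).adjugate * Pf s * Qf s *
        Lf ((s ∘ Sum.inl) ∘ Sum.inl) = (Lf ((s ∘ Sum.inl) ∘ Sum.inl)).adjugate *
        (Pf s * Qf s) * Lf ((s ∘ Sum.inl) ∘ Sum.inl) := by
      simp only [Matrix.mul_assoc]
    beta_reduce
    rw [e1, charpoly_conj _ _ _ (mul_adjugate_of_det (hLU _).det)]
    exact hPQchar s
  · beta_reduce
    rw [hbase, hPs₁, hQs₁, Matrix.mul_assoc _ P Q, hPQ]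
    calc (Lf s₀).adjugate * (Lf s₀ * Y * (Lf s₀).adjugate) * Lf s₀ =
        ((Lf s₀).adjugate * Lf s₀) * Y * ((Lf s₀).adjugate * Lf s₀) := by
          simp only [Matrix.mul_assoc]
      _ = Y := by rw [adjugate_mul_of_det hL0.det, Matrix.one_mul, Matrix.mul_one]

/-- The chain: every tuple of matrices with prescribed characteristic polynomials, nonzero
corner minors, no eigenvector in the coordinate plane, and nonzero trailing minors of the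
partial products, lies in a Good family of such tuples along which the product stays
factored. -/
theorem chain_family (l : List (Matrix (Fin 3) (Fin 3) ℂ)) :
    ∀ (cs : List (Fin 3 → ℂ)),
      List.Forall₂ (fun Y c => (∀ i, c i ∈ ringO L) ∧ c 0 * c 1 * c 2 = 1 ∧
        Y.charpoly = ∏ i, (Polynomial.X - Polynomial.C (c i)) ∧ cornerNZ Y ∧ noEigPlane Y)
        l cs →
      ∀ (ι : Type) [Fintype ι] (Uf Lf : (ι → ℂˣ) → Matrix (Fin 3) (Fin 3) ℂ) (s₀ : ι → ℂˣ),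
        GoodM L Uf → GoodM L Lf → (∀ s, IsUT (Uf s) ∧ (Uf s).det = 1) → (∀ s, IsLU (Lf s)) →
        (∀ j, trailNZ (Uf s₀ * Lf s₀ * (l.take j).prod)) →
        ∃ (ι' : Type) (_ : Fintype ι') (e : ι → ι')
          (lf : List ((ι' → ℂˣ) → Matrix (Fin 3) (Fin 3) ℂ))
          (Uf' Lf' : (ι' → ℂˣ) → Matrix (Fin 3) (Fin 3) ℂ) (s₁ : ι' → ℂˣ),
          Function.Injective e ∧ s₁ ∘ e = s₀ ∧ GoodM L Uf' ∧ GoodM L Lf' ∧
          (∀ s, IsUT (Uf' s) ∧ (Uf' s).det = 1) ∧ (∀ s, IsLU (Lf' s)) ∧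
          (∀ Yf ∈ lf, GoodM L Yf) ∧
          (∀ s, Uf (s ∘ e) * Lf (s ∘ e) * (lf.map fun Yf => Yf s).prod = Uf' s * Lf' s) ∧
          (∀ s, List.Forall₂
            (fun Y c => Y.charpoly = ∏ i, (Polynomial.X - Polynomial.C (c i)))
            (lf.map fun Yf => Yf s) cs) ∧
          (lf.map fun Yf => Yf s₁) = l := by
  induction l with
  | nil =>
    intro cs h ι _ Uf Lf s₀ hU hL hUT hLU _
    cases h
    exact ⟨ι, inferInstance, id, [], Uf, Lf, s₀, Function.injective_id, rfl, hU, hL, hUT, hLU,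
      by simp, by simp, by simp, rfl⟩
  | cons Y l ih =>
    intro cs h ι _ Uf Lf s₀ hU hL hUT hLU htr
    cases h with
    | cons hYc hrest =>
      rename_i c cs'
      obtain ⟨hc, hc1, hchar, hcor, hne⟩ := hYc
      have h1 : trailNZ (Uf s₀ * Lf s₀ * Y) := by simpa using htr 1
      obtain ⟨Yf, Uf₁, Lf₁, s₁, hs₁, hYf, hU₁, hL₁, hUT₁, hLU₁, hprod₁, hchar₁, hYs₁⟩ :=
        chain_step Uf Lf s₀ hU hL hUT hLU Y c hc hc1 hchar hcor hne h1
      have htr₁ : ∀ j, trailNZ (Uf₁ s₁ * Lf₁ s₁ * (l.take j).prod) := by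
        intro j
        have h2 := htr (j + 1)
        rw [List.take_succ_cons, List.prod_cons] at h2
        rw [← hprod₁ s₁, hs₁, hYs₁]
        simpa only [Matrix.mul_assoc] using h2
      obtain ⟨ι₂, _, e₂, lf₂, Uf₂, Lf₂, s₂, he₂, hs₂, hU₂, hL₂, hUT₂, hLU₂, hlf₂, hprod₂,
          hchar₂, hbase₂⟩ :=
        ih cs' hrest ((ι ⊕ Fin 2) ⊕ Fin 4) Uf₁ Lf₁ s₁ hU₁ hL₁ hUT₁ hLU₁ htr₁
      refine ⟨ι₂, inferInstance, e₂ ∘ Sum.inl ∘ Sum.inl, (fun s => Yf (s ∘ e₂)) :: lf₂, Uf₂,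
        Lf₂, s₂, he₂.comp (Sum.inl_injective.comp Sum.inl_injective), ?_, hU₂, hL₂, hUT₂, hLU₂,
        ?_, ?_, ?_, ?_⟩
      · rw [← hs₁, ← hs₂]
        rfl
      · intro Yf' hmem
        rcases List.mem_cons.mp hmem with rfl | hmem
        · exact hYf.comp_injective e₂ he₂
        · exact hlf₂ _ hmem
      · intro s
        have ha := hprod₁ (s ∘ e₂)
        have hb := hprod₂ s
        simp only [List.map_cons, List.prod_cons]
        calc Uf (s ∘ e₂ ∘ Sum.inl ∘ Sum.inl) * Lf (s ∘ e₂ ∘ Sum.inl ∘ Sum.inl) *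
              (Yf (s ∘ e₂) * (lf₂.map fun Yf => Yf s).prod)
            = (Uf (((s ∘ e₂) ∘ Sum.inl) ∘ Sum.inl) * Lf (((s ∘ e₂) ∘ Sum.inl) ∘ Sum.inl) *
              Yf (s ∘ e₂)) * (lf₂.map fun Yf => Yf s).prod := by
              simp only [Matrix.mul_assoc]
              rfl
          _ = Uf₂ s * Lf₂ s := by rw [ha, hb]
      · intro s
        simp only [List.map_cons]
        exact List.Forall₂.cons (hchar₁ _) (hchar₂ s)
      · simp only [List.map_cons]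
        rw [hbase₂, hs₂, hYs₁]

/-- The last pair of the chain. -/
theorem final_pair {ι : Type} [Fintype ι] (Uf Lf : (ι → ℂˣ) → Matrix (Fin 3) (Fin 3) ℂ)
    (s₀ : ι → ℂˣ) (hU : GoodM L Uf) (hL : GoodM L Lf)
    (hUT : ∀ s, IsUT (Uf s) ∧ (Uf s).det = 1) (hLU : ∀ s, IsLU (Lf s))
    (a b d : Fin 3 → ℂ) (ha : ∀ i, a i ∈ ringO L) (hb : ∀ i, b i ∈ ringO L)
    (hd : ∀ i, d i ∈ ringO L)
    (ha1 : a 0 * a 1 * a 2 = 1) (hb1 : b 0 * b 1 * b 2 = 1) (hd1 : d 0 * d 1 * d 2 = 1)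
    (A B : Matrix (Fin 3) (Fin 3) ℂ) (hA : IsUT A) (hAd : ∀ i, A i i = a i)
    (hB : B 0 1 = 0 ∧ B 0 2 = 0 ∧ B 1 2 = 0) (hBd : ∀ i, B i i = b i)
    (hcor : cornerNZ (A * (Uf s₀ * Lf s₀)))
    (hchar : (A * (Uf s₀ * Lf s₀) * B).charpoly = ∏ i, (Polynomial.X - Polynomial.C (d i)))
    (hne : noEigPlane (A * (Uf s₀ * Lf s₀) * B)) :
    ∃ (Af Bf : (ι ⊕ Fin 4 → ℂˣ) → Matrix (Fin 3) (Fin 3) ℂ) (s₁ : ι ⊕ Fin 4 → ℂˣ),
      s₁ ∘ Sum.inl = s₀ ∧ GoodM L Af ∧ GoodM L Bf ∧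
      (∀ s, (Af s).charpoly = ∏ i, (Polynomial.X - Polynomial.C (a i))) ∧
      (∀ s, (Bf s).charpoly = ∏ i, (Polynomial.X - Polynomial.C (b i))) ∧
      (∀ s, (Af s * (Uf (s ∘ Sum.inl) * Lf (s ∘ Sum.inl)) * Bf s).charpoly =
        ∏ i, (Polynomial.X - Polynomial.C (d i))) ∧
      Af s₁ = A ∧ Bf s₁ = B := by
  obtain ⟨hU0, hU0d⟩ := hUT s₀
  have hL0 := hLU s₀
  obtain ⟨ha0, ha1', ha2⟩ := ne_zero_of_prod ha1
  have hane : ∀ i, a i ≠ 0 := by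
    intro i
    fin_cases i
    · exact ha0
    · exact ha1'
    · exact ha2
  have hai := inv_mem_ringO_of_prod ha1 ha
  have haf : ∀ i, Good L (fun s => a i * Uf s i i) := fun i => (Good.const (ha i)).mul (hU i i)
  have haif : ∀ i, Good L (fun s => (a i)⁻¹ * (Uf s).adjugate i i) :=
    fun i => (Good.const (hai i)).mul (hU.adjugate i i)
  have hinv : ∀ s i, a i * Uf s i i * ((a i)⁻¹ * (Uf s).adjugate i i) = 1 := by
    intro s i
    rw [mul_mul_mul_comm, mul_inv_cancel₀ (hane i), (hUT s).1.adjugate_diag (hUT s).2 i, one_mul]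
  have hprod : ∀ s, a 0 * Uf s 0 0 * (a 1 * Uf s 1 1) * (a 2 * Uf s 2 2) = 1 := by
    intro s
    have h1 := (hUT s).2
    rw [(hUT s).1.det] at h1
    linear_combination (Uf s 0 0 * Uf s 1 1 * Uf s 2 2) * ha1 + h1
  have hP : IsUT (A * Uf s₀) := hA.mul hU0
  have hPd : ∀ i, (A * Uf s₀) i i = a i * Uf s₀ i i := by
    intro i
    rw [hA.mul_diag hU0, hAd]
  obtain ⟨l01, l02, l12, l00, l11, l22⟩ := hL0
  obtain ⟨b01, b02, b12⟩ := hB
  have hQ : (Lf s₀ * B) 0 1 = 0 ∧ (Lf s₀ * B) 0 2 = 0 ∧ (Lf s₀ * B) 1 2 = 0 := by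
    simp [Matrix.mul_apply, Fin.sum_univ_three, l01, l02, l12, b01, b02, b12]
  have hQd : ∀ i, (Lf s₀ * B) i i = b i := by
    intro i
    fin_cases i <;>
      simp [Matrix.mul_apply, Fin.sum_univ_three, l01, l02, l12, l00, l11, l22, b01, b02, b12,
        ← hBd]
  have hcorP : cornerNZ (A * Uf s₀) := by
    rw [← cornerNZ_mul_right (hLU s₀), Matrix.mul_assoc]
    exact hcor
  have hPQ : A * Uf s₀ * (Lf s₀ * B) = A * (Uf s₀ * Lf s₀) * B := by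
    simp only [Matrix.mul_assoc]
  obtain ⟨Pf, Qf, hPf, hQf, hPUT, hQLT, hPQchar, s₁, hs₁, hPs₁, hQs₁⟩ :=
    exists_pair_family (fun s i => a i * Uf s i i) (fun s i => (a i)⁻¹ * (Uf s).adjugate i i)
      haf haif hinv hprod b d hb hd hb1 hd1 s₀ (A * Uf s₀) (Lf s₀ * B) hP hPd hQ hQd hcorP
      (by rw [hPQ]; exact hchar) (by rw [hPQ]; exact hne)
  have hUe : GoodM L (fun s : ι ⊕ Fin 4 → ℂˣ => Uf (s ∘ Sum.inl)) :=
    hU.comp_injective _ Sum.inl_injective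
  have hLe : GoodM L (fun s : ι ⊕ Fin 4 → ℂˣ => Lf (s ∘ Sum.inl)) :=
    hL.comp_injective _ Sum.inl_injective
  refine ⟨fun s => Pf s * (Uf (s ∘ Sum.inl)).adjugate,
    fun s => (Lf (s ∘ Sum.inl)).adjugate * Qf s, s₁, hs₁, hPf.mul hUe.adjugate,
    hLe.adjugate.mul hQf, ?_, ?_, ?_, ?_, ?_⟩
  · intro s
    have hUs := (hUT (s ∘ Sum.inl)).1
    have h := (hPUT s).1.mul hUs.adjugate
    refine charpoly_upper _ a h.1 h.2.1 h.2.2 fun i => ?_
    change (Pf s * (Uf (s ∘ Sum.inl)).adjugate) i i = a i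
    rw [(hPUT s).1.mul_diag hUs.adjugate, (hPUT s).2 i, mul_assoc,
      hUs.adjugate_diag (hUT (s ∘ Sum.inl)).2 i, mul_one]
  · intro s
    obtain ⟨m01, m02, m12, m00, m11, m22⟩ := (hLU (s ∘ Sum.inl)).adjugate
    obtain ⟨⟨q01, q02, q12⟩, qd⟩ := hQLT s
    refine charpoly_lower _ b ?_ ?_ ?_ fun i => ?_
    · simp [Matrix.mul_apply, Fin.sum_univ_three, m01, m02, q01]
    · simp [Matrix.mul_apply, Fin.sum_univ_three, m01, m02, q02, q12]
    · simp [Matrix.mul_apply, Fin.sum_univ_three, m12, q02, q12]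
    · fin_cases i <;>
        simp [Matrix.mul_apply, Fin.sum_univ_three, m01, m02, m12, m00, m11, m22, q01, q02, q12,
          qd]
  · intro s
    have e1 : Pf s * (Uf (s ∘ Sum.inl)).adjugate * (Uf (s ∘ Sum.inl) * Lf (s ∘ Sum.inl)) *
        ((Lf (s ∘ Sum.inl)).adjugate * Qf s) =
        Pf s * ((Uf (s ∘ Sum.inl)).adjugate * Uf (s ∘ Sum.inl)) *
          (Lf (s ∘ Sum.inl) * (Lf (s ∘ Sum.inl)).adjugate) * Qf s := by
      simp only [Matrix.mul_assoc]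
    beta_reduce
    rw [e1, adjugate_mul_of_det (hUT _).2, mul_adjugate_of_det (hLU _).det, Matrix.mul_one,
      Matrix.mul_one]
    exact hPQchar s
  · beta_reduce
    rw [hs₁, hPs₁, Matrix.mul_assoc, mul_adjugate_of_det hU0d, Matrix.mul_one]
  · beta_reduce
    rw [hs₁, hQs₁, ← Matrix.mul_assoc, adjugate_mul_of_det (hLU s₀).det, Matrix.one_mul]

end

end Vale.Agent.Lib.P002
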