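import Mathlib

/-!
The normal form of a tuple (A, Z_1, ..., Z_m, B) of 3 x 3 complex matrices, and the genericity
conditions entering it.
-/

namespace Vale.Agent.Lib.P002

open Matrix

/-- The two trailing principal minors do not vanish. -/
def trailNZ (K : Matrix (Fin 3) (Fin 3) ℂ) : Prop :=
  K 2 2 ≠ 0 ∧ K 1 1 * K 2 2 - K 1 2 * K 2 1 ≠ 0

/-- The two minors in the upper right corner do not vanish. -/
def cornerNZ (K : Matrix (Fin 3) (Fin 3) ℂ) : Prop :=
  K 0 2 ≠ 0 ∧ K 0 1 * K 1 2 - K 0 2 * K 1 1 ≠ 0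

/-- No eigenvector has vanishing first coordinate. -/
def noEigPlane (K : Matrix (Fin 3) (Fin 3) ℂ) : Prop :=
  ∀ (v : Fin 3 → ℂ) (κ : ℂ), v ≠ 0 → v 0 = 0 → K.mulVec v ≠ κ • v

/-- The tuple (A, Z_1, ..., Z_m, B) is in normal form: A is upper triangular with diagonal α,
B is lower triangular with diagonal β, each Z_k has the characteristic polynomial with roots
γ_k, the product A Z_1 ... Z_m B has the characteristic polynomial with roots δ, and the
genericity conditions hold: the trailing principal minors of the partial products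
Z_1 ... Z_j do not vanish, the corner minors of each Z_k and of A Z_1 ... Z_m do not vanish,
and neither the Z_k nor the product A Z_1 ... Z_m B have an eigenvector whose first
coordinate vanishes. -/
def SphNormal {m : ℕ} (α β δ : Fin 3 → ℂ) (γ : Fin m → Fin 3 → ℂ)
    (A B : Matrix (Fin 3) (Fin 3) ℂ) (Z : Fin m → Matrix (Fin 3) (Fin 3) ℂ) : Prop :=
  (A 1 0 = 0 ∧ A 2 0 = 0 ∧ A 2 1 = 0) ∧ (∀ i, A i i = α i) ∧
  (B 0 1 = 0 ∧ B 0 2 = 0 ∧ B 1 2 = 0) ∧ (∀ i, B i i = β i) ∧
  (∀ k, (Z k).charpoly = ∏ i, (Polynomial.X - Polynomial.C (γ k i))) ∧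
  (A * (List.ofFn Z).prod * B).charpoly = ∏ i, (Polynomial.X - Polynomial.C (δ i)) ∧
  (∀ j, trailNZ ((List.ofFn Z).take j).prod) ∧
  (∀ k, cornerNZ (Z k) ∧ noEigPlane (Z k)) ∧
  cornerNZ (A * (List.ofFn Z).prod) ∧ noEigPlane (A * (List.ofFn Z).prod * B)

end Vale.Agent.Lib.P002
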