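import Vale.Agent.Lib.P002.SphTri

/-!
Laurent families of pairs (P, Q), P upper triangular and Q lower triangular with prescribed
diagonals, with prescribed characteristic polynomial of the product, through a given pair.
-/

namespace Vale.Agent.Lib.P002

open Matrix

/-- Selection between a frozen value and a free value. -/
def sel (m : Bool) (d u : ℂ) : ℂ := if m then d else u

section

variable {L : IntermediateField ℚ ℂ} {ι : Type} [Fintype ι]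

theorem Good.sel (m : Bool) {f g : (ι → ℂˣ) → ℂ} (hf : Good L f) (hg : Good L g) :
    Good L (fun s => sel m (f s) (g s)) := by
  cases m
  · simpa [Vale.Agent.Lib.P002.sel] using hg
  · simpa [Vale.Agent.Lib.P002.sel] using hf

theorem GoodM.upT {a : (ι → ℂˣ) → Fin 3 → ℂ} {p q r : (ι → ℂˣ) → ℂ}
    (ha : ∀ i, Good L (fun s => a s i)) (hp : Good L p) (hq : Good L q) (hr : Good L r) :
    GoodM L (fun s => upT (a s) (p s) (q s) (r s)) := by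
  intro i j
  fin_cases i <;> fin_cases j <;>
    first
    | exact ha 0
    | exact ha 1
    | exact ha 2
    | exact hp
    | exact hq
    | exact hr
    | exact Good.const (Subring.zero_mem _)

theorem GoodM.loT {b : (ι → ℂˣ) → Fin 3 → ℂ} {x z y : (ι → ℂˣ) → ℂ}
    (hb : ∀ i, Good L (fun s => b s i)) (hx : Good L x) (hz : Good L z) (hy : Good L y) :
    GoodM L (fun s => loT (b s) (x s) (z s) (y s)) := by
  intro i j
  fin_cases i <;> fin_cases j <;>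
    first
    | exact hb 0
    | exact hb 1
    | exact hb 2
    | exact hx
    | exact hz
    | exact hy
    | exact Good.const (Subring.zero_mem _)

theorem GoodM.adjugate {M : (ι → ℂˣ) → Matrix (Fin 3) (Fin 3) ℂ} (hM : GoodM L M) :
    GoodM L (fun s => (M s).adjugate) := by
  intro i j
  simp only [Matrix.adjugate_fin_three]
  fin_cases i <;> fin_cases j <;>
    first
    | exact ((hM _ _).mul (hM _ _)).sub ((hM _ _).mul (hM _ _))
    | exact (((hM _ _).mul (hM _ _)).neg).add ((hM _ _).mul (hM _ _))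

theorem GoodM.one : GoodM L (fun _ : ι → ℂˣ => (1 : Matrix (Fin 3) (Fin 3) ℂ)) := by
  intro i j
  fin_cases i <;> fin_cases j <;>
    first
    | exact Good.const (Subring.zero_mem _)
    | exact Good.const (Subring.one_mem _)

/-- Through every pair (P, Q), P upper triangular with nonzero corner minors and Q lower
triangular, whose product has the prescribed characteristic polynomial and no eigenvector in
the coordinate plane, there is a Good family of such pairs; the diagonal of P is allowed to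
vary in a Good family of its own. -/
theorem exists_pair_family
    (af aif : (ι → ℂˣ) → Fin 3 → ℂ) (haf : ∀ i, Good L (fun s => af s i))
    (haif : ∀ i, Good L (fun s => aif s i)) (hinv : ∀ s i, af s i * aif s i = 1)
    (hprod : ∀ s, af s 0 * af s 1 * af s 2 = 1)
    (b c : Fin 3 → ℂ) (hb : ∀ i, b i ∈ ringO L) (hc : ∀ i, c i ∈ ringO L)
    (hb1 : b 0 * b 1 * b 2 = 1) (hc1 : c 0 * c 1 * c 2 = 1)
    (s₀ : ι → ℂˣ) (P Q : Matrix (Fin 3) (Fin 3) ℂ) (hP : IsUT P) (hPd : ∀ i, P i i = af s₀ i)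
    (hQ : Q 0 1 = 0 ∧ Q 0 2 = 0 ∧ Q 1 2 = 0) (hQd : ∀ i, Q i i = b i)
    (hcor : cornerNZ P)
    (hchar : (P * Q).charpoly = ∏ i, (Polynomial.X - Polynomial.C (c i)))
    (hne : noEigPlane (P * Q)) :
    ∃ Pf Qf : (ι ⊕ Fin 4 → ℂˣ) → Matrix (Fin 3) (Fin 3) ℂ, GoodM L Pf ∧ GoodM L Qf ∧
      (∀ s, IsUT (Pf s) ∧ ∀ i, Pf s i i = af (s ∘ Sum.inl) i) ∧
      (∀ s, (Qf s 0 1 = 0 ∧ Qf s 0 2 = 0 ∧ Qf s 1 2 = 0) ∧ ∀ i, Qf s i i = b i) ∧
      (∀ s, (Pf s * Qf s).charpoly = ∏ i, (Polynomial.X - Polynomial.C (c i))) ∧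
      ∃ s : ι ⊕ Fin 4 → ℂˣ, s ∘ Sum.inl = s₀ ∧ Pf s = P ∧ Qf s = Q := by
  -- the given pair in coordinates
  have eP : P = upT (af s₀) (P 0 1) (P 0 2) (P 1 2) := by
    rw [hP.eq_upT]
    simp only [upT, hPd]
    rfl
  have eQ : Q = loT b (Q 1 0) (Q 2 0) (Q 2 1) := by
    obtain ⟨h01, h02, h12⟩ := hQ
    ext i j
    fin_cases i <;> fin_cases j <;> simp [loT, h01, h02, h12, ← hQd]
  generalize P 0 1 = p at eP
  generalize hq' : P 0 2 = q at eP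
  generalize hr' : P 1 2 = r at eP
  generalize Q 1 0 = x at eQ
  generalize Q 2 0 = z at eQ
  generalize Q 2 1 = y at eQ
  have hq : q ≠ 0 := by
    rw [← hq']
    exact hcor.1
  have hν : p * r - q * af s₀ 1 ≠ 0 := by
    have := hcor.2
    rw [eP] at this
    simpa [upT] using this
  subst eP eQ
  obtain ⟨m, t₀, hm, hpx, hry⟩ :=
    exists_hx_hy p r (p * r - q * af s₀ 1 + q * af s₀ 1) (by ring)
  obtain ⟨ht1, ht2, -⟩ := of_charpoly_eq_prod _ c hchar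
  have hw : (p * r - q * af s₀ 1) * y + fLx (af s₀) b p q⁻¹ (p * r - q * af s₀ 1) ≠ 0 := by
    intro h
    obtain ⟨v, κ, hv, hv0, hvk⟩ :=
      exists_eig_of_fib_zero (af s₀) b c (hprod s₀) hb1 hc1 p q r x z y hq hchar h
    exact hne v κ hv hv0 hvk
  -- the parameter functions
  let e : ι → ι ⊕ Fin 4 := Sum.inl
  have he : Function.Injective e := Sum.inl_injective
  have ha' : ∀ i, Good L (fun s : ι ⊕ Fin 4 → ℂˣ => af (s ∘ Sum.inl) i) :=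
    fun i => (haf i).comp_injective e he
  have hai' : ∀ i, Good L (fun s : ι ⊕ Fin 4 → ℂˣ => aif (s ∘ Sum.inl) i) :=
    fun i => (haif i).comp_injective e he
  have hbG : ∀ i, Good L (fun _ : ι ⊕ Fin 4 → ℂˣ => b i) := fun i => Good.const (hb i)
  have hcG : ∀ i, Good L (fun _ : ι ⊕ Fin 4 → ℂˣ => c i) := fun i => Good.const (hc i)
  have hqG : Good L (fun s : ι ⊕ Fin 4 → ℂˣ => (s (Sum.inr 0) : ℂ)) := Good.coord L _
  have hqiG : Good L (fun s : ι ⊕ Fin 4 → ℂˣ => (((s (Sum.inr 0))⁻¹ : ℂˣ) : ℂ)) :=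
    Good.coord_inv L _
  have hνG : Good L (fun s : ι ⊕ Fin 4 → ℂˣ =>
      sel m (-((s (Sum.inr 0) : ℂ) * af (s ∘ Sum.inl) 1)) (s (Sum.inr 1) : ℂ)) :=
    Good.sel m (hqG.mul (ha' 1)).neg (Good.coord L _)
  have hνiG : Good L (fun s : ι ⊕ Fin 4 → ℂˣ =>
      sel m (-((((s (Sum.inr 0))⁻¹ : ℂˣ) : ℂ) * aif (s ∘ Sum.inl) 1))
        (((s (Sum.inr 1))⁻¹ : ℂˣ) : ℂ)) :=
    Good.sel m (hqiG.mul (hai' 1)).neg (Good.coord_inv L _)
  have hpG : Good L (fun s : ι ⊕ Fin 4 → ℂˣ => hx m (s (Sum.inr 2))) := Good.hx m _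
  have hrG : Good L (fun s : ι ⊕ Fin 4 → ℂˣ =>
      hy m (sel m (-((s (Sum.inr 0) : ℂ) * af (s ∘ Sum.inl) 1)) (s (Sum.inr 1) : ℂ) +
        (s (Sum.inr 0) : ℂ) * af (s ∘ Sum.inl) 1) (s (Sum.inr 2))) :=
    Good.hy m (hνG.add (hqG.mul (ha' 1))) _
  have hwG : Good L (fun s : ι ⊕ Fin 4 → ℂˣ => (s (Sum.inr 3) : ℂ)) := Good.coord L _
  have hwiG : Good L (fun s : ι ⊕ Fin 4 → ℂˣ => (((s (Sum.inr 3))⁻¹ : ℂˣ) : ℂ)) :=
    Good.coord_inv L _
  have hs1G : Good L (fun _ : ι ⊕ Fin 4 → ℂˣ => c 0 + c 1 + c 2) :=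
    ((hcG 0).add (hcG 1)).add (hcG 2)
  have hs2G : Good L (fun _ : ι ⊕ Fin 4 → ℂˣ => c 0 * c 1 + c 0 * c 2 + c 1 * c 2) :=
    (((hcG 0).mul (hcG 1)).add ((hcG 0).mul (hcG 2))).add ((hcG 1).mul (hcG 2))
  -- the families
  refine ⟨fun s => upT (af (s ∘ Sum.inl)) (hx m (s (Sum.inr 2))) (s (Sum.inr 0) : ℂ)
      (hy m (sel m (-((s (Sum.inr 0) : ℂ) * af (s ∘ Sum.inl) 1)) (s (Sum.inr 1) : ℂ) +
        (s (Sum.inr 0) : ℂ) * af (s ∘ Sum.inl) 1) (s (Sum.inr 2))),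
    fun s => fibQ (af (s ∘ Sum.inl)) b (c 0 + c 1 + c 2) (c 0 * c 1 + c 0 * c 2 + c 1 * c 2)
      (hx m (s (Sum.inr 2)))
      (hy m (sel m (-((s (Sum.inr 0) : ℂ) * af (s ∘ Sum.inl) 1)) (s (Sum.inr 1) : ℂ) +
        (s (Sum.inr 0) : ℂ) * af (s ∘ Sum.inl) 1) (s (Sum.inr 2)))
      (((s (Sum.inr 0))⁻¹ : ℂˣ) : ℂ)
      (sel m (-((s (Sum.inr 0) : ℂ) * af (s ∘ Sum.inl) 1)) (s (Sum.inr 1) : ℂ))
      (sel m (-((((s (Sum.inr 0))⁻¹ : ℂˣ) : ℂ) * aif (s ∘ Sum.inl) 1))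
        (((s (Sum.inr 1))⁻¹ : ℂˣ) : ℂ))
      (s (Sum.inr 3) : ℂ) (((s (Sum.inr 3))⁻¹ : ℂˣ) : ℂ), ?_, ?_, ?_, ?_, ?_, ?_⟩
  · exact GoodM.upT ha' hpG hqG hrG
  · have hLx : Good L (fun s : ι ⊕ Fin 4 → ℂˣ => fLx (af (s ∘ Sum.inl)) b (hx m (s (Sum.inr 2)))
        (((s (Sum.inr 0))⁻¹ : ℂˣ) : ℂ)
        (sel m (-((s (Sum.inr 0) : ℂ) * af (s ∘ Sum.inl) 1)) (s (Sum.inr 1) : ℂ))) :=
      hpG.mul (((ha' 2).mul (hbG 2)).add ((hνG.mul (hbG 1)).mul hqiG))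
    have hLy : Good L (fun s : ι ⊕ Fin 4 → ℂˣ => fLy (af (s ∘ Sum.inl)) b
        (hy m (sel m (-((s (Sum.inr 0) : ℂ) * af (s ∘ Sum.inl) 1)) (s (Sum.inr 1) : ℂ) +
          (s (Sum.inr 0) : ℂ) * af (s ∘ Sum.inl) 1) (s (Sum.inr 2)))
        (((s (Sum.inr 0))⁻¹ : ℂˣ) : ℂ)
        (sel m (-((s (Sum.inr 0) : ℂ) * af (s ∘ Sum.inl) 1)) (s (Sum.inr 1) : ℂ))) :=
      hrG.mul (((ha' 0).mul (hbG 0)).add ((hνG.mul (hbG 1)).mul hqiG))
    have hS1 : Good L (fun s : ι ⊕ Fin 4 → ℂˣ => fS1 (af (s ∘ Sum.inl)) b) :=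
      (((ha' 0).mul (hbG 0)).add ((ha' 1).mul (hbG 1))).add ((ha' 2).mul (hbG 2))
    have hS2 : Good L (fun s : ι ⊕ Fin 4 → ℂˣ => fS2 (af (s ∘ Sum.inl)) b) :=
      ((((ha' 1).mul (hbG 1)).mul ((ha' 2).mul (hbG 2))).add
        (((ha' 0).mul (hbG 0)).mul ((ha' 2).mul (hbG 2)))).add
        (((ha' 0).mul (hbG 0)).mul ((ha' 1).mul (hbG 1)))
    have hC0 : Good L (fun s : ι ⊕ Fin 4 → ℂˣ => fC0 (af (s ∘ Sum.inl)) b (c 0 + c 1 + c 2)
        (c 0 * c 1 + c 0 * c 2 + c 1 * c 2) (((s (Sum.inr 0))⁻¹ : ℂˣ) : ℂ)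
        (sel m (-((s (Sum.inr 0) : ℂ) * af (s ∘ Sum.inl) 1)) (s (Sum.inr 1) : ℂ))) :=
      (hs2G.sub hS2).add (((hνG.mul (hbG 1)).mul (hs1G.sub hS1)).mul hqiG)
    have hCpp := (hνG.mul hC0).add (hLx.mul hLy)
    have hY := (hwG.sub hLx).mul hνiG
    have hX := ((hCpp.mul hwiG).sub hLy).mul hνiG
    have hZ := (((hs1G.sub hS1).sub (hpG.mul hX)).sub (hrG.mul hY)).mul hqiG
    exact GoodM.loT hbG hX hZ hY
  · intro s
    exact ⟨isUT_upT _ _ _ _, fun i => by fin_cases i <;> simp [upT]⟩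
  · intro s
    exact ⟨by simp [fibQ, loT], fun i => by fin_cases i <;> simp [fibQ, loT]⟩
  · intro s
    have hνν : sel m (-((s (Sum.inr 0) : ℂ) * af (s ∘ Sum.inl) 1)) (s (Sum.inr 1) : ℂ) *
        sel m (-((((s (Sum.inr 0))⁻¹ : ℂˣ) : ℂ) * aif (s ∘ Sum.inl) 1))
          (((s (Sum.inr 1))⁻¹ : ℂˣ) : ℂ) = 1 := by
      cases m
      · simp [sel]
      · simp only [sel, if_true]
        have h1 := hinv (s ∘ Sum.inl) 1
        have h2 : (s (Sum.inr 0) : ℂ) * (((s (Sum.inr 0))⁻¹ : ℂˣ) : ℂ) = 1 := by simp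
        linear_combination (af (s ∘ Sum.inl) 1 * aif (s ∘ Sum.inl) 1) * h2 + h1
    have hpr : hx m (s (Sum.inr 2)) *
        hy m (sel m (-((s (Sum.inr 0) : ℂ) * af (s ∘ Sum.inl) 1)) (s (Sum.inr 1) : ℂ) +
          (s (Sum.inr 0) : ℂ) * af (s ∘ Sum.inl) 1) (s (Sum.inr 2)) =
        sel m (-((s (Sum.inr 0) : ℂ) * af (s ∘ Sum.inl) 1)) (s (Sum.inr 1) : ℂ) +
          (s (Sum.inr 0) : ℂ) * af (s ∘ Sum.inl) 1 := by
      refine hx_mul_hy m _ _ fun h => ?_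
      subst h
      simp [sel]
    obtain ⟨k1, k2, k3⟩ := fib_spec (af (s ∘ Sum.inl)) b (hprod _) hb1 (c 0 + c 1 + c 2)
      (c 0 * c 1 + c 0 * c 2 + c 1 * c 2) _ (s (Sum.inr 0) : ℂ) _
      (((s (Sum.inr 0))⁻¹ : ℂˣ) : ℂ) _ _ (s (Sum.inr 3) : ℂ) (((s (Sum.inr 3))⁻¹ : ℂˣ) : ℂ)
      (by simp) hνν (by simp) hpr
    exact charpoly_eq_prod_of _ c k1 k2 (by rw [k3, hc1])
  · -- the base point
    have hνsel : sel m (-(q * af s₀ 1)) (p * r - q * af s₀ 1) = p * r - q * af s₀ 1 := by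
      cases m
      · simp [sel]
      · simp only [sel, if_true]
        linear_combination -(hm rfl)
    have hνi : sel m (-(q⁻¹ * aif s₀ 1)) (p * r - q * af s₀ 1)⁻¹ =
        (p * r - q * af s₀ 1)⁻¹ := by
      cases m
      · simp [sel]
      · simp only [sel, if_true]
        have h1 := hinv s₀ 1
        have h2 : p * r - q * af s₀ 1 = -(q * af s₀ 1) := by linear_combination (hm rfl)
        rw [h2, inv_neg, mul_inv]
        congr 2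
        exact eq_inv_of_mul_eq_one_right h1
    obtain ⟨s1, e1, e20, e21, e22, e23⟩ : ∃ s1 : ι ⊕ Fin 4 → ℂˣ, s1 ∘ Sum.inl = s₀ ∧
        s1 (Sum.inr 0) = Units.mk0 q hq ∧ s1 (Sum.inr 1) = Units.mk0 _ hν ∧
        s1 (Sum.inr 2) = t₀ ∧ s1 (Sum.inr 3) = Units.mk0 _ hw :=
      ⟨Sum.elim s₀ ![Units.mk0 q hq, Units.mk0 _ hν, t₀, Units.mk0 _ hw], rfl, rfl, rfl, rfl,
        rfl⟩
    refine ⟨s1, e1, ?_, ?_⟩
    · beta_reduce
      rw [e1, e20, e21, e22]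
      simp only [Units.val_mk0, hνsel, hpx, hry]
    · beta_reduce
      rw [e1, e20, e21, e22, e23]
      simp only [Units.val_mk0, hνsel, hpx, hry, Units.val_inv_eq_inv_val, hνi]
      exact (fib_converse (af s₀) b _ _ p q r x z y hq hν ht1 ht2 hw).symm

end

end Vale.Agent.Lib.P002
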