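import Vale.Agent.Lib.P002.SphChain

/-!
Density of integral points in the chart of the variety of tuples (A, Z_1, ..., Z_m, B) of
3 x 3 matrices with prescribed characteristic polynomials of the entries and of the product.
-/

namespace Vale.Agent.Lib.P002

open MvPolynomial Matrix

theorem forall₂_ofFn {α β : Type} (R : α → β → Prop) :
    ∀ (m : ℕ) (f : Fin m → α) (g : Fin m → β),
      List.Forall₂ R (List.ofFn f) (List.ofFn g) ↔ ∀ k, R (f k) (g k)
  | 0, f, g => by simp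
  | m + 1, f, g => by
    rw [List.ofFn_succ, List.ofFn_succ, List.forall₂_cons, forall₂_ofFn R m, Fin.forall_fin_succ]

theorem exists_ofFn_of_length {α : Type} (l : List α) {m : ℕ} (h : l.length = m) :
    ∃ f : Fin m → α, l = List.ofFn f := by
  subst h
  exact ⟨l.get, (List.ofFn_get l).symm⟩

theorem prod_ofFn_conj (G G' : Matrix (Fin 3) (Fin 3) ℂ) (h : G * G' = 1) (h' : G' * G = 1) :
    ∀ (m : ℕ) (Z : Fin m → Matrix (Fin 3) (Fin 3) ℂ),
      (List.ofFn fun k => G * Z k * G').prod = G * (List.ofFn Z).prod * G'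
  | 0, Z => by simp [h]
  | m + 1, Z => by
    rw [List.ofFn_succ, List.prod_cons, prod_ofFn_conj G G' h h' m, List.ofFn_succ,
      List.prod_cons]
    simp only [Matrix.mul_assoc]
    rw [← Matrix.mul_assoc G' G, h', Matrix.one_mul]

/-- The coordinates of a tuple (A, B, Z_1, ..., Z_m) of 3 x 3 matrices. -/
def tupEnc {m : ℕ} (A B : Matrix (Fin 3) (Fin 3) ℂ) (Z : Fin m → Matrix (Fin 3) (Fin 3) ℂ) :
    (Fin 2 ⊕ Fin m) × Fin 3 × Fin 3 → ℂ :=
  fun x => Sum.elim ![A, B] Z x.1 x.2.1 x.2.2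

section

variable {L : IntermediateField ℚ ℂ}

/-- Through every tuple in normal form there is a Good family of tuples with the same
characteristic polynomials. -/
theorem sph_families (m : ℕ) (a b d : Fin 3 → ℂ) (c : Fin m → Fin 3 → ℂ)
    (ha : ∀ i, a i ∈ ringO L) (hb : ∀ i, b i ∈ ringO L) (hd : ∀ i, d i ∈ ringO L)
    (hc : ∀ k i, c k i ∈ ringO L)
    (ha1 : a 0 * a 1 * a 2 = 1) (hb1 : b 0 * b 1 * b 2 = 1) (hd1 : d 0 * d 1 * d 2 = 1)
    (hc1 : ∀ k, c k 0 * c k 1 * c k 2 = 1)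
    (A B : Matrix (Fin 3) (Fin 3) ℂ) (Z : Fin m → Matrix (Fin 3) (Fin 3) ℂ)
    (hA : IsUT A) (hAd : ∀ i, A i i = a i)
    (hB : B 0 1 = 0 ∧ B 0 2 = 0 ∧ B 1 2 = 0) (hBd : ∀ i, B i i = b i)
    (hZ : ∀ k, (Z k).charpoly = ∏ i, (Polynomial.X - Polynomial.C (c k i)))
    (hchar : (A * (List.ofFn Z).prod * B).charpoly = ∏ i, (Polynomial.X - Polynomial.C (d i)))
    (htr : ∀ j, trailNZ ((List.ofFn Z).take j).prod)
    (hZc : ∀ k, cornerNZ (Z k) ∧ noEigPlane (Z k))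
    (hcor : cornerNZ (A * (List.ofFn Z).prod))
    (hne : noEigPlane (A * (List.ofFn Z).prod * B)) :
    ∃ (ι : Type) (_ : Fintype ι) (Af Bf : (ι → ℂˣ) → Matrix (Fin 3) (Fin 3) ℂ)
      (Zf : Fin m → (ι → ℂˣ) → Matrix (Fin 3) (Fin 3) ℂ) (s₁ : ι → ℂˣ),
      GoodM L Af ∧ GoodM L Bf ∧ (∀ k, GoodM L (Zf k)) ∧
      (∀ s, (Af s).charpoly = ∏ i, (Polynomial.X - Polynomial.C (a i))) ∧
      (∀ s, (Bf s).charpoly = ∏ i, (Polynomial.X - Polynomial.C (b i))) ∧
      (∀ s k, (Zf k s).charpoly = ∏ i, (Polynomial.X - Polynomial.C (c k i))) ∧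
      (∀ s, (Af s * (List.ofFn fun k => Zf k s).prod * Bf s).charpoly =
        ∏ i, (Polynomial.X - Polynomial.C (d i))) ∧
      Af s₁ = A ∧ Bf s₁ = B ∧ ∀ k, Zf k s₁ = Z k := by
  have hF : List.Forall₂ (fun Y c => (∀ i, c i ∈ ringO L) ∧ c 0 * c 1 * c 2 = 1 ∧
      Y.charpoly = ∏ i, (Polynomial.X - Polynomial.C (c i)) ∧ cornerNZ Y ∧ noEigPlane Y)
      (List.ofFn Z) (List.ofFn c) :=
    (forall₂_ofFn _ m Z c).mpr fun k => ⟨hc k, hc1 k, hZ k, (hZc k).1, (hZc k).2⟩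
  obtain ⟨ι', _, e, lf, Uf, Lf, s₁, -, -, hU, hL, hUT, hLU, hlf, hprod, hcharf, hbase⟩ :=
    chain_family (L := L) (List.ofFn Z) (List.ofFn c) hF PEmpty (fun _ => 1) (fun _ => 1)
      (fun x => x.elim) GoodM.one GoodM.one (fun _ => ⟨isUT_one, Matrix.det_one⟩)
      (fun _ => isLU_one) (by
        intro j
        simpa using htr j)
  have hprod' : ∀ s, (lf.map fun Yf => Yf s).prod = Uf s * Lf s := fun s => by
    simpa using hprod s
  have hlen : lf.length = m := by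
    have := congrArg List.length hbase
    simpa using this
  obtain ⟨Zf, rfl⟩ := exists_ofFn_of_length lf hlen
  have hmap : ∀ s, ((List.ofFn Zf).map fun Yf => Yf s) = List.ofFn (fun k => Zf k s) :=
    fun s => by
      rw [List.map_ofFn]
      rfl
  have hbase' : ∀ k, Zf k s₁ = Z k := by
    have h : List.ofFn (fun k => Zf k s₁) = List.ofFn Z := by rw [← hbase, hmap]
    exact fun k => congrFun (List.ofFn_injective h) k
  have hUL : Uf s₁ * Lf s₁ = (List.ofFn Z).prod := by rw [← hprod' s₁, hbase]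
  obtain ⟨Af, Bf, s₂, hs₂, hAf, hBf, hAchar, hBchar, hTchar, hAs, hBs⟩ :=
    final_pair Uf Lf s₁ hU hL hUT hLU a b d ha hb hd ha1 hb1 hd1 A B hA hAd hB hBd
      (by rw [hUL]; exact hcor) (by rw [hUL]; exact hchar) (by rw [hUL]; exact hne)
  refine ⟨ι' ⊕ Fin 4, inferInstance, Af, Bf, fun k s => Zf k (s ∘ Sum.inl), s₂, hAf, hBf, ?_,
    hAchar, hBchar, ?_, ?_, hAs, hBs, ?_⟩
  · intro k
    exact (hlf (Zf k) (by simp)).comp_injective Sum.inl Sum.inl_injective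
  · intro s k
    have h := hcharf (s ∘ Sum.inl)
    rw [hmap, forall₂_ofFn] at h
    exact h k
  · intro s
    have h := hTchar s
    rw [← hprod' (s ∘ Sum.inl), hmap] at h
    exact h
  · intro k
    beta_reduce
    rw [hs₂]
    exact hbase' k

/-- A polynomial vanishing at the integral tuples with the prescribed characteristic
polynomials vanishes on the conjugates of a Good family of such tuples. -/
theorem sph_density (hL : sqrtTwo ∈ L) (m : ℕ) (a b d : Fin 3 → ℂ) (c : Fin m → Fin 3 → ℂ)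
    (P : MvPolynomial ((Fin 2 ⊕ Fin m) × Fin 3 × Fin 3) ℂ)
    (hP : ∀ (A B : Matrix (Fin 3) (Fin 3) ℂ) (Z : Fin m → Matrix (Fin 3) (Fin 3) ℂ),
      (∀ i j, A i j ∈ ringO L) → (∀ i j, B i j ∈ ringO L) → (∀ k i j, Z k i j ∈ ringO L) →
      A.charpoly = ∏ i, (Polynomial.X - Polynomial.C (a i)) →
      B.charpoly = ∏ i, (Polynomial.X - Polynomial.C (b i)) →
      (∀ k, (Z k).charpoly = ∏ i, (Polynomial.X - Polynomial.C (c k i))) →
      (A * (List.ofFn Z).prod * B).charpoly = ∏ i, (Polynomial.X - Polynomial.C (d i)) →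
      eval (tupEnc A B Z) P = 0)
    {ι : Type} [Fintype ι] (Af Bf : (ι → ℂˣ) → Matrix (Fin 3) (Fin 3) ℂ)
    (Zf : Fin m → (ι → ℂˣ) → Matrix (Fin 3) (Fin 3) ℂ)
    (hAf : GoodM L Af) (hBf : GoodM L Bf) (hZf : ∀ k, GoodM L (Zf k))
    (hA : ∀ s, (Af s).charpoly = ∏ i, (Polynomial.X - Polynomial.C (a i)))
    (hB : ∀ s, (Bf s).charpoly = ∏ i, (Polynomial.X - Polynomial.C (b i)))
    (hZ : ∀ s k, (Zf k s).charpoly = ∏ i, (Polynomial.X - Polynomial.C (c k i)))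
    (hT : ∀ s, (Af s * (List.ofFn fun k => Zf k s).prod * Bf s).charpoly =
      ∏ i, (Polynomial.X - Polynomial.C (d i)))
    (g g' : Matrix (Fin 3) (Fin 3) ℂ) (hg : g * g' = 1) (s : ι → ℂˣ) :
    eval (tupEnc (g * Af s * g') (g * Bf s * g') (fun k => g * Zf k s * g')) P = 0 := by
  have hgdet : g.det ≠ 0 := by
    intro h0
    have := congrArg Matrix.det hg
    rw [Matrix.det_mul, h0, zero_mul, Matrix.det_one] at this
    exact zero_ne_one this
  obtain ⟨κ, _, G, G', hG, hG', hinv, hint, -, s₀, hs₀⟩ := Param.of_det_ne_zero L g hgdet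
  have hinv' : ∀ t, G' t * G t = 1 := fun t => mul_eq_one_comm.mp (hinv t)
  have hg' : G' s₀ = g' := by
    have h1 := hinv s₀
    rw [hs₀] at h1
    calc G' s₀ = (g' * g) * G' s₀ := by rw [mul_eq_one_comm.mp hg, Matrix.one_mul]
      _ = g' * (g * G' s₀) := Matrix.mul_assoc _ _ _
      _ = g' := by rw [h1, Matrix.mul_one]
  have hGG : GoodM L G := fun i j => ⟨hG i j, fun t ht => (hint t ht i j).1⟩
  have hGG' : GoodM L G' := fun i j => ⟨hG' i j, fun t ht => (hint t ht i j).2⟩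
  have hGl := hGG.comp_injective (Sum.inl : κ → κ ⊕ ι) Sum.inl_injective
  have hGl' := hGG'.comp_injective (Sum.inl : κ → κ ⊕ ι) Sum.inl_injective
  obtain ⟨FA, hFAdef⟩ : ∃ FA : (κ ⊕ ι → ℂˣ) → Matrix (Fin 3) (Fin 3) ℂ, FA = fun t =>
      G (t ∘ Sum.inl) * Af (t ∘ Sum.inr) * G' (t ∘ Sum.inl) := ⟨_, rfl⟩
  obtain ⟨FB, hFBdef⟩ : ∃ FB : (κ ⊕ ι → ℂˣ) → Matrix (Fin 3) (Fin 3) ℂ, FB = fun t =>
      G (t ∘ Sum.inl) * Bf (t ∘ Sum.inr) * G' (t ∘ Sum.inl) := ⟨_, rfl⟩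
  obtain ⟨FZ, hFZdef⟩ : ∃ FZ : (κ ⊕ ι → ℂˣ) → Fin m → Matrix (Fin 3) (Fin 3) ℂ, FZ = fun t k =>
      G (t ∘ Sum.inl) * Zf k (t ∘ Sum.inr) * G' (t ∘ Sum.inl) := ⟨_, rfl⟩
  have hFA : GoodM L FA := by
    rw [hFAdef]
    exact (hGl.mul (hAf.comp_injective Sum.inr Sum.inr_injective)).mul hGl'
  have hFB : GoodM L FB := by
    rw [hFBdef]
    exact (hGl.mul (hBf.comp_injective Sum.inr Sum.inr_injective)).mul hGl'
  have hFZ : ∀ k, GoodM L (fun t => FZ t k) := by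
    intro k
    rw [hFZdef]
    exact (hGl.mul ((hZf k).comp_injective Sum.inr Sum.inr_injective)).mul hGl'
  have hLau : IsLaurent (fun t => eval (tupEnc (FA t) (FB t) (FZ t)) P) := by
    refine IsLaurent.eval_comp P (G := fun x t => tupEnc (FA t) (FB t) (FZ t) x) fun x => ?_
    obtain ⟨e | k, i, j⟩ := x
    · fin_cases e
      · exact (hFA i j).1
      · exact (hFB i j).1
    · exact (hFZ k i j).1
  have hzero : ∀ t : κ ⊕ ι → ℂˣ, (∀ k, t k ∈ Set.range (fun n : ℕ => fundUnit ^ n)) →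
      eval (tupEnc (FA t) (FB t) (FZ t)) P = 0 := by
    intro t ht
    have htU : ∀ k, t k ∈ unitsO L := by
      intro k
      obtain ⟨n, hn⟩ := ht k
      rw [← hn]
      exact (unitsO L).pow_mem (fundUnit_mem_unitsO_of_mem hL) n
    refine hP (FA t) (FB t) (FZ t) (fun i j => (hFA i j).2 t htU) (fun i j => (hFB i j).2 t htU)
      (fun k i j => (hFZ k i j).2 t htU) ?_ ?_ ?_ ?_
    · rw [hFAdef]
      beta_reduce
      rw [charpoly_conj _ _ _ (hinv' _)]
      exact hA _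
    · rw [hFBdef]
      beta_reduce
      rw [charpoly_conj _ _ _ (hinv' _)]
      exact hB _
    · intro k
      rw [hFZdef]
      beta_reduce
      rw [charpoly_conj _ _ _ (hinv' _)]
      exact hZ _ k
    · have hmul : FA t * (List.ofFn (FZ t)).prod * FB t = G (t ∘ Sum.inl) *
          (Af (t ∘ Sum.inr) * (List.ofFn fun k => Zf k (t ∘ Sum.inr)).prod * Bf (t ∘ Sum.inr)) *
          G' (t ∘ Sum.inl) := by
        rw [hFAdef, hFBdef, hFZdef]
        beta_reduce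
        rw [prod_ofFn_conj _ _ (hinv _) (hinv' _)]
        simp only [Matrix.mul_assoc]
        rw [← Matrix.mul_assoc (G' (t ∘ Sum.inl)) (G (t ∘ Sum.inl)), hinv', Matrix.one_mul,
          ← Matrix.mul_assoc (G' (t ∘ Sum.inl)) (G (t ∘ Sum.inl)), hinv', Matrix.one_mul]
      rw [hmul, charpoly_conj _ _ _ (hinv' _)]
      exact hT _
  have h0 := hLau.eq_zero_of_infinite _ infinite_powers_fundUnit hzero (Sum.elim s₀ s)
  have e1 : (Sum.elim s₀ s) ∘ Sum.inl = s₀ := rfl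
  have e2 : (Sum.elim s₀ s) ∘ Sum.inr = s := rfl
  rw [hFAdef, hFBdef, hFZdef] at h0
  simp only [e1, e2, hs₀, hg'] at h0
  exact h0

end

end Vale.Agent.Lib.P002
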