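import Vale.Agent.Lib.P002.SphMain

/-!
The chart of tuples in normal form is not empty: for all eigenvalue data there is a tuple
(A, Z_1, ..., Z_m, B) in normal form satisfying all the genericity conditions.
-/

namespace Vale.Agent.Lib.P002

open Matrix

/-- A product of an upper triangular matrix with entries p, q, r and a lower triangular matrix
has no eigenvector in the coordinate plane as soon as the hyperbola coordinate is nonzero. -/
theorem noEigPlane_of_fib (a b : Fin 3 → ℂ) (p q r x z y : ℂ) (hq : q ≠ 0) (hb1 : b 1 ≠ 0)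
    (hb2 : b 2 ≠ 0)
    (hw : (p * r - q * a 1) * y + fLx a b p q⁻¹ (p * r - q * a 1) ≠ 0) :
    noEigPlane (upT a p q r * loT b x z y) := by
  intro v κ hv hv0 h
  apply hw
  have h0 := congrFun h 0
  have h1 := congrFun h 1
  have h2 := congrFun h 2
  simp [upT, loT, Matrix.mulVec, dotProduct, Fin.sum_univ_three, Matrix.mul_apply, hv0]
    at h0 h1 h2
  have E0 : p * b 1 * v 1 + q * (y * v 1 + b 2 * v 2) = 0 := by linear_combination h0
  have E1 : a 1 * b 1 * v 1 + r * (y * v 1 + b 2 * v 2) = κ * v 1 := by linear_combination h1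
  have E2 : a 2 * (y * v 1 + b 2 * v 2) = κ * v 2 := by linear_combination h2
  have hv1 : v 1 ≠ 0 := by
    intro h10
    apply hv
    have h20 : v 2 = 0 := by
      rw [h10] at E0
      have : q * b 2 * v 2 = 0 := by linear_combination E0
      rcases mul_eq_zero.mp this with h | h
      · exact ((mul_ne_zero hq hb2) h).elim
      · exact h
    funext j
    fin_cases j
    · exact hv0
    · exact h10
    · exact h20
  have k1 : ((p * r - q * a 1) * b 1 + κ * q) * v 1 = 0 := by
    linear_combination r * E0 - q * E1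
  have hκ : (p * r - q * a 1) * b 1 + κ * q = 0 := by
    rcases mul_eq_zero.mp k1 with h | h
    · exact h
    · exact (hv1 h).elim
  have k2 : b 1 * ((p * r - q * a 1) * v 2 - a 2 * p * v 1) = 0 := by
    linear_combination q * E2 - a 2 * E0 + v 2 * hκ
  have k3 : (p * r - q * a 1) * v 2 - a 2 * p * v 1 = 0 := by
    rcases mul_eq_zero.mp k2 with h | h
    · exact (hb1 h).elim
    · exact h
  have k4 : (p * b 1 * (p * r - q * a 1) + q * (p * r - q * a 1) * y + q * a 2 * b 2 * p) *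
      v 1 = 0 := by
    linear_combination (p * r - q * a 1) * E0 - q * b 2 * k3
  have k5 : p * b 1 * (p * r - q * a 1) + q * (p * r - q * a 1) * y + q * a 2 * b 2 * p = 0 := by
    rcases mul_eq_zero.mp k4 with h | h
    · exact h
    · exact (hv1 h).elim
  simp only [fLx]
  field_simp
  linear_combination k5

/-- For all diagonals there is a pair satisfying the conditions of the pair family. -/
theorem exists_pair_point (a b c : Fin 3 → ℂ) (ha : a 0 * a 1 * a 2 = 1)
    (hb : b 0 * b 1 * b 2 = 1) (hc : c 0 * c 1 * c 2 = 1) :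
    ∃ P Q : Matrix (Fin 3) (Fin 3) ℂ, IsUT P ∧ (∀ i, P i i = a i) ∧
      (Q 0 1 = 0 ∧ Q 0 2 = 0 ∧ Q 1 2 = 0) ∧ (∀ i, Q i i = b i) ∧ cornerNZ P ∧
      (P * Q).charpoly = ∏ i, (Polynomial.X - Polynomial.C (c i)) ∧ noEigPlane (P * Q) := by
  obtain ⟨-, hb1, hb2⟩ := ne_zero_of_prod hb
  refine ⟨upT a 1 1 (1 + a 1), fibQ a b (c 0 + c 1 + c 2) (c 0 * c 1 + c 0 * c 2 + c 1 * c 2)
    1 (1 + a 1) 1 1 1 1 1, isUT_upT _ _ _ _, ?_, ?_, ?_, ?_, ?_, ?_⟩
  · intro i
    fin_cases i <;> simp [upT]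
  · simp [fibQ, loT]
  · intro i
    fin_cases i <;> simp [fibQ, loT]
  · simp [cornerNZ, upT]
  · obtain ⟨k1, k2, k3⟩ := fib_spec a b ha hb (c 0 + c 1 + c 2)
      (c 0 * c 1 + c 0 * c 2 + c 1 * c 2) 1 1 (1 + a 1) 1 1 1 1 1 (by norm_num) (by norm_num)
      (by norm_num) (by ring)
    exact charpoly_eq_prod_of _ c k1 k2 (by rw [k3, hc])
  · rw [fibQ]
    refine noEigPlane_of_fib a b 1 1 (1 + a 1) _ _ _ one_ne_zero hb1 hb2 ?_
    have e : (1 * (1 + a 1) - 1 * a 1) * fY a b 1 1 1 1 1 +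
        fLx a b 1 1⁻¹ (1 * (1 + a 1) - 1 * a 1) = 1 := by
      simp only [fY, fLx]
      ring
    rw [e]
    exact one_ne_zero

theorem trailNZ_UL {U M : Matrix (Fin 3) (Fin 3) ℂ} (hU : IsUT U) (hd : U.det = 1)
    (hM : IsLU M) : trailNZ (U * M) := by
  rw [hU.det] at hd
  obtain ⟨u10, u20, u21⟩ := hU
  obtain ⟨m01, m02, m12, m00, m11, m22⟩ := hM
  have e1 : (U * M) 2 2 = U 2 2 := by
    simp [Matrix.mul_apply, Fin.sum_univ_three, u20, u21, m22]
  have e2 : (U * M) 1 1 * (U * M) 2 2 - (U * M) 1 2 * (U * M) 2 1 = U 1 1 * U 2 2 := by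
    simp [Matrix.mul_apply, Fin.sum_univ_three, u10, u20, u21, m01, m02, m12, m11, m22]
    ring
  unfold trailNZ
  rw [e2, e1]
  constructor
  · intro h
    rw [h] at hd
    simp at hd
  · intro h
    rw [mul_assoc, h] at hd
    simp at hd

theorem adjugate_adjugate_of_det {M : Matrix (Fin 3) (Fin 3) ℂ} (h : M.det = 1) :
    M.adjugate.adjugate = M := by
  rw [Matrix.adjugate_adjugate _ (by simp), h]
  simp

/-- For all eigenvalue data there is a chain of matrices satisfying the conditions of the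
chain family. -/
theorem exists_chain_point (cs : List (Fin 3 → ℂ)) :
    (∀ c ∈ cs, c 0 * c 1 * c 2 = 1) → ∀ (U M : Matrix (Fin 3) (Fin 3) ℂ), IsUT U →
    U.det = 1 → IsLU M →
    ∃ (l : List (Matrix (Fin 3) (Fin 3) ℂ)) (U' M' : Matrix (Fin 3) (Fin 3) ℂ),
      IsUT U' ∧ U'.det = 1 ∧ IsLU M' ∧ U * M * l.prod = U' * M' ∧
      List.Forall₂ (fun Y c => Y.charpoly = ∏ i, (Polynomial.X - Polynomial.C (c i)) ∧
        cornerNZ Y ∧ noEigPlane Y) l cs ∧
      ∀ j, trailNZ (U * M * (l.take j).prod) := by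
  induction cs with
  | nil =>
    intro _ U M hU hd hM
    exact ⟨[], U, M, hU, hd, hM, by simp, List.Forall₂.nil, fun j => by
      simpa using trailNZ_UL hU hd hM⟩
  | cons c cs ih =>
    intro hcs U M hU hd hM
    have hc : c 0 * c 1 * c 2 = 1 := hcs c List.mem_cons_self
    obtain ⟨P, Q, hP, hPd, hQ, hQd, hcor, hchar, hne⟩ :=
      exists_pair_point (fun _ => 1) (fun _ => 1) c (by norm_num) (by norm_num) hc
    have hQ' : IsLU Q := ⟨hQ.1, hQ.2.1, hQ.2.2, hQd 0, hQd 1, hQd 2⟩
    have hPdet : P.det = 1 := by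
      rw [hP.det, hPd, hPd, hPd]
      norm_num
    obtain ⟨l, U', M', hU', hd', hM', hprod, hF, htr⟩ :=
      ih (fun c hc => hcs c (List.mem_cons_of_mem _ hc)) (U * P) (Q * M) (hU.mul hP)
        (by rw [Matrix.det_mul, hd, hPdet, one_mul]) (hQ'.mul hM)
    have hY : U * M * (M.adjugate * (P * Q) * M) = U * P * (Q * M) := by
      calc U * M * (M.adjugate * (P * Q) * M) = U * (M * M.adjugate) * (P * Q) * M := by
            simp only [Matrix.mul_assoc]
        _ = U * P * (Q * M) := by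
            rw [mul_adjugate_of_det hM.det, Matrix.mul_one]
            simp only [Matrix.mul_assoc]
    refine ⟨(M.adjugate * (P * Q) * M) :: l, U', M', hU', hd', hM', ?_, ?_, ?_⟩
    · rw [List.prod_cons, ← Matrix.mul_assoc, hY]
      exact hprod
    · refine List.Forall₂.cons ⟨?_, ?_, ?_⟩ hF
      · rw [charpoly_conj _ _ _ (mul_adjugate_of_det hM.det)]
        exact hchar
      · rw [cornerNZ_mul_right hM, cornerNZ_mul_left hM.adjugate, cornerNZ_mul_right hQ']
        exact hcor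
      · have h := noEigPlane_conj hM.adjugate hne
        rwa [adjugate_adjugate_of_det hM.det] at h
    · intro j
      cases j with
      | zero => simpa using trailNZ_UL hU hd hM
      | succ j =>
        rw [List.take_succ_cons, List.prod_cons, ← Matrix.mul_assoc, hY]
        exact htr j

/-- The chart is not empty. -/
theorem chart_nonempty (m : ℕ) (a b d : Fin 3 → ℂ) (c : Fin m → Fin 3 → ℂ)
    (ha1 : a 0 * a 1 * a 2 = 1) (hb1 : b 0 * b 1 * b 2 = 1) (hd1 : d 0 * d 1 * d 2 = 1)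
    (hc1 : ∀ k, c k 0 * c k 1 * c k 2 = 1) :
    ∃ (A B : Matrix (Fin 3) (Fin 3) ℂ) (Z : Fin m → Matrix (Fin 3) (Fin 3) ℂ),
      IsUT A ∧ (∀ i, A i i = a i) ∧ (B 0 1 = 0 ∧ B 0 2 = 0 ∧ B 1 2 = 0) ∧ (∀ i, B i i = b i) ∧
      (∀ k, (Z k).charpoly = ∏ i, (Polynomial.X - Polynomial.C (c k i))) ∧
      (A * (List.ofFn Z).prod * B).charpoly = ∏ i, (Polynomial.X - Polynomial.C (d i)) ∧
      (∀ j, trailNZ ((List.ofFn Z).take j).prod) ∧ (∀ k, cornerNZ (Z k) ∧ noEigPlane (Z k)) ∧
      cornerNZ (A * (List.ofFn Z).prod) ∧ noEigPlane (A * (List.ofFn Z).prod * B) := by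
  obtain ⟨l, U, M, hU, hd, hM, hprod, hF, htr⟩ :=
    exists_chain_point (List.ofFn c) (by
      intro c' hc'
      obtain ⟨k, rfl⟩ := (List.mem_ofFn' _ _).mp hc'
      exact hc1 k) 1 1 isUT_one Matrix.det_one isLU_one
  have hlen : l.length = m := by
    have := hF.length_eq
    simpa using this
  obtain ⟨Z, rfl⟩ := exists_ofFn_of_length l hlen
  rw [forall₂_ofFn] at hF
  have hprod' : (List.ofFn Z).prod = U * M := by simpa using hprod
  have hdet3 : U 0 0 * U 1 1 * U 2 2 = 1 := by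
    rw [← hU.det]
    exact hd
  obtain ⟨P, Q, hP, hPd, hQ, hQd, hcor, hchar, hne⟩ :=
    exists_pair_point (fun i => a i * U i i) b d (by
      linear_combination (U 0 0 * U 1 1 * U 2 2) * ha1 + hdet3) hb1 hd1
  have hAB : P * U.adjugate * (U * M) * (M.adjugate * Q) = P * Q := by
    calc P * U.adjugate * (U * M) * (M.adjugate * Q) =
        P * (U.adjugate * U) * (M * M.adjugate) * Q := by simp only [Matrix.mul_assoc]
      _ = P * Q := by
        rw [adjugate_mul_of_det hd, mul_adjugate_of_det hM.det, Matrix.mul_one, Matrix.mul_one]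
  have hAZ : P * U.adjugate * (U * M) = P * M := by
    calc P * U.adjugate * (U * M) = P * (U.adjugate * U) * M := by simp only [Matrix.mul_assoc]
      _ = P * M := by rw [adjugate_mul_of_det hd, Matrix.mul_one]
  obtain ⟨m01, m02, m12, m00, m11, m22⟩ := hM.adjugate
  obtain ⟨q01, q02, q12⟩ := hQ
  refine ⟨P * U.adjugate, M.adjugate * Q, Z, hP.mul hU.adjugate, ?_, ?_, ?_,
    fun k => (hF k).1, ?_, ?_, fun k => (hF k).2, ?_, ?_⟩
  · intro i
    rw [hP.mul_diag hU.adjugate, hPd, mul_assoc, hU.adjugate_diag hd i, mul_one]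
  · simp [Matrix.mul_apply, Fin.sum_univ_three, m01, m02, m12, q01, q02, q12]
  · intro i
    fin_cases i <;>
      simp [Matrix.mul_apply, Fin.sum_univ_three, m01, m02, m12, m00, m11, m22, q01, q02, q12,
        hQd]
  · rw [hprod', hAB]
    exact hchar
  · intro j
    simpa using htr j
  · rw [hprod', hAZ, cornerNZ_mul_right hM]
    exact hcor
  · rw [hprod', hAB]
    exact hne

end Vale.Agent.Lib.P002
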