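import Vale.Agent.Lib.P002.SphResult

/-!
The chart of tuples (A, Z_1, ..., Z_m, B) contains an explicit nonempty Zariski open subset of
the variety of all tuples with the prescribed characteristic polynomials: the frame putting A
and B in triangular form is given by polynomial formulas in the entries of A and B, and the
genericity conditions are the nonvanishing of polynomials.
-/

namespace Vale.Agent.Lib.P002

open MvPolynomial Matrix

/-! ### Scalar multiples -/

theorem trailNZ_smul {c : ℂ} (hc : c ≠ 0) (K : Matrix (Fin 3) (Fin 3) ℂ) :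
    trailNZ (c • K) ↔ trailNZ K := by
  unfold trailNZ
  simp only [Matrix.smul_apply, smul_eq_mul]
  have e : c * K 1 1 * (c * K 2 2) - c * K 1 2 * (c * K 2 1) =
      c * c * (K 1 1 * K 2 2 - K 1 2 * K 2 1) := by ring
  rw [e]
  simp [hc]

theorem cornerNZ_smul {c : ℂ} (hc : c ≠ 0) (K : Matrix (Fin 3) (Fin 3) ℂ) :
    cornerNZ (c • K) ↔ cornerNZ K := by
  unfold cornerNZ
  simp only [Matrix.smul_apply, smul_eq_mul]
  have e : c * K 0 1 * (c * K 1 2) - c * K 0 2 * (c * K 1 1) =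
      c * c * (K 0 1 * K 1 2 - K 0 2 * K 1 1) := by ring
  rw [e]
  simp [hc]

theorem noEigPlane_smul {c : ℂ} (hc : c ≠ 0) {K : Matrix (Fin 3) (Fin 3) ℂ}
    (h : noEigPlane K) : noEigPlane (c • K) := by
  intro v κ hv hv0 hK
  refine h v (c⁻¹ * κ) hv hv0 ?_
  rw [Matrix.smul_mulVec] at hK
  have := congrArg (fun w => c⁻¹ • w) hK
  simp only [smul_smul, inv_mul_cancel₀ hc, one_smul] at this
  exact this

/-- The polynomial whose nonvanishing says that the two trailing principal minors do not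
vanish. -/
def trailP (K : Matrix (Fin 3) (Fin 3) ℂ) : ℂ := K 2 2 * (K 1 1 * K 2 2 - K 1 2 * K 2 1)

/-- The polynomial whose nonvanishing says that the two corner minors do not vanish. -/
def cornerP (K : Matrix (Fin 3) (Fin 3) ℂ) : ℂ := K 0 2 * (K 0 1 * K 1 2 - K 0 2 * K 1 1)

/-- The polynomial whose nonvanishing says that no eigenvector has vanishing first
coordinate. -/
def eigP (K : Matrix (Fin 3) (Fin 3) ℂ) : ℂ :=
  K 0 1 * (K 1 1 * K 0 2 - K 1 2 * K 0 1) + K 0 2 * (K 2 1 * K 0 2 - K 2 2 * K 0 1)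

theorem trailNZ_iff (K : Matrix (Fin 3) (Fin 3) ℂ) : trailNZ K ↔ trailP K ≠ 0 := by
  unfold trailNZ trailP
  rw [mul_ne_zero_iff]

theorem cornerNZ_iff (K : Matrix (Fin 3) (Fin 3) ℂ) : cornerNZ K ↔ cornerP K ≠ 0 := by
  unfold cornerNZ cornerP
  rw [mul_ne_zero_iff]

theorem noEigPlane_of_eigP {K : Matrix (Fin 3) (Fin 3) ℂ} (h : eigP K ≠ 0) : noEigPlane K := by
  intro v κ hv hv0 hK
  apply h
  have h0 := congrFun hK 0
  have h1 := congrFun hK 1
  have h2 := congrFun hK 2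
  simp [Matrix.mulVec, dotProduct, Fin.sum_univ_three, hv0] at h0 h1 h2
  have E0 : K 0 1 * v 1 + K 0 2 * v 2 = 0 := by linear_combination h0
  have hE : (K 1 1 * v 1 + K 1 2 * v 2) * v 2 - (K 2 1 * v 1 + K 2 2 * v 2) * v 1 = 0 := by
    linear_combination v 2 * h1 - v 1 * h2
  have k2 : eigP K * v 2 ^ 2 = 0 := by
    unfold eigP
    linear_combination (-(K 0 1) ^ 2) * hE + (K 1 1 * K 0 1 * v 2 -
      K 2 1 * (K 0 1 * v 1 - K 0 2 * v 2) - K 2 2 * K 0 1 * v 2) * E0
  have k1 : eigP K * v 1 ^ 2 = 0 := by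
    unfold eigP
    linear_combination (-(K 0 2) ^ 2) * hE + (K 1 1 * K 0 2 * v 1 +
      K 1 2 * (K 0 2 * v 2 - K 0 1 * v 1) - K 2 2 * K 0 2 * v 1) * E0
  by_contra hne
  have hv1 : v 1 = 0 := by
    rcases mul_eq_zero.mp k1 with h' | h'
    · exact (hne h').elim
    · exact pow_eq_zero_iff (two_ne_zero) |>.mp h'
  have hv2 : v 2 = 0 := by
    rcases mul_eq_zero.mp k2 with h' | h'
    · exact (hne h').elim
    · exact pow_eq_zero_iff (two_ne_zero) |>.mp h'
  apply hv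
  funext j
  fin_cases j
  · exact hv0
  · exact hv1
  · exact hv2

theorem eigP_ne_zero {K : Matrix (Fin 3) (Fin 3) ℂ} (h02 : K 0 2 ≠ 0) (h : noEigPlane K) :
    eigP K ≠ 0 := by
  intro hR
  refine h ![0, K 0 2, -K 0 1] ((K 1 1 * K 0 2 - K 1 2 * K 0 1) / K 0 2) ?_ rfl ?_
  · intro h0
    have := congrFun h0 1
    simp at this
    exact h02 this
  · unfold eigP at hR
    funext j
    fin_cases j
    · simp [Matrix.mulVec, dotProduct, Fin.sum_univ_three]
      ring
    · simp [Matrix.mulVec, dotProduct, Fin.sum_univ_three]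
      field_simp
      ring
    · simp [Matrix.mulVec, dotProduct, Fin.sum_univ_three]
      field_simp
      linear_combination hR

/-! ### The frame -/

theorem det_sub_smul_one (A : Matrix (Fin 3) (Fin 3) ℂ) (t : ℂ) :
    (A - t • (1 : Matrix (Fin 3) (Fin 3) ℂ)).det =
      -(t ^ 3 - A.trace * t ^ 2 + e2 A * t - A.det) := by
  simp [Matrix.det_fin_three, Matrix.trace_fin_three, e2]
  ring

theorem det_sub_root (A : Matrix (Fin 3) (Fin 3) ℂ) (c : Fin 3 → ℂ)
    (h : A.charpoly = ∏ i, (Polynomial.X - Polynomial.C (c i))) (i : Fin 3) :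
    (A - c i • (1 : Matrix (Fin 3) (Fin 3) ℂ)).det = 0 := by
  obtain ⟨h1, h2, h3⟩ := of_charpoly_eq_prod A c h
  rw [det_sub_smul_one, h1, h2, h3]
  fin_cases i <;> simp <;> ring

theorem mul_adjugate_sub (A : Matrix (Fin 3) (Fin 3) ℂ) (t : ℂ)
    (h : (A - t • (1 : Matrix (Fin 3) (Fin 3) ℂ)).det = 0) :
    A * (A - t • (1 : Matrix (Fin 3) (Fin 3) ℂ)).adjugate =
      t • (A - t • (1 : Matrix (Fin 3) (Fin 3) ℂ)).adjugate := by
  have := Matrix.mul_adjugate (A - t • (1 : Matrix (Fin 3) (Fin 3) ℂ))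
  rw [h, zero_smul, Matrix.sub_mul, Matrix.smul_mul, Matrix.one_mul, sub_eq_zero] at this
  exact this

theorem adjugate_sub_mul (A : Matrix (Fin 3) (Fin 3) ℂ) (t : ℂ)
    (h : (A - t • (1 : Matrix (Fin 3) (Fin 3) ℂ)).det = 0) :
    (A - t • (1 : Matrix (Fin 3) (Fin 3) ℂ)).adjugate * A =
      t • (A - t • (1 : Matrix (Fin 3) (Fin 3) ℂ)).adjugate := by
  have := Matrix.adjugate_mul (A - t • (1 : Matrix (Fin 3) (Fin 3) ℂ))
  rw [h, zero_smul, Matrix.mul_sub, Matrix.mul_smul, Matrix.mul_one, sub_eq_zero] at this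
  exact this

/-- An eigenvector of A for the eigenvalue α 0. -/
noncomputable def colA (α : Fin 3 → ℂ) (A : Matrix (Fin 3) (Fin 3) ℂ) : Fin 3 → ℂ :=
  fun i => ((α 1 - α 0) * (α 2 - α 0))⁻¹ *
    (A - α 0 • (1 : Matrix (Fin 3) (Fin 3) ℂ)).adjugate i 0

/-- A left eigenvector of A for the eigenvalue α 2. -/
noncomputable def rowA (α : Fin 3 → ℂ) (A : Matrix (Fin 3) (Fin 3) ℂ) : Fin 3 → ℂ :=
  fun j => ((α 0 - α 2) * (α 1 - α 2))⁻¹ *
    (A - α 2 • (1 : Matrix (Fin 3) (Fin 3) ℂ)).adjugate 2 j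

/-- An eigenvector of B for the eigenvalue β 2. -/
noncomputable def colB (β : Fin 3 → ℂ) (B : Matrix (Fin 3) (Fin 3) ℂ) : Fin 3 → ℂ :=
  fun i => ((β 0 - β 2) * (β 1 - β 2))⁻¹ *
    (B - β 2 • (1 : Matrix (Fin 3) (Fin 3) ℂ)).adjugate i 2

/-- A left eigenvector of B for the eigenvalue β 0. -/
noncomputable def rowB (β : Fin 3 → ℂ) (B : Matrix (Fin 3) (Fin 3) ℂ) : Fin 3 → ℂ :=
  fun j => ((β 1 - β 0) * (β 2 - β 0))⁻¹ *
    (B - β 0 • (1 : Matrix (Fin 3) (Fin 3) ℂ)).adjugate 0 j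

/-- The cross product. -/
def crossV (u w : Fin 3 → ℂ) : Fin 3 → ℂ :=
  ![u 1 * w 2 - u 2 * w 1, u 2 * w 0 - u 0 * w 2, u 0 * w 1 - u 1 * w 0]

/-- The frame attached to a pair (A, B). -/
noncomputable def frameG (α β : Fin 3 → ℂ) (A B : Matrix (Fin 3) (Fin 3) ℂ) :
    Matrix (Fin 3) (Fin 3) ℂ :=
  Matrix.of fun i j => ![colA α A i, crossV (rowA α A) (rowB β B) i, colB β B i] j

theorem frame_spec (α β : Fin 3 → ℂ) (A B : Matrix (Fin 3) (Fin 3) ℂ)
    (hA : A.charpoly = ∏ i, (Polynomial.X - Polynomial.C (α i)))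
    (hB : B.charpoly = ∏ i, (Polynomial.X - Polynomial.C (β i)))
    (hα : α 0 ≠ α 2) (hβ : β 0 ≠ β 2) (h : Matrix (Fin 3) (Fin 3) ℂ)
    (hg : h * frameG α β A B = 1) :
    ((h * A * frameG α β A B) 1 0 = 0 ∧ (h * A * frameG α β A B) 2 0 = 0 ∧
      (h * A * frameG α β A B) 2 1 = 0) ∧ (∀ i, (h * A * frameG α β A B) i i = α i) ∧
    ((h * B * frameG α β A B) 0 1 = 0 ∧ (h * B * frameG α β A B) 0 2 = 0 ∧
      (h * B * frameG α β A B) 1 2 = 0) ∧ (∀ i, (h * B * frameG α β A B) i i = β i) := by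
  obtain ⟨g, hgdef⟩ : ∃ g, g = frameG α β A B := ⟨_, rfl⟩
  rw [← hgdef] at hg ⊢
  have hgh : g * h = 1 := mul_eq_one_comm.mp hg
  have g0 : ∀ i, g i 0 = colA α A i := fun i => by rw [hgdef]; rfl
  have g1 : ∀ i, g i 1 = crossV (rowA α A) (rowB β B) i := fun i => by rw [hgdef]; rfl
  have g2 : ∀ i, g i 2 = colB β B i := fun i => by rw [hgdef]; rfl
  obtain ⟨ℓ, hℓ⟩ : ∃ ℓ, ℓ = rowA α A := ⟨_, rfl⟩
  obtain ⟨μ, hμ⟩ : ∃ μ, μ = rowB β B := ⟨_, rfl⟩
  rw [← hℓ, ← hμ] at g1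
  -- eigenvector properties
  have hAX := mul_adjugate_sub A (α 0) (det_sub_root A α hA 0)
  have hXA := adjugate_sub_mul A (α 2) (det_sub_root A α hA 2)
  have hBY := mul_adjugate_sub B (β 2) (det_sub_root B β hB 2)
  have hYB := adjugate_sub_mul B (β 0) (det_sub_root B β hB 0)
  have c0 : ∀ i, (A * g) i 0 = α 0 * g i 0 := by
    intro i
    have := congrFun (congrFun hAX i) 0
    simp only [Matrix.mul_apply, Fin.sum_univ_three, Matrix.smul_apply, smul_eq_mul] at this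
    simp only [Matrix.mul_apply, Fin.sum_univ_three, g0, colA]
    linear_combination ((α 1 - α 0) * (α 2 - α 0))⁻¹ * this
  have c2 : ∀ i, (B * g) i 2 = β 2 * g i 2 := by
    intro i
    have := congrFun (congrFun hBY i) 2
    simp only [Matrix.mul_apply, Fin.sum_univ_three, Matrix.smul_apply, smul_eq_mul] at this
    simp only [Matrix.mul_apply, Fin.sum_univ_three, g2, colB]
    linear_combination ((β 0 - β 2) * (β 1 - β 2))⁻¹ * this
  have hℓA : ℓ ᵥ* A = α 2 • ℓ := by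
    funext j
    have := congrFun (congrFun hXA 2) j
    simp only [Matrix.mul_apply, Fin.sum_univ_three, Matrix.smul_apply, smul_eq_mul] at this
    simp only [Matrix.vecMul, dotProduct, Fin.sum_univ_three, hℓ, rowA, Pi.smul_apply,
      smul_eq_mul]
    linear_combination ((α 0 - α 2) * (α 1 - α 2))⁻¹ * this
  have hμB : μ ᵥ* B = β 0 • μ := by
    funext j
    have := congrFun (congrFun hYB 0) j
    simp only [Matrix.mul_apply, Fin.sum_univ_three, Matrix.smul_apply, smul_eq_mul] at this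
    simp only [Matrix.vecMul, dotProduct, Fin.sum_univ_three, hμ, rowB, Pi.smul_apply,
      smul_eq_mul]
    linear_combination ((β 1 - β 0) * (β 2 - β 0))⁻¹ * this
  -- the rows r = ℓ g and s = μ g
  have hr : ∀ j, (ℓ ᵥ* g) j = ℓ 0 * g 0 j + ℓ 1 * g 1 j + ℓ 2 * g 2 j := fun j => by
    simp [Matrix.vecMul, dotProduct, Fin.sum_univ_three]
  have hs : ∀ j, (μ ᵥ* g) j = μ 0 * g 0 j + μ 1 * g 1 j + μ 2 * g 2 j := fun j => by
    simp [Matrix.vecMul, dotProduct, Fin.sum_univ_three]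
  have r1 : (ℓ ᵥ* g) 1 = 0 := by
    rw [hr, g1, g1, g1]
    simp [crossV]
    ring
  have s1 : (μ ᵥ* g) 1 = 0 := by
    rw [hs, g1, g1, g1]
    simp [crossV]
    ring
  have eA : ℓ ᵥ* (A * g) = α 2 • (ℓ ᵥ* g) := by
    rw [← Matrix.vecMul_vecMul, hℓA, Matrix.smul_vecMul]
  have eB : μ ᵥ* (B * g) = β 0 • (μ ᵥ* g) := by
    rw [← Matrix.vecMul_vecMul, hμB, Matrix.smul_vecMul]
  have r0 : (ℓ ᵥ* g) 0 = 0 := by
    have e1 : (ℓ ᵥ* (A * g)) 0 = α 0 * (ℓ ᵥ* g) 0 := by
      rw [hr]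
      simp only [Matrix.vecMul, dotProduct, Fin.sum_univ_three, c0]
      ring
    have e2 := congrFun eA 0
    rw [e1] at e2
    simp only [Pi.smul_apply, smul_eq_mul] at e2
    have : (α 0 - α 2) * (ℓ ᵥ* g) 0 = 0 := by linear_combination e2
    rcases mul_eq_zero.mp this with h' | h'
    · exact (hα (sub_eq_zero.mp h')).elim
    · exact h'
  have s2 : (μ ᵥ* g) 2 = 0 := by
    have e1 : (μ ᵥ* (B * g)) 2 = β 2 * (μ ᵥ* g) 2 := by
      rw [hs]
      simp only [Matrix.vecMul, dotProduct, Fin.sum_univ_three, c2]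
      ring
    have e2 := congrFun eB 2
    rw [e1] at e2
    simp only [Pi.smul_apply, smul_eq_mul] at e2
    have : (β 0 - β 2) * (μ ᵥ* g) 2 = 0 := by linear_combination -e2
    rcases mul_eq_zero.mp this with h' | h'
    · exact (hβ (sub_eq_zero.mp h')).elim
    · exact h'
  have hcol1 : (∀ i, g i 1 = 0) → False := by
    intro hcol
    have := congrFun (congrFun hg 1) 1
    simp [Matrix.mul_apply, hcol] at this
  have r2 : (ℓ ᵥ* g) 2 ≠ 0 := by
    intro h0
    have hr0 : ℓ ᵥ* g = 0 := by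
      funext j
      fin_cases j
      · exact r0
      · exact r1
      · exact h0
    have hℓ0 : ℓ = 0 := by
      have := congrArg (fun v => v ᵥ* h) hr0
      simpa [Matrix.vecMul_vecMul, hgh] using this
    apply hcol1
    intro i
    rw [g1, hℓ0]
    fin_cases i <;> simp [crossV]
  have s0 : (μ ᵥ* g) 0 ≠ 0 := by
    intro h0
    have hs0 : μ ᵥ* g = 0 := by
      funext j
      fin_cases j
      · exact h0
      · exact s1
      · exact s2
    have hμ0 : μ = 0 := by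
      have := congrArg (fun v => v ᵥ* h) hs0
      simpa [Matrix.vecMul_vecMul, hgh] using this
    apply hcol1
    intro i
    rw [g1, hμ0]
    fin_cases i <;> simp [crossV]
  -- the conjugates
  have hgN : ∀ X : Matrix (Fin 3) (Fin 3) ℂ, g * (h * X * g) = X * g := fun X => by
    rw [← Matrix.mul_assoc, ← Matrix.mul_assoc, hgh, Matrix.one_mul]
  have rowN : (ℓ ᵥ* g) ᵥ* (h * A * g) = α 2 • (ℓ ᵥ* g) := by
    rw [Matrix.vecMul_vecMul, hgN, eA]
  have rowM : (μ ᵥ* g) ᵥ* (h * B * g) = β 0 • (μ ᵥ* g) := by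
    rw [Matrix.vecMul_vecMul, hgN, eB]
  have colN : ∀ i, (h * A * g) i 0 = α 0 * (1 : Matrix (Fin 3) (Fin 3) ℂ) i 0 := by
    intro i
    have e1 : (h * A * g) i 0 =
        h i 0 * (A * g) 0 0 + h i 1 * (A * g) 1 0 + h i 2 * (A * g) 2 0 := by
      rw [Matrix.mul_assoc, Matrix.mul_apply, Fin.sum_univ_three]
    have e2 : (1 : Matrix (Fin 3) (Fin 3) ℂ) i 0 =
        h i 0 * g 0 0 + h i 1 * g 1 0 + h i 2 * g 2 0 := by
      rw [← hg, Matrix.mul_apply, Fin.sum_univ_three]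
    rw [e1, e2, c0, c0, c0]
    ring
  have colM : ∀ i, (h * B * g) i 2 = β 2 * (1 : Matrix (Fin 3) (Fin 3) ℂ) i 2 := by
    intro i
    have e1 : (h * B * g) i 2 =
        h i 0 * (B * g) 0 2 + h i 1 * (B * g) 1 2 + h i 2 * (B * g) 2 2 := by
      rw [Matrix.mul_assoc, Matrix.mul_apply, Fin.sum_univ_three]
    have e2 : (1 : Matrix (Fin 3) (Fin 3) ℂ) i 2 =
        h i 0 * g 0 2 + h i 1 * g 1 2 + h i 2 * g 2 2 := by
      rw [← hg, Matrix.mul_apply, Fin.sum_univ_three]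
    rw [e1, e2, c2, c2, c2]
    ring
  have trN : (h * A * g).trace = A.trace := by
    rw [Matrix.trace_mul_comm, ← Matrix.mul_assoc, hgh, Matrix.one_mul]
  have trM : (h * B * g).trace = B.trace := by
    rw [Matrix.trace_mul_comm, ← Matrix.mul_assoc, hgh, Matrix.one_mul]
  have hN2 : ∀ j, (ℓ ᵥ* g) 2 * (h * A * g) 2 j = α 2 * (ℓ ᵥ* g) j := by
    intro j
    have := congrFun rowN j
    simp only [Matrix.vecMul, dotProduct, Fin.sum_univ_three, Pi.smul_apply, smul_eq_mul]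
      at this
    have r0' := r0
    have r1' := r1
    simp only [Matrix.vecMul, dotProduct, Fin.sum_univ_three] at r0' r1'
    simp only [Matrix.vecMul, dotProduct, Fin.sum_univ_three]
    rw [r0', r1'] at this
    linear_combination this
  have hM0 : ∀ j, (μ ᵥ* g) 0 * (h * B * g) 0 j = β 0 * (μ ᵥ* g) j := by
    intro j
    have := congrFun rowM j
    simp only [Matrix.vecMul, dotProduct, Fin.sum_univ_three, Pi.smul_apply, smul_eq_mul]
      at this
    have s1' := s1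
    have s2' := s2
    simp only [Matrix.vecMul, dotProduct, Fin.sum_univ_three] at s1' s2'
    simp only [Matrix.vecMul, dotProduct, Fin.sum_univ_three]
    rw [s1', s2'] at this
    linear_combination this
  have N20 : (h * A * g) 2 0 = 0 := by
    have := hN2 0
    rw [r0, mul_zero] at this
    exact (mul_eq_zero.mp this).resolve_left r2
  have N21 : (h * A * g) 2 1 = 0 := by
    have := hN2 1
    rw [r1, mul_zero] at this
    exact (mul_eq_zero.mp this).resolve_left r2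
  have N22 : (h * A * g) 2 2 = α 2 := by
    have := hN2 2
    exact mul_left_cancel₀ r2 (by linear_combination this)
  have N00 : (h * A * g) 0 0 = α 0 := by simpa using colN 0
  have N10 : (h * A * g) 1 0 = 0 := by simpa using colN 1
  have N11 : (h * A * g) 1 1 = α 1 := by
    have h1 := (of_charpoly_eq_prod A α hA).1
    rw [← trN, Matrix.trace_fin_three, N00, N22] at h1
    linear_combination h1
  have M01 : (h * B * g) 0 1 = 0 := by
    have := hM0 1
    rw [s1, mul_zero] at this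
    exact (mul_eq_zero.mp this).resolve_left s0
  have M02 : (h * B * g) 0 2 = 0 := by
    have := hM0 2
    rw [s2, mul_zero] at this
    exact (mul_eq_zero.mp this).resolve_left s0
  have M00 : (h * B * g) 0 0 = β 0 := by
    have := hM0 0
    exact mul_left_cancel₀ s0 (by linear_combination this)
  have M22 : (h * B * g) 2 2 = β 2 := by simpa using colM 2
  have M12 : (h * B * g) 1 2 = 0 := by simpa using colM 1
  have M11 : (h * B * g) 1 1 = β 1 := by
    have h1 := (of_charpoly_eq_prod B β hB).1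
    rw [← trM, Matrix.trace_fin_three, M00, M22] at h1
    linear_combination h1
  refine ⟨⟨N10, N20, N21⟩, ?_, ⟨M01, M02, M12⟩, ?_⟩
  · intro i
    fin_cases i
    · exact N00
    · exact N11
    · exact N22
  · intro i
    fin_cases i
    · exact M00
    · exact M11
    · exact M22

/-! ### Polynomial functions -/

section Poly

variable {κ : Type}

/-- A polynomial function of the coordinates. -/
def IsPoly (f : (κ → ℂ) → ℂ) : Prop := ∃ F : MvPolynomial κ ℂ, ∀ x, eval x F = f x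

theorem IsPoly.const (c : ℂ) : IsPoly (fun _ : κ → ℂ => c) := ⟨C c, fun x => by simp⟩

theorem IsPoly.coord (k : κ) : IsPoly (fun x : κ → ℂ => x k) := ⟨X k, fun x => by simp⟩

theorem IsPoly.add {f g : (κ → ℂ) → ℂ} (hf : IsPoly f) (hg : IsPoly g) :
    IsPoly (fun x => f x + g x) := by
  obtain ⟨F, hF⟩ := hf
  obtain ⟨G, hG⟩ := hg
  exact ⟨F + G, fun x => by simp [hF, hG]⟩

theorem IsPoly.mul {f g : (κ → ℂ) → ℂ} (hf : IsPoly f) (hg : IsPoly g) :
    IsPoly (fun x => f x * g x) := by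
  obtain ⟨F, hF⟩ := hf
  obtain ⟨G, hG⟩ := hg
  exact ⟨F * G, fun x => by simp [hF, hG]⟩

theorem IsPoly.sub {f g : (κ → ℂ) → ℂ} (hf : IsPoly f) (hg : IsPoly g) :
    IsPoly (fun x => f x - g x) := by
  obtain ⟨F, hF⟩ := hf
  obtain ⟨G, hG⟩ := hg
  exact ⟨F - G, fun x => by simp [hF, hG]⟩

theorem IsPoly.neg {f : (κ → ℂ) → ℂ} (hf : IsPoly f) : IsPoly (fun x => -f x) := by
  obtain ⟨F, hF⟩ := hf
  exact ⟨-F, fun x => by simp [hF]⟩

theorem IsPoly.prod {ι : Type} (T : Finset ι) {f : ι → (κ → ℂ) → ℂ}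
    (hf : ∀ i ∈ T, IsPoly (f i)) : IsPoly (fun x => ∏ i ∈ T, f i x) := by
  classical
  induction T using Finset.induction_on with
  | empty => simpa using IsPoly.const (κ := κ) 1
  | insert a T ha ih =>
    simp only [Finset.prod_insert ha]
    exact (hf a (Finset.mem_insert_self a T)).mul
      (ih fun b hb => hf b (Finset.mem_insert_of_mem hb))

/-- A matrix all of whose entries are polynomial functions. -/
def IsPolyM (M : (κ → ℂ) → Matrix (Fin 3) (Fin 3) ℂ) : Prop := ∀ i j, IsPoly (fun x => M x i j)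

theorem IsPolyM.mul {M N : (κ → ℂ) → Matrix (Fin 3) (Fin 3) ℂ} (hM : IsPolyM M)
    (hN : IsPolyM N) : IsPolyM (fun x => M x * N x) := by
  intro i j
  simp only [Matrix.mul_apply, Fin.sum_univ_three]
  exact (((hM i 0).mul (hN 0 j)).add ((hM i 1).mul (hN 1 j))).add ((hM i 2).mul (hN 2 j))

theorem IsPolyM.one : IsPolyM (fun _ : κ → ℂ => (1 : Matrix (Fin 3) (Fin 3) ℂ)) :=
  fun _ _ => IsPoly.const _

theorem IsPolyM.sub_smul_one {M : (κ → ℂ) → Matrix (Fin 3) (Fin 3) ℂ} (hM : IsPolyM M)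
    (t : ℂ) : IsPolyM (fun x => M x - t • (1 : Matrix (Fin 3) (Fin 3) ℂ)) := by
  intro i j
  simp only [Matrix.sub_apply]
  exact (hM i j).sub (IsPoly.const _)

theorem IsPolyM.adjugate {M : (κ → ℂ) → Matrix (Fin 3) (Fin 3) ℂ} (hM : IsPolyM M) :
    IsPolyM (fun x => (M x).adjugate) := by
  intro i j
  simp only [Matrix.adjugate_fin_three]
  fin_cases i <;> fin_cases j <;>
    first
    | exact ((hM _ _).mul (hM _ _)).sub ((hM _ _).mul (hM _ _))
    | exact (((hM _ _).mul (hM _ _)).neg).add ((hM _ _).mul (hM _ _))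

theorem IsPolyM.det {M : (κ → ℂ) → Matrix (Fin 3) (Fin 3) ℂ} (hM : IsPolyM M) :
    IsPoly (fun x => (M x).det) := by
  simp only [Matrix.det_fin_three]
  have t1 := ((hM 0 0).mul (hM 1 1)).mul (hM 2 2)
  have t2 := ((hM 0 0).mul (hM 1 2)).mul (hM 2 1)
  have t3 := ((hM 0 1).mul (hM 1 0)).mul (hM 2 2)
  have t4 := ((hM 0 1).mul (hM 1 2)).mul (hM 2 0)
  have t5 := ((hM 0 2).mul (hM 1 0)).mul (hM 2 1)
  have t6 := ((hM 0 2).mul (hM 1 1)).mul (hM 2 0)
  exact ((((t1.sub t2).sub t3).add t4).add t5).sub t6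

theorem IsPolyM.listProd (l : List ((κ → ℂ) → Matrix (Fin 3) (Fin 3) ℂ))
    (hl : ∀ f ∈ l, IsPolyM f) : IsPolyM (fun x => (l.map fun f => f x).prod) := by
  induction l with
  | nil => simpa using IsPolyM.one (κ := κ)
  | cons f l ih =>
    simp only [List.map_cons, List.prod_cons]
    exact (hl f List.mem_cons_self).mul (ih fun f' hf' => hl f' (List.mem_cons_of_mem _ hf'))

theorem IsPolyM.trailP {M : (κ → ℂ) → Matrix (Fin 3) (Fin 3) ℂ} (hM : IsPolyM M) :
    IsPoly (fun x => trailP (M x)) :=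
  (hM 2 2).mul (((hM 1 1).mul (hM 2 2)).sub ((hM 1 2).mul (hM 2 1)))

theorem IsPolyM.cornerP {M : (κ → ℂ) → Matrix (Fin 3) (Fin 3) ℂ} (hM : IsPolyM M) :
    IsPoly (fun x => cornerP (M x)) :=
  (hM 0 2).mul (((hM 0 1).mul (hM 1 2)).sub ((hM 0 2).mul (hM 1 1)))

theorem IsPolyM.eigP {M : (κ → ℂ) → Matrix (Fin 3) (Fin 3) ℂ} (hM : IsPolyM M) :
    IsPoly (fun x => eigP (M x)) :=
  ((hM 0 1).mul (((hM 1 1).mul (hM 0 2)).sub ((hM 1 2).mul (hM 0 1)))).add
    ((hM 0 2).mul (((hM 2 1).mul (hM 0 2)).sub ((hM 2 2).mul (hM 0 1))))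

theorem IsPolyM.frameG (α β : Fin 3 → ℂ) {A B : (κ → ℂ) → Matrix (Fin 3) (Fin 3) ℂ}
    (hA : IsPolyM A) (hB : IsPolyM B) : IsPolyM (fun x => frameG α β (A x) (B x)) := by
  have hcA : ∀ i, IsPoly (fun x => colA α (A x) i) := fun i =>
    (IsPoly.const _).mul ((hA.sub_smul_one (α 0)).adjugate i 0)
  have hrA : ∀ j, IsPoly (fun x => rowA α (A x) j) := fun j =>
    (IsPoly.const _).mul ((hA.sub_smul_one (α 2)).adjugate 2 j)
  have hcB : ∀ i, IsPoly (fun x => colB β (B x) i) := fun i =>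
    (IsPoly.const _).mul ((hB.sub_smul_one (β 2)).adjugate i 2)
  have hrB : ∀ j, IsPoly (fun x => rowB β (B x) j) := fun j =>
    (IsPoly.const _).mul ((hB.sub_smul_one (β 0)).adjugate 0 j)
  intro i j
  fin_cases j
  · exact hcA i
  · fin_cases i
    · exact ((hrA 1).mul (hrB 2)).sub ((hrA 2).mul (hrB 1))
    · exact ((hrA 2).mul (hrB 0)).sub ((hrA 0).mul (hrB 2))
    · exact ((hrA 0).mul (hrB 1)).sub ((hrA 1).mul (hrB 0))
  · exact hcB i

end Poly

/-! ### The open subset -/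

theorem prod_map_conj (h g : Matrix (Fin 3) (Fin 3) ℂ) (hg : h * g = 1) (hgh : g * h = 1)
    (l : List (Matrix (Fin 3) (Fin 3) ℂ)) :
    (l.map fun Y => h * Y * g).prod = h * l.prod * g := by
  induction l with
  | nil => simp [hg]
  | cons Y l ih =>
    rw [List.map_cons, List.prod_cons, ih, List.prod_cons]
    calc h * Y * g * (h * l.prod * g) = h * Y * (g * h) * l.prod * g := by
          simp only [Matrix.mul_assoc]
      _ = h * (Y * l.prod) * g := by
          rw [hgh, Matrix.mul_one]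
          simp only [Matrix.mul_assoc]

theorem prod_take_conj (h g : Matrix (Fin 3) (Fin 3) ℂ) (hg : h * g = 1) (hgh : g * h = 1)
    {m : ℕ} (Z : Fin m → Matrix (Fin 3) (Fin 3) ℂ) (j : ℕ) :
    ((List.ofFn fun k => h * Z k * g).take j).prod = h * ((List.ofFn Z).take j).prod * g := by
  have e : (List.ofFn fun k => h * Z k * g) = (List.ofFn Z).map fun Y => h * Y * g := by
    rw [List.map_ofFn]
    rfl
  rw [e, ← List.map_take, prod_map_conj h g hg hgh]

theorem isPolyM_take_prod {κ : Type} {m : ℕ} (Zf : Fin m → (κ → ℂ) → Matrix (Fin 3) (Fin 3) ℂ)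
    (hZ : ∀ k, IsPolyM (Zf k)) (j : ℕ) :
    IsPolyM (fun x => ((List.ofFn fun k => Zf k x).take j).prod) := by
  have h := IsPolyM.listProd ((List.ofFn Zf).take j) (fun f hf => by
    obtain ⟨k, rfl⟩ := (List.mem_ofFn' _ _).mp (List.mem_of_mem_take hf)
    exact hZ k)
  have e : ∀ x, (((List.ofFn Zf).take j).map fun f => f x) =
      (List.ofFn fun k => Zf k x).take j := fun x => by
    rw [List.map_take, List.map_ofFn]
    rfl
  simpa only [e] using h

theorem isPolyM_ofFn_prod {κ : Type} {m : ℕ} (Zf : Fin m → (κ → ℂ) → Matrix (Fin 3) (Fin 3) ℂ)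
    (hZ : ∀ k, IsPolyM (Zf k)) : IsPolyM (fun x => (List.ofFn fun k => Zf k x).prod) := by
  have h := isPolyM_take_prod Zf hZ m
  have e : ∀ x, (List.ofFn fun k => Zf k x).take m = List.ofFn fun k => Zf k x := fun x =>
    List.take_of_length_le (by simp)
  simpa only [e] using h

/-- The product of the polynomials whose nonvanishing expresses that the frame g is invertible
and that the tuple (A, B, Z), transported to the frame g, satisfies the genericity conditions of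
the normal form. -/
noncomputable def chartPhiG {m : ℕ} (g A B : Matrix (Fin 3) (Fin 3) ℂ)
    (Z : Fin m → Matrix (Fin 3) (Fin 3) ℂ) : ℂ :=
  g.det * (∏ j ∈ Finset.range (m + 1),
      trailP (g.adjugate * ((List.ofFn Z).take j).prod * g)) *
    (∏ k : Fin m, (cornerP (g.adjugate * Z k * g) * eigP (g.adjugate * Z k * g))) *
    cornerP (g.adjugate * (A * (List.ofFn Z).prod) * g) *
    eigP (g.adjugate * (A * (List.ofFn Z).prod * B) * g)

/-- The polynomial function on tuples whose nonvanishing defines the open subset. -/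
noncomputable def chartPhi {m : ℕ} (α β : Fin 3 → ℂ) (A B : Matrix (Fin 3) (Fin 3) ℂ)
    (Z : Fin m → Matrix (Fin 3) (Fin 3) ℂ) : ℂ :=
  chartPhiG (frameG α β A B) A B Z

theorem isPoly_chartPhiG {κ : Type} {m : ℕ} {G A B : (κ → ℂ) → Matrix (Fin 3) (Fin 3) ℂ}
    {Zf : Fin m → (κ → ℂ) → Matrix (Fin 3) (Fin 3) ℂ} (hG : IsPolyM G) (hA : IsPolyM A)
    (hB : IsPolyM B) (hZ : ∀ k, IsPolyM (Zf k)) :
    IsPoly (fun x => chartPhiG (G x) (A x) (B x) (fun k => Zf k x)) := by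
  unfold chartPhiG
  have hK := isPolyM_ofFn_prod Zf hZ
  refine (((hG.det.mul (IsPoly.prod _ fun j _ => ?_)).mul (IsPoly.prod _ fun k _ => ?_)).mul
    ?_).mul ?_
  · exact ((hG.adjugate.mul (isPolyM_take_prod Zf hZ j)).mul hG).trailP
  · exact ((hG.adjugate.mul (hZ k)).mul hG).cornerP.mul ((hG.adjugate.mul (hZ k)).mul hG).eigP
  · exact ((hG.adjugate.mul (hA.mul hK)).mul hG).cornerP
  · exact ((hG.adjugate.mul ((hA.mul hK).mul hB)).mul hG).eigP

theorem chartPhi_poly {m : ℕ} (α β : Fin 3 → ℂ) :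
    ∃ F : MvPolynomial ((Fin 2 ⊕ Fin m) × Fin 3 × Fin 3) ℂ,
      ∀ (A B : Matrix (Fin 3) (Fin 3) ℂ) (Z : Fin m → Matrix (Fin 3) (Fin 3) ℂ),
        eval (tupEnc A B Z) F = chartPhi α β A B Z := by
  have hA : IsPolyM (fun x : (Fin 2 ⊕ Fin m) × Fin 3 × Fin 3 → ℂ =>
      (Matrix.of fun i j => x (Sum.inl 0, i, j) : Matrix (Fin 3) (Fin 3) ℂ)) :=
    fun i j => IsPoly.coord _
  have hB : IsPolyM (fun x : (Fin 2 ⊕ Fin m) × Fin 3 × Fin 3 → ℂ =>
      (Matrix.of fun i j => x (Sum.inl 1, i, j) : Matrix (Fin 3) (Fin 3) ℂ)) :=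
    fun i j => IsPoly.coord _
  have hZ : ∀ k : Fin m, IsPolyM (fun x : (Fin 2 ⊕ Fin m) × Fin 3 × Fin 3 → ℂ =>
      (Matrix.of fun i j => x (Sum.inr k, i, j) : Matrix (Fin 3) (Fin 3) ℂ)) :=
    fun k i j => IsPoly.coord _
  obtain ⟨F, hF⟩ := isPoly_chartPhiG (IsPolyM.frameG α β hA hB) hA hB hZ
  refine ⟨F, fun A B Z => ?_⟩
  rw [hF]
  rfl

theorem frameG_normal (α β : Fin 3 → ℂ) (hαi : Function.Injective α)
    (hβi : Function.Injective β) (A B : Matrix (Fin 3) (Fin 3) ℂ)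
    (hA : A 1 0 = 0 ∧ A 2 0 = 0 ∧ A 2 1 = 0) (hAd : ∀ i, A i i = α i)
    (hB : B 0 1 = 0 ∧ B 0 2 = 0 ∧ B 1 2 = 0) (hBd : ∀ i, B i i = β i) :
    frameG α β A B = 1 := by
  have a10 : α 1 - α 0 ≠ 0 := sub_ne_zero.mpr fun h => by simpa using hαi h
  have a20 : α 2 - α 0 ≠ 0 := sub_ne_zero.mpr fun h => by simpa using hαi h
  have a02 : α 0 - α 2 ≠ 0 := sub_ne_zero.mpr fun h => by simpa using hαi h
  have a12 : α 1 - α 2 ≠ 0 := sub_ne_zero.mpr fun h => by simpa using hαi h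
  have b02 : β 0 - β 2 ≠ 0 := sub_ne_zero.mpr fun h => by simpa using hβi h
  have b12 : β 1 - β 2 ≠ 0 := sub_ne_zero.mpr fun h => by simpa using hβi h
  have b10 : β 1 - β 0 ≠ 0 := sub_ne_zero.mpr fun h => by simpa using hβi h
  have b20 : β 2 - β 0 ≠ 0 := sub_ne_zero.mpr fun h => by simpa using hβi h
  obtain ⟨A10, A20, A21⟩ := hA
  obtain ⟨B01, B02, B12⟩ := hB
  have hcA : colA α A = ![1, 0, 0] := by
    funext i
    fin_cases i
    · simp [colA, Matrix.adjugate_fin_three, A21, hAd]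
      field_simp
    · simp [colA, Matrix.adjugate_fin_three, A10, A20]
    · simp [colA, Matrix.adjugate_fin_three, A10, A20, A21]
  have hrA : rowA α A = ![0, 0, 1] := by
    funext i
    fin_cases i
    · simp [rowA, Matrix.adjugate_fin_three, A10, A20, A21]
    · simp [rowA, Matrix.adjugate_fin_three, A20, A21]
    · simp [rowA, Matrix.adjugate_fin_three, A10, hAd]
      field_simp
  have hcB : colB β B = ![0, 0, 1] := by
    funext i
    fin_cases i
    · simp [colB, Matrix.adjugate_fin_three, B01, B02, B12]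
    · simp [colB, Matrix.adjugate_fin_three, B02, B12]
    · simp [colB, Matrix.adjugate_fin_three, B01, hBd]
      field_simp
  have hrB : rowB β B = ![1, 0, 0] := by
    funext i
    fin_cases i
    · simp [rowB, Matrix.adjugate_fin_three, B12, hBd]
      field_simp
    · simp [rowB, Matrix.adjugate_fin_three, B01, B02]
    · simp [rowB, Matrix.adjugate_fin_three, B01, B02, B12]
  ext i j
  fin_cases i <;> fin_cases j <;> simp [frameG, hcA, hrA, hcB, hrB, crossV]

theorem chartPhi_normal {m : ℕ} (α β δ : Fin 3 → ℂ) (γ : Fin m → Fin 3 → ℂ)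
    (hαi : Function.Injective α) (hβi : Function.Injective β) (hβ2 : β 2 ≠ 0)
    (A B : Matrix (Fin 3) (Fin 3) ℂ) (Z : Fin m → Matrix (Fin 3) (Fin 3) ℂ)
    (hN : SphNormal α β δ γ A B Z) : chartPhi α β A B Z ≠ 0 := by
  obtain ⟨hA, hAd, hB, hBd, hZ, hT, htr, hZc, hcor, hne⟩ := hN
  have hg : frameG α β A B = 1 := frameG_normal α β hαi hβi A B hA hAd hB hBd
  unfold chartPhi chartPhiG
  rw [hg]
  simp only [Matrix.adjugate_one, Matrix.det_one, Matrix.mul_one, one_mul]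
  refine mul_ne_zero (mul_ne_zero (mul_ne_zero (Finset.prod_ne_zero_iff.mpr ?_)
    (Finset.prod_ne_zero_iff.mpr ?_)) ?_) ?_
  · intro j _
    exact (trailNZ_iff _).mp (htr j)
  · intro k _
    exact mul_ne_zero ((cornerNZ_iff _).mp (hZc k).1) (eigP_ne_zero (hZc k).1.1 (hZc k).2)
  · exact (cornerNZ_iff _).mp hcor
  · refine eigP_ne_zero ?_ hne
    have e : (A * (List.ofFn Z).prod * B) 0 2 = (A * (List.ofFn Z).prod) 0 2 * β 2 := by
      rw [Matrix.mul_apply, Fin.sum_univ_three, hB.2.1, hB.2.2, hBd]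
      ring
    rw [e]
    exact mul_ne_zero hcor.1 hβ2

theorem normal_of_chartPhi {m : ℕ} (α β δ : Fin 3 → ℂ) (γ : Fin m → Fin 3 → ℂ)
    (hα : α 0 ≠ α 2) (hβ : β 0 ≠ β 2)
    (A B : Matrix (Fin 3) (Fin 3) ℂ) (Z : Fin m → Matrix (Fin 3) (Fin 3) ℂ)
    (hA : A.charpoly = ∏ i, (Polynomial.X - Polynomial.C (α i)))
    (hB : B.charpoly = ∏ i, (Polynomial.X - Polynomial.C (β i)))
    (hZ : ∀ k, (Z k).charpoly = ∏ i, (Polynomial.X - Polynomial.C (γ k i)))
    (hT : (A * (List.ofFn Z).prod * B).charpoly = ∏ i, (Polynomial.X - Polynomial.C (δ i)))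
    (hΦ : chartPhi α β A B Z ≠ 0) :
    ∃ g h : Matrix (Fin 3) (Fin 3) ℂ, g * h = 1 ∧
      SphNormal α β δ γ (h * A * g) (h * B * g) (fun k => h * Z k * g) := by
  obtain ⟨g, hgdef⟩ : ∃ g, g = frameG α β A B := ⟨_, rfl⟩
  unfold chartPhi chartPhiG at hΦ
  rw [← hgdef] at hΦ
  rw [mul_ne_zero_iff, mul_ne_zero_iff, mul_ne_zero_iff, mul_ne_zero_iff] at hΦ
  obtain ⟨⟨⟨⟨hd, htr⟩, hZc⟩, hcA⟩, heT⟩ := hΦ
  rw [Finset.prod_ne_zero_iff] at htr hZc
  obtain ⟨h, hhdef⟩ : ∃ h, h = g.det⁻¹ • g.adjugate := ⟨_, rfl⟩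
  have hhg : h * g = 1 := by
    rw [hhdef, Matrix.smul_mul, Matrix.adjugate_mul, smul_smul, inv_mul_cancel₀ hd, one_smul]
  have hgh : g * h = 1 := mul_eq_one_comm.mp hhg
  have hconj : ∀ X : Matrix (Fin 3) (Fin 3) ℂ, h * X * g = g.det⁻¹ • (g.adjugate * X * g) :=
    fun X => by rw [hhdef, Matrix.smul_mul, Matrix.smul_mul]
  have hprod : (List.ofFn fun k => h * Z k * g).prod = h * (List.ofFn Z).prod * g :=
    prod_ofFn_conj h g hhg hgh m Z
  have hAK : h * A * g * (h * (List.ofFn Z).prod * g) = h * (A * (List.ofFn Z).prod) * g := by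
    calc h * A * g * (h * (List.ofFn Z).prod * g) = h * A * (g * h) * (List.ofFn Z).prod * g := by
          simp only [Matrix.mul_assoc]
      _ = h * (A * (List.ofFn Z).prod) * g := by
          rw [hgh, Matrix.mul_one]
          simp only [Matrix.mul_assoc]
  have hAKB : h * A * g * (h * (List.ofFn Z).prod * g) * (h * B * g) =
      h * (A * (List.ofFn Z).prod * B) * g := by
    rw [hAK]
    calc h * (A * (List.ofFn Z).prod) * g * (h * B * g) =
        h * (A * (List.ofFn Z).prod) * (g * h) * B * g := by simp only [Matrix.mul_assoc]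
      _ = h * (A * (List.ofFn Z).prod * B) * g := by
          rw [hgh, Matrix.mul_one]
          simp only [Matrix.mul_assoc]
  have hdi : g.det⁻¹ ≠ 0 := inv_ne_zero hd
  obtain ⟨hN, hNd, hM, hMd⟩ := frame_spec α β A B hA hB hα hβ h (by rw [← hgdef]; exact hhg)
  rw [← hgdef] at hN hNd hM hMd
  refine ⟨g, h, hgh, hN, hNd, hM, hMd, ?_, ?_, ?_, ?_, ?_, ?_⟩
  · intro k
    rw [charpoly_conj h g (Z k) hgh]
    exact hZ k
  · rw [hprod, hAKB, charpoly_conj h g _ hgh]
    exact hT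
  · intro j
    rw [prod_take_conj h g hhg hgh Z j, hconj, trailNZ_smul hdi, trailNZ_iff]
    by_cases hj : j ≤ m
    · exact htr j (Finset.mem_range.mpr (Nat.lt_succ_of_le hj))
    · have e : (List.ofFn Z).take j = (List.ofFn Z).take m := by
        rw [List.take_of_length_le (by simp; omega), List.take_of_length_le (by simp)]
      rw [e]
      exact htr m (Finset.mem_range.mpr (Nat.lt_succ_self m))
  · intro k
    have h1 := hZc k (Finset.mem_univ k)
    rw [mul_ne_zero_iff] at h1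
    constructor
    · change cornerNZ (h * Z k * g)
      rw [hconj, cornerNZ_smul hdi, cornerNZ_iff]
      exact h1.1
    · change noEigPlane (h * Z k * g)
      rw [hconj]
      exact noEigPlane_smul hdi (noEigPlane_of_eigP h1.2)
  · rw [hprod, hAK, hconj, cornerNZ_smul hdi, cornerNZ_iff]
    exact hcA
  · rw [hprod, hAKB, hconj]
    exact noEigPlane_smul hdi (noEigPlane_of_eigP heT)

/-- Density of integral points in an explicit nonempty Zariski open subset of the variety of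
tuples (A, Z_1, ..., Z_m, B) with prescribed eigenvalues of the entries and of the product. -/
theorem sph_open (m : ℕ) (α β δ : Fin 3 → ℂ) (γ : Fin m → Fin 3 → ℂ)
    (hα : ∀ i, IsIntegral ℤ (α i)) (hβ : ∀ i, IsIntegral ℤ (β i)) (hδ : ∀ i, IsIntegral ℤ (δ i))
    (hγ : ∀ k i, IsIntegral ℤ (γ k i))
    (hαi : Function.Injective α) (hβi : Function.Injective β)
    (hα1 : α 0 * α 1 * α 2 = 1) (hβ1 : β 0 * β 1 * β 2 = 1) (hδ1 : δ 0 * δ 1 * δ 2 = 1)
    (hγ1 : ∀ k, γ k 0 * γ k 1 * γ k 2 = 1) :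
    ∃ L : IntermediateField ℚ ℂ, FiniteDimensional ℚ L ∧
      ∃ F : MvPolynomial ((Fin 2 ⊕ Fin m) × Fin 3 × Fin 3) ℂ,
        (∃ (A B : Matrix (Fin 3) (Fin 3) ℂ) (Z : Fin m → Matrix (Fin 3) (Fin 3) ℂ),
          A.charpoly = ∏ i, (Polynomial.X - Polynomial.C (α i)) ∧
          B.charpoly = ∏ i, (Polynomial.X - Polynomial.C (β i)) ∧
          (∀ k, (Z k).charpoly = ∏ i, (Polynomial.X - Polynomial.C (γ k i))) ∧
          (A * (List.ofFn Z).prod * B).charpoly = ∏ i, (Polynomial.X - Polynomial.C (δ i)) ∧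
          MvPolynomial.eval (fun x => Sum.elim ![A, B] Z x.1 x.2.1 x.2.2) F ≠ 0) ∧
        ∀ P : MvPolynomial ((Fin 2 ⊕ Fin m) × Fin 3 × Fin 3) ℂ,
          (∀ (A B : Matrix (Fin 3) (Fin 3) ℂ) (Z : Fin m → Matrix (Fin 3) (Fin 3) ℂ),
            (∀ i j, A i j ∈ L ∧ IsIntegral ℤ (A i j)) →
            (∀ i j, B i j ∈ L ∧ IsIntegral ℤ (B i j)) →
            (∀ k i j, Z k i j ∈ L ∧ IsIntegral ℤ (Z k i j)) →
            A.charpoly = ∏ i, (Polynomial.X - Polynomial.C (α i)) →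
            B.charpoly = ∏ i, (Polynomial.X - Polynomial.C (β i)) →
            (∀ k, (Z k).charpoly = ∏ i, (Polynomial.X - Polynomial.C (γ k i))) →
            (A * (List.ofFn Z).prod * B).charpoly = ∏ i, (Polynomial.X - Polynomial.C (δ i)) →
            MvPolynomial.eval (fun x => Sum.elim ![A, B] Z x.1 x.2.1 x.2.2) P = 0) →
          ∀ (A B : Matrix (Fin 3) (Fin 3) ℂ) (Z : Fin m → Matrix (Fin 3) (Fin 3) ℂ),
            A.charpoly = ∏ i, (Polynomial.X - Polynomial.C (α i)) →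
            B.charpoly = ∏ i, (Polynomial.X - Polynomial.C (β i)) →
            (∀ k, (Z k).charpoly = ∏ i, (Polynomial.X - Polynomial.C (γ k i))) →
            (A * (List.ofFn Z).prod * B).charpoly = ∏ i, (Polynomial.X - Polynomial.C (δ i)) →
            MvPolynomial.eval (fun x => Sum.elim ![A, B] Z x.1 x.2.1 x.2.2) F ≠ 0 →
            MvPolynomial.eval (fun x => Sum.elim ![A, B] Z x.1 x.2.1 x.2.2) P = 0 := by
  obtain ⟨⟨A₀, B₀, Z₀, hN₀⟩, L, hL, hdens⟩ := sph_chart m α β δ γ hα hβ hδ hγ hα1 hβ1 hδ1 hγ1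
  obtain ⟨F, hF⟩ := chartPhi_poly (m := m) α β
  have hβ2 : β 2 ≠ 0 := (ne_zero_of_prod hβ1).2.2
  have hα02 : α 0 ≠ α 2 := fun h => by simpa using hαi h
  have hβ02 : β 0 ≠ β 2 := fun h => by simpa using hβi h
  refine ⟨L, hL, F, ⟨A₀, B₀, Z₀, ?_, ?_, hN₀.2.2.2.2.1, hN₀.2.2.2.2.2.1, ?_⟩,
    fun P hP A B Z hA hB hZ hT hFne => ?_⟩
  · exact charpoly_upper A₀ α hN₀.1.1 hN₀.1.2.1 hN₀.1.2.2 hN₀.2.1
  · exact charpoly_lower B₀ β hN₀.2.2.1.1 hN₀.2.2.1.2.1 hN₀.2.2.1.2.2 hN₀.2.2.2.1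
  · have e := hF A₀ B₀ Z₀
    unfold tupEnc at e
    rw [e]
    exact chartPhi_normal α β δ γ hαi hβi hβ2 A₀ B₀ Z₀ hN₀
  · have hΦ : chartPhi α β A B Z ≠ 0 := by
      have e := hF A B Z
      unfold tupEnc at e
      rw [← e]
      exact hFne
    obtain ⟨g, h, hgh, hN⟩ := normal_of_chartPhi α β δ γ hα02 hβ02 A B Z hA hB hZ hT hΦ
    have key := hdens P hP (h * A * g) (h * B * g) (fun k => h * Z k * g) g h hgh hN
    have e : ∀ X : Matrix (Fin 3) (Fin 3) ℂ, g * (h * X * g) * h = X := fun X => by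
      calc g * (h * X * g) * h = (g * h) * X * (g * h) := by simp only [Matrix.mul_assoc]
        _ = X := by rw [hgh, Matrix.one_mul, Matrix.mul_one]
    simp only [e] at key
    exact key

end Vale.Agent.Lib.P002
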