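import Vale.Agent.Lib.P002.PantsFam

/-!
Pairs (P, Q) of 3 x 3 matrices, P upper triangular and Q lower triangular with prescribed
diagonals, whose product has a prescribed characteristic polynomial: for fixed P the matrices
Q form a hyperbola, which is parametrized by a unit.
-/

namespace Vale.Agent.Lib.P002

open Matrix

/-- The upper triangular matrix with diagonal a and entries p, q, r above it. -/
def upT (a : Fin 3 → ℂ) (p q r : ℂ) : Matrix (Fin 3) (Fin 3) ℂ :=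
  !![a 0, p, q; 0, a 1, r; 0, 0, a 2]

/-- The lower triangular matrix with diagonal b and entries x, z, y below it. -/
def loT (b : Fin 3 → ℂ) (x z y : ℂ) : Matrix (Fin 3) (Fin 3) ℂ :=
  !![b 0, 0, 0; x, b 1, 0; z, y, b 2]

/-- The second coefficient of the characteristic polynomial: the sum of the principal
2 x 2 minors. -/
def e2 (N : Matrix (Fin 3) (Fin 3) ℂ) : ℂ :=
  N 0 0 * N 1 1 - N 0 1 * N 1 0 + (N 0 0 * N 2 2 - N 0 2 * N 2 0) +
    (N 1 1 * N 2 2 - N 1 2 * N 2 1)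

theorem charpoly_fin_three (N : Matrix (Fin 3) (Fin 3) ℂ) :
    N.charpoly = Polynomial.X ^ 3 - Polynomial.C N.trace * Polynomial.X ^ 2 +
      Polynomial.C (e2 N) * Polynomial.X - Polynomial.C N.det := by
  rw [Matrix.charpoly, Matrix.det_fin_three, Matrix.det_fin_three, Matrix.trace_fin_three]
  simp only [Matrix.charmatrix_apply, e2, Matrix.diagonal_apply, map_sub, map_add, map_mul]
  simp
  ring

theorem prod_X_sub_C (c : Fin 3 → ℂ) :
    ∏ i, (Polynomial.X - Polynomial.C (c i)) =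
      Polynomial.X ^ 3 - Polynomial.C (c 0 + c 1 + c 2) * Polynomial.X ^ 2 +
        Polynomial.C (c 0 * c 1 + c 0 * c 2 + c 1 * c 2) * Polynomial.X -
          Polynomial.C (c 0 * c 1 * c 2) := by
  rw [Fin.prod_univ_three]
  simp only [map_add, map_mul]
  ring

theorem charpoly_eq_prod_of (N : Matrix (Fin 3) (Fin 3) ℂ) (c : Fin 3 → ℂ)
    (h1 : N.trace = c 0 + c 1 + c 2) (h2 : e2 N = c 0 * c 1 + c 0 * c 2 + c 1 * c 2)
    (h3 : N.det = c 0 * c 1 * c 2) :
    N.charpoly = ∏ i, (Polynomial.X - Polynomial.C (c i)) := by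
  rw [charpoly_fin_three, prod_X_sub_C, h1, h2, h3]

theorem of_charpoly_eq_prod (N : Matrix (Fin 3) (Fin 3) ℂ) (c : Fin 3 → ℂ)
    (h : N.charpoly = ∏ i, (Polynomial.X - Polynomial.C (c i))) :
    N.trace = c 0 + c 1 + c 2 ∧ e2 N = c 0 * c 1 + c 0 * c 2 + c 1 * c 2 ∧
      N.det = c 0 * c 1 * c 2 := by
  rw [charpoly_fin_three, prod_X_sub_C] at h
  have k2 := congrArg (fun p => Polynomial.coeff p 2) h
  have k1 := congrArg (fun p => Polynomial.coeff p 1) h
  have k0 := congrArg (fun p => Polynomial.coeff p 0) h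
  simp only [Polynomial.coeff_sub, Polynomial.coeff_add, Polynomial.coeff_C_mul,
    Polynomial.coeff_X_pow, Polynomial.coeff_C, Polynomial.coeff_X] at k2 k1 k0
  norm_num at k2 k1 k0
  exact ⟨by linear_combination -k2, k1, k0⟩


/-- The sum of the products of the diagonal entries. -/
def fS1 (a b : Fin 3 → ℂ) : ℂ := a 0 * b 0 + a 1 * b 1 + a 2 * b 2

/-- The sum of the products of two of the products of the diagonal entries. -/
def fS2 (a b : Fin 3 → ℂ) : ℂ :=
  a 1 * b 1 * (a 2 * b 2) + a 0 * b 0 * (a 2 * b 2) + a 0 * b 0 * (a 1 * b 1)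

def fLx (a b : Fin 3 → ℂ) (p μi ν : ℂ) : ℂ := p * (a 2 * b 2 + ν * b 1 * μi)

def fLy (a b : Fin 3 → ℂ) (r μi ν : ℂ) : ℂ := r * (a 0 * b 0 + ν * b 1 * μi)

def fC0 (a b : Fin 3 → ℂ) (s1 s2 μi ν : ℂ) : ℂ :=
  s2 - fS2 a b + ν * b 1 * (s1 - fS1 a b) * μi

/-- The constant of the hyperbola. -/
def fCpp (a b : Fin 3 → ℂ) (s1 s2 p r μi ν : ℂ) : ℂ :=
  ν * fC0 a b s1 s2 μi ν + fLx a b p μi ν * fLy a b r μi ν

def fY (a b : Fin 3 → ℂ) (p μi ν νi w : ℂ) : ℂ := (w - fLx a b p μi ν) * νi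

def fX (a b : Fin 3 → ℂ) (s1 s2 p r μi ν νi wi : ℂ) : ℂ :=
  (fCpp a b s1 s2 p r μi ν * wi - fLy a b r μi ν) * νi

def fZ (a b : Fin 3 → ℂ) (s1 s2 p r μi ν νi w wi : ℂ) : ℂ :=
  (s1 - fS1 a b - p * fX a b s1 s2 p r μi ν νi wi - r * fY a b p μi ν νi w) * μi

/-- The lower triangular matrix with diagonal b on the hyperbola attached to an upper
triangular matrix with diagonal a and entries p, q, r, to the target coefficients s1, s2 and
to the coordinate w; μi, νi, wi stand for the inverses of q, ν and w. -/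
def fibQ (a b : Fin 3 → ℂ) (s1 s2 p r μi ν νi w wi : ℂ) : Matrix (Fin 3) (Fin 3) ℂ :=
  loT b (fX a b s1 s2 p r μi ν νi wi) (fZ a b s1 s2 p r μi ν νi w wi) (fY a b p μi ν νi w)

theorem trace_upT_mul_loT (a b : Fin 3 → ℂ) (p q r x z y : ℂ) :
    (upT a p q r * loT b x z y).trace = fS1 a b + p * x + r * y + q * z := by
  simp [upT, loT, fS1, Matrix.trace_fin_three]
  ring

theorem e2_upT_mul_loT (a b : Fin 3 → ℂ) (p q r x z y : ℂ) :
    e2 (upT a p q r * loT b x z y) =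
      fS2 a b + p * (a 2 * b 2) * x + (p * r - q * a 1) * (x * y - z * b 1) +
        r * (a 0 * b 0) * y := by
  simp [upT, loT, fS2, e2, Matrix.mul_apply, Fin.sum_univ_three]
  ring

theorem det_upT (a : Fin 3 → ℂ) (p q r : ℂ) : (upT a p q r).det = a 0 * a 1 * a 2 := by
  simp [upT, Matrix.det_fin_three]

theorem det_loT (b : Fin 3 → ℂ) (x z y : ℂ) : (loT b x z y).det = b 0 * b 1 * b 2 := by
  simp [loT, Matrix.det_fin_three]

theorem fib_spec (a b : Fin 3 → ℂ) (ha : a 0 * a 1 * a 2 = 1) (hb : b 0 * b 1 * b 2 = 1)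
    (s1 s2 p q r μi ν νi w wi : ℂ) (hμ : q * μi = 1) (hν : ν * νi = 1) (hw : w * wi = 1)
    (hpr : p * r = ν + q * a 1) :
    (upT a p q r * fibQ a b s1 s2 p r μi ν νi w wi).trace = s1 ∧
      e2 (upT a p q r * fibQ a b s1 s2 p r μi ν νi w wi) = s2 ∧
      (upT a p q r * fibQ a b s1 s2 p r μi ν νi w wi).det = 1 := by
  refine ⟨?_, ?_, ?_⟩
  · rw [fibQ, trace_upT_mul_loT, fZ]
    linear_combination (s1 - fS1 a b - p * fX a b s1 s2 p r μi ν νi wi -
      r * fY a b p μi ν νi w) * hμ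
  · rw [fibQ, e2_upT_mul_loT]
    have hν' : p * r - q * a 1 = ν := by linear_combination hpr
    rw [hν']
    have hμ0 : q ≠ 0 := left_ne_zero_of_mul_eq_one hμ
    have hν0 : ν ≠ 0 := left_ne_zero_of_mul_eq_one hν
    have hw0 : w ≠ 0 := left_ne_zero_of_mul_eq_one hw
    have e1 : μi = q⁻¹ := eq_inv_of_mul_eq_one_right hμ
    have e2' : νi = ν⁻¹ := eq_inv_of_mul_eq_one_right hν
    have e3 : wi = w⁻¹ := eq_inv_of_mul_eq_one_right hw
    subst e1 e2' e3
    simp only [fZ, fX, fY, fCpp, fC0, fLx, fLy]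
    field_simp
    ring
  · rw [Matrix.det_mul, fibQ, det_upT, det_loT, ha, hb, one_mul]


theorem fib_converse (a b : Fin 3 → ℂ) (s1 s2 p q r x z y : ℂ) (hq : q ≠ 0)
    (hν : p * r - q * a 1 ≠ 0)
    (htr : (upT a p q r * loT b x z y).trace = s1)
    (he2 : e2 (upT a p q r * loT b x z y) = s2)
    (hw : (p * r - q * a 1) * y + fLx a b p q⁻¹ (p * r - q * a 1) ≠ 0) :
    loT b x z y = fibQ a b s1 s2 p r q⁻¹ (p * r - q * a 1) (p * r - q * a 1)⁻¹
      ((p * r - q * a 1) * y + fLx a b p q⁻¹ (p * r - q * a 1))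
      ((p * r - q * a 1) * y + fLx a b p q⁻¹ (p * r - q * a 1))⁻¹ := by
  rw [trace_upT_mul_loT] at htr
  rw [e2_upT_mul_loT] at he2
  generalize p * r - q * a 1 = ν at hν he2 hw ⊢
  have hy : fY a b p q⁻¹ ν ν⁻¹ (ν * y + fLx a b p q⁻¹ ν) = y := by
    simp only [fY]
    field_simp
    ring
  have key : fCpp a b s1 s2 p r q⁻¹ ν =
      (ν * x + fLy a b r q⁻¹ ν) * (ν * y + fLx a b p q⁻¹ ν) := by
    subst htr he2
    simp only [fCpp, fC0, fLx, fLy]
    field_simp
    ring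
  have hx : fX a b s1 s2 p r q⁻¹ ν ν⁻¹ (ν * y + fLx a b p q⁻¹ ν)⁻¹ = x := by
    rw [fX, key]
    generalize ν * y + fLx a b p q⁻¹ ν = W at hw
    field_simp
    ring
  have hz : fZ a b s1 s2 p r q⁻¹ ν ν⁻¹ (ν * y + fLx a b p q⁻¹ ν)
      (ν * y + fLx a b p q⁻¹ ν)⁻¹ = z := by
    rw [fZ, hx, hy, ← htr]
    field_simp
    ring
  rw [fibQ, hx, hy, hz]

theorem exists_eig_of_fib_zero (a b c : Fin 3 → ℂ) (ha : a 0 * a 1 * a 2 = 1)
    (hb : b 0 * b 1 * b 2 = 1) (hc : c 0 * c 1 * c 2 = 1) (p q r x z y : ℂ) (hq : q ≠ 0)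
    (hchar : (upT a p q r * loT b x z y).charpoly = ∏ i, (Polynomial.X - Polynomial.C (c i)))
    (hw : (p * r - q * a 1) * y + fLx a b p q⁻¹ (p * r - q * a 1) = 0) :
    ∃ (v : Fin 3 → ℂ) (κ : ℂ), v ≠ 0 ∧ v 0 = 0 ∧
      (upT a p q r * loT b x z y).mulVec v = κ • v := by
  obtain ⟨h1, h2, -⟩ := of_charpoly_eq_prod _ c hchar
  rw [trace_upT_mul_loT] at h1
  rw [e2_upT_mul_loT] at h2
  simp only [fLx] at hw
  have hw' : (p * r - q * a 1) * y * q + p * (a 2 * b 2 * q + (p * r - q * a 1) * b 1) = 0 := by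
    field_simp at hw
    linear_combination hw
  have hprod : (b 1 * (p * r - q * a 1) + c 0 * q) * (b 1 * (p * r - q * a 1) + c 1 * q) *
      (b 1 * (p * r - q * a 1) + c 2 * q) = 0 := by
    have e : (b 1 * (p * r - q * a 1) + c 0 * q) * (b 1 * (p * r - q * a 1) + c 1 * q) *
        (b 1 * (p * r - q * a 1) + c 2 * q) =
        (b 1 * (p * r - q * a 1)) ^ 3 + (c 0 + c 1 + c 2) * (b 1 * (p * r - q * a 1)) ^ 2 * q +
          (c 0 * c 1 + c 0 * c 2 + c 1 * c 2) * (b 1 * (p * r - q * a 1)) * q ^ 2 +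
          c 0 * c 1 * c 2 * q ^ 3 := by ring
    rw [e, ← h1, ← h2, hc]
    simp only [fS1, fS2]
    linear_combination (-(q ^ 3)) * ha - q ^ 3 * (a 0 * a 1 * a 2) * hb +
      b 1 * ((p * r - q * a 1) * x * q + r * (a 0 * b 0 * q + (p * r - q * a 1) * b 1)) * hw'
  have hcne : ∀ i, c i ≠ 0 := by
    obtain ⟨h0, h1', h2'⟩ := ne_zero_of_prod hc
    intro i
    fin_cases i
    · exact h0
    · exact h1'
    · exact h2'
  have hi : ∃ i, b 1 * (p * r - q * a 1) + c i * q = 0 := by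
    rcases mul_eq_zero.mp hprod with h | h
    · rcases mul_eq_zero.mp h with h | h
      · exact ⟨0, h⟩
      · exact ⟨1, h⟩
    · exact ⟨2, h⟩
  obtain ⟨i, hi⟩ := hi
  have hy' : c i * q * y = p * b 1 * (a 2 * b 2 - c i) := by
    apply mul_left_cancel₀ hq
    linear_combination (-b 1) * hw' + (y * q + p * b 1) * hi
  refine ⟨![0, q * c i, -(a 2 * p * b 1)], c i, ?_, rfl, ?_⟩
  · intro h0
    have := congrFun h0 1
    simp at this
    exact this.elim hq (hcne i)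
  · funext j
    fin_cases j
    · simp [upT, loT, Matrix.mulVec, dotProduct, Fin.sum_univ_three, Matrix.mul_apply]
      linear_combination q * hy'
    · simp [upT, loT, Matrix.mulVec, dotProduct, Fin.sum_univ_three, Matrix.mul_apply]
      linear_combination r * hy' - c i * hi
    · simp [upT, loT, Matrix.mulVec, dotProduct, Fin.sum_univ_three, Matrix.mul_apply]
      linear_combination a 2 * hy'

end Vale.Agent.Lib.P002
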