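import Vale.Agent.Lib.P002.SphNonempty

/-!
The chart statement for tuples (A, Z_1, ..., Z_m, B) of 3 x 3 matrices with prescribed
eigenvalues of the entries and of the product, over the number field generated by the square
root of two and the eigenvalues.
-/

namespace Vale.Agent.Lib.P002

open MvPolynomial Matrix

/-- The number field generated by the square root of two and the eigenvalue data. -/
noncomputable def fieldS {m : ℕ} (α β δ : Fin 3 → ℂ) (γ : Fin m → Fin 3 → ℂ) :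
    IntermediateField ℚ ℂ :=
  IntermediateField.adjoin ℚ ({sqrtTwo} ∪ Set.range α ∪ Set.range β ∪ Set.range δ ∪
    Set.range (fun x : Fin m × Fin 3 => γ x.1 x.2))

theorem fieldS_finiteDimensional {m : ℕ} (α β δ : Fin 3 → ℂ) (γ : Fin m → Fin 3 → ℂ)
    (hα : ∀ i, IsIntegral ℤ (α i)) (hβ : ∀ i, IsIntegral ℤ (β i)) (hδ : ∀ i, IsIntegral ℤ (δ i))
    (hγ : ∀ k i, IsIntegral ℤ (γ k i)) :
    FiniteDimensional ℚ (fieldS α β δ γ) := by
  unfold fieldS
  refine IntermediateField.finiteDimensional_adjoin ?_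
  rintro x ((((hx | ⟨i, rfl⟩) | ⟨i, rfl⟩) | ⟨i, rfl⟩) | ⟨i, rfl⟩)
  · rw [Set.mem_singleton_iff.mp hx]
    exact isIntegral_sqrtTwo.tower_top
  · exact (hα i).tower_top
  · exact (hβ i).tower_top
  · exact (hδ i).tower_top
  · exact (hγ i.1 i.2).tower_top

theorem sqrtTwo_mem_fieldS {m : ℕ} (α β δ : Fin 3 → ℂ) (γ : Fin m → Fin 3 → ℂ) :
    sqrtTwo ∈ fieldS α β δ γ :=
  IntermediateField.subset_adjoin ℚ _ (by simp)

/-- Density of integral points in the chart of the variety of tuples (A, Z_1, ..., Z_m, B)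
with prescribed eigenvalues of the entries and of the product, and nonemptiness of the
chart. -/
theorem sph_chart (m : ℕ) (α β δ : Fin 3 → ℂ) (γ : Fin m → Fin 3 → ℂ)
    (hα : ∀ i, IsIntegral ℤ (α i)) (hβ : ∀ i, IsIntegral ℤ (β i)) (hδ : ∀ i, IsIntegral ℤ (δ i))
    (hγ : ∀ k i, IsIntegral ℤ (γ k i))
    (hα1 : α 0 * α 1 * α 2 = 1) (hβ1 : β 0 * β 1 * β 2 = 1) (hδ1 : δ 0 * δ 1 * δ 2 = 1)
    (hγ1 : ∀ k, γ k 0 * γ k 1 * γ k 2 = 1) :
    (∃ (A B : Matrix (Fin 3) (Fin 3) ℂ) (Z : Fin m → Matrix (Fin 3) (Fin 3) ℂ),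
      SphNormal α β δ γ A B Z) ∧
    ∃ L : IntermediateField ℚ ℂ, FiniteDimensional ℚ L ∧
      ∀ P : MvPolynomial ((Fin 2 ⊕ Fin m) × Fin 3 × Fin 3) ℂ,
        (∀ (A B : Matrix (Fin 3) (Fin 3) ℂ) (Z : Fin m → Matrix (Fin 3) (Fin 3) ℂ),
          (∀ i j, A i j ∈ L ∧ IsIntegral ℤ (A i j)) →
          (∀ i j, B i j ∈ L ∧ IsIntegral ℤ (B i j)) →
          (∀ k i j, Z k i j ∈ L ∧ IsIntegral ℤ (Z k i j)) →
          A.charpoly = ∏ i, (Polynomial.X - Polynomial.C (α i)) →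
          B.charpoly = ∏ i, (Polynomial.X - Polynomial.C (β i)) →
          (∀ k, (Z k).charpoly = ∏ i, (Polynomial.X - Polynomial.C (γ k i))) →
          (A * (List.ofFn Z).prod * B).charpoly = ∏ i, (Polynomial.X - Polynomial.C (δ i)) →
          MvPolynomial.eval (fun x => Sum.elim ![A, B] Z x.1 x.2.1 x.2.2) P = 0) →
        ∀ (A B : Matrix (Fin 3) (Fin 3) ℂ) (Z : Fin m → Matrix (Fin 3) (Fin 3) ℂ)
          (g h : Matrix (Fin 3) (Fin 3) ℂ), g * h = 1 → SphNormal α β δ γ A B Z →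
          MvPolynomial.eval (fun x => Sum.elim ![g * A * h, g * B * h]
            (fun k => g * Z k * h) x.1 x.2.1 x.2.2) P = 0 := by
  refine ⟨chart_nonempty m α β δ γ hα1 hβ1 hδ1 hγ1, fieldS α β δ γ,
    fieldS_finiteDimensional α β δ γ hα hβ hδ hγ, fun P hP => ?_⟩
  intro A B Z g h hgh ⟨hA, hAd, hB, hBd, hZ, hchar, htr, hZc, hcor, hne⟩
  have ha : ∀ i, α i ∈ ringO (fieldS α β δ γ) :=
    fun i => ⟨IntermediateField.subset_adjoin ℚ _ (by simp), hα i⟩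
  have hb : ∀ i, β i ∈ ringO (fieldS α β δ γ) :=
    fun i => ⟨IntermediateField.subset_adjoin ℚ _ (by simp), hβ i⟩
  have hd : ∀ i, δ i ∈ ringO (fieldS α β δ γ) :=
    fun i => ⟨IntermediateField.subset_adjoin ℚ _ (by simp), hδ i⟩
  have hc : ∀ k i, γ k i ∈ ringO (fieldS α β δ γ) :=
    fun k i => ⟨IntermediateField.subset_adjoin ℚ _
      (Or.inr ⟨(k, i), rfl⟩), hγ k i⟩
  obtain ⟨ι, _, Af, Bf, Zf, s₁, hAf, hBf, hZf, hAc, hBc, hZc', hTc, hAs, hBs, hZs⟩ :=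
    sph_families (L := fieldS α β δ γ) m α β δ γ ha hb hd hc hα1 hβ1 hδ1 hγ1 A B Z hA hAd hB hBd
      hZ hchar htr hZc hcor hne
  have key := sph_density (sqrtTwo_mem_fieldS α β δ γ) m α β δ γ P
    (fun A B Z hAi hBi hZi => hP A B Z hAi hBi hZi) Af Bf Zf hAf hBf hZf hAc hBc hZc' hTc g h hgh
    s₁
  rw [hAs, hBs] at key
  simp only [hZs] at key
  exact key

end Vale.Agent.Lib.P002
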