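import Vale.Agent.Lib.P002.SphPair
import Vale.Agent.Lib.P002.SphDefs

/-!
Triangular 3 x 3 matrices: the factorization of a matrix with nonzero trailing principal
minors as an upper triangular matrix times a lower unitriangular matrix, and the behaviour of
the corner minors and of eigenvectors in the coordinate plane under lower unitriangular
matrices.
-/

namespace Vale.Agent.Lib.P002

open Matrix

/-- Upper triangular. -/
def IsUT (U : Matrix (Fin 3) (Fin 3) ℂ) : Prop := U 1 0 = 0 ∧ U 2 0 = 0 ∧ U 2 1 = 0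

/-- Lower triangular with ones on the diagonal. -/
def IsLU (M : Matrix (Fin 3) (Fin 3) ℂ) : Prop :=
  M 0 1 = 0 ∧ M 0 2 = 0 ∧ M 1 2 = 0 ∧ M 0 0 = 1 ∧ M 1 1 = 1 ∧ M 2 2 = 1

theorem isUT_one : IsUT 1 := by simp [IsUT]

theorem isLU_one : IsLU 1 := by simp [IsLU]

theorem isUT_upT (a : Fin 3 → ℂ) (p q r : ℂ) : IsUT (upT a p q r) := by simp [IsUT, upT]

theorem isLU_loT (x z y : ℂ) : IsLU (loT (fun _ => 1) x z y) := by simp [IsLU, loT]

theorem IsUT.mul {U V : Matrix (Fin 3) (Fin 3) ℂ} (hU : IsUT U) (hV : IsUT V) : IsUT (U * V) := by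
  obtain ⟨a, b, c⟩ := hU
  obtain ⟨a', b', c'⟩ := hV
  simp [IsUT, Matrix.mul_apply, Fin.sum_univ_three, a, b, c, a', b', c']

theorem IsLU.mul {M N : Matrix (Fin 3) (Fin 3) ℂ} (hM : IsLU M) (hN : IsLU N) : IsLU (M * N) := by
  obtain ⟨a, b, c, d, e, f⟩ := hM
  obtain ⟨a', b', c', d', e', f'⟩ := hN
  simp [IsLU, Matrix.mul_apply, Fin.sum_univ_three, a, b, c, d, e, f, a', b', c', d', e', f']

theorem IsLU.adjugate {M : Matrix (Fin 3) (Fin 3) ℂ} (hM : IsLU M) : IsLU M.adjugate := by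
  obtain ⟨a, b, c, d, e, f⟩ := hM
  rw [Matrix.adjugate_fin_three]
  simp [IsLU, a, b, c, d, e, f]

theorem IsUT.adjugate {U : Matrix (Fin 3) (Fin 3) ℂ} (hU : IsUT U) : IsUT U.adjugate := by
  obtain ⟨a, b, c⟩ := hU
  rw [Matrix.adjugate_fin_three]
  simp [IsUT, a, b, c]

theorem IsLU.det {M : Matrix (Fin 3) (Fin 3) ℂ} (hM : IsLU M) : M.det = 1 := by
  obtain ⟨a, b, c, d, e, f⟩ := hM
  simp [Matrix.det_fin_three, a, b, c, d, e, f]

theorem IsUT.det {U : Matrix (Fin 3) (Fin 3) ℂ} (hU : IsUT U) :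
    U.det = U 0 0 * U 1 1 * U 2 2 := by
  obtain ⟨a, b, c⟩ := hU
  simp [Matrix.det_fin_three, a, b, c]

theorem IsUT.eq_upT {U : Matrix (Fin 3) (Fin 3) ℂ} (hU : IsUT U) :
    U = upT (fun i => U i i) (U 0 1) (U 0 2) (U 1 2) := by
  obtain ⟨a, b, c⟩ := hU
  ext i j
  fin_cases i <;> fin_cases j <;> simp [upT, a, b, c]

theorem IsLU.eq_loT {M : Matrix (Fin 3) (Fin 3) ℂ} (hM : IsLU M) :
    M = loT (fun _ => 1) (M 1 0) (M 2 0) (M 2 1) := by
  obtain ⟨a, b, c, d, e, f⟩ := hM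
  ext i j
  fin_cases i <;> fin_cases j <;> simp [loT, a, b, c, d, e, f]

theorem adjugate_mul_of_det {M : Matrix (Fin 3) (Fin 3) ℂ} (h : M.det = 1) :
    M.adjugate * M = 1 := by
  rw [Matrix.adjugate_mul, h, one_smul]

theorem mul_adjugate_of_det {M : Matrix (Fin 3) (Fin 3) ℂ} (h : M.det = 1) :
    M * M.adjugate = 1 := by
  rw [Matrix.mul_adjugate, h, one_smul]

/-- The diagonal entries of the adjugate of an upper triangular matrix of determinant one
are the inverses of its diagonal entries. -/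
theorem IsUT.adjugate_diag {U : Matrix (Fin 3) (Fin 3) ℂ} (hU : IsUT U) (hd : U.det = 1)
    (i : Fin 3) : U i i * U.adjugate i i = 1 := by
  rw [hU.det] at hd
  obtain ⟨a, b, c⟩ := hU
  rw [Matrix.adjugate_fin_three]
  fin_cases i <;> simp [a, b, c] <;> linear_combination hd

/-- Factorization of a matrix with nonzero trailing principal minors. -/
theorem exists_UL (K : Matrix (Fin 3) (Fin 3) ℂ) (hdet : K.det = 1) (hK : trailNZ K) :
    ∃ U M : Matrix (Fin 3) (Fin 3) ℂ, IsUT U ∧ U.det = 1 ∧ IsLU M ∧ K = U * M := by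
  obtain ⟨h22, hm⟩ := hK
  rw [Matrix.det_fin_three] at hdet
  refine ⟨upT ![(K 1 1 * K 2 2 - K 1 2 * K 2 1)⁻¹, (K 1 1 * K 2 2 - K 1 2 * K 2 1) / K 2 2,
      K 2 2] (K 0 1 - K 0 2 * K 2 1 / K 2 2) (K 0 2) (K 1 2),
    loT (fun _ => 1) ((K 1 0 * K 2 2 - K 1 2 * K 2 0) / (K 1 1 * K 2 2 - K 1 2 * K 2 1))
      (K 2 0 / K 2 2) (K 2 1 / K 2 2), isUT_upT _ _ _ _, ?_, isLU_loT _ _ _, ?_⟩
  · rw [det_upT]
    simp
    field_simp
  · ext i j
    fin_cases i <;> fin_cases j <;>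
      simp [upT, loT, Matrix.mul_apply, Fin.sum_univ_three] <;> field_simp <;>
      first | ring1 | linear_combination hdet | linear_combination -hdet |
        linear_combination (K 2 2) * hdet

theorem cornerNZ_mul_right {Y M : Matrix (Fin 3) (Fin 3) ℂ} (hM : IsLU M) :
    cornerNZ (Y * M) ↔ cornerNZ Y := by
  obtain ⟨a, b, c, d, e, f⟩ := hM
  have e1 : (Y * M) 0 2 = Y 0 2 := by
    simp [Matrix.mul_apply, Fin.sum_univ_three, b, c, f]
  have e2 : (Y * M) 0 1 * (Y * M) 1 2 - (Y * M) 0 2 * (Y * M) 1 1 =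
      Y 0 1 * Y 1 2 - Y 0 2 * Y 1 1 := by
    simp [Matrix.mul_apply, Fin.sum_univ_three, a, b, c, e, f]
    ring
  unfold cornerNZ
  rw [e2, e1]

theorem cornerNZ_mul_left {Y M : Matrix (Fin 3) (Fin 3) ℂ} (hM : IsLU M) :
    cornerNZ (M * Y) ↔ cornerNZ Y := by
  obtain ⟨a, b, c, d, e, f⟩ := hM
  have e1 : (M * Y) 0 2 = Y 0 2 := by
    simp [Matrix.mul_apply, Fin.sum_univ_three, a, b, d]
  have e2 : (M * Y) 0 1 * (M * Y) 1 2 - (M * Y) 0 2 * (M * Y) 1 1 =
      Y 0 1 * Y 1 2 - Y 0 2 * Y 1 1 := by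
    simp [Matrix.mul_apply, Fin.sum_univ_three, a, b, c, d, e]
    ring
  unfold cornerNZ
  rw [e2, e1]

theorem noEigPlane_conj {Y M : Matrix (Fin 3) (Fin 3) ℂ} (hM : IsLU M) (hY : noEigPlane Y) :
    noEigPlane (M * Y * M.adjugate) := by
  intro v κ hv hv0 h
  have hMa := hM.adjugate
  have h1 : M.adjugate * M = 1 := adjugate_mul_of_det hM.det
  have h2 : M * M.adjugate = 1 := mul_adjugate_of_det hM.det
  refine hY (M.adjugate.mulVec v) κ ?_ ?_ ?_
  · intro h0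
    apply hv
    have := congrArg M.mulVec h0
    rwa [Matrix.mulVec_mulVec, h2, Matrix.one_mulVec, Matrix.mulVec_zero] at this
  · obtain ⟨a, b, c, d, e, f⟩ := hMa
    simp [Matrix.mulVec, dotProduct, Fin.sum_univ_three, a, b, d, hv0]
  · have := congrArg M.adjugate.mulVec h
    rw [Matrix.mulVec_mulVec, Matrix.mulVec_smul] at this
    rw [← this, Matrix.mulVec_mulVec]
    congr 1
    calc Y * M.adjugate = (M.adjugate * M) * Y * M.adjugate := by rw [h1, Matrix.one_mul]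
      _ = M.adjugate * (M * Y * M.adjugate) := by simp only [Matrix.mul_assoc]

end Vale.Agent.Lib.P002
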