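import Vale.Agent.Lib.P002.SrPoly

/-!
Inverses: the characteristic polynomial of the inverse of a matrix, cyclic vectors of the
inverse.  Bidiagonal matrices, and a chart pair with prescribed characteristic polynomial of
the product whose factors are inverse to explicit matrices: the inverse of the upper factor is
bidiagonal outside its first row, the inverse of the lower factor is bidiagonal.
-/

namespace Vale.Agent.Lib.P002

open Matrix Polynomial

section Inv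

theorem reverse_prod_X_sub_C {n : ℕ} (c : Fin n → ℂ) :
    (∏ i, (X - C (c i)) : ℂ[X]).reverse = ∏ i, (1 - C (c i) * X) := by
  have h : ∀ s : Finset (Fin n),
      (∏ i ∈ s, (X - C (c i)) : ℂ[X]).reverse = ∏ i ∈ s, (1 - C (c i) * X) := by
    intro s
    induction s using Finset.induction_on with
    | empty => simp [reverse]
    | insert a s ha ih =>
      rw [Finset.prod_insert ha, Finset.prod_insert ha, reverse_mul_of_domain, ih]
      congr 1
      rw [reverse, natDegree_X_sub_C, reflect_sub, ← pow_one (X : ℂ[X]), reflect_monomial,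
        reflect_C]
      simp
  exact h Finset.univ

/-- The characteristic polynomial of the inverse of a matrix. -/
theorem charpoly_inv_prod {n : ℕ} (N : Matrix (Fin n) (Fin n) ℂ) (c : Fin n → ℂ)
    (hc : ∀ i, c i ≠ 0) (h : N.charpoly = ∏ i, (X - C (c i))) :
    N⁻¹.charpoly = ∏ i, (X - C (c i)⁻¹) := by
  have hdet : N.det = ∏ i, c i := det_of_charpoly N c h
  have hdet0 : N.det ≠ 0 := by
    rw [hdet]
    exact Finset.prod_ne_zero_iff.mpr fun i _ => hc i
  have hu : IsUnit N := (Matrix.isUnit_iff_isUnit_det N).mpr (isUnit_iff_ne_zero.mpr hdet0)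
  have key : ∀ i, X - C (c i)⁻¹ = C (-(c i)⁻¹) * (1 - C (c i) * X) := by
    intro i
    rw [mul_sub, mul_one, ← mul_assoc, ← C_mul, neg_mul, inv_mul_cancel₀ (hc i)]
    simp
    ring
  rw [Matrix.charpoly_inv N hu, ← Matrix.reverse_charpoly, h, reverse_prod_X_sub_C,
    Finset.prod_congr rfl fun i _ => key i, Finset.prod_mul_distrib, ← map_prod, Finset.prod_neg,
    Finset.prod_inv_distrib, hdet, Ring.inverse_eq_inv', Fintype.card_fin]
  simp

/-- The adjugate of a matrix of determinant one with a right inverse. -/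
theorem adjugate_eq_of_mul_eq_one {n : ℕ} {M N : Matrix (Fin n) (Fin n) ℂ} (h : M * N = 1)
    (hdet : M.det = 1) : M.adjugate = N := by
  calc M.adjugate = M.adjugate * (M * N) := by rw [h, Matrix.mul_one]
    _ = N := by rw [← Matrix.mul_assoc, adjugate_mul_of_det hdet, Matrix.one_mul]

/-- The inverse of an invertible matrix is a polynomial in the matrix. -/
theorem inv_eq_aeval {n : ℕ} (M : Matrix (Fin n) (Fin n) ℂ) (hdet : M.det ≠ 0) :
    ∃ q : ℂ[X], M⁻¹ = aeval M q := by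
  have h0 : M.charpoly.coeff 0 ≠ 0 := by
    rw [coeff_zero_charpoly]
    exact mul_ne_zero (pow_ne_zero _ (by norm_num)) hdet
  have h1 : aeval M (divX M.charpoly * X + C (M.charpoly.coeff 0)) = 0 := by
    rw [divX_mul_X_add]
    exact Matrix.aeval_self_charpoly M
  rw [map_add, map_mul, aeval_X, aeval_C, Algebra.algebraMap_eq_smul_one] at h1
  refine ⟨C (-(M.charpoly.coeff 0)⁻¹) * divX M.charpoly, ?_⟩
  apply Matrix.inv_eq_left_inv
  rw [map_mul, aeval_C, Algebra.algebraMap_eq_smul_one, smul_mul_assoc, one_mul, smul_mul_assoc,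
    eq_neg_of_add_eq_zero_left h1, smul_neg, smul_smul, neg_mul, inv_mul_cancel₀ h0]
  simp

/-- A cyclic vector of an invertible matrix is a cyclic vector of its inverse. -/
theorem Cyc.inv {n : ℕ} {N : Matrix (Fin n) (Fin n) ℂ} {v : Fin n → ℂ} (h : Cyc N v)
    (hdet : N.det ≠ 0) : Cyc N⁻¹ v := by
  have hdet' : N⁻¹.det ≠ 0 := by
    rw [Matrix.det_nonsing_inv, Ring.inverse_eq_inv']
    exact inv_ne_zero hdet
  obtain ⟨q, hq⟩ := inv_eq_aeval N⁻¹ hdet'
  rw [Matrix.nonsing_inv_nonsing_inv N (isUnit_iff_ne_zero.mpr hdet)] at hq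
  intro u
  obtain ⟨p, hp⟩ := h u
  refine ⟨p.comp q, ?_⟩
  rw [aeval_comp, ← hq]
  exact hp

end Inv

section Bid

/-- The first basis vector. -/
def c0 (k : ℕ) : Fin k → ℂ := fun i => if (i : ℕ) = 0 then 1 else 0

/-- The upper bidiagonal matrix with ones on the diagonal and just above it. -/
def bU (k : ℕ) : Matrix (Fin k) (Fin k) ℂ := Matrix.diagonal (fun _ => 1) + shU ℂ k

/-- The lower bidiagonal matrix with diagonal e and ones just below the diagonal. -/
def bLow (k : ℕ) (e : Fin k → ℂ) : Matrix (Fin k) (Fin k) ℂ := Matrix.diagonal e + shL ℂ k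

theorem c0_succ (k : ℕ) : c0 (k + 1) = Fin.cons 1 0 := by
  funext i
  refine Fin.cases ?_ (fun i => ?_) i <;> simp [c0]

theorem bU_succ (k : ℕ) : bU (k + 1) = bmat 1 (c0 k) 0 (bU k) := by
  ext i j
  refine Fin.cases ?_ (fun i => ?_) i <;> refine Fin.cases ?_ (fun j => ?_) j <;>
    simp [bU, shU, c0, Matrix.diagonal_apply, Matrix.one_apply, Fin.succ_ne_zero,
      (Fin.succ_ne_zero _).symm]

theorem bLow_succ (k : ℕ) (e : Fin (k + 1) → ℂ) :
    bLow (k + 1) e = bmat (e 0) 0 (c0 k) (bLow k fun i => e i.succ) := by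
  ext i j
  refine Fin.cases ?_ (fun i => ?_) i <;> refine Fin.cases ?_ (fun j => ?_) j <;>
    simp [bLow, shL, c0, Matrix.diagonal_apply, Fin.succ_ne_zero, (Fin.succ_ne_zero _).symm]

theorem bU_shape (k : ℕ) : (∀ i j, j < i → bU k i j = 0) ∧ ∀ i, bU k i i = 1 :=
  bidU_shape _

theorem bLow_shape (k : ℕ) (e : Fin k → ℂ) :
    (∀ i j, i < j → bLow k e i j = 0) ∧ ∀ i, bLow k e i i = e i :=
  bidL_shape e

theorem det_bU (k : ℕ) : (bU k).det = 1 := det_ut_unit (bU_shape k).1 (bU_shape k).2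

theorem det_bLow (k : ℕ) (e : Fin k → ℂ) : (bLow k e).det = ∏ i, e i := by
  rw [det_lt (bLow_shape k e).1]
  simp only [(bLow_shape k e).2]

theorem bU_mulVec_c0 (k : ℕ) : bU k *ᵥ c0 k = c0 k := by
  cases k with
  | zero => exact Subsingleton.elim _ _
  | succ k =>
    rw [bU_succ, c0_succ, bmat_mulVec]
    simp

/-- The product of a matrix with free first row over the upper bidiagonal matrix and the lower
bidiagonal matrix. -/
theorem hat_mul (k : ℕ) (ξ : Fin k → ℂ) (e : Fin (k + 1) → ℂ) :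
    bmat 1 ξ 0 (bU k) * bLow (k + 1) e =
      bmat (e 0 + ξ ⬝ᵥ c0 k) (ξ ᵥ* bLow k fun i => e i.succ) (c0 k)
        (bU k * bLow k fun i => e i.succ) := by
  rw [bLow_succ, bmat_mul, bU_mulVec_c0]
  congr 1 <;> simp

theorem cyc_bU_bLow : ∀ (k : ℕ) (e : Fin k → ℂ), Cyc (bU k * bLow k e) (c0 k) := by
  intro k
  induction k with
  | zero =>
    intro e v
    exact ⟨0, Subsingleton.elim _ _⟩
  | succ k ih =>
    intro e
    rw [bU_succ, hat_mul, c0_succ]
    exact (ih _).block _ _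

theorem trace_bmat {k : ℕ} (a : ℂ) (b c : Fin k → ℂ) (N : Matrix (Fin k) (Fin k) ℂ) :
    (bmat a b c N).trace = a + N.trace := by
  simp [Matrix.trace, Fin.sum_univ_succ]

theorem trace_bU_bLow (k : ℕ) (e : Fin k → ℂ) :
    (bU k * bLow k e).trace = ∑ i, e i + (bU k * shL ℂ k).trace := by
  rw [bLow, Matrix.mul_add, Matrix.trace_add]
  congr 1
  simp only [Matrix.trace, Matrix.diag_apply, Matrix.mul_diagonal, (bU_shape k).2, one_mul]

theorem bmat_ut' {k : ℕ} (a : ℂ) (b : Fin k → ℂ) {N : Matrix (Fin k) (Fin k) ℂ}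
    (hN : ∀ i j, j < i → N i j = 0) : ∀ i j, j < i → bmat a b 0 N i j = 0 := by
  intro i j hij
  induction i using Fin.cases with
  | zero => exact absurd hij (Fin.not_lt_zero j)
  | succ i =>
    induction j using Fin.cases with
    | zero => simp
    | succ j => exact hN i j (Fin.succ_lt_succ_iff.mp hij)

/-- For every nonzero θ there is a first row for which the product of the two explicit
matrices has the inverse eigenvalues; the first entry of the row is given by the trace. -/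
theorem hat_pair_theta (k : ℕ) (γ : Fin (k + 2) → ℂ) (hγ1 : ∏ i, γ i = 1) (θ : ℂ)
    (hθ : θ ≠ 0) :
    ∃ ξ : Fin (k + 1) → ℂ,
      (bmat 1 ξ 0 (bU (k + 1)) *
        bLow (k + 2) (Fin.cons θ⁻¹ (Fin.cons θ fun _ => 1))).charpoly =
          ∏ i, (X - C (γ i)⁻¹) ∧
      ξ 0 = (∑ i, (γ i)⁻¹) - θ⁻¹ - θ - ((k : ℂ) + (bU (k + 1) * shL ℂ (k + 1)).trace) := by
  obtain ⟨e', he'⟩ : ∃ e' : Fin (k + 1) → ℂ, e' = Fin.cons θ fun _ => 1 := ⟨_, rfl⟩
  have hU : IsUnit (bU (k + 1)).det := by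
    rw [det_bU]
    exact isUnit_one
  have hpe' : ∏ i, e' i = θ := by
    rw [he', Fin.prod_univ_succ]
    simp
  have hse' : ∑ i, e' i = θ + k := by
    rw [he', Fin.sum_univ_succ]
    simp
  have hL : IsUnit (bLow (k + 1) e').det := by
    rw [det_bLow, hpe']
    exact isUnit_iff_ne_zero.mpr hθ
  have hcyc : Cyc (bU (k + 1) * bLow (k + 1) e') (bU (k + 1) *ᵥ c0 (k + 1)) := by
    rw [bU_mulVec_c0]
    exact cyc_bU_bLow (k + 1) e'
  have hf0 : (∏ i, (X - C (γ i)⁻¹)).coeff 0 =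
      -(1 * θ⁻¹ * (bU (k + 1) * bLow (k + 1) e').charpoly.coeff 0) := by
    rw [coeff_zero_prod_X_sub_C, coeff_zero_charpoly, Matrix.det_mul, det_bU, det_bLow, hpe',
      Finset.prod_inv_distrib, hγ1]
    field_simp
    ring
  obtain ⟨ξ, hξ, -⟩ := ext_UL (bU (k + 1)) (bLow (k + 1) e') (c0 (k + 1)) hU hL hcyc 1 θ⁻¹ _
    (Polynomial.monic_prod_of_monic _ _ fun i _ => Polynomial.monic_X_sub_C _) (by
      rw [Polynomial.natDegree_prod_of_monic _ _ fun i _ => Polynomial.monic_X_sub_C _]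
      simp) hf0
  have hE : bLow (k + 2) (Fin.cons θ⁻¹ e') = bmat θ⁻¹ 0 (c0 (k + 1)) (bLow (k + 1) e') := by
    rw [bLow_succ]
    rfl
  rw [← he']
  refine ⟨ξ, by rw [hE]; exact hξ, ?_⟩
  have htr : (bmat 1 ξ 0 (bU (k + 1)) * bLow (k + 2) (Fin.cons θ⁻¹ e')).trace =
      ∑ i, (γ i)⁻¹ := by
    rw [Matrix.trace_eq_neg_charpoly_coeff, hE, hξ, Fintype.card_fin]
    have h := Polynomial.prod_X_sub_C_coeff_card_pred Finset.univ
      (fun i : Fin (k + 2) => (γ i)⁻¹) (by simp)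
    rw [Finset.card_univ, Fintype.card_fin] at h
    rw [h, neg_neg]
  rw [hat_mul, trace_bmat, trace_bU_bLow] at htr
  have h0 : ξ ⬝ᵥ c0 (k + 1) = ξ 0 := by
    rw [c0_succ]
    simp [dotProduct, Fin.sum_univ_succ]
  have h1 : (Fin.cons θ⁻¹ e' : Fin (k + 2) → ℂ) 0 = θ⁻¹ := rfl
  have h2 : (fun i : Fin (k + 1) => (Fin.cons θ⁻¹ e' : Fin (k + 2) → ℂ) i.succ) = e' := rfl
  rw [h0, h1, h2, hse'] at htr
  linear_combination htr

/-- A pair of explicit matrices whose product has the inverse eigenvalues, with nonzero first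
entry of the free row. -/
theorem exists_hat_pair (k : ℕ) (γ : Fin (k + 2) → ℂ) (hγ1 : ∏ i, γ i = 1) :
    ∃ (e : Fin (k + 2) → ℂ) (ξ : Fin (k + 1) → ℂ), (∀ i, e i ≠ 0) ∧ ∏ i, e i = 1 ∧ ξ 0 ≠ 0 ∧
      (bmat 1 ξ 0 (bU (k + 1)) * bLow (k + 2) e).charpoly = ∏ i, (X - C (γ i)⁻¹) := by
  have key : ∀ θ : ℂ, θ ≠ 0 →
      (∀ i, (Fin.cons θ⁻¹ (Fin.cons θ fun _ => 1) : Fin (k + 2) → ℂ) i ≠ 0) ∧
      ∏ i, (Fin.cons θ⁻¹ (Fin.cons θ fun _ => 1) : Fin (k + 2) → ℂ) i = 1 := by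
    intro θ hθ
    constructor
    · intro i
      refine Fin.cases ?_ (fun i => ?_) i
      · simpa using hθ
      · refine Fin.cases ?_ (fun i => ?_) i
        · simpa using hθ
        · simp
    · rw [Fin.prod_univ_succ, Fin.prod_univ_succ]
      simp [hθ]
  obtain ⟨ξ1, h1, h1'⟩ := hat_pair_theta k γ hγ1 1 one_ne_zero
  obtain ⟨ξ2, h2, h2'⟩ := hat_pair_theta k γ hγ1 2 two_ne_zero
  by_cases hz : ξ1 0 = 0
  · refine ⟨_, ξ2, (key 2 two_ne_zero).1, (key 2 two_ne_zero).2, ?_, h2⟩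
    rw [h2']
    rw [h1'] at hz
    intro h
    have h3 : (2 : ℂ)⁻¹ + 2 = 1⁻¹ + 1 := by linear_combination hz - h
    norm_num at h3
  · exact ⟨_, ξ1, (key 1 one_ne_zero).1, (key 1 one_ne_zero).2, hz, h1⟩

/-- The special chart pair: its factors are the inverses of a matrix which is upper bidiagonal
outside its first row and of a lower bidiagonal matrix. -/
theorem exists_special_pair (k : ℕ) (γ : Fin (k + 2) → ℂ) (hγ1 : ∏ i, γ i = 1) :
    ∃ (e : Fin (k + 2) → ℂ) (ξ : Fin (k + 1) → ℂ) (W D : Matrix (Fin (k + 2)) (Fin (k + 2)) ℂ),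
      (∀ i, e i ≠ 0) ∧ ∏ i, e i = 1 ∧ ξ 0 ≠ 0 ∧
      TopOK (k + 1) (fun _ => 1) (fun i => (e i)⁻¹) γ W D ∧
      W * bmat 1 ξ 0 (bU (k + 1)) = 1 ∧ D * bLow (k + 2) e = 1 := by
  obtain ⟨e, ξ, he0, he1, hξ, hchar⟩ := exists_hat_pair k γ hγ1
  have hγ0 : ∀ i, γ i ≠ 0 := ne_zero_of_prod_eq_one γ hγ1
  obtain ⟨Wh, hWh⟩ : ∃ Wh, Wh = bmat 1 ξ 0 (bU (k + 1)) := ⟨_, rfl⟩
  obtain ⟨Eh, hEh⟩ : ∃ Eh, Eh = bLow (k + 2) e := ⟨_, rfl⟩
  rw [← hWh, ← hEh] at hchar
  have hWu : ∀ i j, j < i → Wh i j = 0 := by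
    rw [hWh]
    exact bmat_ut' 1 ξ (bU_shape (k + 1)).1
  have hWd : ∀ i, Wh i i = 1 := by
    rw [hWh]
    intro i
    refine Fin.cases ?_ (fun i => ?_) i
    · simp
    · simp [(bU_shape (k + 1)).2]
  have hWdet : Wh.det = 1 := det_ut_unit hWu hWd
  have hEl : ∀ i j, i < j → Eh i j = 0 := by
    rw [hEh]
    exact (bLow_shape _ e).1
  have hEd : ∀ i, Eh i i = e i := by
    rw [hEh]
    exact (bLow_shape _ e).2
  have hEdet : Eh.det = 1 := by
    rw [det_lt hEl]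
    simp only [hEd]
    exact he1
  have hWunit : IsUnit Wh.det := by
    rw [hWdet]
    exact isUnit_one
  have hEunit : IsUnit Eh.det := by
    rw [hEdet]
    exact isUnit_one
  have hWi : ∀ i j, j < i → Wh⁻¹ i j = 0 := ut_inv hWu (by rw [hWdet]; exact one_ne_zero)
  have hEi : ∀ i j, i < j → Eh⁻¹ i j = 0 := lt_inv hEl (by rw [hEdet]; exact one_ne_zero)
  have hWid : ∀ i, Wh⁻¹ i i = 1 := by
    intro i
    have h := ut_mul_diag hWi hWu i
    rw [Matrix.nonsing_inv_mul Wh hWunit, Matrix.one_apply_eq, hWd, mul_one] at h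
    exact h.symm
  have hEid : ∀ i, Eh⁻¹ i i = (e i)⁻¹ := by
    intro i
    have h := lt_mul_diag hEi hEl i
    rw [Matrix.nonsing_inv_mul Eh hEunit, Matrix.one_apply_eq, hEd] at h
    exact eq_inv_of_mul_eq_one_left h.symm
  have hprodinv : Wh⁻¹ * Eh⁻¹ = (Eh * Wh)⁻¹ := (Matrix.mul_inv_rev Eh Wh).symm
  have hEWdet : (Eh * Wh).det ≠ 0 := by
    rw [Matrix.det_mul, hEdet, hWdet]
    norm_num
  refine ⟨e, ξ, Wh⁻¹, Eh⁻¹, he0, he1, hξ, ⟨hWi, hWid, hEi, hEid, ?_, ?_⟩, ?_, ?_⟩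
  · rw [hprodinv]
    have h1 : (Eh * Wh).charpoly = ∏ i, (X - C (γ i)⁻¹) := by
      rw [Matrix.charpoly_mul_comm]
      exact hchar
    have h2 := charpoly_inv_prod (Eh * Wh) (fun i => (γ i)⁻¹) (fun i => inv_ne_zero (hγ0 i)) h1
    simpa using h2
  · rw [hprodinv]
    refine Cyc.inv ?_ hEWdet
    have hc1 : Cyc (Wh * Eh) (Fin.cons 1 0) := by
      rw [hWh, hEh, hat_mul]
      exact (cyc_bU_bLow (k + 1) _).block _ _
    have hc2 := hc1.conj Wh Wh⁻¹ (Matrix.mul_nonsing_inv Wh hWunit)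
    rw [ut_mulVec_cons hWi (hWid 0)] at hc2
    have e2 : Wh⁻¹ * (Wh * Eh) * Wh = Eh * Wh := by
      rw [← Matrix.mul_assoc, Matrix.nonsing_inv_mul Wh hWunit, Matrix.one_mul]
    rw [e2] at hc2
    exact hc2
  · rw [← hWh]
    exact Matrix.nonsing_inv_mul Wh hWunit
  · rw [← hEh]
    exact Matrix.nonsing_inv_mul Eh hEunit

end Bid

end Vale.Agent.Lib.P002
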