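import Vale.Agent.Lib.P002.SrLimit

/-!
Existence of chart tuples (A, Z_0, ..., Z_m, B) whose chain frames are invertible for suitable
base vectors, for all eigenvalue data, if there is at least one matrix Z_l.  The first pair of
the family of chart pairs is the special pair, conjugated by a diagonal matrix depending on a
scaling parameter; the determinants of the chain frames are, up to nonzero factors,
polynomials in the parameter or its inverse which do not vanish identically.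
-/

namespace Vale.Agent.Lib.P002

open Matrix

/-- Conjugation of a chart pair by an invertible diagonal matrix with first entry one. -/
theorem topOK_conj_diag (k : ℕ) (a b c : Fin (k + 1) → ℂ)
    (U L : Matrix (Fin (k + 1)) (Fin (k + 1)) ℂ) (t : Fin (k + 1) → ℂ) (ht : ∀ i, t i ≠ 0)
    (ht0 : t 0 = 1) (h : TopOK k a b c U L) :
    TopOK k a b c (Matrix.diagonal (fun i => (t i)⁻¹) * U * Matrix.diagonal t)
      (Matrix.diagonal (fun i => (t i)⁻¹) * L * Matrix.diagonal t) := by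
  obtain ⟨h1, h2, h3, h4, h5, h6⟩ := h
  have hTT : Matrix.diagonal t * Matrix.diagonal (fun i => (t i)⁻¹) = 1 := by
    rw [Matrix.diagonal_mul_diagonal]
    have e : (fun i => t i * (t i)⁻¹) = fun _ => (1 : ℂ) := by
      funext i
      exact mul_inv_cancel₀ (ht i)
    rw [e, Matrix.diagonal_one]
  have hprod : Matrix.diagonal (fun i => (t i)⁻¹) * U * Matrix.diagonal t *
      (Matrix.diagonal (fun i => (t i)⁻¹) * L * Matrix.diagonal t) =
      Matrix.diagonal (fun i => (t i)⁻¹) * (U * L) * Matrix.diagonal t := by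
    calc Matrix.diagonal (fun i => (t i)⁻¹) * U * Matrix.diagonal t *
        (Matrix.diagonal (fun i => (t i)⁻¹) * L * Matrix.diagonal t) =
        Matrix.diagonal (fun i => (t i)⁻¹) * U *
          (Matrix.diagonal t * Matrix.diagonal (fun i => (t i)⁻¹)) * L * Matrix.diagonal t := by
          simp only [Matrix.mul_assoc]
      _ = Matrix.diagonal (fun i => (t i)⁻¹) * (U * L) * Matrix.diagonal t := by
          rw [hTT, Matrix.mul_one]
          simp only [Matrix.mul_assoc]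
  refine ⟨?_, ?_, ?_, ?_, ?_, ?_⟩
  · intro i j hij
    rw [Matrix.mul_diagonal, Matrix.diagonal_mul, h1 i j hij]
    ring
  · intro i
    rw [Matrix.mul_diagonal, Matrix.diagonal_mul, h2 i, mul_comm, ← mul_assoc,
      mul_inv_cancel₀ (ht i), one_mul]
  · intro i j hij
    rw [Matrix.mul_diagonal, Matrix.diagonal_mul, h3 i j hij]
    ring
  · intro i
    rw [Matrix.mul_diagonal, Matrix.diagonal_mul, h4 i, mul_comm, ← mul_assoc,
      mul_inv_cancel₀ (ht i), one_mul]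
  · rw [hprod, charpoly_conj' _ _ _ hTT]
    exact h5
  · rw [hprod]
    have hc := h6.conj (Matrix.diagonal t) (Matrix.diagonal (fun i => (t i)⁻¹)) hTT
    have hv : Matrix.diagonal (fun i => (t i)⁻¹) *ᵥ (Fin.cons 1 0 : Fin (k + 1) → ℂ) =
        Fin.cons 1 0 := by
      funext i
      rw [Matrix.mulVec_diagonal]
      refine Fin.cases ?_ (fun i => ?_) i
      · simp [ht0]
      · simp
    rw [hv] at hc
    exact hc

/-- Existence of a chart tuple with invertible chain frames. -/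
theorem exists_regular_chart (k m : ℕ) (α β δ : Fin (k + 2) → ℂ)
    (γ : Fin (m + 1) → Fin (k + 2) → ℂ)
    (hα1 : ∏ i, α i = 1) (hβ1 : ∏ i, β i = 1) (hδ1 : ∏ i, δ i = 1)
    (hγ1 : ∀ j, ∏ i, γ j i = 1)
    (h01 : α 0 = α 1 ∨ ∀ i : Fin (k + 1), α i.succ ≠ α 0) :
    ∃ (A B : Matrix (Fin (k + 2)) (Fin (k + 2)) ℂ)
      (Z : Fin (m + 1) → Matrix (Fin (k + 2)) (Fin (k + 2)) ℂ) (v w : Fin (k + 2) → ℂ),
      ChartY (k + 1) (m + 1) α β δ γ A B Z ∧ (jorU α A v).det ≠ 0 ∧ (jorL β B w).det ≠ 0 := by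
  have hα0 := ne_zero_of_prod_eq_one α hα1
  have hβ0 := ne_zero_of_prod_eq_one β hβ1
  obtain ⟨e, ξ, W, D, he0, he1, hξ, hWD, hWW, hDE⟩ := exists_special_pair k (γ 0) (hγ1 0)
  obtain ⟨Wh, hWh⟩ : ∃ Wh, Wh = bmat 1 ξ 0 (bU (k + 1)) := ⟨_, rfl⟩
  obtain ⟨Eh, hEh⟩ : ∃ Eh, Eh = bLow (k + 2) e := ⟨_, rfl⟩
  rw [← hWh] at hWW
  rw [← hEh] at hDE
  have hp : ∀ j : Fin m, ∃ U Lo : Matrix (Fin (k + 2)) (Fin (k + 2)) ℂ,
      TopOK (k + 1) (fun _ => 1) (fun _ => 1) (γ j.succ) U Lo := by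
    intro j
    obtain ⟨U, Lo, h1, h2, h3, h4, h5, h6⟩ :=
      exists_chart_pair (k + 1) (fun _ => 1) (fun _ => 1) (γ j.succ)
        (fun _ => one_ne_zero) (fun _ => one_ne_zero) (by rw [hγ1]; simp)
    refine ⟨U, Lo, h1, h2, h3, h4, h5, ?_⟩
    rw [← single_eq_cons]
    exact h6
  choose Wr Dr hWDr using hp
  obtain ⟨d, hd⟩ : ∃ d : Fin (m + 1) → Fin (k + 2) → ℂ,
      d = Fin.cons (fun i => (e i)⁻¹) (fun _ _ => 1) := ⟨_, rfl⟩
  have hd0 : d 0 = fun i => (e i)⁻¹ := by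
    rw [hd]
    rfl
  have hds : ∀ j : Fin m, d j.succ = fun _ => 1 := by
    intro j
    rw [hd]
    rfl
  have hd1 : ∀ j, ∏ i, d j i = 1 := by
    intro j
    refine Fin.cases ?_ (fun j => ?_) j
    · rw [hd0, Finset.prod_inv_distrib, he1, inv_one]
    · rw [hds]
      simp
  have hdprod : ∀ i, ∏ j, d j i = (e i)⁻¹ := by
    intro i
    rw [Fin.prod_univ_succ, hd0]
    simp [hds]
  have hprod : (∏ i, α i) * ∏ i, ((∏ j, d j i) * β i) = ∏ i, δ i := by
    rw [Finset.prod_mul_distrib, Finset.prod_comm, hα1, hβ1, hδ1]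
    simp [hd1]
  obtain ⟨Uh, Lh, u1, u2, u3, u4, u5, u6⟩ :=
    exists_chart_pair (k + 1) α (fun i => (∏ j, d j i) * β i) δ hα0
      (fun i => mul_ne_zero (by rw [hdprod]; exact inv_ne_zero (he0 i)) (hβ0 i)) hprod
  have hlast : TopOK (k + 1) α (fun i => (∏ j, d j i) * β i) δ Uh Lh := by
    refine ⟨u1, u2, u3, u4, u5, ?_⟩
    rw [← single_eq_cons]
    exact u6
  obtain ⟨V', hV'⟩ : ∃ V', V' = vOfF m Wr := ⟨_, rfl⟩
  obtain ⟨D'', hD''⟩ : ∃ D'', D'' = dOfF m Dr := ⟨_, rfl⟩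
  have hWr : ∀ j, ∀ i l, l < i → Wr j i l = 0 := fun j => (hWDr j).1
  have hWr1 : ∀ j i, Wr j i i = 1 := fun j => (hWDr j).2.1
  have hDr : ∀ j, ∀ i l, i < l → Dr j i l = 0 := fun j => (hWDr j).2.2.1
  have hDrd : ∀ j i, Dr j i i = 1 := fun j => (hWDr j).2.2.2.1
  obtain ⟨hV'u, hV'd⟩ := ut_vOfF m Wr hWr hWr1
  rw [← hV'] at hV'u hV'd
  have hV'det : V'.det = 1 := det_ut_unit hV'u hV'd
  obtain ⟨hD''l, hD''d⟩ := lt_dOfF m Dr hDr
  rw [← hD''] at hD''l hD''d
  have hD''d1 : ∀ i, D'' i i = 1 := by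
    intro i
    rw [hD''d]
    simp [hDrd]
  have hD''det : D''.det = 1 := by
    rw [det_lt hD''l]
    simp [hD''d1]
  have hX'u := ut_adjugate hV'u hV'det
  have hX'd : ∀ i, V'.adjugate i i = 1 := by
    intro i
    have h := ut_adjugate_diag hV'u hV'det i
    rw [hV'd, mul_one] at h
    exact h
  have hY''l := lt_adjugate hD''l hD''det
  have hY''d : ∀ i, D''.adjugate i i = 1 := by
    intro i
    have h := lt_adjugate_diag hD''l hD''det i
    rw [hD''d1, mul_one] at h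
    exact h
  obtain ⟨U'', hU''⟩ : ∃ U'', U'' = V'.adjugate * Uh := ⟨_, rfl⟩
  obtain ⟨L'', hL''⟩ : ∃ L'', L'' = Lh * D''.adjugate := ⟨_, rfl⟩
  have hU''u : ∀ i j, j < i → U'' i j = 0 := by
    rw [hU'']
    exact ut_mul hX'u u1
  have hU''d : ∀ i, U'' i i = α i := by
    intro i
    rw [hU'', ut_mul_diag hX'u u1, hX'd, u2, one_mul]
  have hL''l : ∀ i j, i < j → L'' i j = 0 := by
    rw [hL'']
    exact lt_mul u3 hY''l
  have hL''d : ∀ i, L'' i i = (e i)⁻¹ * β i := by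
    intro i
    rw [hL'', lt_mul_diag u3 hY''l, hY''d, u4, hdprod, mul_one]
  obtain ⟨x, hx⟩ := exists_jorU_limit α ξ hξ hα0 h01
  obtain ⟨vs, hvs⟩ : ∃ vs : Fin (k + 2) → ℂ, vs = Fin.cons x (Pi.single (Fin.last k) 1) :=
    ⟨_, rfl⟩
  rw [← hvs, ← hWh] at hx
  obtain ⟨G, hG⟩ := exists_poly_jorU α U'' Wh vs
  obtain ⟨H, hH⟩ := exists_poly_jorL β L'' Eh (Pi.single 0 1)
  have hG0 : Polynomial.eval 0 G ≠ 0 := by
    rw [hG, scU_zero hU''u]
    have e1 : (fun i => U'' i i) = α := funext hU''d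
    rw [e1]
    exact hx
  have hH0 : Polynomial.eval 0 H ≠ 0 := by
    rw [hH, scL_zero hL''l, hEh]
    refine det_jorL_limit β (fun i => L'' i i) e (fun i => ?_) (fun i => ?_)
    · rw [hL''d, mul_comm, ← mul_assoc, mul_inv_cancel₀ (he0 i), one_mul]
    · rw [hL''d]
      exact mul_ne_zero (inv_ne_zero (he0 i)) (hβ0 i)
  obtain ⟨τ, hτ, hGτ, hHτ⟩ := exists_good_tau G H hG0 hH0
  rw [hG] at hGτ
  rw [hH] at hHτ
  obtain ⟨T, hT⟩ : ∃ T : Matrix (Fin (k + 2)) (Fin (k + 2)) ℂ,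
      T = Matrix.diagonal (fun i : Fin (k + 2) => τ ^ (i : ℕ)) := ⟨_, rfl⟩
  obtain ⟨T', hT'⟩ : ∃ T' : Matrix (Fin (k + 2)) (Fin (k + 2)) ℂ,
      T' = Matrix.diagonal (fun i : Fin (k + 2) => (τ ^ (i : ℕ))⁻¹) := ⟨_, rfl⟩
  have hTT' : T * T' = 1 := by
    rw [hT, hT', Matrix.diagonal_mul_diagonal]
    have e1 : (fun i : Fin (k + 2) => τ ^ (i : ℕ) * (τ ^ (i : ℕ))⁻¹) = fun _ => (1 : ℂ) := by
      funext i
      exact mul_inv_cancel₀ (pow_ne_zero _ hτ)
    rw [e1, Matrix.diagonal_one]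
  have hT'T : T' * T = 1 := mul_eq_one_comm.mp hTT'
  have hpair0 : TopOK (k + 1) (fun _ => 1) (fun i => (e i)⁻¹) (γ 0) (T' * W * T)
      (T' * D * T) := by
    rw [hT, hT']
    exact topOK_conj_diag (k + 1) _ _ _ W D (fun i => τ ^ (i : ℕ))
      (fun i => pow_ne_zero _ hτ) (by simp) hWD
  obtain ⟨Wf, hWf⟩ : ∃ Wf : Fin (m + 1) → Matrix (Fin (k + 2)) (Fin (k + 2)) ℂ,
      Wf = Fin.cons (T' * W * T) Wr := ⟨_, rfl⟩
  obtain ⟨Df, hDf⟩ : ∃ Df : Fin (m + 1) → Matrix (Fin (k + 2)) (Fin (k + 2)) ℂ,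
      Df = Fin.cons (T' * D * T) Dr := ⟨_, rfl⟩
  have hpair : ∀ j, TopOK (k + 1) (fun _ => 1) (d j) (γ j) (Wf j) (Df j) := by
    intro j
    refine Fin.cases ?_ (fun j => ?_) j
    · rw [hd0, hWf, hDf]
      exact hpair0
    · rw [hds, hWf, hDf]
      exact hWDr j
  have hch := chartY_of_data (k + 1) (m + 1) α β δ γ d hd1 Wf Df Uh Lh hpair hlast
  have hW0det : (T' * W * T).det = 1 := det_ut_unit hpair0.1 hpair0.2.1
  have hD0det : (T' * D * T).det = 1 := by
    rw [det_lt hpair0.2.2.1]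
    simp only [hpair0.2.2.2.1]
    rw [Finset.prod_inv_distrib, he1, inv_one]
  have hadjW : (T' * W * T).adjugate = T' * Wh * T := by
    refine adjugate_eq_of_mul_eq_one ?_ hW0det
    calc T' * W * T * (T' * Wh * T) = T' * (W * (T * T') * Wh) * T := by
          simp only [Matrix.mul_assoc]
      _ = 1 := by rw [hTT', Matrix.mul_one, hWW, Matrix.mul_one, hT'T]
  have hadjD : (T' * D * T).adjugate = T' * Eh * T := by
    refine adjugate_eq_of_mul_eq_one ?_ hD0det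
    calc T' * D * T * (T' * Eh * T) = T' * (D * (T * T') * Eh) * T := by
          simp only [Matrix.mul_assoc]
      _ = 1 := by rw [hTT', Matrix.mul_one, hDE, Matrix.mul_one, hT'T]
  have hA : tA (m + 1) Wf Uh = Uh * (T' * Wh * T) * V'.adjugate := by
    have h1 : vOfF (m + 1) Wf = V' * (T' * W * T) := by
      rw [hWf, hV']
      rfl
    rw [tA, h1, Matrix.adjugate_mul_distrib, hadjW]
    simp only [Matrix.mul_assoc]
  have hB : tB (m + 1) Df Lh = D''.adjugate * (T' * Eh * T) * Lh := by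
    have h1 : dOfF (m + 1) Df = T' * D * T * D'' := by
      rw [hDf, hD'']
      rfl
    rw [tB, h1, Matrix.adjugate_mul_distrib, hadjD]
  refine ⟨tA (m + 1) Wf Uh, tB (m + 1) Df Lh, zOfF (m + 1) Wf Df, (V' * T') *ᵥ vs,
    (Lh⁻¹ * T') *ᵥ (Pi.single 0 1), hch, ?_, ?_⟩
  · have hGG : (V' * T') * (T * V'.adjugate) = 1 := by
      calc V' * T' * (T * V'.adjugate) = V' * (T' * T) * V'.adjugate := by
            simp only [Matrix.mul_assoc]
        _ = 1 := by rw [hT'T, Matrix.mul_one, mul_adjugate_of_det hV'det]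
    have hGG' : (T * V'.adjugate) * (V' * T') = 1 := mul_eq_one_comm.mp hGG
    have hconj : T * V'.adjugate * tA (m + 1) Wf Uh * (V' * T') = scU τ⁻¹ U'' * Wh := by
      rw [hA, ← scU_conj τ hτ hU''u, ← hT, ← hT', hU'']
      calc T * V'.adjugate * (Uh * (T' * Wh * T) * V'.adjugate) * (V' * T') =
          T * (V'.adjugate * Uh) * T' * Wh * (T * (V'.adjugate * V') * T') := by
            simp only [Matrix.mul_assoc]
        _ = T * (V'.adjugate * Uh) * T' * Wh := by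
            rw [adjugate_mul_of_det hV'det, Matrix.mul_one, hTT', Matrix.mul_one]
    have hj := jorU_conj α (V' * T') (T * V'.adjugate) (tA (m + 1) Wf Uh) hGG
      ((V' * T') *ᵥ vs)
    rw [hconj, Matrix.mulVec_mulVec, hGG', Matrix.one_mulVec] at hj
    rw [hj, Matrix.det_mul] at hGτ
    exact right_ne_zero_of_mul hGτ
  · have hLhdet : Lh.det ≠ 0 := by
      rw [det_lt u3]
      refine Finset.prod_ne_zero_iff.mpr fun i _ => ?_
      rw [u4, hdprod]
      exact mul_ne_zero (inv_ne_zero (he0 i)) (hβ0 i)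
    have hLu : IsUnit Lh.det := isUnit_iff_ne_zero.mpr hLhdet
    have hGG : (Lh⁻¹ * T') * (T * Lh) = 1 := by
      calc Lh⁻¹ * T' * (T * Lh) = Lh⁻¹ * (T' * T) * Lh := by
            simp only [Matrix.mul_assoc]
        _ = 1 := by rw [hT'T, Matrix.mul_one, Matrix.nonsing_inv_mul Lh hLu]
    have hGG' : (T * Lh) * (Lh⁻¹ * T') = 1 := mul_eq_one_comm.mp hGG
    have hconj : T * Lh * tB (m + 1) Df Lh * (Lh⁻¹ * T') = scL τ L'' * Eh := by
      rw [hB, ← scL_conj τ hτ hL''l, ← hT, ← hT', hL'']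
      calc T * Lh * (D''.adjugate * (T' * Eh * T) * Lh) * (Lh⁻¹ * T') =
          T * (Lh * D''.adjugate) * T' * Eh * (T * (Lh * Lh⁻¹) * T') := by
            simp only [Matrix.mul_assoc]
        _ = T * (Lh * D''.adjugate) * T' * Eh := by
            rw [Matrix.mul_nonsing_inv Lh hLu, Matrix.mul_one, hTT', Matrix.mul_one]
    have hj := jorL_conj β (Lh⁻¹ * T') (T * Lh) (tB (m + 1) Df Lh) hGG
      ((Lh⁻¹ * T') *ᵥ (Pi.single 0 1))
    rw [hconj, Matrix.mulVec_mulVec, hGG', Matrix.one_mulVec] at hj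
    rw [hj, Matrix.det_mul] at hHτ
    exact right_ne_zero_of_mul hHτ

end Vale.Agent.Lib.P002
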