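import Vale.Agent.Lib.P002.SrPants

/-!
The density theorem for tuples with prescribed characteristic polynomials and regular members,
uniformly in the number field: one polynomial F serves every subfield of the complex numbers
which contains a square root of two and all the prescribed eigenvalues, and the integral
points used lie in the open set where F does not vanish.
-/

namespace Vale.Agent.Lib.P002

open Matrix

/-- Density of the integral points among the conjugates of the chart tuples, over every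
subfield of the complex numbers containing the square root of two and the eigenvalues. -/
theorem spheres_dense_field (L : IntermediateField ℚ ℂ) (hL : sqrtTwo ∈ L) (n m : ℕ)
    (α β δ : Fin (n + 1) → ℂ) (γ : Fin m → Fin (n + 1) → ℂ)
    (hα : ∀ i, IsIntegral ℤ (α i)) (hβ : ∀ i, IsIntegral ℤ (β i)) (hδ : ∀ i, IsIntegral ℤ (δ i))
    (hγ : ∀ l i, IsIntegral ℤ (γ l i))
    (hαL : ∀ i, α i ∈ L) (hβL : ∀ i, β i ∈ L) (hδL : ∀ i, δ i ∈ L) (hγL : ∀ l i, γ l i ∈ L)
    (hα1 : ∏ i, α i = 1) (hβ1 : ∏ i, β i = 1) (hδ1 : ∏ i, δ i = 1)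
    (hγ1 : ∀ l, ∏ i, γ l i = 1)
    (P : MvPolynomial ((Fin 2 ⊕ Fin m) × Fin (n + 1) × Fin (n + 1)) ℂ)
    (hP : ∀ (A B : Matrix (Fin (n + 1)) (Fin (n + 1)) ℂ)
      (Z : Fin m → Matrix (Fin (n + 1)) (Fin (n + 1)) ℂ),
      (∀ i j, A i j ∈ L ∧ IsIntegral ℤ (A i j)) →
      (∀ i j, B i j ∈ L ∧ IsIntegral ℤ (B i j)) →
      (∀ l i j, Z l i j ∈ L ∧ IsIntegral ℤ (Z l i j)) →
      A.charpoly = ∏ i, (Polynomial.X - Polynomial.C (α i)) →
      B.charpoly = ∏ i, (Polynomial.X - Polynomial.C (β i)) →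
      (∀ l, (Z l).charpoly = ∏ i, (Polynomial.X - Polynomial.C (γ l i))) →
      (A * (List.ofFn Z).prod * B).charpoly = ∏ i, (Polynomial.X - Polynomial.C (δ i)) →
      MvPolynomial.eval (fun x => Sum.elim ![A, B] Z x.1 x.2.1 x.2.2) P = 0)
    (g g' A B : Matrix (Fin (n + 1)) (Fin (n + 1)) ℂ)
    (Z : Fin m → Matrix (Fin (n + 1)) (Fin (n + 1)) ℂ) (hg : g * g' = 1)
    (hch : ChartY n m α β δ γ A B Z) :
    MvPolynomial.eval (fun x => Sum.elim ![g * A * g', g * B * g']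
      (fun l => g * Z l * g') x.1 x.2.1 x.2.2) P = 0 := by
  have hα0 := ne_zero_of_prod_eq_one α hα1
  have hβ0 := ne_zero_of_prod_eq_one β hβ1
  obtain ⟨d, W, D, Uh, Lh, hd1, hpair, hlast, hA, hB, hZ⟩ :=
    chartY_data n m α β δ γ hβ1 hγ1 A B Z hch
  have hαL' : ∀ i, α i ∈ ringO L := fun i => ⟨hαL i, hα i⟩
  have hβL' : ∀ i, β i ∈ ringO L := fun i => ⟨hβL i, hβ i⟩
  have hδL' : ∀ i, δ i ∈ ringO L := fun i => ⟨hδL i, hδ i⟩
  have hγL' : ∀ l i, γ l i ∈ ringO L := fun l i => ⟨hγL l i, hγ l i⟩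
  have hd0 : ∀ j i, d j i ≠ 0 := fun j => ne_zero_of_prod_eq_one (d j) (hd1 j)
  have hprod : (∏ i, α i) * ∏ i, ((∏ j, d j i) * β i) = ∏ i, δ i := by
    rw [Finset.prod_mul_distrib, Finset.prod_comm, hα1, hβ1, hδ1]
    simp [hd1]
  have key := sk_upgrade n m α (fun i => (∏ j, d j i) * β i) δ γ d hα0
    (fun i => mul_ne_zero (Finset.prod_ne_zero_iff.mpr fun j _ => hd0 j i) (hβ0 i)) hprod hd1
    hγ1 P g g' (fun W' D' Uh' Lh' hp hl =>
      sk_density_nested hL n m α β δ γ d hαL' hβL' hδL' hγL' hα1 hβ1 hδ1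
        hγ1 hd1 P (fun A' B' Z' hA' hB' hZ' => hP A' B' Z' hA' hB' hZ') g g' hg W' D' Uh' Lh'
        hp hl) W D Uh Lh hpair hlast
  rw [skVal, hA, hB, hZ] at key
  exact key

/-- The density theorem over every field, given a chart tuple with invertible chain frames:
the polynomial F does not depend on the field, and only the integral points at which F does
not vanish are used. -/
theorem spheres_regular_core_field (n m : ℕ) (α β δ : Fin (n + 2) → ℂ)
    (γ : Fin m → Fin (n + 2) → ℂ)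
    (hα : ∀ i, IsIntegral ℤ (α i)) (hβ : ∀ i, IsIntegral ℤ (β i)) (hδ : ∀ i, IsIntegral ℤ (δ i))
    (hγ : ∀ l i, IsIntegral ℤ (γ l i))
    (hα1 : ∏ i, α i = 1) (hβ1 : ∏ i, β i = 1) (hδ1 : ∏ i, δ i = 1)
    (hγ1 : ∀ l, ∏ i, γ l i = 1)
    (hex : ∃ (A B : Matrix (Fin (n + 2)) (Fin (n + 2)) ℂ)
      (Z : Fin m → Matrix (Fin (n + 2)) (Fin (n + 2)) ℂ) (v w : Fin (n + 2) → ℂ),
      ChartY (n + 1) m α β δ γ A B Z ∧ (jorU α A v).det ≠ 0 ∧ (jorL β B w).det ≠ 0) :
    ∃ F : MvPolynomial ((Fin 2 ⊕ Fin m) × Fin (n + 2) × Fin (n + 2)) ℂ,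
      (∃ (A B : Matrix (Fin (n + 2)) (Fin (n + 2)) ℂ)
        (Z : Fin m → Matrix (Fin (n + 2)) (Fin (n + 2)) ℂ),
        A.charpoly = ∏ i, (Polynomial.X - Polynomial.C (α i)) ∧
        B.charpoly = ∏ i, (Polynomial.X - Polynomial.C (β i)) ∧
        (∀ l, (Z l).charpoly = ∏ i, (Polynomial.X - Polynomial.C (γ l i))) ∧
        (A * (List.ofFn Z).prod * B).charpoly = ∏ i, (Polynomial.X - Polynomial.C (δ i)) ∧
        MvPolynomial.eval (fun x => Sum.elim ![A, B] Z x.1 x.2.1 x.2.2) F ≠ 0) ∧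
      (∀ (A B : Matrix (Fin (n + 2)) (Fin (n + 2)) ℂ)
        (Z : Fin m → Matrix (Fin (n + 2)) (Fin (n + 2)) ℂ),
        A.charpoly = ∏ i, (Polynomial.X - Polynomial.C (α i)) →
        B.charpoly = ∏ i, (Polynomial.X - Polynomial.C (β i)) →
        (∀ l, (Z l).charpoly = ∏ i, (Polynomial.X - Polynomial.C (γ l i))) →
        (A * (List.ofFn Z).prod * B).charpoly = ∏ i, (Polynomial.X - Polynomial.C (δ i)) →
        MvPolynomial.eval (fun x => Sum.elim ![A, B] Z x.1 x.2.1 x.2.2) F ≠ 0 →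
        (∃ v : Fin (n + 2) → ℂ, ∀ u : Fin (n + 2) → ℂ, ∃ p : Polynomial ℂ,
          Matrix.mulVec (Polynomial.aeval A p) v = u) ∧
        (∃ v : Fin (n + 2) → ℂ, ∀ u : Fin (n + 2) → ℂ, ∃ p : Polynomial ℂ,
          Matrix.mulVec (Polynomial.aeval B p) v = u) ∧
        (∀ l, ∃ v : Fin (n + 2) → ℂ, ∀ u : Fin (n + 2) → ℂ, ∃ p : Polynomial ℂ,
          Matrix.mulVec (Polynomial.aeval (Z l) p) v = u) ∧
        ∃ v : Fin (n + 2) → ℂ, ∀ u : Fin (n + 2) → ℂ, ∃ p : Polynomial ℂ,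
          Matrix.mulVec (Polynomial.aeval (A * (List.ofFn Z).prod * B) p) v = u) ∧
      ∀ L : IntermediateField ℚ ℂ, (∃ s ∈ L, s ^ 2 = 2) → (∀ i, α i ∈ L) → (∀ i, β i ∈ L) →
        (∀ i, δ i ∈ L) → (∀ l i, γ l i ∈ L) →
        ∀ P : MvPolynomial ((Fin 2 ⊕ Fin m) × Fin (n + 2) × Fin (n + 2)) ℂ,
          (∀ (A B : Matrix (Fin (n + 2)) (Fin (n + 2)) ℂ)
            (Z : Fin m → Matrix (Fin (n + 2)) (Fin (n + 2)) ℂ),
            (∀ i j, A i j ∈ L ∧ IsIntegral ℤ (A i j)) →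
            (∀ i j, B i j ∈ L ∧ IsIntegral ℤ (B i j)) →
            (∀ l i j, Z l i j ∈ L ∧ IsIntegral ℤ (Z l i j)) →
            A.charpoly = ∏ i, (Polynomial.X - Polynomial.C (α i)) →
            B.charpoly = ∏ i, (Polynomial.X - Polynomial.C (β i)) →
            (∀ l, (Z l).charpoly = ∏ i, (Polynomial.X - Polynomial.C (γ l i))) →
            (A * (List.ofFn Z).prod * B).charpoly = ∏ i, (Polynomial.X - Polynomial.C (δ i)) →
            MvPolynomial.eval (fun x => Sum.elim ![A, B] Z x.1 x.2.1 x.2.2) F ≠ 0 →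
            MvPolynomial.eval (fun x => Sum.elim ![A, B] Z x.1 x.2.1 x.2.2) P = 0) →
          ∀ (A B : Matrix (Fin (n + 2)) (Fin (n + 2)) ℂ)
            (Z : Fin m → Matrix (Fin (n + 2)) (Fin (n + 2)) ℂ),
            A.charpoly = ∏ i, (Polynomial.X - Polynomial.C (α i)) →
            B.charpoly = ∏ i, (Polynomial.X - Polynomial.C (β i)) →
            (∀ l, (Z l).charpoly = ∏ i, (Polynomial.X - Polynomial.C (γ l i))) →
            (A * (List.ofFn Z).prod * B).charpoly = ∏ i, (Polynomial.X - Polynomial.C (δ i)) →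
            MvPolynomial.eval (fun x => Sum.elim ![A, B] Z x.1 x.2.1 x.2.2) F ≠ 0 →
            MvPolynomial.eval (fun x => Sum.elim ![A, B] Z x.1 x.2.1 x.2.2) P = 0 := by
  obtain ⟨A0, B0, Z0, v, w, hch, hdA, hdB⟩ := hex
  refine ⟨polyJ (n + 1) m α β v w, ?_, ?_, ?_⟩
  · have hch' := hch
    obtain ⟨c1, c2, c3, c4, c5, c6, -, -, -⟩ := hch'
    have hau : ∀ i j, j < i → jorU α A0 v i j = 0 := fun i j hij => jorU_ut α c1 c2 v j i hij
    have hbl : ∀ i j, i < j → jorL β B0 w i j = 0 := fun i j hij => jorL_lt β c3 c4 w j i hij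
    have had : ∀ i, jorU α A0 v i i ≠ 0 := by
      rw [det_ut hau] at hdA
      exact fun i => Finset.prod_ne_zero_iff.mp hdA i (Finset.mem_univ i)
    have hbd : ∀ i, jorL β B0 w i i ≠ 0 := by
      rw [det_lt hbl] at hdB
      exact fun i => Finset.prod_ne_zero_iff.mp hdB i (Finset.mem_univ i)
    have hne := genG_chart_ne_zero (n + 1) m α β δ γ hβ1 hγ1 A0 B0 Z0 hch _ _ hau had
      hbl hbd
    refine ⟨A0, B0, Z0, ?_, ?_, c5, c6, ?_⟩
    · rw [charpoly_ut c1]
      simp only [c2]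
    · rw [charpoly_lt c3]
      simp only [c4]
    · rw [eval_polyJ]
      exact hne
  · intro A B Z hA hB hZ hN hF
    rw [eval_polyJ] at hF
    unfold genJ genG at hF
    have g5 := right_ne_zero_of_mul hF
    have hF4 := left_ne_zero_of_mul hF
    have g4 := right_ne_zero_of_mul hF4
    have hF3 := left_ne_zero_of_mul hF4
    have hF2 := left_ne_zero_of_mul hF3
    have g2 := right_ne_zero_of_mul hF2
    have g1 := left_ne_zero_of_mul hF2
    have hb : (jorL β B w).det ≠ 0 := by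
      have h := trailDet_ne_zero_det (n + 1 + 1) _ g2
      rw [Matrix.det_mul] at h
      exact right_ne_zero_of_mul h
    exact ⟨⟨v, cyc_of_det_jorU α A v g1⟩, ⟨w, cyc_of_det_jorL β B w hb⟩,
      fun l => ⟨_, cyc_of_isUnit_det_kry (isUnit_iff_ne_zero.mpr
        (Finset.prod_ne_zero_iff.mp g4 l (Finset.mem_univ l)))⟩,
      ⟨_, cyc_of_isUnit_det_kry (isUnit_iff_ne_zero.mpr g5)⟩⟩
  · intro L hs hαL hβL hδL hγL P hP A B Z hA hB hZ hN hF
    obtain ⟨s, hsL, hs2⟩ := hs
    have hsq : sqrtTwo ∈ L := by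
      have h0 : (s - sqrtTwo) * (s + sqrtTwo) = 0 := by
        linear_combination hs2 - sqrtTwo_mul_self
      rcases mul_eq_zero.mp h0 with h | h
      · have e : s = sqrtTwo := sub_eq_zero.mp h
        rw [← e]
        exact hsL
      · have e : sqrtTwo = -s := by linear_combination h
        rw [e]
        exact L.neg_mem hsL
    have hPF : ∀ (A B : Matrix (Fin (n + 2)) (Fin (n + 2)) ℂ)
        (Z : Fin m → Matrix (Fin (n + 2)) (Fin (n + 2)) ℂ),
        (∀ i j, A i j ∈ L ∧ IsIntegral ℤ (A i j)) →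
        (∀ i j, B i j ∈ L ∧ IsIntegral ℤ (B i j)) →
        (∀ l i j, Z l i j ∈ L ∧ IsIntegral ℤ (Z l i j)) →
        A.charpoly = ∏ i, (Polynomial.X - Polynomial.C (α i)) →
        B.charpoly = ∏ i, (Polynomial.X - Polynomial.C (β i)) →
        (∀ l, (Z l).charpoly = ∏ i, (Polynomial.X - Polynomial.C (γ l i))) →
        (A * (List.ofFn Z).prod * B).charpoly = ∏ i, (Polynomial.X - Polynomial.C (δ i)) →
        MvPolynomial.eval (fun x => Sum.elim ![A, B] Z x.1 x.2.1 x.2.2)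
          (P * polyJ (n + 1) m α β v w) = 0 := by
      intro A' B' Z' hA' hB' hZ' c1 c2 c3 c4
      rw [map_mul]
      by_cases hF' : MvPolynomial.eval (fun x => Sum.elim ![A', B'] Z' x.1 x.2.1 x.2.2)
          (polyJ (n + 1) m α β v w) = 0
      · rw [hF', mul_zero]
      · rw [hP A' B' Z' hA' hB' hZ' c1 c2 c3 c4 hF', zero_mul]
    have hF0 := hF
    rw [eval_polyJ] at hF
    unfold genJ genG at hF
    have g5 := right_ne_zero_of_mul hF
    have hF4 := left_ne_zero_of_mul hF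
    have g4 := right_ne_zero_of_mul hF4
    have hF3 := left_ne_zero_of_mul hF4
    have g3 := right_ne_zero_of_mul hF3
    have hF2 := left_ne_zero_of_mul hF3
    have g2 := right_ne_zero_of_mul hF2
    have g1 := left_ne_zero_of_mul hF2
    obtain ⟨g, g', A', B', Z', hgg, hch', eA, eB, eZ⟩ :=
      chart_of_regular (n + 1) m α β δ γ A B Z v w (jorU α A v) (jorL β B w) rfl rfl
        hA hB hZ hN g1 g2
        (fun l => Finset.prod_ne_zero_iff.mp g3 l (Finset.mem_univ l))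
        (fun l => Finset.prod_ne_zero_iff.mp g4 l (Finset.mem_univ l)) g5
    have key := spheres_dense_field L hsq (n + 1) m α β δ γ hα hβ hδ hγ hαL hβL hδL hγL
      hα1 hβ1 hδ1 hγ1 (P * polyJ (n + 1) m α β v w) hPF g g' A' B' Z' hgg hch'
    have eZ' : (fun l => g * Z' l * g') = Z := by
      funext l
      exact (eZ l).symm
    rw [← eA, ← eB, eZ', map_mul] at key
    exact (mul_eq_zero.mp key).resolve_right hF0
/-- Existence of a chart tuple with invertible chain frames, for families α in which equal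
members are adjacent, if the size is at least three or there is at least one matrix Z_l. -/
theorem exists_regular_chart_all (n m : ℕ) (hnm : 1 ≤ n ∨ 1 ≤ m) (α β δ : Fin (n + 2) → ℂ)
    (γ : Fin m → Fin (n + 2) → ℂ)
    (hα1 : ∏ i, α i = 1) (hβ1 : ∏ i, β i = 1) (hδ1 : ∏ i, δ i = 1)
    (hγ1 : ∀ l, ∏ i, γ l i = 1) (hg : Grouped α) :
    ∃ (A B : Matrix (Fin (n + 2)) (Fin (n + 2)) ℂ)
      (Z : Fin m → Matrix (Fin (n + 2)) (Fin (n + 2)) ℂ) (v w : Fin (n + 2) → ℂ),
      ChartY (n + 1) m α β δ γ A B Z ∧ (jorU α A v).det ≠ 0 ∧ (jorL β B w).det ≠ 0 := by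
  cases m with
  | succ m => exact exists_regular_chart n m α β δ γ hα1 hβ1 hδ1 hγ1 hg.first
  | zero =>
    cases n with
    | zero => omega
    | succ n => exact exists_regular_chart_pants n α β δ γ hα1 hβ1 hδ1 hg

/-- Let n and m be natural numbers, not both zero.  Let α, β, δ and γ_l (l < m) be families of
n + 2 algebraic integers, all of product one, with no further condition.  Let V be the set of
tuples (A, B, Z_0, ..., Z_{m-1}) of complex matrices of size n + 2 such that A, B, Z_l and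
A Z_0 ... Z_{m-1} B have characteristic polynomials with roots α, β, γ_l and δ.  There is a
polynomial F in the entries of the tuple such that F does not vanish identically on V, every
matrix A, B, Z_l and A Z_0 ... Z_{m-1} B of a point of V at which F does not vanish has a
cyclic vector, and for every subfield L of the complex numbers which contains a square root of
two and all the numbers α_i, β_i, δ_i, γ_l i, every polynomial P which vanishes at all points
of V with entries in the ring of integers of L at which F does not vanish vanishes at every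
point of V at which F does not vanish.  Such a field L of finite degree exists. -/
theorem spheres_regular_field (n m : ℕ) (hnm : 1 ≤ n ∨ 1 ≤ m) (α β δ : Fin (n + 2) → ℂ)
    (γ : Fin m → Fin (n + 2) → ℂ)
    (hα : ∀ i, IsIntegral ℤ (α i)) (hβ : ∀ i, IsIntegral ℤ (β i)) (hδ : ∀ i, IsIntegral ℤ (δ i))
    (hγ : ∀ l i, IsIntegral ℤ (γ l i))
    (hα1 : ∏ i, α i = 1) (hβ1 : ∏ i, β i = 1) (hδ1 : ∏ i, δ i = 1)
    (hγ1 : ∀ l, ∏ i, γ l i = 1) :
    (∃ F : MvPolynomial ((Fin 2 ⊕ Fin m) × Fin (n + 2) × Fin (n + 2)) ℂ,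
      (∃ (A B : Matrix (Fin (n + 2)) (Fin (n + 2)) ℂ)
        (Z : Fin m → Matrix (Fin (n + 2)) (Fin (n + 2)) ℂ),
        A.charpoly = ∏ i, (Polynomial.X - Polynomial.C (α i)) ∧
        B.charpoly = ∏ i, (Polynomial.X - Polynomial.C (β i)) ∧
        (∀ l, (Z l).charpoly = ∏ i, (Polynomial.X - Polynomial.C (γ l i))) ∧
        (A * (List.ofFn Z).prod * B).charpoly = ∏ i, (Polynomial.X - Polynomial.C (δ i)) ∧
        MvPolynomial.eval (fun x => Sum.elim ![A, B] Z x.1 x.2.1 x.2.2) F ≠ 0) ∧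
      (∀ (A B : Matrix (Fin (n + 2)) (Fin (n + 2)) ℂ)
        (Z : Fin m → Matrix (Fin (n + 2)) (Fin (n + 2)) ℂ),
        A.charpoly = ∏ i, (Polynomial.X - Polynomial.C (α i)) →
        B.charpoly = ∏ i, (Polynomial.X - Polynomial.C (β i)) →
        (∀ l, (Z l).charpoly = ∏ i, (Polynomial.X - Polynomial.C (γ l i))) →
        (A * (List.ofFn Z).prod * B).charpoly = ∏ i, (Polynomial.X - Polynomial.C (δ i)) →
        MvPolynomial.eval (fun x => Sum.elim ![A, B] Z x.1 x.2.1 x.2.2) F ≠ 0 →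
        (∃ v : Fin (n + 2) → ℂ, ∀ u : Fin (n + 2) → ℂ, ∃ p : Polynomial ℂ,
          Matrix.mulVec (Polynomial.aeval A p) v = u) ∧
        (∃ v : Fin (n + 2) → ℂ, ∀ u : Fin (n + 2) → ℂ, ∃ p : Polynomial ℂ,
          Matrix.mulVec (Polynomial.aeval B p) v = u) ∧
        (∀ l, ∃ v : Fin (n + 2) → ℂ, ∀ u : Fin (n + 2) → ℂ, ∃ p : Polynomial ℂ,
          Matrix.mulVec (Polynomial.aeval (Z l) p) v = u) ∧
        ∃ v : Fin (n + 2) → ℂ, ∀ u : Fin (n + 2) → ℂ, ∃ p : Polynomial ℂ,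
          Matrix.mulVec (Polynomial.aeval (A * (List.ofFn Z).prod * B) p) v = u) ∧
      ∀ L : IntermediateField ℚ ℂ, (∃ s ∈ L, s ^ 2 = 2) → (∀ i, α i ∈ L) → (∀ i, β i ∈ L) →
        (∀ i, δ i ∈ L) → (∀ l i, γ l i ∈ L) →
        ∀ P : MvPolynomial ((Fin 2 ⊕ Fin m) × Fin (n + 2) × Fin (n + 2)) ℂ,
          (∀ (A B : Matrix (Fin (n + 2)) (Fin (n + 2)) ℂ)
            (Z : Fin m → Matrix (Fin (n + 2)) (Fin (n + 2)) ℂ),
            (∀ i j, A i j ∈ L ∧ IsIntegral ℤ (A i j)) →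
            (∀ i j, B i j ∈ L ∧ IsIntegral ℤ (B i j)) →
            (∀ l i j, Z l i j ∈ L ∧ IsIntegral ℤ (Z l i j)) →
            A.charpoly = ∏ i, (Polynomial.X - Polynomial.C (α i)) →
            B.charpoly = ∏ i, (Polynomial.X - Polynomial.C (β i)) →
            (∀ l, (Z l).charpoly = ∏ i, (Polynomial.X - Polynomial.C (γ l i))) →
            (A * (List.ofFn Z).prod * B).charpoly = ∏ i, (Polynomial.X - Polynomial.C (δ i)) →
            MvPolynomial.eval (fun x => Sum.elim ![A, B] Z x.1 x.2.1 x.2.2) F ≠ 0 →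
            MvPolynomial.eval (fun x => Sum.elim ![A, B] Z x.1 x.2.1 x.2.2) P = 0) →
          ∀ (A B : Matrix (Fin (n + 2)) (Fin (n + 2)) ℂ)
            (Z : Fin m → Matrix (Fin (n + 2)) (Fin (n + 2)) ℂ),
            A.charpoly = ∏ i, (Polynomial.X - Polynomial.C (α i)) →
            B.charpoly = ∏ i, (Polynomial.X - Polynomial.C (β i)) →
            (∀ l, (Z l).charpoly = ∏ i, (Polynomial.X - Polynomial.C (γ l i))) →
            (A * (List.ofFn Z).prod * B).charpoly = ∏ i, (Polynomial.X - Polynomial.C (δ i)) →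
            MvPolynomial.eval (fun x => Sum.elim ![A, B] Z x.1 x.2.1 x.2.2) F ≠ 0 →
            MvPolynomial.eval (fun x => Sum.elim ![A, B] Z x.1 x.2.1 x.2.2) P = 0) ∧
      ∃ L : IntermediateField ℚ ℂ, FiniteDimensional ℚ L ∧ (∃ s ∈ L, s ^ 2 = 2) ∧
        (∀ i, α i ∈ L) ∧ (∀ i, β i ∈ L) ∧ (∀ i, δ i ∈ L) ∧ ∀ l i, γ l i ∈ L := by
  constructor
  · obtain ⟨π, hπ⟩ := exists_grouped_perm α
    have hp : ∏ i, (Polynomial.X - Polynomial.C (α (π i))) =
        ∏ i, (Polynomial.X - Polynomial.C (α i)) :=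
      Equiv.prod_comp π (fun i => Polynomial.X - Polynomial.C (α i))
    have hα1' : ∏ i, α (π i) = 1 := by
      rw [Equiv.prod_comp π α]
      exact hα1
    have h := spheres_regular_core_field n m (fun i => α (π i)) β δ γ (fun i => hα (π i)) hβ hδ
      hγ hα1' hβ1 hδ1 hγ1
      (exists_regular_chart_all n m hnm (fun i => α (π i)) β δ γ hα1' hβ1 hδ1 hγ1 hπ)
    simp only [hp] at h
    obtain ⟨F, h1, h2, h3⟩ := h
    exact ⟨F, h1, h2, fun L hs hαL hβL hδL hγL => h3 L hs (fun i => hαL (π i)) hβL hδL hγL⟩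
  · refine ⟨fieldQ α β δ γ, fieldQ_finiteDimensional α β δ γ hα hβ hδ hγ,
      ⟨sqrtTwo, sqrtTwo_mem_fieldQ α β δ γ, by rw [pow_two, sqrtTwo_mul_self]⟩,
      fun i => IntermediateField.subset_adjoin ℚ _ (by simp),
      fun i => IntermediateField.subset_adjoin ℚ _ (by simp),
      fun i => IntermediateField.subset_adjoin ℚ _ (by simp),
      fun l i => gamma_mem_fieldQ α β δ γ l i⟩

end Vale.Agent.Lib.P002
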