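import Vale.Agent.Lib.P002.SrJor

/-!
From chain frames in general position to chart tuples: a tuple (A, Z_1, ..., Z_m, B) with the
prescribed characteristic polynomials whose chain frames satisfy finitely many nonvanishing
conditions is a simultaneous conjugate of a chart tuple.  No condition on the eigenvalues.
-/

namespace Vale.Agent.Lib.P002

open Matrix

/-- A tuple whose chain frames are in general position is a simultaneous conjugate of a chart
tuple. -/
theorem chart_of_regular (k m : ℕ) (α β δ : Fin (k + 1) → ℂ) (γ : Fin m → Fin (k + 1) → ℂ)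
    (A B : Matrix (Fin (k + 1)) (Fin (k + 1)) ℂ)
    (Z : Fin m → Matrix (Fin (k + 1)) (Fin (k + 1)) ℂ)
    (v w : Fin (k + 1) → ℂ)
    (a b : Matrix (Fin (k + 1)) (Fin (k + 1)) ℂ) (ha : a = jorU α A v) (hb : b = jorL β B w)
    (hA : A.charpoly = ∏ i, (Polynomial.X - Polynomial.C (α i)))
    (hB : B.charpoly = ∏ i, (Polynomial.X - Polynomial.C (β i)))
    (hZ : ∀ l, (Z l).charpoly = ∏ i, (Polynomial.X - Polynomial.C (γ l i)))
    (hN : (A * (List.ofFn Z).prod * B).charpoly = ∏ i, (Polynomial.X - Polynomial.C (δ i)))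
    (g1 : a.det ≠ 0)
    (g2 : trailDet (k + 1) (a.adjugate * b) ≠ 0)
    (g3 : ∀ l : Fin m, trailDet (k + 1)
      (a.adjugate * (((List.ofFn Z).drop l).prod * B) * b) ≠ 0)
    (g4 : ∀ l, (kry (Z l) (fun i => a i 0)).det ≠ 0)
    (g5 : (kry (A * (List.ofFn Z).prod * B) (fun i => a i 0)).det ≠ 0) :
    ∃ (g g' A' B' : Matrix (Fin (k + 1)) (Fin (k + 1)) ℂ)
      (Z' : Fin m → Matrix (Fin (k + 1)) (Fin (k + 1)) ℂ), g * g' = 1 ∧
      ChartY k m α β δ γ A' B' Z' ∧ A = g * A' * g' ∧ B = g * B' * g' ∧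
      ∀ l, Z l = g * Z' l * g' := by
  have hau : IsUnit a.det := isUnit_iff_ne_zero.mpr g1
  have hainv : a⁻¹ = (a.det)⁻¹ • a.adjugate := by
    rw [Matrix.inv_def, Ring.inverse_eq_inv']
  have haa : a * a⁻¹ = 1 := Matrix.mul_nonsing_inv a hau
  have haa' : a⁻¹ * a = 1 := Matrix.nonsing_inv_mul a hau
  have hc0 : trailDet (k + 1) (a⁻¹ * b) ≠ 0 := by
    rw [hainv, Matrix.smul_mul]
    exact trailDet_smul_ne_zero _ _ (inv_ne_zero g1) _ g2
  obtain ⟨V, T, hV, hV1, hT, hVT⟩ := exists_ul (k + 1) _ hc0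
  have hVdet : V.det = 1 := det_ut_unit hV hV1
  have hTdet : T.det ≠ 0 := by
    have h := trailDet_ne_zero_det (k + 1) _ hc0
    rw [hVT, Matrix.det_mul, hVdet, one_mul] at h
    exact h
  have hTu : IsUnit T.det := isUnit_iff_ne_zero.mpr hTdet
  have hTT : T * T⁻¹ = 1 := Matrix.mul_nonsing_inv T hTu
  have hTT' : T⁻¹ * T = 1 := Matrix.nonsing_inv_mul T hTu
  have hTi : ∀ i j, i < j → T⁻¹ i j = 0 := lt_inv hT hTdet
  have hTid : ∀ i, T⁻¹ i i * T i i = 1 := by
    intro i
    rw [← lt_mul_diag hTi hT, hTT', Matrix.one_apply_eq]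
  have hVa : ∀ i j, j < i → V.adjugate i j = 0 := ut_adjugate hV hVdet
  have hVad : ∀ i, V.adjugate i i = 1 := by
    intro i
    have h := ut_adjugate_diag hV hVdet i
    rw [hV1, mul_one] at h
    exact h
  obtain ⟨g, hg⟩ : ∃ g, g = a * V := ⟨_, rfl⟩
  obtain ⟨g', hg'⟩ : ∃ g', g' = V.adjugate * a⁻¹ := ⟨_, rfl⟩
  have hgg : g * g' = 1 := by
    rw [hg, hg']
    calc a * V * (V.adjugate * a⁻¹) = a * (V * V.adjugate) * a⁻¹ := by
          simp only [Matrix.mul_assoc]
      _ = 1 := by rw [mul_adjugate_of_det hVdet, Matrix.mul_one, haa]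
  have hgg' : g' * g = 1 := mul_eq_one_comm.mp hgg
  have hbg : b = g * T := by
    rw [hg, Matrix.mul_assoc, ← hVT, ← Matrix.mul_assoc, haa, Matrix.one_mul]
  have hgb : g = b * T⁻¹ := by
    rw [hbg, Matrix.mul_assoc, hTT, Matrix.mul_one]
  have hA' : g' * A * g = V.adjugate * (Matrix.diagonal α + shU ℂ (k + 1)) * V := by
    have h1 := mul_jorU α A hA v
    rw [← ha] at h1
    rw [hg, hg']
    calc V.adjugate * a⁻¹ * A * (a * V) = V.adjugate * (a⁻¹ * (A * a)) * V := by
          simp only [Matrix.mul_assoc]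
      _ = V.adjugate * (Matrix.diagonal α + shU ℂ (k + 1)) * V := by
          rw [h1, ← Matrix.mul_assoc a⁻¹, haa', Matrix.one_mul]
  have hB' : g' * B * g = T * (Matrix.diagonal β + shL ℂ (k + 1)) * T⁻¹ := by
    have h1 := mul_jorL β B hB w
    rw [← hb] at h1
    calc g' * B * g = g' * (B * b) * T⁻¹ := by
          rw [hgb]
          simp only [Matrix.mul_assoc]
      _ = g' * g * T * (Matrix.diagonal β + shL ℂ (k + 1)) * T⁻¹ := by
          rw [h1, hbg]
          simp only [Matrix.mul_assoc]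
      _ = T * (Matrix.diagonal β + shL ℂ (k + 1)) * T⁻¹ := by rw [hgg', Matrix.one_mul]
  have hdα : ∀ i j, j < i → (Matrix.diagonal α + shU ℂ (k + 1)) i j = 0 := (bidU_shape α).1
  have hdβ : ∀ i j, i < j → (Matrix.diagonal β + shL ℂ (k + 1)) i j = 0 := (bidL_shape β).1
  have hprod : (List.ofFn fun l => g' * Z l * g).prod = g' * (List.ofFn Z).prod * g :=
    prod_ofFn_conj' g' g hgg' hgg m Z
  have hNconj : g' * A * g * (List.ofFn fun l => g' * Z l * g).prod * (g' * B * g) =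
      g' * (A * (List.ofFn Z).prod * B) * g := by
    rw [hprod, conj_mul g' g _ _ hgg, conj_mul g' g _ _ hgg]
  have he0 : g' *ᵥ (fun i => a i 0) = (Fin.cons 1 0 : Fin (k + 1) → ℂ) := by
    have h1 : (fun i => a i 0) = a *ᵥ (Fin.cons 1 0 : Fin (k + 1) → ℂ) := by
      rw [← single_eq_cons, Matrix.mulVec_single_one]
      rfl
    rw [h1, Matrix.mulVec_mulVec, hg', Matrix.mul_assoc, haa', Matrix.mul_one]
    exact adjugate_ut_mulVec_cons hV hV1
  refine ⟨g, g', g' * A * g, g' * B * g, fun l => g' * Z l * g, hgg,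
    ⟨?_, ?_, ?_, ?_, ?_, ?_, ?_, ?_, ?_⟩, conj_back g g' A hgg, conj_back g g' B hgg,
    fun l => conj_back g g' (Z l) hgg⟩
  · rw [hA']
    exact ut_mul (ut_mul hVa hdα) hV
  · intro i
    rw [hA', ut_mul_diag (ut_mul hVa hdα) hV, ut_mul_diag hVa hdα, hVad, hV1,
      (bidU_shape α).2, one_mul, mul_one]
  · rw [hB']
    exact lt_mul (lt_mul hT hdβ) hTi
  · intro i
    rw [hB', lt_mul_diag (lt_mul hT hdβ) hTi, lt_mul_diag hT hdβ, (bidL_shape β).2,
      mul_comm (T i i), mul_assoc, mul_comm (T i i), hTid, mul_one]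
  · intro l
    rw [charpoly_conj' g' g (Z l) hgg]
    exact hZ l
  · rw [hNconj, charpoly_conj' g' g _ hgg]
    exact hN
  · intro l
    have h1 : ((List.ofFn fun j => g' * Z j * g).drop (l : ℕ)).prod * (g' * B * g) =
        g' * (((List.ofFn Z).drop (l : ℕ)).prod * B) * g := by
      rw [drop_prod_conj g' g hgg' hgg m Z l, conj_mul g' g _ _ hgg]
    have h2 : g' * (((List.ofFn Z).drop (l : ℕ)).prod * B) * g =
        ((a.det)⁻¹ • V.adjugate) * (a.adjugate * (((List.ofFn Z).drop (l : ℕ)).prod * B) * b) *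
          T⁻¹ := by
      rw [hg', hainv, hgb]
      simp only [Matrix.mul_smul, Matrix.smul_mul, Matrix.mul_assoc]
    have h3 : trailDet (k + 1) (g' * (((List.ofFn Z).drop (l : ℕ)).prod * B) * g) ≠ 0 := by
      rw [h2]
      refine trailDet_conj_ne_zero (k + 1) _ _ _ ?_ ?_ hTi ?_ (g3 l)
      · intro i j hij
        rw [Matrix.smul_apply, hVa i j hij, smul_zero]
      · intro i
        rw [Matrix.smul_apply, hVad, smul_eq_mul, mul_one]
        exact inv_ne_zero g1
      · intro i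
        exact left_ne_zero_of_mul_eq_one (hTid i)
    obtain ⟨Vl, Tl, q1, q2, q3, q4⟩ := exists_ul (k + 1) _ h3
    exact ⟨Vl, Tl, q1, q2, q3, h1.trans q4⟩
  · intro l
    have h := (cyc_of_isUnit_det_kry (isUnit_iff_ne_zero.mpr (g4 l))).conj g g' hgg
    rw [he0] at h
    exact h
  · have h := (cyc_of_isUnit_det_kry (isUnit_iff_ne_zero.mpr g5)).conj g g' hgg
    rw [he0] at h
    rw [hNconj]
    exact h

end Vale.Agent.Lib.P002
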