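import Vale.Agent.Lib.P002.SoMain

/-!
Chain frames.  For a square matrix A, a family α and a vector v, the upper chain frame is the
matrix whose i-th column is the product of the A - α_l, l > i, applied to v; the lower chain
frame of a matrix B, a family β and a vector w has i-th column the product of the B - β_l,
l < i, applied to w.  If the characteristic polynomial of A is the product of the X - α_l,
then A times its frame is the frame times an upper triangular matrix with diagonal α.
-/

namespace Vale.Agent.Lib.P002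

open Matrix Polynomial

section Jor

variable {S : Type*} [CommRing S] {n : ℕ}

/-- The upper chain frame. -/
noncomputable def jorU (α : Fin n → S) (A : Matrix (Fin n) (Fin n) S) (v : Fin n → S) :
    Matrix (Fin n) (Fin n) S :=
  Matrix.of fun r i => ((aeval A (∏ l ∈ Finset.Ioi i, (X - C (α l)))) *ᵥ v) r

/-- The lower chain frame. -/
noncomputable def jorL (β : Fin n → S) (B : Matrix (Fin n) (Fin n) S) (w : Fin n → S) :
    Matrix (Fin n) (Fin n) S :=
  Matrix.of fun r i => ((aeval B (∏ l ∈ Finset.Iio i, (X - C (β l)))) *ᵥ w) r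

theorem jorU_col (α : Fin n → S) (A : Matrix (Fin n) (Fin n) S) (v : Fin n → S) (i : Fin n) :
    (fun r => jorU α A v r i) = (aeval A (∏ l ∈ Finset.Ioi i, (X - C (α l)))) *ᵥ v := rfl

theorem jorL_col (β : Fin n → S) (B : Matrix (Fin n) (Fin n) S) (w : Fin n → S) (i : Fin n) :
    (fun r => jorL β B w r i) = (aeval B (∏ l ∈ Finset.Iio i, (X - C (β l)))) *ᵥ w := rfl

theorem jorU_map {T : Type*} [CommRing T] (f : S →+* T) (α : Fin n → S)
    (A : Matrix (Fin n) (Fin n) S) (v : Fin n → S) :
    (jorU α A v).map f = jorU (fun i => f (α i)) (A.map f) (fun i => f (v i)) := by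
  ext r i
  simp only [jorU, Matrix.map_apply, Matrix.of_apply]
  have h := congrFun (map_mulVec' f (aeval A (∏ l ∈ Finset.Ioi i, (X - C (α l)))) v) r
  have h2 : (∏ l ∈ Finset.Ioi i, (X - C (α l))).map f =
      ∏ l ∈ Finset.Ioi i, (X - C (f (α l))) := by
    rw [Polynomial.map_prod]
    simp
  rw [h, map_aeval, h2]

theorem jorL_map {T : Type*} [CommRing T] (f : S →+* T) (β : Fin n → S)
    (B : Matrix (Fin n) (Fin n) S) (w : Fin n → S) :
    (jorL β B w).map f = jorL (fun i => f (β i)) (B.map f) (fun i => f (w i)) := by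
  ext r i
  simp only [jorL, Matrix.map_apply, Matrix.of_apply]
  have h := congrFun (map_mulVec' f (aeval B (∏ l ∈ Finset.Iio i, (X - C (β l)))) w) r
  have h2 : (∏ l ∈ Finset.Iio i, (X - C (β l))).map f =
      ∏ l ∈ Finset.Iio i, (X - C (f (β l))) := by
    rw [Polynomial.map_prod]
    simp
  rw [h, map_aeval, h2]

/-- The frame of a conjugate. -/
theorem jorU_conj (α : Fin n → S) (G G' A : Matrix (Fin n) (Fin n) S) (h : G * G' = 1)
    (v : Fin n → S) : jorU α (G' * A * G) (G' *ᵥ v) = G' * jorU α A v := by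
  ext r i
  have e : (aeval (G' * A * G) (∏ l ∈ Finset.Ioi i, (X - C (α l)))) *ᵥ (G' *ᵥ v) =
      G' *ᵥ ((aeval A (∏ l ∈ Finset.Ioi i, (X - C (α l)))) *ᵥ v) := by
    rw [aeval_conj G G' A h, Matrix.mulVec_mulVec, Matrix.mul_assoc, Matrix.mul_assoc, h,
      Matrix.mul_one, ← Matrix.mulVec_mulVec]
  have e2 := congrFun e r
  simp only [jorU, Matrix.of_apply, Matrix.mul_apply]
  rw [e2]
  rfl

theorem jorL_conj (β : Fin n → S) (G G' B : Matrix (Fin n) (Fin n) S) (h : G * G' = 1)
    (w : Fin n → S) : jorL β (G' * B * G) (G' *ᵥ w) = G' * jorL β B w := by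
  ext r i
  have e : (aeval (G' * B * G) (∏ l ∈ Finset.Iio i, (X - C (β l)))) *ᵥ (G' *ᵥ w) =
      G' *ᵥ ((aeval B (∏ l ∈ Finset.Iio i, (X - C (β l)))) *ᵥ w) := by
    rw [aeval_conj G G' B h, Matrix.mulVec_mulVec, Matrix.mul_assoc, Matrix.mul_assoc, h,
      Matrix.mul_one, ← Matrix.mulVec_mulVec]
  have e2 := congrFun e r
  simp only [jorL, Matrix.of_apply, Matrix.mul_apply]
  rw [e2]
  rfl

theorem Ioi_castSucc_eq {k : ℕ} (i : Fin k) :
    Finset.Ioi i.castSucc = insert i.succ (Finset.Ioi i.succ) := by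
  ext a
  simp only [Finset.mem_Ioi, Finset.mem_insert]
  rw [Fin.castSucc_lt_iff_succ_le]
  constructor
  · intro h
    rcases eq_or_lt_of_le h with h | h
    · exact Or.inl h.symm
    · exact Or.inr h
  · rintro (h | h)
    · exact h ▸ le_refl _
    · exact h.le

theorem Iio_succ_eq {k : ℕ} (i : Fin k) :
    Finset.Iio i.succ = insert i.castSucc (Finset.Iio i.castSucc) := by
  ext a
  simp only [Finset.mem_Iio, Finset.mem_insert]
  rw [← Fin.le_castSucc_iff]
  constructor
  · intro h
    rcases eq_or_lt_of_le h with h | h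
    · exact Or.inl h
    · exact Or.inr h
  · rintro (h | h)
    · exact h ▸ le_refl _
    · exact h.le

/-- The recursion for the columns of the upper chain frame. -/
theorem jorU_col_castSucc {k : ℕ} (α : Fin (k + 1) → S)
    (A : Matrix (Fin (k + 1)) (Fin (k + 1)) S) (v : Fin (k + 1) → S) (i : Fin k) :
    (fun r => jorU α A v r i.castSucc) =
      A *ᵥ (fun r => jorU α A v r i.succ) - α i.succ • (fun r => jorU α A v r i.succ) := by
  rw [jorU_col, jorU_col, Ioi_castSucc_eq, Finset.prod_insert (by simp), map_mul, map_sub,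
    aeval_X, aeval_C, ← Matrix.mulVec_mulVec, Matrix.sub_mulVec,
    Algebra.algebraMap_eq_smul_one, Matrix.smul_mulVec, Matrix.one_mulVec]

/-- The recursion for the columns of the lower chain frame. -/
theorem jorL_col_succ {k : ℕ} (β : Fin (k + 1) → S)
    (B : Matrix (Fin (k + 1)) (Fin (k + 1)) S) (w : Fin (k + 1) → S) (i : Fin k) :
    (fun r => jorL β B w r i.succ) =
      B *ᵥ (fun r => jorL β B w r i.castSucc) -
        β i.castSucc • (fun r => jorL β B w r i.castSucc) := by
  rw [jorL_col, jorL_col, Iio_succ_eq, Finset.prod_insert (by simp), map_mul, map_sub,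
    aeval_X, aeval_C, ← Matrix.mulVec_mulVec, Matrix.sub_mulVec,
    Algebra.algebraMap_eq_smul_one, Matrix.smul_mulVec, Matrix.one_mulVec]

theorem jorU_col_last {k : ℕ} (α : Fin (k + 1) → S)
    (A : Matrix (Fin (k + 1)) (Fin (k + 1)) S) (v : Fin (k + 1) → S) :
    (fun r => jorU α A v r (Fin.last k)) = v := by
  have h : Finset.Ioi (Fin.last k) = ∅ := by
    ext a
    simp [Fin.le_last]
  rw [jorU_col, h, Finset.prod_empty, map_one, Matrix.one_mulVec]

theorem jorL_col_zero {k : ℕ} (β : Fin (k + 1) → S)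
    (B : Matrix (Fin (k + 1)) (Fin (k + 1)) S) (w : Fin (k + 1) → S) :
    (fun r => jorL β B w r 0) = w := by
  have h : Finset.Iio (0 : Fin (k + 1)) = ∅ := by
    ext a
    simp
  rw [jorL_col, h, Finset.prod_empty, map_one, Matrix.one_mulVec]

/-- The first column of the upper chain frame is an eigenvector. -/
theorem mulVec_jorU_zero {k : ℕ} (α : Fin (k + 1) → S)
    (A : Matrix (Fin (k + 1)) (Fin (k + 1)) S) (hA : A.charpoly = ∏ i, (X - C (α i)))
    (v : Fin (k + 1) → S) :
    A *ᵥ (fun r => jorU α A v r 0) = α 0 • (fun r => jorU α A v r 0) := by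
  have hI : Finset.Ioi (0 : Fin (k + 1)) = Finset.univ.erase 0 := by
    ext a
    simp [Fin.pos_iff_ne_zero]
  have h0 : aeval A ((X - C (α 0)) * ∏ l ∈ Finset.Ioi (0 : Fin (k + 1)), (X - C (α l))) = 0 := by
    rw [hI, Finset.mul_prod_erase Finset.univ (fun l => X - C (α l)) (Finset.mem_univ 0), ← hA]
    exact Matrix.aeval_self_charpoly A
  rw [map_mul, map_sub, aeval_X, aeval_C, sub_mul, Algebra.algebraMap_eq_smul_one,
    smul_mul_assoc, one_mul] at h0
  rw [jorU_col, Matrix.mulVec_mulVec, sub_eq_zero.mp h0, Matrix.smul_mulVec]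

/-- The last column of the lower chain frame is an eigenvector. -/
theorem mulVec_jorL_last {k : ℕ} (β : Fin (k + 1) → S)
    (B : Matrix (Fin (k + 1)) (Fin (k + 1)) S) (hB : B.charpoly = ∏ i, (X - C (β i)))
    (w : Fin (k + 1) → S) :
    B *ᵥ (fun r => jorL β B w r (Fin.last k)) =
      β (Fin.last k) • (fun r => jorL β B w r (Fin.last k)) := by
  have hI : Finset.Iio (Fin.last k) = Finset.univ.erase (Fin.last k) := by
    ext a
    rw [Finset.mem_Iio, Finset.mem_erase]
    simp only [Finset.mem_univ, and_true]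
    exact Fin.lt_last_iff_ne_last
  have h0 : aeval B ((X - C (β (Fin.last k))) * ∏ l ∈ Finset.Iio (Fin.last k), (X - C (β l))) =
      0 := by
    rw [hI, Finset.mul_prod_erase Finset.univ (fun l => X - C (β l))
      (Finset.mem_univ (Fin.last k)), ← hB]
    exact Matrix.aeval_self_charpoly B
  rw [map_mul, map_sub, aeval_X, aeval_C, sub_mul, Algebra.algebraMap_eq_smul_one,
    smul_mul_assoc, one_mul] at h0
  rw [jorL_col, Matrix.mulVec_mulVec, sub_eq_zero.mp h0, Matrix.smul_mulVec]

/-- The matrix with ones just above the diagonal. -/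
def shU (S : Type*) [CommRing S] (n : ℕ) : Matrix (Fin n) (Fin n) S :=
  Matrix.of fun i j => if (i : ℕ) + 1 = j then 1 else 0

/-- The matrix with ones just below the diagonal. -/
def shL (S : Type*) [CommRing S] (n : ℕ) : Matrix (Fin n) (Fin n) S :=
  Matrix.of fun i j => if (j : ℕ) + 1 = i then 1 else 0

theorem bidU_shape (α : Fin n → S) :
    (∀ i j, j < i → (Matrix.diagonal α + shU S n) i j = 0) ∧
      ∀ i, (Matrix.diagonal α + shU S n) i i = α i := by
  constructor
  · intro i j hij
    have h : ¬ ((i : ℕ) + 1 = j) := by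
      have := Fin.lt_def.mp hij
      omega
    simp [shU, Matrix.diagonal_apply_ne _ hij.ne', h]
  · intro i
    simp [shU]

theorem bidL_shape (β : Fin n → S) :
    (∀ i j, i < j → (Matrix.diagonal β + shL S n) i j = 0) ∧
      ∀ i, (Matrix.diagonal β + shL S n) i i = β i := by
  constructor
  · intro i j hij
    have h : ¬ ((j : ℕ) + 1 = i) := by
      have := Fin.lt_def.mp hij
      omega
    simp [shL, Matrix.diagonal_apply_ne _ hij.ne, h]
  · intro i
    simp [shL]

/-- A matrix times its upper chain frame. -/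
theorem mul_jorU {k : ℕ} (α : Fin (k + 1) → S) (A : Matrix (Fin (k + 1)) (Fin (k + 1)) S)
    (hA : A.charpoly = ∏ i, (X - C (α i))) (v : Fin (k + 1) → S) :
    A * jorU α A v = jorU α A v * (Matrix.diagonal α + shU S (k + 1)) := by
  ext r c
  rw [Matrix.mul_add, Matrix.add_apply, Matrix.mul_diagonal]
  have hl : (A * jorU α A v) r c = (A *ᵥ (fun r => jorU α A v r c)) r := rfl
  rw [hl]
  refine Fin.cases ?_ (fun j => ?_) c
  · rw [mulVec_jorU_zero α A hA v]
    have hz : (jorU α A v * shU S (k + 1)) r 0 = 0 := by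
      rw [Matrix.mul_apply]
      refine Finset.sum_eq_zero fun l _ => ?_
      simp [shU]
    rw [hz, add_zero, Pi.smul_apply, smul_eq_mul, mul_comm]
  · have hs : (jorU α A v * shU S (k + 1)) r j.succ = jorU α A v r j.castSucc := by
      rw [Matrix.mul_apply, Finset.sum_eq_single j.castSucc]
      · simp [shU]
      · intro l _ hl
        have hne : ¬ ((l : ℕ) = (j : ℕ)) := by
          intro h
          apply hl
          ext
          simpa using h
        simp [shU, hne]
      · intro h
        exact absurd (Finset.mem_univ _) h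
    have hc := congrFun (jorU_col_castSucc α A v j) r
    rw [hs, hc]
    simp only [Pi.sub_apply, Pi.smul_apply, smul_eq_mul]
    ring

/-- A matrix times its lower chain frame. -/
theorem mul_jorL {k : ℕ} (β : Fin (k + 1) → S) (B : Matrix (Fin (k + 1)) (Fin (k + 1)) S)
    (hB : B.charpoly = ∏ i, (X - C (β i))) (w : Fin (k + 1) → S) :
    B * jorL β B w = jorL β B w * (Matrix.diagonal β + shL S (k + 1)) := by
  ext r c
  rw [Matrix.mul_add, Matrix.add_apply, Matrix.mul_diagonal]
  have hl : (B * jorL β B w) r c = (B *ᵥ (fun r => jorL β B w r c)) r := rfl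
  rw [hl]
  refine Fin.lastCases ?_ (fun j => ?_) c
  · rw [mulVec_jorL_last β B hB w]
    have hz : (jorL β B w * shL S (k + 1)) r (Fin.last k) = 0 := by
      rw [Matrix.mul_apply]
      refine Finset.sum_eq_zero fun l _ => ?_
      have hne : ¬ (k + 1 = (l : ℕ)) := by
        have := l.2
        omega
      simp [shL, hne]
    rw [hz, add_zero, Pi.smul_apply, smul_eq_mul, mul_comm]
  · have hs : (jorL β B w * shL S (k + 1)) r j.castSucc = jorL β B w r j.succ := by
      rw [Matrix.mul_apply, Finset.sum_eq_single j.succ]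
      · simp [shL]
      · intro l _ hl
        have hne : ¬ ((j : ℕ) + 1 = (l : ℕ)) := by
          intro h
          apply hl
          ext
          simpa using h.symm
        simp [shL, hne]
      · intro h
        exact absurd (Finset.mem_univ _) h
    have hc := congrFun (jorL_col_succ β B w j) r
    rw [hs, hc]
    simp only [Pi.sub_apply, Pi.smul_apply, smul_eq_mul]
    ring

/-- The upper chain frame of an upper triangular matrix with diagonal α is upper triangular. -/
theorem jorU_ut {k : ℕ} (α : Fin (k + 1) → S) {A : Matrix (Fin (k + 1)) (Fin (k + 1)) S}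
    (hA : ∀ i j, j < i → A i j = 0) (hAd : ∀ i, A i i = α i) (v : Fin (k + 1) → S) :
    ∀ i r, i < r → jorU α A v r i = 0 := by
  intro i
  induction i using Fin.reverseInduction with
  | last =>
    intro r h
    exact absurd h (not_lt.mpr (Fin.le_last r))
  | cast i ih =>
    intro r h
    have hc := congrFun (jorU_col_castSucc α A v i) r
    rw [hc]
    simp only [Pi.sub_apply, Pi.smul_apply, smul_eq_mul, Matrix.mulVec, dotProduct]
    have hle : i.succ ≤ r := Fin.castSucc_lt_iff_succ_le.mp h
    rw [Finset.sum_eq_single r]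
    · rcases eq_or_lt_of_le hle with h1 | h1
      · subst h1
        rw [hAd]
        ring
      · rw [ih r h1]
        ring
    · intro l _ hl
      rcases lt_or_gt_of_ne hl with h2 | h2
      · rw [hA r l h2, zero_mul]
      · rw [ih l (lt_of_le_of_lt hle h2), mul_zero]
    · intro h
      exact absurd (Finset.mem_univ _) h

/-- The lower chain frame of a lower triangular matrix with diagonal β is lower triangular. -/
theorem jorL_lt {k : ℕ} (β : Fin (k + 1) → S) {B : Matrix (Fin (k + 1)) (Fin (k + 1)) S}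
    (hB : ∀ i j, i < j → B i j = 0) (hBd : ∀ i, B i i = β i) (w : Fin (k + 1) → S) :
    ∀ i r, r < i → jorL β B w r i = 0 := by
  intro i
  induction i using Fin.induction with
  | zero =>
    intro r h
    exact absurd h (Fin.not_lt_zero r)
  | succ i ih =>
    intro r h
    have hc := congrFun (jorL_col_succ β B w i) r
    rw [hc]
    simp only [Pi.sub_apply, Pi.smul_apply, smul_eq_mul, Matrix.mulVec, dotProduct]
    have hle : r ≤ i.castSucc := Fin.le_castSucc_iff.mpr h
    rw [Finset.sum_eq_single r]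
    · rcases eq_or_lt_of_le hle with h1 | h1
      · subst h1
        rw [hBd]
        ring
      · rw [ih r h1]
        ring
    · intro l _ hl
      rcases lt_or_gt_of_ne hl with h2 | h2
      · rw [ih l (lt_of_lt_of_le h2 hle), mul_zero]
      · rw [hB r l h2, zero_mul]
    · intro h
      exact absurd (Finset.mem_univ _) h

end Jor

section JorCyc

variable {K : Type*} [Field K] {n : ℕ}

/-- If the upper chain frame is invertible, the vector is cyclic. -/
theorem cyc_of_det_jorU (α : Fin n → K) (A : Matrix (Fin n) (Fin n) K) (v : Fin n → K)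
    (h : (jorU α A v).det ≠ 0) : Cyc A v := by
  intro u
  have hu : IsUnit (jorU α A v).det := isUnit_iff_ne_zero.mpr h
  obtain ⟨c, hc⟩ : ∃ c, c = (jorU α A v)⁻¹ *ᵥ u := ⟨_, rfl⟩
  have h1 : (jorU α A v) *ᵥ c = u := by
    rw [hc, Matrix.mulVec_mulVec, Matrix.mul_nonsing_inv _ hu, Matrix.one_mulVec]
  refine ⟨∑ i, C (c i) * ∏ l ∈ Finset.Ioi i, (X - C (α l)), ?_⟩
  rw [← h1]
  funext r
  rw [map_sum]
  simp only [map_mul, aeval_C, Algebra.algebraMap_eq_smul_one, smul_mul_assoc, one_mul,
    Matrix.mulVec, dotProduct, Matrix.sum_apply, Matrix.smul_apply, smul_eq_mul, Finset.sum_mul,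
    jorU, Matrix.of_apply]
  rw [Finset.sum_comm]
  refine Finset.sum_congr rfl fun i _ => ?_
  refine Finset.sum_congr rfl fun l _ => ?_
  ring

/-- If the lower chain frame is invertible, the vector is cyclic. -/
theorem cyc_of_det_jorL (β : Fin n → K) (B : Matrix (Fin n) (Fin n) K) (w : Fin n → K)
    (h : (jorL β B w).det ≠ 0) : Cyc B w := by
  intro u
  have hu : IsUnit (jorL β B w).det := isUnit_iff_ne_zero.mpr h
  obtain ⟨c, hc⟩ : ∃ c, c = (jorL β B w)⁻¹ *ᵥ u := ⟨_, rfl⟩
  have h1 : (jorL β B w) *ᵥ c = u := by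
    rw [hc, Matrix.mulVec_mulVec, Matrix.mul_nonsing_inv _ hu, Matrix.one_mulVec]
  refine ⟨∑ i, C (c i) * ∏ l ∈ Finset.Iio i, (X - C (β l)), ?_⟩
  rw [← h1]
  funext r
  rw [map_sum]
  simp only [map_mul, aeval_C, Algebra.algebraMap_eq_smul_one, smul_mul_assoc, one_mul,
    Matrix.mulVec, dotProduct, Matrix.sum_apply, Matrix.smul_apply, smul_eq_mul, Finset.sum_mul,
    jorL, Matrix.of_apply]
  rw [Finset.sum_comm]
  refine Finset.sum_congr rfl fun i _ => ?_
  refine Finset.sum_congr rfl fun l _ => ?_
  ring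

end JorCyc

end Vale.Agent.Lib.P002
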