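import Vale.Agent.Lib.P002.SrBid

/-!
Chain frames of bidiagonal matrices and of matrices which are bidiagonal outside their first
row, and the dependence of the determinant of a chain frame on a scaling parameter.
-/

namespace Vale.Agent.Lib.P002

open Matrix Polynomial

section Chain

/-- If M maps every basis vector but the first to a multiple of itself plus a nonzero multiple
of the preceding basis vector, the columns of the upper chain frame with respect to the last
basis vector are nonzero multiples of the basis vectors. -/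
theorem jorU_chain {k : ℕ} (μ : Fin (k + 1) → ℂ) (M : Matrix (Fin (k + 1)) (Fin (k + 1)) ℂ)
    (s : Fin k → ℂ) (hs : ∀ j, s j ≠ 0)
    (hM : ∀ j : Fin k, M *ᵥ (Pi.single j.succ 1) =
      μ j.succ • Pi.single j.succ 1 + s j • Pi.single j.castSucc 1) :
    ∀ i : Fin (k + 1), ∃ c : ℂ, c ≠ 0 ∧
      (fun r => jorU μ M (Pi.single (Fin.last k) 1) r i) = c • Pi.single i 1 := by
  intro i
  induction i using Fin.reverseInduction with
  | last => exact ⟨1, one_ne_zero, by rw [jorU_col_last, one_smul]⟩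
  | cast j ih =>
    obtain ⟨c, hc, hcol⟩ := ih
    refine ⟨c * s j, mul_ne_zero hc (hs j), ?_⟩
    rw [jorU_col_castSucc, hcol, Matrix.mulVec_smul, hM j]
    funext r
    simp only [Pi.sub_apply, Pi.add_apply, Pi.smul_apply, smul_eq_mul]
    ring

theorem det_jorU_chain {k : ℕ} (μ : Fin (k + 1) → ℂ) (M : Matrix (Fin (k + 1)) (Fin (k + 1)) ℂ)
    (s : Fin k → ℂ) (hs : ∀ j, s j ≠ 0)
    (hM : ∀ j : Fin k, M *ᵥ (Pi.single j.succ 1) =
      μ j.succ • Pi.single j.succ 1 + s j • Pi.single j.castSucc 1) :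
    (jorU μ M (Pi.single (Fin.last k) 1)).det ≠ 0 := by
  choose c hc hcol using jorU_chain μ M s hs hM
  have h : jorU μ M (Pi.single (Fin.last k) 1) = Matrix.diagonal c := by
    ext r i
    have h1 := congrFun (hcol i) r
    rw [h1]
    by_cases hri : r = i
    · subst hri
      simp
    · simp [Matrix.diagonal_apply_ne _ hri, Pi.single_apply, hri]
  rw [h, Matrix.det_diagonal]
  exact Finset.prod_ne_zero_iff.mpr fun i _ => hc i

/-- If M maps every basis vector but the last to a multiple of itself plus a nonzero multiple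
of the following basis vector, the columns of the lower chain frame with respect to the first
basis vector are nonzero multiples of the basis vectors. -/
theorem jorL_chain {k : ℕ} (μ : Fin (k + 1) → ℂ) (M : Matrix (Fin (k + 1)) (Fin (k + 1)) ℂ)
    (s : Fin k → ℂ) (hs : ∀ j, s j ≠ 0)
    (hM : ∀ j : Fin k, M *ᵥ (Pi.single j.castSucc 1) =
      μ j.castSucc • Pi.single j.castSucc 1 + s j • Pi.single j.succ 1) :
    ∀ i : Fin (k + 1), ∃ c : ℂ, c ≠ 0 ∧
      (fun r => jorL μ M (Pi.single 0 1) r i) = c • Pi.single i 1 := by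
  intro i
  induction i using Fin.induction with
  | zero => exact ⟨1, one_ne_zero, by rw [jorL_col_zero, one_smul]⟩
  | succ j ih =>
    obtain ⟨c, hc, hcol⟩ := ih
    refine ⟨c * s j, mul_ne_zero hc (hs j), ?_⟩
    rw [jorL_col_succ, hcol, Matrix.mulVec_smul, hM j]
    funext r
    simp only [Pi.sub_apply, Pi.add_apply, Pi.smul_apply, smul_eq_mul]
    ring

theorem det_jorL_chain {k : ℕ} (μ : Fin (k + 1) → ℂ) (M : Matrix (Fin (k + 1)) (Fin (k + 1)) ℂ)
    (s : Fin k → ℂ) (hs : ∀ j, s j ≠ 0)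
    (hM : ∀ j : Fin k, M *ᵥ (Pi.single j.castSucc 1) =
      μ j.castSucc • Pi.single j.castSucc 1 + s j • Pi.single j.succ 1) :
    (jorL μ M (Pi.single 0 1)).det ≠ 0 := by
  choose c hc hcol using jorL_chain μ M s hs hM
  have h : jorL μ M (Pi.single 0 1) = Matrix.diagonal c := by
    ext r i
    have h1 := congrFun (hcol i) r
    rw [h1]
    by_cases hri : r = i
    · subst hri
      simp
    · simp [Matrix.diagonal_apply_ne _ hri, Pi.single_apply, hri]
  rw [h, Matrix.det_diagonal]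
  exact Finset.prod_ne_zero_iff.mpr fun i _ => hc i

/-- The columns of a diagonal matrix times the upper bidiagonal matrix. -/
theorem diag_bU_mulVec {k : ℕ} (α' : Fin (k + 1) → ℂ) (j : Fin k) :
    (Matrix.diagonal α' * bU (k + 1)) *ᵥ (Pi.single j.succ 1) =
      α' j.succ • Pi.single j.succ 1 + α' j.castSucc • Pi.single j.castSucc 1 := by
  funext r
  rw [Matrix.mulVec_single_one]
  simp only [Matrix.col_apply, Matrix.diagonal_mul, bU, Matrix.add_apply, Matrix.diagonal_apply,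
    shU, Matrix.of_apply, Pi.add_apply, Pi.smul_apply, Pi.single_apply, smul_eq_mul]
  by_cases h1 : r = j.succ
  · subst h1
    simp [Fin.ext_iff]
  · by_cases h2 : r = j.castSucc
    · subst h2
      simp [Fin.ext_iff]
    · have h3 : ¬ ((r : ℕ) = (j : ℕ)) := by
        intro h
        apply h2
        ext
        simpa using h
      simp [h1, h2, h3]

/-- The columns of a diagonal matrix times a lower bidiagonal matrix. -/
theorem diag_bLow_mulVec {k : ℕ} (q e β : Fin (k + 1) → ℂ) (hq : ∀ i, q i * e i = β i)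
    (j : Fin k) :
    (Matrix.diagonal q * bLow (k + 1) e) *ᵥ (Pi.single j.castSucc 1) =
      β j.castSucc • Pi.single j.castSucc 1 + q j.succ • Pi.single j.succ 1 := by
  funext r
  rw [Matrix.mulVec_single_one]
  simp only [Matrix.col_apply, Matrix.diagonal_mul, bLow, Matrix.add_apply,
    Matrix.diagonal_apply, shL, Matrix.of_apply, Pi.add_apply, Pi.smul_apply, Pi.single_apply,
    smul_eq_mul]
  by_cases h1 : r = j.castSucc
  · subst h1
    simp [Fin.ext_iff, hq]
  · by_cases h2 : r = j.succ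
    · subst h2
      simp [Fin.ext_iff]
    · have h3 : ¬ ((j : ℕ) + 1 = (r : ℕ)) := by
        intro h
        apply h2
        ext
        simpa using h.symm
      simp [h1, h2, h3]

end Chain

section Block

theorem bmat_add {k : ℕ} (a a' : ℂ) (b b' c c' : Fin k → ℂ) (N N' : Matrix (Fin k) (Fin k) ℂ) :
    bmat a b c N + bmat a' b' c' N' = bmat (a + a') (b + b') (c + c') (N + N') := by
  ext i j
  refine Fin.cases ?_ (fun i => ?_) i <;> refine Fin.cases ?_ (fun j => ?_) j <;> simp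

theorem bmat_smul {k : ℕ} (t a : ℂ) (b c : Fin k → ℂ) (N : Matrix (Fin k) (Fin k) ℂ) :
    t • bmat a b c N = bmat (t * a) (t • b) (t • c) (t • N) := by
  ext i j
  refine Fin.cases ?_ (fun i => ?_) i <;> refine Fin.cases ?_ (fun j => ?_) j <;> simp

theorem bmat_one (k : ℕ) : (1 : Matrix (Fin (k + 1)) (Fin (k + 1)) ℂ) = bmat 1 0 0 1 := by
  ext i j
  refine Fin.cases ?_ (fun i => ?_) i <;> refine Fin.cases ?_ (fun j => ?_) j <;>
    simp [Matrix.one_apply, Fin.succ_ne_zero, (Fin.succ_ne_zero _).symm]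

theorem bmat_pow_ut {k : ℕ} (a : ℂ) (b : Fin k → ℂ) (N : Matrix (Fin k) (Fin k) ℂ) (n : ℕ) :
    ∃ row : Fin k → ℂ, (bmat a b 0 N) ^ n = bmat (a ^ n) row 0 (N ^ n) := by
  induction n with
  | zero => exact ⟨0, by rw [pow_zero, pow_zero, pow_zero, bmat_one]⟩
  | succ n ih =>
    obtain ⟨row, hrow⟩ := ih
    refine ⟨a ^ n • b + row ᵥ* N, ?_⟩
    rw [pow_succ, hrow, bmat_mul, pow_succ, pow_succ]
    congr 1 <;> simp

/-- A polynomial in a block upper triangular matrix. -/
theorem aeval_bmat_ut {k : ℕ} (a : ℂ) (b : Fin k → ℂ) (N : Matrix (Fin k) (Fin k) ℂ)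
    (p : ℂ[X]) :
    ∃ row : Fin k → ℂ, aeval (bmat a b 0 N) p = bmat (eval a p) row 0 (aeval N p) := by
  induction p using Polynomial.induction_on' with
  | add p q hp hq =>
    obtain ⟨r1, h1⟩ := hp
    obtain ⟨r2, h2⟩ := hq
    refine ⟨r1 + r2, ?_⟩
    rw [map_add, h1, h2, bmat_add, eval_add, map_add, add_zero]
  | monomial n t =>
    obtain ⟨row, hrow⟩ := bmat_pow_ut a b N n
    refine ⟨t • row, ?_⟩
    rw [aeval_monomial, aeval_monomial, eval_monomial, Algebra.algebraMap_eq_smul_one,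
      Algebra.algebraMap_eq_smul_one, smul_mul_assoc, smul_mul_assoc, one_mul, one_mul, hrow,
      bmat_smul, smul_zero]

theorem diag_eq_bmat {k : ℕ} (α : Fin (k + 1) → ℂ) :
    Matrix.diagonal α = bmat (α 0) 0 0 (Matrix.diagonal fun l => α l.succ) := by
  ext i j
  refine Fin.cases ?_ (fun i => ?_) i <;> refine Fin.cases ?_ (fun j => ?_) j <;>
    simp [Matrix.diagonal_apply, Fin.succ_ne_zero, (Fin.succ_ne_zero _).symm]

theorem jorU_bmat_succ_succ {k : ℕ} (α : Fin (k + 1) → ℂ) (ζ : Fin k → ℂ)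
    (N : Matrix (Fin k) (Fin k) ℂ) (x : ℂ) (v' : Fin k → ℂ) (r i : Fin k) :
    jorU α (bmat (α 0) ζ 0 N) (Fin.cons x v') r.succ i.succ =
      jorU (fun l => α l.succ) N v' r i := by
  obtain ⟨row, hrow⟩ := aeval_bmat_ut (α 0) ζ N (∏ l ∈ Finset.Ioi i.succ, (X - C (α l)))
  simp only [jorU, Matrix.of_apply]
  rw [hrow, bmat_mulVec, Fin.cons_succ, Fin.prod_Ioi_succ]
  simp

theorem jorU_bmat_succ_zero {k : ℕ} (α : Fin (k + 1) → ℂ) (ζ : Fin k → ℂ)
    (N : Matrix (Fin k) (Fin k) ℂ) (hN : N.charpoly = ∏ l : Fin k, (X - C (α l.succ))) (x : ℂ)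
    (v' : Fin k → ℂ) (r : Fin k) :
    jorU α (bmat (α 0) ζ 0 N) (Fin.cons x v') r.succ 0 = 0 := by
  obtain ⟨row, hrow⟩ :=
    aeval_bmat_ut (α 0) ζ N (∏ l ∈ Finset.Ioi (0 : Fin (k + 1)), (X - C (α l)))
  simp only [jorU, Matrix.of_apply]
  rw [hrow, bmat_mulVec, Fin.cons_succ, Fin.prod_Ioi_zero, ← hN, Matrix.aeval_self_charpoly]
  simp

theorem jorU_bmat_zero_zero {k : ℕ} (α : Fin (k + 1) → ℂ) (ζ : Fin k → ℂ)
    (N : Matrix (Fin k) (Fin k) ℂ) (v' : Fin k → ℂ) :
    ∃ φ : ℂ, ∀ x : ℂ, jorU α (bmat (α 0) ζ 0 N) (Fin.cons x v') 0 0 =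
      (∏ l : Fin k, (α 0 - α l.succ)) * x + φ := by
  obtain ⟨row, hrow⟩ :=
    aeval_bmat_ut (α 0) ζ N (∏ l ∈ Finset.Ioi (0 : Fin (k + 1)), (X - C (α l)))
  refine ⟨row ⬝ᵥ v', fun x => ?_⟩
  simp only [jorU, Matrix.of_apply]
  rw [hrow, bmat_mulVec, Fin.cons_zero, Fin.prod_Ioi_zero, eval_prod]
  simp

/-- The determinant of the chain frame of a block upper triangular matrix. -/
theorem det_jorU_bmat {k : ℕ} (α : Fin (k + 1) → ℂ) (ζ : Fin k → ℂ)
    (N : Matrix (Fin k) (Fin k) ℂ) (hN : N.charpoly = ∏ l : Fin k, (X - C (α l.succ))) (x : ℂ)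
    (v' : Fin k → ℂ) :
    (jorU α (bmat (α 0) ζ 0 N) (Fin.cons x v')).det =
      jorU α (bmat (α 0) ζ 0 N) (Fin.cons x v') 0 0 * (jorU (fun l => α l.succ) N v').det := by
  have h1 : (fun i : Fin k => jorU α (bmat (α 0) ζ 0 N) (Fin.cons x v') i.succ 0) = 0 := by
    funext r
    exact jorU_bmat_succ_zero α ζ N hN x v' r
  have h2 : (jorU α (bmat (α 0) ζ 0 N) (Fin.cons x v')).submatrix Fin.succ Fin.succ =
      jorU (fun l => α l.succ) N v' := by
    ext r i
    exact jorU_bmat_succ_succ α ζ N x v' r i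
  conv_lhs => rw [eq_bmat (jorU α (bmat (α 0) ζ 0 N) (Fin.cons x v'))]
  rw [h1, h2, det_bmat_col_zero]

end Block

section Limit

/-- The chain frame of the limit matrix on the upper side is invertible for a suitable base
vector. -/
theorem exists_jorU_limit {k : ℕ} (α : Fin (k + 2) → ℂ) (ξ : Fin (k + 1) → ℂ) (hξ : ξ 0 ≠ 0)
    (hα0 : ∀ i, α i ≠ 0) (h01 : α 0 = α 1 ∨ ∀ i : Fin (k + 1), α i.succ ≠ α 0) :
    ∃ x : ℂ, (jorU α (Matrix.diagonal α * bmat 1 ξ 0 (bU (k + 1)))
      (Fin.cons x (Pi.single (Fin.last k) 1))).det ≠ 0 := by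
  obtain ⟨N, hNdef⟩ :
      ∃ N, N = Matrix.diagonal (fun l : Fin (k + 1) => α l.succ) * bU (k + 1) := ⟨_, rfl⟩
  have hA : Matrix.diagonal α * bmat 1 ξ 0 (bU (k + 1)) = bmat (α 0) (α 0 • ξ) 0 N := by
    rw [diag_eq_bmat, bmat_mul, hNdef]
    congr 1 <;> simp
  have hdu : ∀ i j : Fin (k + 1), j < i →
      Matrix.diagonal (fun l : Fin (k + 1) => α l.succ) i j = 0 :=
    fun i j hij => Matrix.diagonal_apply_ne _ hij.ne'
  have hNu : ∀ i j, j < i → N i j = 0 := by
    rw [hNdef]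
    exact ut_mul hdu (bU_shape (k + 1)).1
  have hNd : ∀ i, N i i = α i.succ := by
    intro i
    rw [hNdef, ut_mul_diag hdu (bU_shape (k + 1)).1, Matrix.diagonal_apply_eq,
      (bU_shape (k + 1)).2, mul_one]
  have hNc : N.charpoly = ∏ l : Fin (k + 1), (X - C (α l.succ)) := by
    rw [charpoly_ut hNu]
    simp only [hNd]
  have hchainM : ∀ j : Fin k, N *ᵥ (Pi.single j.succ 1) =
      α j.succ.succ • Pi.single j.succ 1 + α j.castSucc.succ • Pi.single j.castSucc 1 := by
    intro j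
    rw [hNdef]
    exact diag_bU_mulVec (fun l => α l.succ) j
  have hs : ∀ j : Fin k, α j.castSucc.succ ≠ 0 := fun j => hα0 _
  have hdetN := det_jorU_chain (fun l => α l.succ) N (fun j => α j.castSucc.succ) hs hchainM
  obtain ⟨c, hc, hcol⟩ :=
    jorU_chain (fun l => α l.succ) N (fun j => α j.castSucc.succ) hs hchainM 0
  obtain ⟨φ, hφ⟩ := jorU_bmat_zero_zero α (α 0 • ξ) N (Pi.single (Fin.last k) 1)
  rw [hA]
  have hdet : ∀ x : ℂ,
      (jorU α (bmat (α 0) (α 0 • ξ) 0 N) (Fin.cons x (Pi.single (Fin.last k) 1))).det =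
        ((∏ l : Fin (k + 1), (α 0 - α l.succ)) * x + φ) *
          (jorU (fun l => α l.succ) N (Pi.single (Fin.last k) 1)).det := by
    intro x
    rw [det_jorU_bmat α (α 0 • ξ) N hNc x, hφ x]
  rcases h01 with h | h
  · refine ⟨0, ?_⟩
    rw [hdet 0]
    refine mul_ne_zero ?_ hdetN
    rw [← hφ 0]
    have hcc := congrFun (jorU_col_castSucc α (bmat (α 0) (α 0 • ξ) 0 N)
      (Fin.cons 0 (Pi.single (Fin.last k) 1)) (0 : Fin (k + 1))) 0
    have hu : (fun r => jorU α (bmat (α 0) (α 0 • ξ) 0 N)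
        (Fin.cons 0 (Pi.single (Fin.last k) 1)) r (Fin.succ 0)) =
        Fin.cons (jorU α (bmat (α 0) (α 0 • ξ) 0 N)
          (Fin.cons 0 (Pi.single (Fin.last k) 1)) 0 (Fin.succ 0)) (c • Pi.single 0 1) := by
      funext r
      refine Fin.cases ?_ (fun r => ?_) r
      · simp
      · rw [Fin.cons_succ, jorU_bmat_succ_succ]
        exact congrFun hcol r
    rw [Fin.castSucc_zero] at hcc
    rw [hcc, hu, bmat_mulVec]
    simp only [Pi.sub_apply, Pi.smul_apply, Fin.cons_zero, smul_eq_mul]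
    have h1 : α (Fin.succ 0) = α 0 := by
      rw [Fin.succ_zero_eq_one]
      exact h.symm
    have h2 : (α 0 • ξ) ⬝ᵥ (c • Pi.single 0 1) = c * (α 0 * ξ 0) := by
      simp [dotProduct, Pi.single_apply]
      ring
    rw [h1, h2]
    have key : ∀ t : ℂ, α 0 * t + c * (α 0 * ξ 0) - α 0 * t ≠ 0 := by
      intro t
      have e : α 0 * t + c * (α 0 * ξ 0) - α 0 * t = c * (α 0 * ξ 0) := by ring
      rw [e]
      exact mul_ne_zero hc (mul_ne_zero (hα0 0) hξ)
    exact key _
  · have hp : (∏ l : Fin (k + 1), (α 0 - α l.succ)) ≠ 0 :=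
      Finset.prod_ne_zero_iff.mpr fun l _ => sub_ne_zero.mpr (h l).symm
    by_cases hφ0 : φ = 0
    · refine ⟨1, ?_⟩
      rw [hdet 1, hφ0, mul_one, add_zero]
      exact mul_ne_zero hp hdetN
    · refine ⟨0, ?_⟩
      rw [hdet 0, mul_zero, zero_add]
      exact mul_ne_zero hφ0 hdetN

/-- The chain frame of the limit matrix on the lower side is invertible. -/
theorem det_jorL_limit {k : ℕ} (β q e : Fin (k + 1) → ℂ) (hq : ∀ i, q i * e i = β i)
    (hq0 : ∀ i, q i ≠ 0) :
    (jorL β (Matrix.diagonal q * bLow (k + 1) e) (Pi.single 0 1)).det ≠ 0 :=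
  det_jorL_chain β _ (fun j => q j.succ) (fun j => hq0 _)
    (fun j => diag_bLow_mulVec q e β hq j)

end Limit

section Scale

variable {n : ℕ}

/-- Scaling of the entries above the diagonal. -/
def scU (σ : ℂ) (U : Matrix (Fin n) (Fin n) ℂ) : Matrix (Fin n) (Fin n) ℂ :=
  Matrix.of fun i j => U i j * σ ^ ((j : ℕ) - (i : ℕ))

/-- Scaling of the entries below the diagonal. -/
def scL (τ : ℂ) (L : Matrix (Fin n) (Fin n) ℂ) : Matrix (Fin n) (Fin n) ℂ :=
  Matrix.of fun i j => L i j * τ ^ ((i : ℕ) - (j : ℕ))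

theorem scU_zero {U : Matrix (Fin n) (Fin n) ℂ} (hU : ∀ i j, j < i → U i j = 0) :
    scU 0 U = Matrix.diagonal fun i => U i i := by
  ext i j
  simp only [scU, Matrix.of_apply]
  rcases lt_trichotomy i j with h | h | h
  · have h1 : (j : ℕ) - (i : ℕ) ≠ 0 := by
      have := Fin.lt_def.mp h
      omega
    rw [zero_pow h1, mul_zero, Matrix.diagonal_apply_ne _ h.ne]
  · subst h
    simp
  · rw [hU i j h, zero_mul, Matrix.diagonal_apply_ne _ h.ne']

theorem scL_zero {L : Matrix (Fin n) (Fin n) ℂ} (hL : ∀ i j, i < j → L i j = 0) :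
    scL 0 L = Matrix.diagonal fun i => L i i := by
  ext i j
  simp only [scL, Matrix.of_apply]
  rcases lt_trichotomy i j with h | h | h
  · rw [hL i j h, zero_mul, Matrix.diagonal_apply_ne _ h.ne]
  · subst h
    simp
  · have h1 : (i : ℕ) - (j : ℕ) ≠ 0 := by
      have := Fin.lt_def.mp h
      omega
    rw [zero_pow h1, mul_zero, Matrix.diagonal_apply_ne _ h.ne']

theorem scU_conj (τ : ℂ) (hτ : τ ≠ 0) {U : Matrix (Fin n) (Fin n) ℂ}
    (hU : ∀ i j, j < i → U i j = 0) :
    Matrix.diagonal (fun i : Fin n => τ ^ (i : ℕ)) * U *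
      Matrix.diagonal (fun i : Fin n => (τ ^ (i : ℕ))⁻¹) = scU τ⁻¹ U := by
  ext i j
  rw [Matrix.mul_diagonal, Matrix.diagonal_mul]
  simp only [scU, Matrix.of_apply]
  rcases lt_or_ge j i with h | h
  · rw [hU i j h]
    ring
  · have hij : (i : ℕ) ≤ (j : ℕ) := h
    obtain ⟨d, hd⟩ := Nat.exists_eq_add_of_le hij
    have h1 := pow_ne_zero (i : ℕ) hτ
    have h2 := pow_ne_zero d hτ
    rw [hd, Nat.add_sub_cancel_left, pow_add, inv_pow]
    field_simp

theorem scL_conj (τ : ℂ) (hτ : τ ≠ 0) {L : Matrix (Fin n) (Fin n) ℂ}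
    (hL : ∀ i j, i < j → L i j = 0) :
    Matrix.diagonal (fun i : Fin n => τ ^ (i : ℕ)) * L *
      Matrix.diagonal (fun i : Fin n => (τ ^ (i : ℕ))⁻¹) = scL τ L := by
  ext i j
  rw [Matrix.mul_diagonal, Matrix.diagonal_mul]
  simp only [scL, Matrix.of_apply]
  rcases lt_or_ge i j with h | h
  · rw [hL i j h]
    ring
  · have hij : (j : ℕ) ≤ (i : ℕ) := h
    obtain ⟨d, hd⟩ := Nat.exists_eq_add_of_le hij
    have h1 := pow_ne_zero (j : ℕ) hτ
    have h2 := pow_ne_zero d hτ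
    rw [hd, Nat.add_sub_cancel_left, pow_add]
    field_simp

/-- The determinant of the upper chain frame is a polynomial in the scaling parameter. -/
theorem exists_poly_jorU (α : Fin n → ℂ) (U Wh : Matrix (Fin n) (Fin n) ℂ) (v : Fin n → ℂ) :
    ∃ G : ℂ[X], ∀ σ : ℂ, eval σ G = (jorU α (scU σ U * Wh) v).det := by
  refine ⟨(jorU (fun i => C (α i))
    ((Matrix.of fun i j => C (U i j) * X ^ ((j : ℕ) - (i : ℕ))) * Wh.map C)
    (fun i => C (v i))).det, fun σ => ?_⟩
  rw [← Polynomial.coe_evalRingHom, map_det' (Polynomial.evalRingHom σ), jorU_map,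
    Matrix.map_mul]
  have h1 : (Matrix.of fun i j => C (U i j) * X ^ ((j : ℕ) - (i : ℕ))).map
      (Polynomial.evalRingHom σ) = scU σ U := by
    ext i j
    simp [scU]
  have h2 : (Wh.map C).map (Polynomial.evalRingHom σ) = Wh := by
    ext i j
    simp
  rw [h1, h2]
  simp

/-- The determinant of the lower chain frame is a polynomial in the scaling parameter. -/
theorem exists_poly_jorL (β : Fin n → ℂ) (L Eh : Matrix (Fin n) (Fin n) ℂ) (w : Fin n → ℂ) :
    ∃ H : ℂ[X], ∀ τ : ℂ, eval τ H = (jorL β (scL τ L * Eh) w).det := by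
  refine ⟨(jorL (fun i => C (β i))
    ((Matrix.of fun i j => C (L i j) * X ^ ((i : ℕ) - (j : ℕ))) * Eh.map C)
    (fun i => C (w i))).det, fun τ => ?_⟩
  rw [← Polynomial.coe_evalRingHom, map_det' (Polynomial.evalRingHom τ), jorL_map,
    Matrix.map_mul]
  have h1 : (Matrix.of fun i j => C (L i j) * X ^ ((i : ℕ) - (j : ℕ))).map
      (Polynomial.evalRingHom τ) = scL τ L := by
    ext i j
    simp [scL]
  have h2 : (Eh.map C).map (Polynomial.evalRingHom τ) = Eh := by
    ext i j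
    simp
  rw [h1, h2]
  simp

/-- A parameter at which two polynomials with nonzero constant terms do not vanish. -/
theorem exists_good_tau (G H : ℂ[X]) (hG : eval 0 G ≠ 0) (hH : eval 0 H ≠ 0) :
    ∃ τ : ℂ, τ ≠ 0 ∧ eval τ⁻¹ G ≠ 0 ∧ eval τ H ≠ 0 := by
  have hG0 : G ≠ 0 := by
    rintro rfl
    simp at hG
  have hH0 : H ≠ 0 := by
    rintro rfl
    simp at hH
  obtain ⟨τ, hτ⟩ := Infinite.exists_notMem_finset
    ({0} ∪ H.roots.toFinset ∪ G.roots.toFinset.image fun z => z⁻¹)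
  simp only [Finset.mem_union, Finset.mem_singleton, Multiset.mem_toFinset, Finset.mem_image,
    not_or, not_exists, not_and] at hτ
  obtain ⟨⟨h1, h2⟩, h3⟩ := hτ
  refine ⟨τ, h1, ?_, ?_⟩
  · intro h
    exact h3 τ⁻¹ ((Polynomial.mem_roots hG0).mpr h) (inv_inv τ)
  · intro h
    exact h2 ((Polynomial.mem_roots hH0).mpr h)

end Scale

end Vale.Agent.Lib.P002
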