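import Vale.Agent.Lib.P002.SrExist

/-!
Tuples (A, Z_0, ..., Z_m, B) of matrices of size at least two with prescribed characteristic
polynomials of the members and of the product, with at least one matrix Z_l and with no
condition on the eigenvalues: the integral points are Zariski dense in a nonempty Zariski open
subset all of whose points consist of matrices with cyclic vectors.
-/

namespace Vale.Agent.Lib.P002

open Matrix

/-- A reordering of a family after which the first member is either equal to the second or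
different from all the others. -/
theorem exists_perm_first {n : ℕ} (α : Fin (n + 2) → ℂ) :
    ∃ π : Equiv.Perm (Fin (n + 2)),
      α (π 0) = α (π 1) ∨ ∀ i : Fin (n + 1), α (π i.succ) ≠ α (π 0) := by
  by_cases h : ∃ i : Fin (n + 1), α i.succ = α 0
  · obtain ⟨i, hi⟩ := h
    refine ⟨Equiv.swap 1 i.succ, Or.inl ?_⟩
    rw [Equiv.swap_apply_left,
      Equiv.swap_apply_of_ne_of_ne (by simp) (Fin.succ_ne_zero i).symm]
    exact hi.symm
  · refine ⟨1, Or.inr fun i hi => h ⟨i, ?_⟩⟩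
    simpa using hi

/-- The density theorem for a family α whose first member is equal to the second or different
from all the others. -/
theorem spheres_regular_aux (n m : ℕ) (α β δ : Fin (n + 2) → ℂ)
    (γ : Fin (m + 1) → Fin (n + 2) → ℂ)
    (hα : ∀ i, IsIntegral ℤ (α i)) (hβ : ∀ i, IsIntegral ℤ (β i)) (hδ : ∀ i, IsIntegral ℤ (δ i))
    (hγ : ∀ l i, IsIntegral ℤ (γ l i))
    (hα1 : ∏ i, α i = 1) (hβ1 : ∏ i, β i = 1) (hδ1 : ∏ i, δ i = 1)
    (hγ1 : ∀ l, ∏ i, γ l i = 1)
    (h01 : α 0 = α 1 ∨ ∀ i : Fin (n + 1), α i.succ ≠ α 0) :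
    ∃ L : IntermediateField ℚ ℂ, FiniteDimensional ℚ L ∧
      ∃ F : MvPolynomial ((Fin 2 ⊕ Fin (m + 1)) × Fin (n + 2) × Fin (n + 2)) ℂ,
        (∃ (A B : Matrix (Fin (n + 2)) (Fin (n + 2)) ℂ)
          (Z : Fin (m + 1) → Matrix (Fin (n + 2)) (Fin (n + 2)) ℂ),
          A.charpoly = ∏ i, (Polynomial.X - Polynomial.C (α i)) ∧
          B.charpoly = ∏ i, (Polynomial.X - Polynomial.C (β i)) ∧
          (∀ l, (Z l).charpoly = ∏ i, (Polynomial.X - Polynomial.C (γ l i))) ∧
          (A * (List.ofFn Z).prod * B).charpoly = ∏ i, (Polynomial.X - Polynomial.C (δ i)) ∧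
          MvPolynomial.eval (fun x => Sum.elim ![A, B] Z x.1 x.2.1 x.2.2) F ≠ 0) ∧
        (∀ (A B : Matrix (Fin (n + 2)) (Fin (n + 2)) ℂ)
          (Z : Fin (m + 1) → Matrix (Fin (n + 2)) (Fin (n + 2)) ℂ),
          A.charpoly = ∏ i, (Polynomial.X - Polynomial.C (α i)) →
          B.charpoly = ∏ i, (Polynomial.X - Polynomial.C (β i)) →
          (∀ l, (Z l).charpoly = ∏ i, (Polynomial.X - Polynomial.C (γ l i))) →
          (A * (List.ofFn Z).prod * B).charpoly = ∏ i, (Polynomial.X - Polynomial.C (δ i)) →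
          MvPolynomial.eval (fun x => Sum.elim ![A, B] Z x.1 x.2.1 x.2.2) F ≠ 0 →
          (∃ v : Fin (n + 2) → ℂ, ∀ u : Fin (n + 2) → ℂ, ∃ p : Polynomial ℂ,
            Matrix.mulVec (Polynomial.aeval A p) v = u) ∧
          (∃ v : Fin (n + 2) → ℂ, ∀ u : Fin (n + 2) → ℂ, ∃ p : Polynomial ℂ,
            Matrix.mulVec (Polynomial.aeval B p) v = u) ∧
          (∀ l, ∃ v : Fin (n + 2) → ℂ, ∀ u : Fin (n + 2) → ℂ, ∃ p : Polynomial ℂ,
            Matrix.mulVec (Polynomial.aeval (Z l) p) v = u) ∧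
          ∃ v : Fin (n + 2) → ℂ, ∀ u : Fin (n + 2) → ℂ, ∃ p : Polynomial ℂ,
            Matrix.mulVec (Polynomial.aeval (A * (List.ofFn Z).prod * B) p) v = u) ∧
        ∀ P : MvPolynomial ((Fin 2 ⊕ Fin (m + 1)) × Fin (n + 2) × Fin (n + 2)) ℂ,
          (∀ (A B : Matrix (Fin (n + 2)) (Fin (n + 2)) ℂ)
            (Z : Fin (m + 1) → Matrix (Fin (n + 2)) (Fin (n + 2)) ℂ),
            (∀ i j, A i j ∈ L ∧ IsIntegral ℤ (A i j)) →
            (∀ i j, B i j ∈ L ∧ IsIntegral ℤ (B i j)) →
            (∀ l i j, Z l i j ∈ L ∧ IsIntegral ℤ (Z l i j)) →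
            A.charpoly = ∏ i, (Polynomial.X - Polynomial.C (α i)) →
            B.charpoly = ∏ i, (Polynomial.X - Polynomial.C (β i)) →
            (∀ l, (Z l).charpoly = ∏ i, (Polynomial.X - Polynomial.C (γ l i))) →
            (A * (List.ofFn Z).prod * B).charpoly = ∏ i, (Polynomial.X - Polynomial.C (δ i)) →
            MvPolynomial.eval (fun x => Sum.elim ![A, B] Z x.1 x.2.1 x.2.2) P = 0) →
          ∀ (A B : Matrix (Fin (n + 2)) (Fin (n + 2)) ℂ)
            (Z : Fin (m + 1) → Matrix (Fin (n + 2)) (Fin (n + 2)) ℂ),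
            A.charpoly = ∏ i, (Polynomial.X - Polynomial.C (α i)) →
            B.charpoly = ∏ i, (Polynomial.X - Polynomial.C (β i)) →
            (∀ l, (Z l).charpoly = ∏ i, (Polynomial.X - Polynomial.C (γ l i))) →
            (A * (List.ofFn Z).prod * B).charpoly = ∏ i, (Polynomial.X - Polynomial.C (δ i)) →
            MvPolynomial.eval (fun x => Sum.elim ![A, B] Z x.1 x.2.1 x.2.2) F ≠ 0 →
            MvPolynomial.eval (fun x => Sum.elim ![A, B] Z x.1 x.2.1 x.2.2) P = 0 := by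
  obtain ⟨-, L, hfin, hdens⟩ :=
    spheres_all (n + 1) (m + 1) α β δ γ hα hβ hδ hγ hα1 hβ1 hδ1 hγ1
  obtain ⟨A0, B0, Z0, v, w, hch, hdA, hdB⟩ :=
    exists_regular_chart n m α β δ γ hα1 hβ1 hδ1 hγ1 h01
  refine ⟨L, hfin, polyJ (n + 1) (m + 1) α β v w, ?_, ?_, ?_⟩
  · have hch' := hch
    obtain ⟨c1, c2, c3, c4, c5, c6, -, -, -⟩ := hch'
    have hau : ∀ i j, j < i → jorU α A0 v i j = 0 := fun i j hij => jorU_ut α c1 c2 v j i hij
    have hbl : ∀ i j, i < j → jorL β B0 w i j = 0 := fun i j hij => jorL_lt β c3 c4 w j i hij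
    have had : ∀ i, jorU α A0 v i i ≠ 0 := by
      rw [det_ut hau] at hdA
      exact fun i => Finset.prod_ne_zero_iff.mp hdA i (Finset.mem_univ i)
    have hbd : ∀ i, jorL β B0 w i i ≠ 0 := by
      rw [det_lt hbl] at hdB
      exact fun i => Finset.prod_ne_zero_iff.mp hdB i (Finset.mem_univ i)
    have hne := genG_chart_ne_zero (n + 1) (m + 1) α β δ γ hβ1 hγ1 A0 B0 Z0 hch _ _ hau had
      hbl hbd
    refine ⟨A0, B0, Z0, ?_, ?_, c5, c6, ?_⟩
    · rw [charpoly_ut c1]
      simp only [c2]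
    · rw [charpoly_lt c3]
      simp only [c4]
    · rw [eval_polyJ]
      exact hne
  · intro A B Z hA hB hZ hN hF
    rw [eval_polyJ] at hF
    unfold genJ genG at hF
    have g5 := right_ne_zero_of_mul hF
    have hF4 := left_ne_zero_of_mul hF
    have g4 := right_ne_zero_of_mul hF4
    have hF3 := left_ne_zero_of_mul hF4
    have hF2 := left_ne_zero_of_mul hF3
    have g2 := right_ne_zero_of_mul hF2
    have g1 := left_ne_zero_of_mul hF2
    have hb : (jorL β B w).det ≠ 0 := by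
      have h := trailDet_ne_zero_det (n + 1 + 1) _ g2
      rw [Matrix.det_mul] at h
      exact right_ne_zero_of_mul h
    exact ⟨⟨v, cyc_of_det_jorU α A v g1⟩, ⟨w, cyc_of_det_jorL β B w hb⟩,
      fun l => ⟨_, cyc_of_isUnit_det_kry (isUnit_iff_ne_zero.mpr
        (Finset.prod_ne_zero_iff.mp g4 l (Finset.mem_univ l)))⟩,
      ⟨_, cyc_of_isUnit_det_kry (isUnit_iff_ne_zero.mpr g5)⟩⟩
  · intro P hP A B Z hA hB hZ hN hF
    rw [eval_polyJ] at hF
    unfold genJ genG at hF
    have g5 := right_ne_zero_of_mul hF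
    have hF4 := left_ne_zero_of_mul hF
    have g4 := right_ne_zero_of_mul hF4
    have hF3 := left_ne_zero_of_mul hF4
    have g3 := right_ne_zero_of_mul hF3
    have hF2 := left_ne_zero_of_mul hF3
    have g2 := right_ne_zero_of_mul hF2
    have g1 := left_ne_zero_of_mul hF2
    obtain ⟨g, g', A', B', Z', hgg, hch', eA, eB, eZ⟩ :=
      chart_of_regular (n + 1) (m + 1) α β δ γ A B Z v w (jorU α A v) (jorL β B w) rfl rfl
        hA hB hZ hN g1 g2
        (fun l => Finset.prod_ne_zero_iff.mp g3 l (Finset.mem_univ l))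
        (fun l => Finset.prod_ne_zero_iff.mp g4 l (Finset.mem_univ l)) g5
    obtain ⟨c1, c2, c3, c4, c5, c6, c7, c8, c9⟩ := hch'
    have key := hdens P hP g g' A' B' Z' hgg c1 c2 c3 c4 c5 c6 c7
      (fun l => by rw [single_eq_cons]; exact c8 l) (by rw [single_eq_cons]; exact c9)
    have eZ' : (fun l => g * Z' l * g') = Z := by
      funext l
      exact (eZ l).symm
    rw [← eA, ← eB, eZ'] at key
    exact key

/-- Let α, β, δ and γ_l (l ≤ m) be families of n + 2 algebraic integers, all of product one,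
with no further condition.  Let V be the set of tuples (A, B, Z_0, ..., Z_m) of complex
matrices of size n + 2 such that A, B, Z_l and A Z_0 ... Z_m B have characteristic polynomials
with roots α, β, γ_l and δ.  There are a number field L inside the complex numbers and a
polynomial F in the entries of the tuple such that F does not vanish identically on V, every
matrix A, B, Z_l and A Z_0 ... Z_m B of a point of V at which F does not vanish has a cyclic
vector, and every polynomial P which vanishes at all points of V with entries in the ring of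
integers of L vanishes at every point of V at which F does not vanish. -/
theorem spheres_regular (n m : ℕ) (α β δ : Fin (n + 2) → ℂ)
    (γ : Fin (m + 1) → Fin (n + 2) → ℂ)
    (hα : ∀ i, IsIntegral ℤ (α i)) (hβ : ∀ i, IsIntegral ℤ (β i)) (hδ : ∀ i, IsIntegral ℤ (δ i))
    (hγ : ∀ l i, IsIntegral ℤ (γ l i))
    (hα1 : ∏ i, α i = 1) (hβ1 : ∏ i, β i = 1) (hδ1 : ∏ i, δ i = 1)
    (hγ1 : ∀ l, ∏ i, γ l i = 1) :
    ∃ L : IntermediateField ℚ ℂ, FiniteDimensional ℚ L ∧
      ∃ F : MvPolynomial ((Fin 2 ⊕ Fin (m + 1)) × Fin (n + 2) × Fin (n + 2)) ℂ,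
        (∃ (A B : Matrix (Fin (n + 2)) (Fin (n + 2)) ℂ)
          (Z : Fin (m + 1) → Matrix (Fin (n + 2)) (Fin (n + 2)) ℂ),
          A.charpoly = ∏ i, (Polynomial.X - Polynomial.C (α i)) ∧
          B.charpoly = ∏ i, (Polynomial.X - Polynomial.C (β i)) ∧
          (∀ l, (Z l).charpoly = ∏ i, (Polynomial.X - Polynomial.C (γ l i))) ∧
          (A * (List.ofFn Z).prod * B).charpoly = ∏ i, (Polynomial.X - Polynomial.C (δ i)) ∧
          MvPolynomial.eval (fun x => Sum.elim ![A, B] Z x.1 x.2.1 x.2.2) F ≠ 0) ∧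
        (∀ (A B : Matrix (Fin (n + 2)) (Fin (n + 2)) ℂ)
          (Z : Fin (m + 1) → Matrix (Fin (n + 2)) (Fin (n + 2)) ℂ),
          A.charpoly = ∏ i, (Polynomial.X - Polynomial.C (α i)) →
          B.charpoly = ∏ i, (Polynomial.X - Polynomial.C (β i)) →
          (∀ l, (Z l).charpoly = ∏ i, (Polynomial.X - Polynomial.C (γ l i))) →
          (A * (List.ofFn Z).prod * B).charpoly = ∏ i, (Polynomial.X - Polynomial.C (δ i)) →
          MvPolynomial.eval (fun x => Sum.elim ![A, B] Z x.1 x.2.1 x.2.2) F ≠ 0 →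
          (∃ v : Fin (n + 2) → ℂ, ∀ u : Fin (n + 2) → ℂ, ∃ p : Polynomial ℂ,
            Matrix.mulVec (Polynomial.aeval A p) v = u) ∧
          (∃ v : Fin (n + 2) → ℂ, ∀ u : Fin (n + 2) → ℂ, ∃ p : Polynomial ℂ,
            Matrix.mulVec (Polynomial.aeval B p) v = u) ∧
          (∀ l, ∃ v : Fin (n + 2) → ℂ, ∀ u : Fin (n + 2) → ℂ, ∃ p : Polynomial ℂ,
            Matrix.mulVec (Polynomial.aeval (Z l) p) v = u) ∧
          ∃ v : Fin (n + 2) → ℂ, ∀ u : Fin (n + 2) → ℂ, ∃ p : Polynomial ℂ,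
            Matrix.mulVec (Polynomial.aeval (A * (List.ofFn Z).prod * B) p) v = u) ∧
        ∀ P : MvPolynomial ((Fin 2 ⊕ Fin (m + 1)) × Fin (n + 2) × Fin (n + 2)) ℂ,
          (∀ (A B : Matrix (Fin (n + 2)) (Fin (n + 2)) ℂ)
            (Z : Fin (m + 1) → Matrix (Fin (n + 2)) (Fin (n + 2)) ℂ),
            (∀ i j, A i j ∈ L ∧ IsIntegral ℤ (A i j)) →
            (∀ i j, B i j ∈ L ∧ IsIntegral ℤ (B i j)) →
            (∀ l i j, Z l i j ∈ L ∧ IsIntegral ℤ (Z l i j)) →
            A.charpoly = ∏ i, (Polynomial.X - Polynomial.C (α i)) →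
            B.charpoly = ∏ i, (Polynomial.X - Polynomial.C (β i)) →
            (∀ l, (Z l).charpoly = ∏ i, (Polynomial.X - Polynomial.C (γ l i))) →
            (A * (List.ofFn Z).prod * B).charpoly = ∏ i, (Polynomial.X - Polynomial.C (δ i)) →
            MvPolynomial.eval (fun x => Sum.elim ![A, B] Z x.1 x.2.1 x.2.2) P = 0) →
          ∀ (A B : Matrix (Fin (n + 2)) (Fin (n + 2)) ℂ)
            (Z : Fin (m + 1) → Matrix (Fin (n + 2)) (Fin (n + 2)) ℂ),
            A.charpoly = ∏ i, (Polynomial.X - Polynomial.C (α i)) →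
            B.charpoly = ∏ i, (Polynomial.X - Polynomial.C (β i)) →
            (∀ l, (Z l).charpoly = ∏ i, (Polynomial.X - Polynomial.C (γ l i))) →
            (A * (List.ofFn Z).prod * B).charpoly = ∏ i, (Polynomial.X - Polynomial.C (δ i)) →
            MvPolynomial.eval (fun x => Sum.elim ![A, B] Z x.1 x.2.1 x.2.2) F ≠ 0 →
            MvPolynomial.eval (fun x => Sum.elim ![A, B] Z x.1 x.2.1 x.2.2) P = 0 := by
  obtain ⟨π, hπ⟩ := exists_perm_first α
  have hp : ∏ i, (Polynomial.X - Polynomial.C (α (π i))) =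
      ∏ i, (Polynomial.X - Polynomial.C (α i)) :=
    Equiv.prod_comp π (fun i => Polynomial.X - Polynomial.C (α i))
  have h := spheres_regular_aux n m (fun i => α (π i)) β δ γ (fun i => hα (π i)) hβ hδ hγ
    (by rw [Equiv.prod_comp π α]; exact hα1) hβ1 hδ1 hγ1 hπ
  simp only [hp] at h
  exact h

end Vale.Agent.Lib.P002
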