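import Vale.Agent.Lib.P002.SrFrame

/-!
The genericity function of a tuple of matrices with respect to two frames, and the genericity
polynomial built from the chain frames: a polynomial expression in the entries whose
nonvanishing makes the tuple a simultaneous conjugate of a chart tuple.
-/

namespace Vale.Agent.Lib.P002

open Matrix

section GenG

variable {S : Type*} [CommRing S]

/-- The genericity function of a tuple (A, B, Z) with respect to two frames a and b. -/
noncomputable def genG (k m : ℕ) (a b A B : Matrix (Fin (k + 1)) (Fin (k + 1)) S)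
    (Z : Fin m → Matrix (Fin (k + 1)) (Fin (k + 1)) S) : S :=
  a.det * trailDet (k + 1) (a.adjugate * b) *
    (∏ l : Fin m, trailDet (k + 1)
      (a.adjugate * (((List.ofFn Z).drop (l : ℕ)).prod * B) * b)) *
    (∏ l : Fin m, (kry (Z l) (fun i => a i 0)).det) *
    (kry (A * (List.ofFn Z).prod * B) (fun i => a i 0)).det

/-- The genericity function of a tuple (A, B, Z) with respect to its chain frames. -/
noncomputable def genJ (k m : ℕ) (α β v w : Fin (k + 1) → S)
    (A B : Matrix (Fin (k + 1)) (Fin (k + 1)) S)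
    (Z : Fin m → Matrix (Fin (k + 1)) (Fin (k + 1)) S) : S :=
  genG k m (jorU α A v) (jorL β B w) A B Z

variable {T : Type*} [CommRing T] (f : S →+* T)

/-- The genericity function commutes with ring homomorphisms. -/
theorem map_genG (k m : ℕ) (a b A B : Matrix (Fin (k + 1)) (Fin (k + 1)) S)
    (Z : Fin m → Matrix (Fin (k + 1)) (Fin (k + 1)) S) :
    f (genG k m a b A B Z) =
      genG k m (a.map f) (b.map f) (A.map f) (B.map f) (fun l => (Z l).map f) := by
  have e3 : (fun i => f (a i 0)) = fun i => (a.map f) i 0 := rfl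
  have t1 : f a.det = (a.map f).det := map_det' f a
  have t2 : f (trailDet (k + 1) (a.adjugate * b)) =
      trailDet (k + 1) ((a.map f).adjugate * b.map f) := by
    rw [map_trailDet, Matrix.map_mul, map_adjugate']
  have t3 : ∀ l : Fin m, f (trailDet (k + 1)
      (a.adjugate * (((List.ofFn Z).drop (l : ℕ)).prod * B) * b)) =
      trailDet (k + 1) ((a.map f).adjugate *
        (((List.ofFn fun j => (Z j).map f).drop (l : ℕ)).prod * B.map f) * b.map f) := by
    intro l
    rw [map_trailDet, Matrix.map_mul, Matrix.map_mul, Matrix.map_mul, map_adjugate',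
      map_drop_prod]
  have t4 : ∀ l : Fin m, f (kry (Z l) (fun i => a i 0)).det =
      (kry ((Z l).map f) (fun i => (a.map f) i 0)).det := by
    intro l
    rw [map_det', kry_map, e3]
  have t5 : f (kry (A * (List.ofFn Z).prod * B) (fun i => a i 0)).det =
      (kry (A.map f * (List.ofFn fun l => (Z l).map f).prod * B.map f)
        (fun i => (a.map f) i 0)).det := by
    rw [map_det', kry_map, e3, Matrix.map_mul, Matrix.map_mul, map_prod_ofFn]
  unfold genG
  rw [map_mul, map_mul, map_mul, map_mul, map_prod, map_prod, t1, t2, t5]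
  simp only [t3, t4]

theorem map_genJ (k m : ℕ) (α β v w : Fin (k + 1) → S)
    (A B : Matrix (Fin (k + 1)) (Fin (k + 1)) S)
    (Z : Fin m → Matrix (Fin (k + 1)) (Fin (k + 1)) S) :
    f (genJ k m α β v w A B Z) =
      genJ k m (fun i => f (α i)) (fun i => f (β i)) (fun i => f (v i)) (fun i => f (w i))
        (A.map f) (B.map f) (fun l => (Z l).map f) := by
  rw [genJ, map_genG, jorU_map, jorL_map, genJ]

end GenG

/-- The genericity polynomial of the chain frames with base vectors v and w. -/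
noncomputable def polyJ (k m : ℕ) (α β v w : Fin (k + 1) → ℂ) :
    MvPolynomial ((Fin 2 ⊕ Fin m) × Fin (k + 1) × Fin (k + 1)) ℂ :=
  genJ k m (fun i => MvPolynomial.C (α i)) (fun i => MvPolynomial.C (β i))
    (fun i => MvPolynomial.C (v i)) (fun i => MvPolynomial.C (w i))
    (uMat k m (Sum.inl 0)) (uMat k m (Sum.inl 1)) (fun l => uMat k m (Sum.inr l))

/-- The value of the genericity polynomial at a tuple is the genericity function. -/
theorem eval_polyJ (k m : ℕ) (α β v w : Fin (k + 1) → ℂ)
    (A B : Matrix (Fin (k + 1)) (Fin (k + 1)) ℂ)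
    (Z : Fin m → Matrix (Fin (k + 1)) (Fin (k + 1)) ℂ) :
    MvPolynomial.eval (fun x => Sum.elim ![A, B] Z x.1 x.2.1 x.2.2) (polyJ k m α β v w) =
      genJ k m α β v w A B Z := by
  rw [polyJ, map_genJ]
  have h3 : (uMat k m (Sum.inl 0)).map (MvPolynomial.eval
      (fun x : (Fin 2 ⊕ Fin m) × Fin (k + 1) × Fin (k + 1) =>
        Sum.elim ![A, B] Z x.1 x.2.1 x.2.2)) = A := by
    ext i j
    simp [uMat]
  have h4 : (uMat k m (Sum.inl 1)).map (MvPolynomial.eval
      (fun x : (Fin 2 ⊕ Fin m) × Fin (k + 1) × Fin (k + 1) =>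
        Sum.elim ![A, B] Z x.1 x.2.1 x.2.2)) = B := by
    ext i j
    simp [uMat]
  have h5 : (fun l => (uMat k m (Sum.inr l)).map (MvPolynomial.eval
      (fun x : (Fin 2 ⊕ Fin m) × Fin (k + 1) × Fin (k + 1) =>
        Sum.elim ![A, B] Z x.1 x.2.1 x.2.2))) = Z := by
    funext l
    ext i j
    simp [uMat]
  rw [h3, h4, h5]
  simp only [MvPolynomial.eval_C]

/-- The genericity function does not vanish at a chart tuple, for every upper triangular frame
and every lower triangular frame with nonzero diagonals. -/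
theorem genG_chart_ne_zero (k m : ℕ) (α β δ : Fin (k + 1) → ℂ) (γ : Fin m → Fin (k + 1) → ℂ)
    (hβ1 : ∏ i, β i = 1) (hγ1 : ∀ l, ∏ i, γ l i = 1)
    (A B : Matrix (Fin (k + 1)) (Fin (k + 1)) ℂ)
    (Z : Fin m → Matrix (Fin (k + 1)) (Fin (k + 1)) ℂ) (h : ChartY k m α β δ γ A B Z)
    (a b : Matrix (Fin (k + 1)) (Fin (k + 1)) ℂ)
    (hau : ∀ i j, j < i → a i j = 0) (had : ∀ i, a i i ≠ 0)
    (hbl : ∀ i j, i < j → b i j = 0) (hbd : ∀ i, b i i ≠ 0) :
    genG k m a b A B Z ≠ 0 := by
  obtain ⟨c1, c2, c3, c4, c5, c6, c7, c8, c9⟩ := h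
  obtain ⟨hadj, hadjd⟩ := ut_adjugate_ne hau had
  have hBdet : B.det ≠ 0 := by
    rw [det_lt c3]
    simp only [c4]
    rw [hβ1]
    exact one_ne_zero
  have hZdet : ∀ l, (Z l).det ≠ 0 := by
    intro l
    rw [det_of_charpoly _ _ (c5 l), hγ1]
    exact one_ne_zero
  have ha0 : (fun i => a i 0) = a 0 0 • (Fin.cons 1 0 : Fin (k + 1) → ℂ) := col_zero_ut hau
  unfold genG
  refine mul_ne_zero (mul_ne_zero (mul_ne_zero (mul_ne_zero ?_ ?_) ?_) ?_) ?_
  · rw [det_ut hau]
    exact Finset.prod_ne_zero_iff.mpr fun i _ => had i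
  · exact trailDet_ut_mul_lt_ne_zero (k + 1) _ _ hadj hadjd hbl hbd
  · refine Finset.prod_ne_zero_iff.mpr fun l _ => ?_
    obtain ⟨V, T, hV, hV1, hT, hVT⟩ := c7 l
    have hdet : (((List.ofFn Z).drop (l : ℕ)).prod * B).det ≠ 0 := by
      rw [Matrix.det_mul]
      refine mul_ne_zero (det_list_prod_ne_zero _ fun M hM => ?_) hBdet
      obtain ⟨j, rfl⟩ := (List.mem_ofFn' Z M).mp (List.mem_of_mem_drop hM)
      exact hZdet j
    have hTd : ∀ i, T i i ≠ 0 := by
      rw [hVT, Matrix.det_mul, det_ut_unit hV hV1, one_mul, det_lt hT] at hdet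
      intro i
      exact Finset.prod_ne_zero_iff.mp hdet i (Finset.mem_univ i)
    have e : a.adjugate * (((List.ofFn Z).drop (l : ℕ)).prod * B) * b =
        a.adjugate * V * (T * b) := by
      rw [hVT]
      simp only [Matrix.mul_assoc]
    rw [e]
    refine trailDet_ut_mul_lt_ne_zero (k + 1) _ _ (ut_mul hadj hV) (fun i => ?_)
      (lt_mul hT hbl) (fun i => ?_)
    · rw [ut_mul_diag hadj hV, hV1, mul_one]
      exact hadjd i
    · rw [lt_mul_diag hT hbl]
      exact mul_ne_zero (hTd i) (hbd i)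
  · refine Finset.prod_ne_zero_iff.mpr fun l _ => ?_
    rw [ha0]
    exact ((c8 l).smul_vec (had 0)).det_kry_ne_zero
  · rw [ha0]
    exact (c9.smul_vec (had 0)).det_kry_ne_zero

end Vale.Agent.Lib.P002
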